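import Vale.Agent.P347.MathlibUsed
import Vale.Agent.P347.Stmt

set_option linter.all false

section
attribute [-instance] ProperSMul.toContinuousSMul IsTopologicalTorsor.toContinuousSMul IdemSemiring.toCanonicallyOrderedAdd IdemSemiring.toMulLeftMono IdemSemiring.toMulRightMono AddQuantale.instAddLeftMono AddQuantale.instAddRightMono Quantale.instMulLeftMono Quantale.instMulRightMono FiniteDimensional.rclike_to_real IsScalarTower.complexToReal FiniteDimensional.complexToReal

/-! Core definitions for P347 (no theorems with content here). -/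

open MeasureTheory Filter Module
open scoped ENNReal NNReal

namespace Vale.Agent.P347

variable {E : Type*} [NormedAddCommGroup E] [InnerProductSpace ℝ E] [FiniteDimensional ℝ E]
  [MeasurableSpace E] [BorelSpace E]

/-- Gibbs probability measure with density proportional to `exp (-U)`. -/
noncomputable def gibbs (U : E → ℝ) : Measure E := (volume : Measure E).tilted (fun x => -U x)

/-- Standard Gaussian measure on `E` (as a Gibbs measure). -/
noncomputable def gam (E : Type*) [NormedAddCommGroup E] [InnerProductSpace ℝ E]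
    [FiniteDimensional ℝ E] [MeasurableSpace E] [BorelSpace E] : Measure E :=
  gibbs (fun x : E => ‖x‖ ^ 2 / 2)

/-- Admissible potentials: continuous with quadratic lower growth. -/
structure Adm (U : E → ℝ) : Prop where
  cont : Continuous U
  low : ∃ a > 0, ∃ b, ∀ x, a * ‖x‖ ^ 2 - b ≤ U x

/-- Polynomially bounded functions. -/
def PG {F : Type*} [NormedAddCommGroup F] (f : E → F) : Prop :=
  ∃ (C : ℝ) (k : ℕ), ∀ x, ‖f x‖ ≤ C * (1 + ‖x‖) ^ k

/-- Convex potential `W` with gradient field `F` which is `2`-Lipschitz. -/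
structure CPot (W : E → ℝ) (F : E → E) : Prop where
  grad : ∀ x, HasFDerivAt W (innerSL ℝ (F x)) x
  mono : ∀ x y, 0 ≤ inner ℝ (F x - F y) (x - y)
  lip : ∀ x y, ‖F x - F y‖ ≤ 2 * ‖x - y‖

/-- The potentials of the problem: gradient `G`, Hessian `H` with `I ≤ H ≤ 2 I`. -/
structure Pot (V : E → ℝ) (G : E → E) (H : E → E →L[ℝ] E) : Prop where
  grad : ∀ x, HasFDerivAt V (innerSL ℝ (G x)) x
  hess : ∀ x, HasFDerivAt G (H x) x
  contH : Continuous H
  symm : ∀ x u v, inner ℝ (H x u) (v) = inner ℝ (u) (H x v)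
  lo : ∀ x v, ‖v‖ ^ 2 ≤ inner ℝ (H x v) (v)
  hi : ∀ x v, inner ℝ (H x v) (v) ≤ 2 * ‖v‖ ^ 2
  zero : V 0 = 0
  gzero : G 0 = 0

/-- The potential of the posterior law `ρ_y` of `X` given `X + √s Z = y`. -/
noncomputable def post (V : E → ℝ) (s : ℝ) (y : E) : E → ℝ :=
  fun x => V x + ‖x - y‖ ^ 2 / (2 * s)

/-- The smoothed potential `W = - log (exp (-V) * Gaussian)` (unnormalised). -/
noncomputable def Wp (V : E → ℝ) (s : ℝ) (y : E) : ℝ :=
  -Real.log (∫ x, Real.exp (-post V s y x))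

/-- The gradient of the smoothed potential: posterior mean of `G`. -/
noncomputable def Fp (V : E → ℝ) (G : E → E) (s : ℝ) (y : E) : E :=
  ∫ x, G x ∂(gibbs (post V s y))

/-- Evaluation point of the gradient estimator. -/
noncomputable def ev (G : E → E) (s : ℝ) (y z : E) : E := y - s • G y + √s • z

/-- Mean of the gradient estimator. -/
noncomputable def Gb (G : E → E) (s : ℝ) (y : E) : E := ∫ z, G (ev G s y z) ∂(gam E)

end Vale.Agent.P347
end

section

/-! Task A (P347): basic calculus of Gibbs measures. -/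

open MeasureTheory Filter Module
open scoped ENNReal NNReal

namespace Vale.Agent.P347

variable {E : Type*} [NormedAddCommGroup E] [InnerProductSpace ℝ E] [FiniteDimensional ℝ E]
  [MeasurableSpace E] [BorelSpace E]
variable {F : Type*} [NormedAddCommGroup F] [NormedSpace ℝ F]

/-! ### Polynomial growth -/

section pg

omit [FiniteDimensional ℝ E] [MeasurableSpace E] [BorelSpace E]

theorem one_le_one_add_norm (x : E) : 1 ≤ 1 + ‖x‖ := by linarith [norm_nonneg x]

omit [NormedSpace ℝ F] in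
theorem PG.nonneg_bound {f : E → F} (hf : PG f) :
    ∃ (C : ℝ) (k : ℕ), 0 ≤ C ∧ ∀ x, ‖f x‖ ≤ C * (1 + ‖x‖) ^ k := by
  obtain ⟨C, k, h⟩ := hf
  refine ⟨|C|, k, abs_nonneg _, fun x => (h x).trans ?_⟩
  have := one_le_one_add_norm x
  gcongr
  exact le_abs_self C

omit [NormedSpace ℝ F] in
theorem PG.const (c : F) : PG (fun _ : E => c) := ⟨‖c‖, 0, fun x => by simp⟩

theorem PG.id : PG (fun x : E => x) := ⟨1, 1, fun x => by simp⟩

omit [NormedSpace ℝ F] in
theorem PG.add {f g : E → F} (hf : PG f) (hg : PG g) : PG (fun x => f x + g x) := by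
  obtain ⟨C, k, hC, h⟩ := hf.nonneg_bound
  obtain ⟨C', k', hC', h'⟩ := hg.nonneg_bound
  refine ⟨C + C', k + k', fun x => (norm_add_le _ _).trans ?_⟩
  have h1 := one_le_one_add_norm x
  have h2 : (1 + ‖x‖) ^ k ≤ (1 + ‖x‖) ^ (k + k') := pow_le_pow_right₀ h1 (by omega)
  have h3 : (1 + ‖x‖) ^ k' ≤ (1 + ‖x‖) ^ (k + k') := pow_le_pow_right₀ h1 (by omega)
  have h4 := mul_le_mul_of_nonneg_left h2 hC
  have h5 := mul_le_mul_of_nonneg_left h3 hC'
  linarith [h x, h' x]

omit [NormedSpace ℝ F] in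
theorem PG.neg {f : E → F} (hf : PG f) : PG (fun x => -f x) := by
  obtain ⟨C, k, h⟩ := hf
  exact ⟨C, k, fun x => by rw [norm_neg]; exact h x⟩

omit [NormedSpace ℝ F] in
theorem PG.sub {f g : E → F} (hf : PG f) (hg : PG g) : PG (fun x => f x - g x) := by
  simpa only [sub_eq_add_neg] using hf.add hg.neg

theorem PG.smul {f : E → ℝ} {g : E → F} (hf : PG f) (hg : PG g) :
    PG (fun x => f x • g x) := by
  obtain ⟨C, k, hC, h⟩ := hf.nonneg_bound
  obtain ⟨C', k', hC', h'⟩ := hg.nonneg_bound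
  refine ⟨C * C', k + k', fun x => ?_⟩
  have h1 := one_le_one_add_norm x
  rw [norm_smul, pow_add]
  calc ‖f x‖ * ‖g x‖ ≤ (C * (1 + ‖x‖) ^ k) * (C' * (1 + ‖x‖) ^ k') :=
        mul_le_mul (h x) (h' x) (norm_nonneg _) (by positivity)
    _ = _ := by ring

theorem PG.mul {f g : E → ℝ} (hf : PG f) (hg : PG g) : PG (fun x => f x * g x) := hf.smul hg

omit [NormedSpace ℝ F] in
theorem PG.norm {f : E → F} (hf : PG f) : PG (fun x => ‖f x‖) := by
  obtain ⟨C, k, h⟩ := hf
  exact ⟨C, k, fun x => by rw [norm_norm]; exact h x⟩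

omit [NormedSpace ℝ F] in
theorem PG.of_le {F' : Type*} [NormedAddCommGroup F'] {f : E → F} {g : E → F'} (hf : PG f)
    (h : ∀ x, ‖g x‖ ≤ ‖f x‖) : PG g := by
  obtain ⟨C, k, h'⟩ := hf
  exact ⟨C, k, fun x => (h x).trans (h' x)⟩

theorem PG.inner {f g : E → E} (hf : PG f) (hg : PG g) :
    PG (fun x => (inner ℝ (f x) (g x) : ℝ)) := by
  refine (hf.norm.mul hg.norm).of_le fun x => ?_
  rw [norm_mul, norm_norm, norm_norm]
  exact norm_inner_le_norm _ _

theorem PG.pow {f : E → ℝ} (hf : PG f) (k : ℕ) : PG (fun x => f x ^ k) := by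
  induction k with
  | zero => simpa using PG.const (E := E) (1 : ℝ)
  | succ k ih => simpa only [pow_succ] using ih.mul hf

omit [NormedSpace ℝ F] in
/-- Lipschitz maps have polynomial growth. -/
theorem PG.of_lip {f : E → F} {L : ℝ} (h : ∀ x y, ‖f x - f y‖ ≤ L * ‖x - y‖) : PG f := by
  refine ⟨‖f 0‖ + |L|, 1, fun x => ?_⟩
  have h1 := h x 0
  rw [sub_zero] at h1
  have h2 : ‖f x‖ ≤ ‖f x - f 0‖ + ‖f 0‖ := by
    have := norm_add_le (f x - f 0) (f 0)
    rwa [sub_add_cancel] at this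
  have h3 : L * ‖x‖ ≤ |L| * ‖x‖ := mul_le_mul_of_nonneg_right (le_abs_self L) (norm_nonneg _)
  have h4 := mul_nonneg (norm_nonneg (f 0)) (norm_nonneg x)
  have h5 := abs_nonneg L
  rw [pow_one]
  linarith

end pg

/-! ### Integrability -/

theorem integrable_exp_neg_sq {b : ℝ} (hb : 0 < b) :
    Integrable (fun v : E => Real.exp (-(b * ‖v‖ ^ 2))) := by
  have h := GaussianFourier.integrable_cexp_neg_mul_sq_norm_add (V := E) (b := (b : ℂ))
    (by simpa using hb) 0 0
  have h2 := h.norm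
  refine h2.congr (Eventually.of_forall fun v => ?_)
  simp only [Complex.norm_exp]
  congr 1
  simp [← Complex.ofReal_pow]

/-- The elementary bound `(1+r)^k exp(-a r^2) ≤ C exp(-(a/2) r^2)`. -/
theorem pow_mul_exp_le {a : ℝ} (ha : 0 < a) (k : ℕ) {r : ℝ} (hr : 0 ≤ r) :
    (1 + r) ^ k * Real.exp (-(a * r ^ 2)) ≤
      (k.factorial * Real.exp (1 + 1 / (2 * a))) * Real.exp (-(a / 2 * r ^ 2)) := by
  have h1 : (1 + r) ^ k ≤ k.factorial * Real.exp (1 + r) := by
    have h2 := Real.pow_div_factorial_le_exp (1 + r) (by linarith) k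
    rw [div_le_iff₀ (by positivity)] at h2
    linarith
  have h3 : r ≤ a / 2 * r ^ 2 + 1 / (2 * a) := by
    have h4 : 0 ≤ (a * r - 1) ^ 2 / (2 * a) := by positivity
    have h5 : (a * r - 1) ^ 2 / (2 * a) = a / 2 * r ^ 2 - r + 1 / (2 * a) := by
      field_simp
      ring
    linarith
  calc (1 + r) ^ k * Real.exp (-(a * r ^ 2))
      ≤ (k.factorial * Real.exp (1 + r)) * Real.exp (-(a * r ^ 2)) :=
        mul_le_mul_of_nonneg_right h1 (Real.exp_pos _).le
    _ = k.factorial * Real.exp (1 + r + -(a * r ^ 2)) := by rw [mul_assoc, ← Real.exp_add]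
    _ ≤ k.factorial * Real.exp ((1 + 1 / (2 * a)) + -(a / 2 * r ^ 2)) := by
        apply mul_le_mul_of_nonneg_left _ (by positivity)
        apply Real.exp_le_exp.2
        linarith
    _ = _ := by rw [Real.exp_add, mul_assoc]

theorem integrable_pow_mul_exp {a : ℝ} (ha : 0 < a) (C : ℝ) (k : ℕ) (b : ℝ) :
    Integrable (fun x : E => C * (1 + ‖x‖) ^ k * Real.exp (b - a * ‖x‖ ^ 2)) := by
  have h1 : Integrable (fun x : E => (1 + ‖x‖) ^ k * Real.exp (-(a * ‖x‖ ^ 2))) := by
    refine ((integrable_exp_neg_sq (E := E) (half_pos ha)).const_mul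
      (k.factorial * Real.exp (1 + 1 / (2 * a)))).mono' ?_ (Eventually.of_forall fun x => ?_)
    · exact Continuous.aestronglyMeasurable (by fun_prop)
    · rw [Real.norm_eq_abs, abs_of_nonneg (by positivity)]
      exact pow_mul_exp_le ha k (norm_nonneg x)
  refine (h1.const_mul (C * Real.exp b)).congr (Eventually.of_forall fun x => ?_)
  simp only
  rw [sub_eq_add_neg, Real.exp_add]
  ring

theorem Adm.integrable_exp {U : E → ℝ} (hU : Adm U) :
    Integrable (fun x => Real.exp (-U x)) (volume : Measure E) := by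
  obtain ⟨a, ha, b, hab⟩ := hU.low
  have hc := hU.cont
  refine (integrable_pow_mul_exp (E := E) ha 1 0 b).mono'
    (Real.continuous_exp.comp hc.neg).aestronglyMeasurable (Eventually.of_forall fun x => ?_)
  rw [Real.norm_eq_abs, abs_of_pos (Real.exp_pos _), pow_zero, mul_one, one_mul]
  apply Real.exp_le_exp.2
  linarith [hab x]

theorem Adm.integral_exp_pos {U : E → ℝ} (hU : Adm U) :
    0 < ∫ x, Real.exp (-U x) := MeasureTheory.integral_exp_pos hU.integrable_exp

theorem Adm.isProb {U : E → ℝ} (hU : Adm U) : IsProbabilityMeasure (gibbs U) :=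
  isProbabilityMeasure_tilted hU.integrable_exp

theorem Adm.integrable {U : E → ℝ} (hU : Adm U) {f : E → F} (hf : PG f)
    (hm : AEStronglyMeasurable f volume) : Integrable f (gibbs U) := by
  obtain ⟨a, ha, b, hab⟩ := hU.low
  obtain ⟨C, k, hC, hCk⟩ := hf.nonneg_bound
  have hc := hU.cont
  unfold gibbs
  rw [integrable_tilted_iff hU.integrable_exp]
  refine (integrable_pow_mul_exp (E := E) ha C k b).mono'
    ((Real.continuous_exp.comp hc.neg).aestronglyMeasurable.smul hm)
    (Eventually.of_forall fun x => ?_)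
  rw [norm_smul, Real.norm_eq_abs, abs_of_pos (Real.exp_pos _), mul_comm]
  apply mul_le_mul (hCk x) _ (Real.exp_pos _).le (by positivity)
  apply Real.exp_le_exp.2
  linarith [hab x]

/-- Exponential integrability with a small quadratic exponent. -/
theorem Adm.integrable_exp_mul {U : E → ℝ} {a b : ℝ} (ha : 0 < a) (hc : Continuous U)
    (hlow : ∀ x, a * ‖x‖ ^ 2 - b ≤ U x) {f : E → ℝ} (hf : Continuous f) {c C : ℝ} (hca : c < a)
    (hfc : ∀ x, f x ≤ c * ‖x‖ ^ 2 + C) :
    Integrable (fun x => Real.exp (f x)) (gibbs U) := by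
  have hU : Adm U := ⟨hc, a, ha, b, hlow⟩
  unfold gibbs
  rw [integrable_tilted_iff hU.integrable_exp]
  refine (integrable_pow_mul_exp (E := E) (sub_pos.2 hca) 1 0 (b + C)).mono'
    ((Real.continuous_exp.comp hc.neg).smul (Real.continuous_exp.comp hf)).aestronglyMeasurable
    (Eventually.of_forall fun x => ?_)
  rw [smul_eq_mul, ← Real.exp_add, Real.norm_eq_abs, abs_of_pos (Real.exp_pos _), pow_zero,
    mul_one, one_mul]
  apply Real.exp_le_exp.2
  have h1 := hlow x
  have h2 := hfc x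
  nlinarith

theorem gibbs_integral {U : E → ℝ} (f : E → F) :
    ∫ x, f x ∂(gibbs U) = (∫ x, Real.exp (-U x))⁻¹ • ∫ x, Real.exp (-U x) • f x := by
  unfold gibbs
  rw [integral_tilted, ← integral_smul]
  refine integral_congr_ae (Eventually.of_forall fun x => ?_)
  simp only
  rw [smul_smul, div_eq_inv_mul]

/-- Gibbs measures do not see additive constants. -/
theorem gibbs_add_const (U : E → ℝ) (c : ℝ) : gibbs (fun x => U x + c) = gibbs U := by
  unfold gibbs Measure.tilted
  congr 1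
  funext x
  have h1 : ∀ x, Real.exp (-(U x + c)) = Real.exp (-U x) * Real.exp (-c) := fun x => by
    rw [← Real.exp_add]; congr 1; ring
  simp_rw [h1]
  rw [integral_mul_const, mul_div_mul_right _ _ (Real.exp_pos _).ne']

/-- Integration by parts in direction `v`. -/
theorem gibbs_ibp {U : E → ℝ} (hU : Adm U) {g : E → E}
    (hg : ∀ x, HasFDerivAt U (innerSL ℝ (g x)) x) (hgc : Continuous g) (hgp : PG g)
    {f : E → ℝ} {f' : E → E} (hf : ∀ x, HasFDerivAt f (innerSL ℝ (f' x)) x)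
    (hfc : Continuous f') (hfp : PG f) (hfp' : PG f') (v : E) :
    ∫ x, (inner ℝ (f' x) v : ℝ) ∂(gibbs U) = ∫ x, f x * inner ℝ (g x) v ∂(gibbs U) := by
  have hfcont : Continuous f := continuous_iff_continuousAt.2 fun x => (hf x).continuousAt
  have hexp : ∀ x, HasFDerivAt (fun x => Real.exp (-U x))
      (Real.exp (-U x) • -(innerSL ℝ (g x))) x := fun x => ((hg x).neg).exp
  have key := integral_bilinear_hasFDerivAt_right_eq_neg_left_of_integrable
    (μ := (volume : Measure E)) (f := f) (f' := fun x => innerSL ℝ (f' x))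
    (g := fun x => Real.exp (-U x)) (g' := fun x => Real.exp (-U x) • -(innerSL ℝ (g x)))
    (v := v) (B := ContinuousLinearMap.mul ℝ ℝ) ?_ ?_ ?_ (fun x _ => hf x) (fun x _ => hexp x)
  · simp only [ContinuousLinearMap.mul_apply', ContinuousLinearMap.smul_apply,
      ContinuousLinearMap.neg_apply, innerSL_apply_apply, smul_eq_mul] at key
    rw [gibbs_integral, gibbs_integral]
    congr 1
    have h1 : ∫ x, Real.exp (-U x) • (inner ℝ (f' x) v : ℝ) =
        ∫ x, inner ℝ (f' x) v * Real.exp (-U x) :=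
      integral_congr_ae (Eventually.of_forall fun x => by simp only [smul_eq_mul]; ring)
    have h2 : ∫ x, f x * (Real.exp (-U x) * -(inner ℝ (g x) v : ℝ)) =
        -∫ x, Real.exp (-U x) • (f x * inner ℝ (g x) v) := by
      rw [← integral_neg]
      refine integral_congr_ae (Eventually.of_forall fun x => ?_)
      simp only [smul_eq_mul]
      ring
    rw [h2] at key
    rw [h1]
    exact (neg_injective key).symm
  all_goals
    simp only [ContinuousLinearMap.mul_apply', ContinuousLinearMap.smul_apply,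
      ContinuousLinearMap.neg_apply, innerSL_apply_apply, smul_eq_mul]
  · have h1 := hU.integrable (f := fun x => (inner ℝ (f' x) v : ℝ))
      (hfp'.inner (PG.const v)) (hfc.inner continuous_const).aestronglyMeasurable
    unfold gibbs at h1
    rw [integrable_tilted_iff hU.integrable_exp] at h1
    refine h1.congr (Eventually.of_forall fun x => ?_)
    simp only [smul_eq_mul]
    ring
  · have h1 := hU.integrable (f := fun x => -(f x * (inner ℝ (g x) v : ℝ)))
      (hfp.mul (hgp.inner (PG.const v))).neg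
      (hfcont.mul (hgc.inner continuous_const)).neg.aestronglyMeasurable
    unfold gibbs at h1
    rw [integrable_tilted_iff hU.integrable_exp] at h1
    refine h1.congr (Eventually.of_forall fun x => ?_)
    simp only [smul_eq_mul]
    ring
  · have h1 := hU.integrable (f := f) hfp hfcont.aestronglyMeasurable
    unfold gibbs at h1
    rw [integrable_tilted_iff hU.integrable_exp] at h1
    refine h1.congr (Eventually.of_forall fun x => ?_)
    simp only [smul_eq_mul]
    ring

/-- Derivative of an integral against the unnormalised Gibbs density. -/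
theorem gibbs_num_hasDerivAt {U U' : ℝ → E → ℝ} {h h' : ℝ → E → F} {t0 r a b C : ℝ} {k : ℕ}
    (hr : 0 < r) (ha : 0 < a)
    (hU : ∀ t, |t - t0| < r → ∀ x, HasDerivAt (fun t => U t x) (U' t x) t)
    (hh : ∀ t, |t - t0| < r → ∀ x, HasDerivAt (fun t => h t x) (h' t x) t)
    (cU : ∀ t, |t - t0| < r → Continuous (U t)) (cU' : ∀ t, |t - t0| < r → Continuous (U' t))
    (ch : ∀ t, |t - t0| < r → Continuous (h t)) (ch' : ∀ t, |t - t0| < r → Continuous (h' t))
    (low : ∀ t, |t - t0| < r → ∀ x, a * ‖x‖ ^ 2 - b ≤ U t x)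
    (bU' : ∀ t, |t - t0| < r → ∀ x, |U' t x| ≤ C * (1 + ‖x‖) ^ k)
    (bh : ∀ t, |t - t0| < r → ∀ x, ‖h t x‖ ≤ C * (1 + ‖x‖) ^ k)
    (bh' : ∀ t, |t - t0| < r → ∀ x, ‖h' t x‖ ≤ C * (1 + ‖x‖) ^ k) :
    HasDerivAt (fun t => ∫ x, Real.exp (-U t x) • h t x)
      (∫ x, (Real.exp (-U t0 x) • h' t0 x - Real.exp (-U t0 x) • (U' t0 x • h t0 x))) t0 := by
  have hball : ∀ t, t ∈ Metric.ball t0 r ↔ |t - t0| < r := fun t => by
    rw [Metric.mem_ball, Real.dist_eq]
  have ht0 : |t0 - t0| < r := by simpa using hr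
  have hC : 0 ≤ C := by
    have := bU' t0 ht0 0
    rw [norm_zero, add_zero, one_pow, mul_one] at this
    exact (abs_nonneg _).trans this
  have h1 := hasDerivAt_integral_of_dominated_loc_of_deriv_le (μ := (volume : Measure E))
    (F := fun t x => Real.exp (-U t x) • h t x)
    (F' := fun t x => Real.exp (-U t x) • h' t x - Real.exp (-U t x) • (U' t x • h t x))
    (x₀ := t0) (s := Metric.ball t0 r)
    (bound := fun x => (C + C * C) * (1 + ‖x‖) ^ (k + k) * Real.exp (b - a * ‖x‖ ^ 2))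
    (Metric.ball_mem_nhds t0 hr) ?_ ?_ ?_ ?_ ?_ ?_
  · exact h1.2
  · filter_upwards [Metric.ball_mem_nhds t0 hr] with t ht
    have ht' := (hball t).1 ht
    exact ((Real.continuous_exp.comp (cU t ht').neg).smul (ch t ht')).aestronglyMeasurable
  · refine (integrable_pow_mul_exp (E := E) ha C k b).mono'
      ((Real.continuous_exp.comp (cU t0 ht0).neg).smul (ch t0 ht0)).aestronglyMeasurable
      (Eventually.of_forall fun x => ?_)
    rw [norm_smul, Real.norm_eq_abs, abs_of_pos (Real.exp_pos _), mul_comm]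
    apply mul_le_mul (bh t0 ht0 x) _ (Real.exp_pos _).le (by positivity)
    apply Real.exp_le_exp.2
    linarith [low t0 ht0 x]
  · exact (((Real.continuous_exp.comp (cU t0 ht0).neg).smul (ch' t0 ht0)).sub
      ((Real.continuous_exp.comp (cU t0 ht0).neg).smul
        ((cU' t0 ht0).smul (ch t0 ht0)))).aestronglyMeasurable
  · refine Eventually.of_forall fun x t ht => ?_
    have ht' := (hball t).1 ht
    have hx := one_le_one_add_norm x
    have e1 : Real.exp (-U t x) ≤ Real.exp (b - a * ‖x‖ ^ 2) := by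
      apply Real.exp_le_exp.2
      linarith [low t ht' x]
    have e2 : ‖h' t x - U' t x • h t x‖ ≤ (C + C * C) * (1 + ‖x‖) ^ (k + k) := by
      refine (norm_sub_le _ _).trans ?_
      rw [norm_smul, Real.norm_eq_abs]
      have e3 := bh' t ht' x
      have e4 : |U' t x| * ‖h t x‖ ≤ (C * (1 + ‖x‖) ^ k) * (C * (1 + ‖x‖) ^ k) :=
        mul_le_mul (bU' t ht' x) (bh t ht' x) (norm_nonneg _) (by positivity)
      have e5 : C * (1 + ‖x‖) ^ k ≤ C * (1 + ‖x‖) ^ (k + k) :=
        mul_le_mul_of_nonneg_left (pow_le_pow_right₀ hx (by omega)) hC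
      calc ‖h' t x‖ + |U' t x| * ‖h t x‖
          ≤ C * (1 + ‖x‖) ^ (k + k) + (C * (1 + ‖x‖) ^ k) * (C * (1 + ‖x‖) ^ k) :=
            add_le_add (e3.trans e5) e4
        _ = _ := by rw [pow_add]; ring
    rw [← smul_sub, norm_smul, Real.norm_eq_abs, abs_of_pos (Real.exp_pos _), mul_comm]
    exact mul_le_mul e2 e1 (Real.exp_pos _).le (by positivity)
  · exact integrable_pow_mul_exp (E := E) ha _ _ b
  · refine Eventually.of_forall fun x t ht => ?_
    have ht' := (hball t).1 ht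
    have e1 : HasDerivAt (fun t => Real.exp (-U t x)) (Real.exp (-U t x) * -U' t x) t :=
      ((hU t ht' x).neg).exp
    refine HasDerivAt.congr_deriv (e1.smul (hh t ht' x)) ?_
    rw [mul_neg, neg_smul, mul_smul, sub_eq_add_neg]

/-- Derivative of a Gibbs expectation along a one-parameter family of potentials. -/
theorem gibbs_hasDerivAt {U U' : ℝ → E → ℝ} {h h' : ℝ → E → F} {t0 r a b C : ℝ} {k : ℕ}
    (hr : 0 < r) (ha : 0 < a)
    (hU : ∀ t, |t - t0| < r → ∀ x, HasDerivAt (fun t => U t x) (U' t x) t)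
    (hh : ∀ t, |t - t0| < r → ∀ x, HasDerivAt (fun t => h t x) (h' t x) t)
    (cU : ∀ t, |t - t0| < r → Continuous (U t)) (cU' : ∀ t, |t - t0| < r → Continuous (U' t))
    (ch : ∀ t, |t - t0| < r → Continuous (h t)) (ch' : ∀ t, |t - t0| < r → Continuous (h' t))
    (low : ∀ t, |t - t0| < r → ∀ x, a * ‖x‖ ^ 2 - b ≤ U t x)
    (bU' : ∀ t, |t - t0| < r → ∀ x, |U' t x| ≤ C * (1 + ‖x‖) ^ k)
    (bh : ∀ t, |t - t0| < r → ∀ x, ‖h t x‖ ≤ C * (1 + ‖x‖) ^ k)
    (bh' : ∀ t, |t - t0| < r → ∀ x, ‖h' t x‖ ≤ C * (1 + ‖x‖) ^ k) :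
    HasDerivAt (fun t => ∫ x, h t x ∂(gibbs (U t)))
      ((∫ x, h' t0 x ∂(gibbs (U t0)))
        - ((∫ x, U' t0 x • h t0 x ∂(gibbs (U t0)))
          - (∫ x, U' t0 x ∂(gibbs (U t0))) • ∫ x, h t0 x ∂(gibbs (U t0)))) t0 := by
  have ht0 : |t0 - t0| < r := by simpa using hr
  have hadm : Adm (U t0) := ⟨cU t0 ht0, a, ha, b, low t0 ht0⟩
  have hC : 0 ≤ C := by
    have := bU' t0 ht0 0
    rw [norm_zero, add_zero, one_pow, mul_one] at this
    exact (abs_nonneg _).trans this
  have hnum := gibbs_num_hasDerivAt hr ha hU hh cU cU' ch ch' low bU' bh bh'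
  have hden := gibbs_num_hasDerivAt (h := fun _ _ => (1 : ℝ)) (h' := fun _ _ => (0 : ℝ))
    (C := C + 1) (k := k) hr ha hU (fun t _ x => hasDerivAt_const _ _) cU cU'
    (fun t _ => continuous_const) (fun t _ => continuous_const) low
    (fun t ht x => (bU' t ht x).trans (by
      have := one_le_one_add_norm x
      gcongr
      linarith))
    (fun t ht x => by
      have h1 : 1 ≤ (1 + ‖x‖) ^ k := one_le_pow₀ (one_le_one_add_norm x)
      rw [norm_one]
      nlinarith)
    (fun t ht x => by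
      rw [norm_zero]
      have := one_le_one_add_norm x
      positivity)
  simp only [smul_eq_mul, mul_one, mul_zero, zero_sub] at hden
  set Dn : ℝ → ℝ := fun t => ∫ x, Real.exp (-U t x) with hDn
  have hD0 : Dn t0 ≠ 0 := hadm.integral_exp_pos.ne'
  have hq := (hden.inv hD0).smul hnum
  have hfun : (fun t => ∫ x, h t x ∂(gibbs (U t))) =
      fun t => (Dn t)⁻¹ • ∫ x, Real.exp (-U t x) • h t x := by
    funext t
    exact gibbs_integral _
  rw [hfun]
  refine HasDerivAt.congr_deriv hq ?_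
  rw [gibbs_integral, gibbs_integral, gibbs_integral, gibbs_integral]
  have i1 : Integrable (fun x => Real.exp (-U t0 x) • h' t0 x) := by
    have := hadm.integrable (f := h' t0) ⟨C, k, bh' t0 ht0⟩ (ch' t0 ht0).aestronglyMeasurable
    unfold gibbs at this
    rwa [integrable_tilted_iff hadm.integrable_exp] at this
  have i2 : Integrable (fun x => Real.exp (-U t0 x) • (U' t0 x • h t0 x)) := by
    have hp1 : PG (U' t0) := ⟨C, k, bU' t0 ht0⟩
    have hp2 : PG (h t0) := ⟨C, k, bh t0 ht0⟩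
    have := hadm.integrable (f := fun x => U' t0 x • h t0 x) (hp1.smul hp2)
      ((cU' t0 ht0).smul (ch t0 ht0)).aestronglyMeasurable
    unfold gibbs at this
    rwa [integrable_tilted_iff hadm.integrable_exp] at this
  rw [integral_sub i1 i2, integral_neg]
  have e0 : ∫ x, Real.exp (-U t0 x) • U' t0 x = ∫ x, Real.exp (-U t0 x) * U' t0 x := rfl
  rw [e0]
  change (Dn t0)⁻¹ • ((∫ x, Real.exp (-U t0 x) • h' t0 x) -
      ∫ x, Real.exp (-U t0 x) • (U' t0 x • h t0 x)) +
    (-(-∫ x, Real.exp (-U t0 x) * U' t0 x) / Dn t0 ^ 2) • (∫ x, Real.exp (-U t0 x) • h t0 x) =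
    (Dn t0)⁻¹ • (∫ x, Real.exp (-U t0 x) • h' t0 x) -
    ((Dn t0)⁻¹ • (∫ x, Real.exp (-U t0 x) • (U' t0 x • h t0 x)) -
      ((Dn t0)⁻¹ • (∫ x, Real.exp (-U t0 x) * U' t0 x)) •
        ((Dn t0)⁻¹ • ∫ x, Real.exp (-U t0 x) • h t0 x))
  rw [smul_sub, neg_neg, smul_smul, smul_eq_mul]
  have e1 : (∫ x, Real.exp (-U t0 x) * U' t0 x) / Dn t0 ^ 2 =
      (Dn t0)⁻¹ * (∫ x, Real.exp (-U t0 x) * U' t0 x) * (Dn t0)⁻¹ := by
    field_simp
  rw [e1]
  abel

end Vale.Agent.P347
end

section

open MeasureTheory Set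
open scoped ENNReal NNReal Pointwise

namespace Vale.Agent.P074

/-- One-dimensional Brunn-Minkowski, compact case, midpoint form. -/
theorem bm_one_compact {K L C : Set ℝ} (hK : IsCompact K) (hL : IsCompact L)
    (nK : K.Nonempty) (nL : L.Nonempty) (h : ∀ a ∈ K, ∀ b ∈ L, (a + b) / 2 ∈ C) :
    volume K + volume L ≤ 2 * volume C := by
  obtain ⟨a, haK, ha⟩ := hK.exists_isGreatest nK
  obtain ⟨b, hbL, hb⟩ := hL.exists_isLeast nL
  have h1 : (fun x => x + b) '' K ⊆ (2 : ℝ) • C := by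
    rintro _ ⟨x, hx, rfl⟩
    refine ⟨(x + b) / 2, h x hx b hbL, ?_⟩
    simp only [smul_eq_mul]
    ring
  have h2 : (fun y => a + y) '' L ⊆ (2 : ℝ) • C := by
    rintro _ ⟨y, hy, rfl⟩
    refine ⟨(a + y) / 2, h a haK y hy, ?_⟩
    simp only [smul_eq_mul]
    ring
  have c1 : IsCompact ((fun x => x + b) '' K) := hK.image (by fun_prop)
  have c2 : IsCompact ((fun y => a + y) '' L) := hL.image (by fun_prop)
  have hdis : AEDisjoint volume ((fun x => x + b) '' K) ((fun y => a + y) '' L) := by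
    have : ((fun x => x + b) '' K) ∩ ((fun y => a + y) '' L) ⊆ {a + b} := by
      rintro _ ⟨⟨x, hx, rfl⟩, ⟨y, hy, hxy⟩⟩
      have hx' := ha hx
      have hy' := hb hy
      simp only at hxy
      simp only [mem_singleton_iff]
      linarith
    exact measure_mono_null this (by simp)
  have v1 : volume ((fun x => x + b) '' K) = volume K := by
    simp
  have v2 : volume ((fun y => a + y) '' L) = volume L := by
    simp
  have v3 : volume ((2 : ℝ) • C) = 2 * volume C := by
    rw [Measure.addHaar_smul]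
    simp
  calc volume K + volume L = volume ((fun x => x + b) '' K) + volume ((fun y => a + y) '' L) := by
        rw [v1, v2]
    _ = volume (((fun x => x + b) '' K) ∪ ((fun y => a + y) '' L)) := by
        rw [measure_union₀ c2.measurableSet.nullMeasurableSet hdis]
    _ ≤ volume ((2 : ℝ) • C) := measure_mono (union_subset h1 h2)
    _ = 2 * volume C := v3

/-- One-dimensional Brunn-Minkowski, midpoint form. -/
theorem bm_one {A B C : Set ℝ} (hA : MeasurableSet A) (hB : MeasurableSet B)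
    (nA : A.Nonempty) (nB : B.Nonempty) (h : ∀ a ∈ A, ∀ b ∈ B, (a + b) / 2 ∈ C) :
    volume A + volume B ≤ 2 * volume C := by
  have key : ∀ K L : Set ℝ, IsCompact K → IsCompact L → K ⊆ A → L ⊆ B →
      volume K + volume L ≤ 2 * volume C := by
    intro K L hK hL hKA hLB
    obtain ⟨a0, ha0⟩ := nA
    obtain ⟨b0, hb0⟩ := nB
    have hK' : IsCompact (K ∪ {a0}) := hK.union isCompact_singleton
    have hL' : IsCompact (L ∪ {b0}) := hL.union isCompact_singleton
    have := bm_one_compact hK' hL' ⟨a0, by simp⟩ ⟨b0, by simp⟩ (C := C) (by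
      intro a ha b hb
      apply h
      · rcases ha with ha | ha
        · exact hKA ha
        · rw [mem_singleton_iff.mp ha]; exact ha0
      · rcases hb with hb | hb
        · exact hLB hb
        · rw [mem_singleton_iff.mp hb]; exact hb0)
    refine le_trans (add_le_add (measure_mono subset_union_left)
      (measure_mono subset_union_left)) this
  have key2 : ∀ K : Set ℝ, IsCompact K → K ⊆ A → volume K + volume B ≤ 2 * volume C := by
    intro K hK hKA
    have hKfin : volume K ≠ ∞ := hK.measure_lt_top.ne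
    have : volume B ≤ 2 * volume C - volume K := by
      refine le_of_forall_lt fun s hs => ?_
      obtain ⟨L, hLB, hL, hsL⟩ := hB.exists_lt_isCompact hs
      refine lt_of_lt_of_le hsL ?_
      exact ENNReal.le_sub_of_add_le_left hKfin (key K L hK hL hKA hLB)
    calc volume K + volume B ≤ volume K + (2 * volume C - volume K) := by gcongr
      _ = 2 * volume C := by
        rw [add_tsub_cancel_of_le]
        exact le_trans (by simp) (key K ∅ hK isCompact_empty hKA (empty_subset _))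
  by_cases hBfin : volume B = ∞
  · have := key2 ∅ isCompact_empty (empty_subset _)
    rw [hBfin] at this
    have h3 : 2 * volume C = ∞ := by
      simpa using this
    rw [h3]
    exact le_top
  · have : volume A ≤ 2 * volume C - volume B := by
      refine le_of_forall_lt fun s hs => ?_
      obtain ⟨K, hKA, hK, hsK⟩ := hA.exists_lt_isCompact hs
      refine lt_of_lt_of_le hsK ?_
      exact ENNReal.le_sub_of_add_le_right hBfin (key2 K hK hKA)
    calc volume A + volume B ≤ (2 * volume C - volume B) + volume B := by gcongr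
      _ = 2 * volume C := by
        rw [tsub_add_cancel_of_le]
        simpa using key2 ∅ isCompact_empty (empty_subset _)

theorem four_mul_le_sq (x y : ℝ≥0∞) : 4 * (x * y) ≤ (x + y) ^ 2 := by
  by_cases hx : x = ∞
  · subst hx; simp
  by_cases hy : y = ∞
  · subst hy; simp
  lift x to ℝ≥0 using hx
  lift y to ℝ≥0 using hy
  norm_cast
  rw [← NNReal.coe_le_coe]
  push_cast
  nlinarith [sq_nonneg ((x : ℝ) - y)]

/-- Normalised one-dimensional Prekopa-Leindler. -/
theorem pl_one_normalized (f g h : ℝ → ℝ≥0∞) (hf : Measurable f) (hg : Measurable g)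
    (hh : Measurable h) (hf1 : ⨆ x, f x = 1) (hg1 : ⨆ x, g x = 1)
    (hfg : ∀ x y, f x * g y ≤ h ((x + y) / 2) ^ 2) :
    (∫⁻ x, f x) + (∫⁻ x, g x) ≤ 2 * ∫⁻ x, h x := by
  have hfle : ∀ x, f x ≤ 1 := fun x => hf1 ▸ le_iSup f x
  have hgle : ∀ x, g x ≤ 1 := fun x => hg1 ▸ le_iSup g x
  set k : ℝ → ℝ≥0∞ := fun x => min (h x) 1 with hk
  have hkm : Measurable k := hh.min measurable_const
  have hk1 : ∀ x, k x ≤ 1 := fun x => min_le_right _ _
  have hfgk : ∀ x y, f x * g y ≤ k ((x + y) / 2) ^ 2 := by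
    intro x y
    have h1 : f x * g y ≤ 1 := by
      calc f x * g y ≤ 1 * 1 := mul_le_mul' (hfle x) (hgle y)
        _ = 1 := by simp
    simp only [hk]
    rcases le_total (h ((x + y) / 2)) 1 with h2 | h2
    · rw [min_eq_left h2]; exact hfg x y
    · rw [min_eq_right h2]; simpa using h1
  have hcake : ∀ u : ℝ → ℝ≥0∞, Measurable u → (∀ x, u x ≤ 1) →
      ∫⁻ x, u x = ∫⁻ t in Ioi (0 : ℝ), volume {x | t < (u x).toReal} := by
    intro u hu hu1
    rw [← lintegral_eq_lintegral_meas_lt volume (Filter.Eventually.of_forall fun x => by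
      simp) hu.ennreal_toReal.aemeasurable]
    apply lintegral_congr
    intro x
    rw [ENNReal.ofReal_toReal (ne_top_of_le_ne_top ENNReal.one_ne_top (hu1 x))]
  have hkh : ∫⁻ x, k x ≤ ∫⁻ x, h x := lintegral_mono fun x => min_le_left _ _
  refine le_trans ?_ (mul_le_mul_right hkh 2)
  rw [hcake f hf hfle, hcake g hg hgle, hcake k hkm hk1]
  have hmeas : ∀ u : ℝ → ℝ≥0∞, Measurable (fun t : ℝ => volume {x | t < (u x).toReal}) := by
    intro u
    apply Antitone.measurable
    intro s t hst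
    exact measure_mono fun x hx => lt_of_le_of_lt hst hx
  rw [← lintegral_add_left (hmeas f), ← lintegral_const_mul _ (hmeas k)]
  refine setLIntegral_mono' measurableSet_Ioi ?_
  intro t ht
  have ht0 : 0 < t := ht
  rcases lt_or_ge t 1 with ht1 | ht1
  · apply bm_one
    · exact measurableSet_lt measurable_const hf.ennreal_toReal
    · exact measurableSet_lt measurable_const hg.ennreal_toReal
    · have : ENNReal.ofReal t < ⨆ x, f x := by
        rw [hf1]
        rw [← ENNReal.ofReal_one]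
        exact (ENNReal.ofReal_lt_ofReal_iff one_pos).2 ht1
      obtain ⟨x, hx⟩ := lt_iSup_iff.1 this
      refine ⟨x, ?_⟩
      exact (ENNReal.ofReal_lt_iff_lt_toReal ht0.le
        (ne_top_of_le_ne_top ENNReal.one_ne_top (hfle x))).1 hx
    · have : ENNReal.ofReal t < ⨆ x, g x := by
        rw [hg1]
        rw [← ENNReal.ofReal_one]
        exact (ENNReal.ofReal_lt_ofReal_iff one_pos).2 ht1
      obtain ⟨x, hx⟩ := lt_iSup_iff.1 this
      refine ⟨x, ?_⟩
      exact (ENNReal.ofReal_lt_iff_lt_toReal ht0.le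
        (ne_top_of_le_ne_top ENNReal.one_ne_top (hgle x))).1 hx
    · intro a ha b hb
      simp only [mem_ofPred_eq] at ha hb ⊢
      have h3 := ENNReal.toReal_mono (by
        exact ENNReal.pow_ne_top (ne_top_of_le_ne_top ENNReal.one_ne_top (hk1 _))) (hfgk a b)
      rw [ENNReal.toReal_mul, ENNReal.toReal_pow] at h3
      have h4 : t ^ 2 < (k ((a + b) / 2)).toReal ^ 2 := by
        calc t ^ 2 = t * t := by ring
          _ < (f a).toReal * (g b).toReal := by
            exact mul_lt_mul'' ha hb ht0.le ht0.le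
          _ ≤ _ := h3
      exact lt_of_pow_lt_pow_left₀ 2 ENNReal.toReal_nonneg h4
  · have e1 : {x | t < (f x).toReal} = ∅ := by
      ext x
      simp only [mem_ofPred_eq, mem_empty_iff_false, iff_false, not_lt]
      refine le_trans ?_ ht1
      have := ENNReal.toReal_mono ENNReal.one_ne_top (hfle x)
      simpa using this
    have e2 : {x | t < (g x).toReal} = ∅ := by
      ext x
      simp only [mem_ofPred_eq, mem_empty_iff_false, iff_false, not_lt]
      refine le_trans ?_ ht1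
      have := ENNReal.toReal_mono ENNReal.one_ne_top (hgle x)
      simpa using this
    rw [e1, e2]
    simp

theorem pl_one_bdd (f g h : ℝ → ℝ≥0∞) (hf : Measurable f) (hg : Measurable g)
    (hh : Measurable h) (hf1 : ⨆ x, f x ≠ ∞) (hg1 : ⨆ x, g x ≠ ∞)
    (hfg : ∀ x y, f x * g y ≤ h ((x + y) / 2) ^ 2) :
    (∫⁻ x, f x) * (∫⁻ x, g x) ≤ (∫⁻ x, h x) ^ 2 := by
  by_cases hf0 : ⨆ x, f x = 0
  · have : f = fun _ => 0 := by
      funext x
      have := le_iSup f x
      rw [hf0] at this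
      simpa using this
    rw [this]
    simp
  by_cases hg0 : ⨆ x, g x = 0
  · have : g = fun _ => 0 := by
      funext x
      have := le_iSup g x
      rw [hg0] at this
      simpa using this
    rw [this]
    simp
  obtain ⟨a, ha⟩ : ∃ a : ℝ≥0, (a : ℝ≥0∞) = ⨆ x, f x := ⟨_, ENNReal.coe_toNNReal hf1⟩
  obtain ⟨b, hb⟩ : ∃ b : ℝ≥0, (b : ℝ≥0∞) = ⨆ x, g x := ⟨_, ENNReal.coe_toNNReal hg1⟩
  have ha0 : (a : ℝ≥0∞) ≠ 0 := by rw [ha]; exact hf0
  have hb0 : (b : ℝ≥0∞) ≠ 0 := by rw [hb]; exact hg0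
  have ha0' : a ≠ 0 := by exact_mod_cast ha0
  have hb0' : b ≠ 0 := by exact_mod_cast hb0
  set c : ℝ≥0 := NNReal.sqrt (a * b) with hc
  have hcsq : c ^ 2 = a * b := by rw [hc]; exact NNReal.sq_sqrt _
  have hc0' : c ≠ 0 := by
    intro h0
    rw [h0] at hcsq
    have : a * b = 0 := by rw [← hcsq]; simp
    rcases mul_eq_zero.1 this with h1 | h1
    · exact ha0' h1
    · exact hb0' h1
  have hc0 : (c : ℝ≥0∞) ≠ 0 := by exact_mod_cast hc0'
  have hcsq' : (c : ℝ≥0∞) ^ 2 = a * b := by exact_mod_cast hcsq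
  have key := pl_one_normalized (fun x => (a : ℝ≥0∞)⁻¹ * f x) (fun x => (b : ℝ≥0∞)⁻¹ * g x)
    (fun x => (c : ℝ≥0∞)⁻¹ * h x) (hf.const_mul _) (hg.const_mul _) (hh.const_mul _)
    (by rw [← ENNReal.mul_iSup, ← ha]; exact ENNReal.inv_mul_cancel ha0 ENNReal.coe_ne_top)
    (by rw [← ENNReal.mul_iSup, ← hb]; exact ENNReal.inv_mul_cancel hb0 ENNReal.coe_ne_top)
    (by
      intro x y
      have h1 : ((c : ℝ≥0∞)⁻¹) ^ 2 = (a : ℝ≥0∞)⁻¹ * (b : ℝ≥0∞)⁻¹ := by
        rw [← ENNReal.inv_pow, hcsq', ENNReal.mul_inv (Or.inl ha0) (Or.inl ENNReal.coe_ne_top)]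
      calc (a : ℝ≥0∞)⁻¹ * f x * ((b : ℝ≥0∞)⁻¹ * g y)
          = ((a : ℝ≥0∞)⁻¹ * (b : ℝ≥0∞)⁻¹) * (f x * g y) := by ring
        _ ≤ ((a : ℝ≥0∞)⁻¹ * (b : ℝ≥0∞)⁻¹) * h ((x + y) / 2) ^ 2 := by
          exact mul_le_mul_right (hfg x y) _
        _ = ((c : ℝ≥0∞)⁻¹ * h ((x + y) / 2)) ^ 2 := by
          rw [mul_pow, h1])
  rw [lintegral_const_mul _ hf, lintegral_const_mul _ hg, lintegral_const_mul _ hh] at key
  set F := ∫⁻ x, f x
  set G := ∫⁻ x, g x
  set H := ∫⁻ x, h x
  have h5 : 4 * ((a : ℝ≥0∞)⁻¹ * F * ((b : ℝ≥0∞)⁻¹ * G)) ≤ (2 * ((c : ℝ≥0∞)⁻¹ * H)) ^ 2 :=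
    le_trans (four_mul_le_sq _ _) (by gcongr)
  have h6 : (a * b : ℝ≥0∞) * (4 * ((a : ℝ≥0∞)⁻¹ * F * ((b : ℝ≥0∞)⁻¹ * G))) ≤
      (a * b : ℝ≥0∞) * (2 * ((c : ℝ≥0∞)⁻¹ * H)) ^ 2 := by gcongr
  have h7 : (a * b : ℝ≥0∞) * (4 * ((a : ℝ≥0∞)⁻¹ * F * ((b : ℝ≥0∞)⁻¹ * G))) = 4 * (F * G) := by
    calc (a * b : ℝ≥0∞) * (4 * ((a : ℝ≥0∞)⁻¹ * F * ((b : ℝ≥0∞)⁻¹ * G)))
        = 4 * ((a : ℝ≥0∞) * (a : ℝ≥0∞)⁻¹ * F * ((b : ℝ≥0∞) * (b : ℝ≥0∞)⁻¹ * G)) := by ring
      _ = 4 * (F * G) := by
        rw [ENNReal.mul_inv_cancel ha0 ENNReal.coe_ne_top,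
          ENNReal.mul_inv_cancel hb0 ENNReal.coe_ne_top]
        simp
  have h8 : (a * b : ℝ≥0∞) * (2 * ((c : ℝ≥0∞)⁻¹ * H)) ^ 2 = 4 * H ^ 2 := by
    rw [← hcsq']
    calc (c : ℝ≥0∞) ^ 2 * (2 * ((c : ℝ≥0∞)⁻¹ * H)) ^ 2
        = 2 ^ 2 * (((c : ℝ≥0∞) * (c : ℝ≥0∞)⁻¹) ^ 2 * H ^ 2) := by ring
      _ = 4 * H ^ 2 := by
        rw [ENNReal.mul_inv_cancel hc0 ENNReal.coe_ne_top]
        norm_num
  rw [h7, h8] at h6
  exact (ENNReal.mul_le_mul_iff_right (by norm_num) (by norm_num)).1 h6

theorem pl_one (f g h : ℝ → ℝ≥0∞) (hf : Measurable f) (hg : Measurable g)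
    (hh : Measurable h) (hfg : ∀ x y, f x * g y ≤ h ((x + y) / 2) ^ 2) :
    (∫⁻ x, f x) * (∫⁻ x, g x) ≤ (∫⁻ x, h x) ^ 2 := by
  have hcut : ∀ u : ℝ → ℝ≥0∞, Measurable u →
      ∫⁻ x, u x = ⨆ n : ℕ, ∫⁻ x, min (u x) n := by
    intro u hu
    rw [← lintegral_iSup (fun n => hu.min measurable_const)
      (fun m n hmn x => min_le_min_left _ (by exact_mod_cast hmn))]
    apply lintegral_congr
    intro x
    apply le_antisymm
    · by_cases hx : u x = ∞
      · rw [hx]
        simp only [top_le_iff, le_top, inf_of_le_right]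
        exact ENNReal.iSup_natCast
      · obtain ⟨n, hn⟩ := ENNReal.exists_nat_gt hx
        refine le_trans ?_ (le_iSup _ n)
        rw [min_eq_left hn.le]
    · exact iSup_le fun n => min_le_left _ _
  have hsup : ∀ (u : ℝ → ℝ≥0∞) (n : ℕ), ⨆ x, min (u x) (n : ℝ≥0∞) ≠ ∞ := by
    intro u n
    refine ne_top_of_le_ne_top (ENNReal.natCast_ne_top n) (iSup_le fun x => min_le_right _ _)
  rw [hcut f hf, hcut g hg, ENNReal.iSup_mul]
  refine iSup_le fun n => ?_
  rw [ENNReal.mul_iSup]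
  refine iSup_le fun m => ?_
  refine pl_one_bdd _ _ h (hf.min measurable_const) (hg.min measurable_const) hh
    (hsup f n) (hsup g m) ?_
  intro x y
  exact le_trans (mul_le_mul' (min_le_left _ _) (min_le_left _ _)) (hfg x y)

theorem pl_pi (n : ℕ) : ∀ (f g h : (Fin n → ℝ) → ℝ≥0∞), Measurable f → Measurable g →
    Measurable h → (∀ x y, f x * g y ≤ h (fun i => (x i + y i) / 2) ^ 2) →
    (∫⁻ x, f x) * (∫⁻ x, g x) ≤ (∫⁻ x, h x) ^ 2 := by
  induction n with
  | zero =>
    intro f g h hf hg hh hfg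
    have hv : (volume : Measure (Fin 0 → ℝ)) univ = 1 := by
      simp [volume_pi]
    rw [lintegral_unique, lintegral_unique, lintegral_unique, hv]
    simp only [mul_one]
    have hall : ∀ z w : Fin 0 → ℝ, z = w := fun z w => funext fun i => i.elim0
    obtain ⟨o, ho⟩ : ∃ o : Fin 0 → ℝ, ∀ z, z = o := ⟨fun _ => 0, fun z => hall z _⟩
    have h1 := hfg o o
    rw [ho fun i => (o i + o i) / 2] at h1
    have hgen : ∀ z : Fin 0 → ℝ, f z * g z ≤ h z ^ 2 := by
      intro z
      rw [ho z]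
      exact h1
    exact hgen _
  | succ n ih =>
    intro f g h hf hg hh hfg
    set e := MeasurableEquiv.piFinSuccAbove (fun _ : Fin (n + 1) => ℝ) 0 with he
    have hvp : MeasurePreserving e volume volume :=
      volume_preserving_piFinSuccAbove (fun _ : Fin (n + 1) => ℝ) 0
    have hsplit : ∀ u : (Fin (n + 1) → ℝ) → ℝ≥0∞, Measurable u →
        ∫⁻ x, u x = ∫⁻ a : ℝ, ∫⁻ x : Fin n → ℝ, u (e.symm (a, x)) := by
      intro u hu
      rw [← hvp.symm.lintegral_comp hu]
      exact lintegral_prod _ (hu.comp e.symm.measurable).aemeasurable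
    have hmid : ∀ (a b : ℝ) (x y : Fin n → ℝ),
        (fun i => (e.symm (a, x) i + e.symm (b, y) i) / 2) =
          e.symm ((a + b) / 2, fun i => (x i + y i) / 2) := by
      intro a b x y
      have hes : ∀ (c : ℝ) (z : Fin n → ℝ),
          e.symm (c, z) = (Fin.cons c z : Fin (n + 1) → ℝ) := by
        intro c z
        have h1 : e.symm (c, z) = (0 : Fin (n + 1)).insertNth (α := fun _ => ℝ) c z := rfl
        rw [h1]
        exact Fin.insertNth_zero' c z
      rw [hes, hes, hes]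
      funext i
      refine Fin.cases ?_ (fun j => ?_) i
      · simp only [Fin.cons_zero]
      · simp only [Fin.cons_succ]
    have hm2 : ∀ u : (Fin (n + 1) → ℝ) → ℝ≥0∞, Measurable u →
        Measurable fun a : ℝ => ∫⁻ x : Fin n → ℝ, u (e.symm (a, x)) := by
      intro u hu
      exact (hu.comp e.symm.measurable).lintegral_prod_right'
    rw [hsplit f hf, hsplit g hg, hsplit h hh]
    apply pl_one _ _ _ (hm2 f hf) (hm2 g hg) (hm2 h hh)
    intro a b
    have hsec : ∀ (u : (Fin (n + 1) → ℝ) → ℝ≥0∞) (c : ℝ), Measurable u →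
        Measurable fun x : Fin n → ℝ => u (e.symm (c, x)) := by
      intro u c hu
      exact hu.comp (e.symm.measurable.comp measurable_prodMk_left)
    apply ih _ _ _ (hsec f a hf) (hsec g b hg) (hsec h _ hh)
    intro x y
    have := hfg (e.symm (a, x)) (e.symm (b, y))
    rwa [hmid] at this

/-- Prekopa-Leindler inequality on Euclidean space (midpoint form). -/
theorem prekopa_leindler {d : ℕ} (f g h : EuclideanSpace ℝ (Fin d) → ℝ≥0∞)
    (hf : Measurable f) (hg : Measurable g) (hh : Measurable h)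
    (hfg : ∀ x y, f x * g y ≤ h ((2 : ℝ)⁻¹ • (x + y)) ^ 2) :
    (∫⁻ x, f x) * (∫⁻ x, g x) ≤ (∫⁻ x, h x) ^ 2 := by
  have hvp := PiLp.volume_preserving_toLp (Fin d)
  have htr : ∀ u : EuclideanSpace ℝ (Fin d) → ℝ≥0∞, Measurable u →
      ∫⁻ x, u x = ∫⁻ x : Fin d → ℝ, u (WithLp.toLp 2 x) := by
    intro u hu
    rw [← hvp.lintegral_comp hu]
  have hm : ∀ u : EuclideanSpace ℝ (Fin d) → ℝ≥0∞, Measurable u →
      Measurable fun x : Fin d → ℝ => u (WithLp.toLp 2 x) := by
    intro u hu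
    exact hu.comp hvp.measurable
  rw [htr f hf, htr g hg, htr h hh]
  apply pl_pi d _ _ _ (hm f hf) (hm g hg) (hm h hh)
  intro x y
  have := hfg (WithLp.toLp 2 x) (WithLp.toLp 2 y)
  convert this using 4
  ext i
  simp
  ring

end Vale.Agent.P074
end

section
attribute [-instance] ProperSMul.toContinuousSMul IsTopologicalTorsor.toContinuousSMul IdemSemiring.toCanonicallyOrderedAdd IdemSemiring.toMulLeftMono IdemSemiring.toMulRightMono AddQuantale.instAddLeftMono AddQuantale.instAddRightMono Quantale.instMulLeftMono Quantale.instMulRightMono FiniteDimensional.rclike_to_real IsScalarTower.complexToReal FiniteDimensional.complexToReal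

/-! Auxiliary file for task B (P347): Prekopa-Leindler on `E` and the Poincare inequality for
compactly supported functions. -/

open MeasureTheory Filter Module Set Topology
open scoped ENNReal NNReal

namespace Vale.Agent.P347

variable {E : Type*} [NormedAddCommGroup E] [InnerProductSpace ℝ E] [FiniteDimensional ℝ E]
  [MeasurableSpace E] [BorelSpace E]

theorem pl_enn (f g h : E → ℝ≥0∞) (hf : Measurable f) (hg : Measurable g) (hh : Measurable h)
    (hfg : ∀ x y, f x * g y ≤ h ((2 : ℝ)⁻¹ • (x + y)) ^ 2) :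
    (∫⁻ x, f x) * (∫⁻ x, g x) ≤ (∫⁻ x, h x) ^ 2 := by
  set b := stdOrthonormalBasis ℝ E
  have hmp := b.measurePreserving_repr_symm
  rw [← hmp.lintegral_comp hf, ← hmp.lintegral_comp hg, ← hmp.lintegral_comp hh]
  refine Vale.Agent.P074.prekopa_leindler _ _ _ (hf.comp hmp.measurable) (hg.comp hmp.measurable)
    (hh.comp hmp.measurable) fun x y => ?_
  have := hfg (b.repr.symm x) (b.repr.symm y)
  simpa only [smul_add, map_add, map_smul, ge_iff_le] using this

theorem pl_exp {A B C : E → ℝ} (hA : Continuous A) (hB : Continuous B) (hC : Continuous C)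
    (iC : Integrable (fun x => Real.exp (C x)) (volume : Measure E))
    (h : ∀ x y, A x + B y ≤ 2 * C ((2 : ℝ)⁻¹ • (x + y))) :
    (∫⁻ x, ENNReal.ofReal (Real.exp (A x))) * (∫⁻ x, ENNReal.ofReal (Real.exp (B x)))
      ≤ ENNReal.ofReal ((∫ x, Real.exp (C x)) ^ 2) := by
  have h1 := pl_enn (fun x : E => ENNReal.ofReal (Real.exp (A x)))
    (fun x => ENNReal.ofReal (Real.exp (B x))) (fun x => ENNReal.ofReal (Real.exp (C x)))
    (by (clear B C hB hC iC h; fun_prop)) (by (clear A C hA hC iC h; fun_prop)) (by (clear A B hA hB iC h; fun_prop)) (fun x y => by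
      rw [← ENNReal.ofReal_mul (Real.exp_pos _).le, ← ENNReal.ofReal_pow (Real.exp_pos _).le,
        ← Real.exp_add, ← Real.exp_nat_mul]
      exact ENNReal.ofReal_le_ofReal (Real.exp_le_exp.2 (by exact_mod_cast h x y)))
  rw [← ofReal_integral_eq_lintegral_ofReal iC
    (Eventually.of_forall fun x => (Real.exp_pos _).le)] at h1
  rwa [ENNReal.ofReal_pow (integral_nonneg fun x => (Real.exp_pos _).le)]

theorem pl_exp_real {A B C : E → ℝ} (hA : Continuous A) (hB : Continuous B) (hC : Continuous C)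
    (iA : Integrable (fun x => Real.exp (A x)) (volume : Measure E))
    (iB : Integrable (fun x => Real.exp (B x)) (volume : Measure E))
    (iC : Integrable (fun x => Real.exp (C x)) (volume : Measure E))
    (h : ∀ x y, A x + B y ≤ 2 * C ((2 : ℝ)⁻¹ • (x + y))) :
    (∫ x, Real.exp (A x)) * (∫ x, Real.exp (B x)) ≤ (∫ x, Real.exp (C x)) ^ 2 := by
  have h1 := pl_exp hA hB hC iC h
  rw [← ofReal_integral_eq_lintegral_ofReal iA
    (Eventually.of_forall fun x => (Real.exp_pos _).le),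
    ← ofReal_integral_eq_lintegral_ofReal iB
    (Eventually.of_forall fun x => (Real.exp_pos _).le),
    ← ENNReal.ofReal_mul (integral_nonneg fun x => (Real.exp_pos _).le)] at h1
  exact (ENNReal.ofReal_le_ofReal_iff (by (clear A B hA hB hC iA iB iC h h1; positivity))).1 h1

omit [FiniteDimensional ℝ E] [MeasurableSpace E] [BorelSpace E] in
/-- The directional variation bound behind the Poincare inequality. -/
lemma sup_bound {m : ℝ} (hm : 0 < m) {f : E → ℝ} {g : E → E}
    (hf : ∀ x, HasFDerivAt f (innerSL ℝ (g x)) x) {L : ℝ} (hL : ∀ x, ‖g x‖ ≤ L)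
    {ε δ : ℝ} (hε : 0 < ε) (hu : ∀ x y, ‖x - y‖ ≤ δ → ‖g x - g y‖ ≤ ε)
    {t : ℝ} (ht : 0 < t) (htδ : 4 * (t * L) ≤ m * δ) (x y : E) :
    t * (f x - f y) - m / 4 * ‖x - y‖ ^ 2
      ≤ t ^ 2 * (‖g ((2 : ℝ)⁻¹ • (x + y))‖ + ε) ^ 2 / m := by
  set z := (2 : ℝ)⁻¹ • (x + y) with hz
  have hr := norm_nonneg (x - y)
  have hg0 := norm_nonneg (g z)
  have hL0 : 0 ≤ L := (norm_nonneg _).trans (hL x)
  by_cases hxy : ‖x - y‖ ≤ δ
  · have h1 : f x - f y ≤ (‖g z‖ + ε) * ‖x - y‖ := by
      have h2 : ‖f x - f y‖ ≤ (‖g z‖ + ε) * ‖x - y‖ := by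
        refine Convex.norm_image_sub_le_of_norm_hasFDerivWithin_le (𝕜 := ℝ) (s := segment ℝ y x)
          (f' := fun w => innerSL ℝ (g w)) (fun w _ => (hf w).hasFDerivWithinAt) ?_
          (convex_segment y x) (left_mem_segment ℝ y x) (right_mem_segment ℝ y x)
        intro w hw
        rw [innerSL_apply_norm]
        obtain ⟨a, b, ha, hb, hab, rfl⟩ := hw
        have h3 : ‖(a • y + b • x) - z‖ ≤ δ := by
          have : (a • y + b • x) - z = ((b - 1 / 2 : ℝ)) • (x - y) := by
            rw [hz]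
            have ha' : a = 1 - b := by linarith only [hab]
            subst ha'
            module
          rw [this, norm_smul]
          have hb1 : |b - 1 / 2| ≤ 1 := by rw [abs_le]; constructor <;> (first | linarith only [hb] | linarith only [hab, ha])
          calc ‖(b - 1 / 2 : ℝ)‖ * ‖x - y‖ ≤ 1 * ‖x - y‖ := by
                gcongr
                exact hb1
            _ ≤ δ := by linarith only [hxy]
        calc ‖g (a • y + b • x)‖ = ‖g z + (g (a • y + b • x) - g z)‖ := by congr 1; abel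
          _ ≤ ‖g z‖ + ‖g (a • y + b • x) - g z‖ := norm_add_le _ _
          _ ≤ ‖g z‖ + ε := by gcongr; exact hu _ _ h3
      exact (le_abs_self _).trans h2
    have h4 : t * (f x - f y) ≤ t * ((‖g z‖ + ε) * ‖x - y‖) := by (clear * - h1 ht; gcongr)
    have h5 : 0 ≤ (t * (‖g z‖ + ε) - m / 2 * ‖x - y‖) ^ 2 := sq_nonneg _
    rw [le_div_iff₀ hm]
    linarith only [mul_nonneg (le_of_lt hm) (sub_nonneg.2 h4), h5]
  · push Not at hxy
    have h1 : f x - f y ≤ L * ‖x - y‖ := by
      have h2 : ‖f x - f y‖ ≤ L * ‖x - y‖ := by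
        refine Convex.norm_image_sub_le_of_norm_hasFDerivWithin_le (𝕜 := ℝ) (s := univ)
          (f' := fun w => innerSL ℝ (g w)) (fun w _ => (hf w).hasFDerivWithinAt) ?_
          convex_univ (mem_univ _) (mem_univ _)
        intro w _
        rw [innerSL_apply_norm]
        exact hL w
      exact (le_abs_self _).trans h2
    have h4 : t * (f x - f y) ≤ t * (L * ‖x - y‖) := by (clear * - h1 ht; gcongr)
    have h5 : 0 ≤ t ^ 2 * (‖g z‖ + ε) ^ 2 / m := by (clear * - ht hε hm; positivity)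
    have h6 : t * L ≤ m / 4 * ‖x - y‖ := by linarith only [mul_pos hm (sub_pos.2 hxy), htδ]
    have h7 : t * (L * ‖x - y‖) ≤ m / 4 * ‖x - y‖ ^ 2 := by
      calc t * (L * ‖x - y‖) = (t * L) * ‖x - y‖ := by ring
        _ ≤ (m / 4 * ‖x - y‖) * ‖x - y‖ := by (clear * - h6; gcongr)
        _ = m / 4 * ‖x - y‖ ^ 2 := by ring
    linarith only [h5, h4, h7]

lemma gibbs_exp {U : E → ℝ} (φ : E → ℝ) :
    ∫ x, Real.exp (φ x) ∂(gibbs U)
      = (∫ x, Real.exp (-U x))⁻¹ * ∫ x, Real.exp (φ x - U x) := by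
  rw [gibbs_integral]
  simp only [smul_eq_mul]
  congr 1
  refine integral_congr_ae (Eventually.of_forall fun x => ?_)
  simp only
  rw [← Real.exp_add]
  congr 1
  ring

/-- Prekopa-Leindler for exponential moments under a Gibbs law. -/
lemma gibbs_pl {U : E → ℝ} {m : ℝ} (hU : Adm U)
    (hc : ∀ x y, U ((2 : ℝ)⁻¹ • (x + y)) ≤ (U x + U y) / 2 - m / 8 * ‖x - y‖ ^ 2)
    {φ ψ : E → ℝ} (cφ : Continuous φ) (cψ : Continuous ψ)
    (iφ : Integrable (fun x => Real.exp (φ x - U x)) (volume : Measure E))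
    (iφ' : Integrable (fun x => Real.exp (-φ x - U x)) (volume : Measure E))
    (iψ : Integrable (fun x => Real.exp (ψ x - U x)) (volume : Measure E))
    (h : ∀ x y, φ x - φ y - m / 4 * ‖x - y‖ ^ 2 ≤ 2 * ψ ((2 : ℝ)⁻¹ • (x + y))) :
    (∫ x, Real.exp (φ x) ∂(gibbs U)) * (∫ x, Real.exp (-φ x) ∂(gibbs U))
      ≤ (∫ x, Real.exp (ψ x) ∂(gibbs U)) ^ 2 := by
  have cU := hU.cont
  have h1 := pl_exp_real (A := fun x => φ x - U x) (B := fun x => -φ x - U x)
    (C := fun x => ψ x - U x) (by fun_prop) (by fun_prop) (by fun_prop) iφ iφ' iψ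
    (fun x y => by have := hc x y; have := h x y; (clear hU cφ cψ iφ iφ' iψ cU; linarith))
  rw [gibbs_exp, gibbs_exp (fun x => -φ x), gibbs_exp]
  have hZ := hU.integral_exp_pos
  have hZ' : 0 ≤ ((∫ x, Real.exp (-U x))⁻¹) ^ 2 := by (clear m hc φ ψ cφ cψ iφ iφ' iψ h cU h1; positivity)
  calc _ = ((∫ x, Real.exp (-U x))⁻¹) ^ 2 *
        ((∫ x, Real.exp (φ x - U x)) * (∫ x, Real.exp (-φ x - U x))) := by ring
    _ ≤ ((∫ x, Real.exp (-U x))⁻¹) ^ 2 * (∫ x, Real.exp (ψ x - U x)) ^ 2 := by gcongr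
    _ = _ := by ring

lemma real_lim {A B D c c' t0 : ℝ} (ht0 : 0 < t0)
    (h : ∀ t, 0 < t → t ≤ t0 → (1 + t * A + t ^ 2 * B / 2 - c * t ^ 3)
      * (1 - t * A + t ^ 2 * B / 2 - c * t ^ 3) ≤ (1 + t ^ 2 * D + c' * t ^ 4) ^ 2) :
    B - A ^ 2 ≤ 2 * D := by
  have h1 : ∀ t ∈ Ioc 0 t0, 0 ≤ 2 * D - B + A ^ 2 + 2 * c' * t ^ 2 + t ^ 2 * (D + c' * t ^ 2) ^ 2
      + 2 * c * t - t ^ 2 * (B / 2 - c * t) ^ 2 := by
    intro t ht
    have h2 := h t ht.1 ht.2
    have h3 : 0 ≤ t ^ 2 * (2 * D - B + A ^ 2 + 2 * c' * t ^ 2 + t ^ 2 * (D + c' * t ^ 2) ^ 2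
      + 2 * c * t - t ^ 2 * (B / 2 - c * t) ^ 2) := by
      linarith only [h2]
    exact nonneg_of_mul_nonneg_right h3 (by have := ht.1; positivity)
  have h4 : Tendsto (fun t : ℝ => 2 * D - B + A ^ 2 + 2 * c' * t ^ 2
      + t ^ 2 * (D + c' * t ^ 2) ^ 2 + 2 * c * t - t ^ 2 * (B / 2 - c * t) ^ 2) (𝓝[>] 0)
      (𝓝 (2 * D - B + A ^ 2)) := by
    have h5 : Continuous (fun t : ℝ => 2 * D - B + A ^ 2 + 2 * c' * t ^ 2
      + t ^ 2 * (D + c' * t ^ 2) ^ 2 + 2 * c * t - t ^ 2 * (B / 2 - c * t) ^ 2) := by fun_prop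
    have h6 := (h5.tendsto 0).mono_left (nhdsWithin_le_nhds (s := Ioi (0 : ℝ)))
    simpa only [ne_eq, OfNat.ofNat_ne_zero, not_false_eq_true, zero_pow, mul_zero, add_zero, zero_mul,     sub_zero] using h6
  have h7 : 0 ≤ 2 * D - B + A ^ 2 := by
    refine ge_of_tendsto h4 ?_
    filter_upwards [Ioc_mem_nhdsGT ht0] with t ht using h1 t ht
  linarith only [h7]

lemma exp_lower {u : ℝ} (hu : |u| ≤ 1) : 1 + u + u ^ 2 / 2 - |u| ^ 3 ≤ Real.exp u := by
  have h := Real.exp_bound hu (n := 3) (by norm_num)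
  simp only [Finset.sum_range_succ, Finset.range_one, Finset.sum_singleton, pow_zero, Nat.factorial, Nat.cast_one, ne_eq, one_ne_zero, not_false_eq_true, div_self, pow_one, Nat.succ_eq_add_one, zero_add, mul_one, div_one, Nat.reduceAdd, Nat.cast_ofNat, Nat.reduceMul] at h
  have h2 := (abs_le.1 h).1
  have h3 : (0 : ℝ) ≤ |u| ^ 3 := by positivity
  norm_num at h2 ⊢
  linarith only [h3, h2]

lemma exp_upper {u : ℝ} (h0 : 0 ≤ u) (hu : u ≤ 1) : Real.exp u ≤ 1 + u + u ^ 2 := by
  have h := Real.abs_exp_sub_one_sub_id_le (x := u) (by rw [abs_of_nonneg h0]; exact hu)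
  have h2 := (abs_le.1 h).2
  linarith only [h2]

/-- Poincare for compactly supported functions. -/
lemma poincare_cs {U : E → ℝ} {m : ℝ} (hm : 0 < m) (hU : Adm U)
    (hc : ∀ x y, U ((2 : ℝ)⁻¹ • (x + y)) ≤ (U x + U y) / 2 - m / 8 * ‖x - y‖ ^ 2)
    {f : E → ℝ} {g : E → E} (hf : ∀ x, HasFDerivAt f (innerSL ℝ (g x)) x) (hg : Continuous g)
    (hcs : HasCompactSupport f) :
    (∫ x, f x ^ 2 ∂(gibbs U)) - (∫ x, f x ∂(gibbs U)) ^ 2
      ≤ (1 / m) * ∫ x, ‖g x‖ ^ 2 ∂(gibbs U) := by
  have := hU.isProb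
  have cf : Continuous f := continuous_iff_continuousAt.2 fun x => (hf x).continuousAt
  have hgcs : HasCompactSupport g := by
    refine (hcs.fderiv ℝ).mono fun x hx => ?_
    rw [Function.mem_support] at hx ⊢
    rw [(hf x).fderiv]
    intro h0
    apply hx
    rw [← norm_eq_zero, ← innerSL_apply_norm (𝕜 := ℝ), h0, norm_zero]
  obtain ⟨M0, hM0⟩ := cf.bounded_above_of_compact_support hcs
  obtain ⟨L0, hL0⟩ := hg.bounded_above_of_compact_support hgcs
  set M := max M0 1
  set L := max L0 1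
  have hM : ∀ x, |f x| ≤ M := fun x => (hM0 x).trans (le_max_left _ _)
  have hL : ∀ x, ‖g x‖ ≤ L := fun x => (hL0 x).trans (le_max_left _ _)
  have hM1 : 1 ≤ M := le_max_right _ _
  have hL1 : 1 ≤ L := le_max_right _ _
  have bInt : ∀ {φ : E → ℝ} (C : ℝ), Continuous φ → (∀ x, |φ x| ≤ C) →
      Integrable φ (gibbs U) := fun C cφ hφ =>
    Integrable.of_bound cφ.aestronglyMeasurable C (Eventually.of_forall hφ)
  have bIntE : ∀ {φ : E → ℝ} (C : ℝ), Continuous φ → (∀ x, φ x ≤ C) →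
      Integrable (fun x => Real.exp (φ x - U x)) (volume : Measure E) := fun C cφ hφ => by
    have cU := hU.cont
    refine (hU.integrable_exp.const_mul (Real.exp C)).mono (by (clear m hm hc f g hf hg hcs cf hgcs M0 hM0 L0 hL0 M L hM hL hM1 hL1 bInt C hφ; fun_prop))
      (Eventually.of_forall fun x => ?_)
    rw [Real.norm_of_nonneg (Real.exp_pos _).le, Real.norm_of_nonneg (by positivity),
      ← Real.exp_add]
    exact Real.exp_le_exp.2 (by have := hφ x; linarith only [this])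
  -- fixed epsilon
  have key : ∀ ε : ℝ, 0 < ε → ε ≤ 1 → (∫ x, f x ^ 2 ∂(gibbs U)) - (∫ x, f x ∂(gibbs U)) ^ 2
      ≤ 2 * ∫ x, (‖g x‖ + ε) ^ 2 / (2 * m) ∂(gibbs U) := by
    intro ε hε hε1
    obtain ⟨δ, hδ, hu⟩ := Metric.uniformContinuous_iff.1
      (hgcs.uniformContinuous_of_continuous hg) ε hε
    have hu' : ∀ x y, ‖x - y‖ ≤ δ / 2 → ‖g x - g y‖ ≤ ε := fun x y hxy => by
      have := hu (a := x) (b := y) (by rw [dist_eq_norm]; linarith only [hxy, hδ])
      rw [dist_eq_norm] at this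
      exact this.le
    set Q : ℝ := (L + 1) ^ 2 / (2 * m) with hQ
    have hQ0 : 0 < Q := by (clear * - hm; positivity)
    set q : E → ℝ := fun x => (‖g x‖ + ε) ^ 2 / (2 * m) with hq
    have cq : Continuous q := by fun_prop
    have hq0 : ∀ x, 0 ≤ q x := fun x => by (clear * - hε hm; positivity)
    have hqQ : ∀ x, q x ≤ Q := fun x => by
      have := hL x
      simp only [hq, hQ]
      (clear * - hε this hε1 hm; gcongr)
    set t0 : ℝ := min (min (1 / (4 * M)) (m * (δ / 2) / (4 * L))) (min 1 (1 / Q)) with ht0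
    have ht0' : 0 < t0 := by (clear * - hm hδ; positivity)
    refine real_lim (t0 := t0) (c := M ^ 3) (c' := Q ^ 2) ht0' fun t ht htt => ?_
    have e1 : t * M ≤ 1 / 4 := by
      have : t ≤ 1 / (4 * M) := htt.trans ((min_le_left _ _).trans (min_le_left _ _))
      rw [le_div_iff₀ (by (clear * -; positivity))] at this
      linarith only [this]
    have e2 : 4 * (t * L) ≤ m * (δ / 2) := by
      have : t ≤ m * (δ / 2) / (4 * L) := htt.trans ((min_le_left _ _).trans (min_le_right _ _))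
      rw [le_div_iff₀ (by positivity)] at this
      linarith only [this]
    have e3 : t ≤ 1 := htt.trans ((min_le_right _ _).trans (min_le_left _ _))
    have e4 : t * Q ≤ 1 := by
      have : t ≤ 1 / Q := htt.trans ((min_le_right _ _).trans (min_le_right _ _))
      rwa [le_div_iff₀ (by (clear * - hm; positivity))] at this
    have e5 : t ^ 2 * Q ≤ 1 := by (refine le_of_not_gt fun hng_ => ?_; linarith only [mul_nonneg (sub_nonneg.2 e3) (le_of_lt (sub_pos.2 hng_)), mul_pos ht (sub_pos.2 hng_), mul_nonneg (le_of_lt ht) (sub_nonneg.2 e4), mul_nonneg (le_of_lt ht) (sub_nonneg.2 e3), mul_nonneg (sub_nonneg.2 e3) (sub_nonneg.2 e3)])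
    have hpl := gibbs_pl (U := U) (m := m) (φ := fun x => t * f x) (ψ := fun x => t ^ 2 * q x) hU hc
      (by fun_prop) (by fun_prop)
      (bIntE (t * M) (by fun_prop) fun x => by
        have := (abs_le.1 (hM x)).2; (clear * - this ht; gcongr))
      (bIntE (t * M) (by fun_prop) fun x => by
        have := (abs_le.1 (hM x)).1; (refine le_of_not_gt fun hng_ => ?_; linarith only [mul_nonneg (sub_nonneg.2 e3) (le_of_lt (sub_pos.2 hng_)), mul_pos ht (sub_pos.2 hng_), mul_nonneg (le_of_lt ht) (sub_nonneg.2 this)]))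
      (bIntE (t ^ 2 * Q) (by fun_prop) fun x => by
        have := hqQ x; (clear * - this ht; gcongr))
      (fun x y => by
        have := sup_bound hm hf hL hε hu' ht e2 x y
        calc t * f x - t * f y - m / 4 * ‖x - y‖ ^ 2
            = t * (f x - f y) - m / 4 * ‖x - y‖ ^ 2 := by ring
          _ ≤ _ := this
          _ = _ := by simp only [hq]; field_simp)
    -- expansions
    have hA : |∫ x, f x ∂(gibbs U)| ≤ M := by
      have := norm_integral_le_of_norm_le_const (μ := gibbs U) (f := f) (C := M)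
        (Eventually.of_forall hM)
      simpa only [ge_iff_le, Real.norm_eq_abs, probReal_univ, mul_one] using this
    have hB0 : 0 ≤ ∫ x, f x ^ 2 ∂(gibbs U) := integral_nonneg fun x => sq_nonneg _
    have lowE : ∀ σ : ℝ, |σ| = 1 → 1 + t * (σ * ∫ x, f x ∂(gibbs U))
        + t ^ 2 * (∫ x, f x ^ 2 ∂(gibbs U)) / 2 - M ^ 3 * t ^ 3
        ≤ ∫ x, Real.exp (σ * (t * f x)) ∂(gibbs U) := by
      intro σ hσ
      have hσ2 : σ ^ 2 = 1 := by rw [← sq_abs, hσ, one_pow]
      have i1 : Integrable f (gibbs U) := bInt M cf hM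
      have i2 : Integrable (fun x => f x ^ 2) (gibbs U) := bInt (M ^ 2) (by fun_prop) fun x => by
        rw [abs_pow]; exact pow_le_pow_left₀ (abs_nonneg _) (hM x) 2
      have hpt : ∀ x, 1 + t * (σ * f x) + t ^ 2 * f x ^ 2 / 2 - M ^ 3 * t ^ 3
          ≤ Real.exp (σ * (t * f x)) := by
        intro x
        have habs : |σ * (t * f x)| = t * |f x| := by
          rw [abs_mul, abs_mul, hσ, one_mul, abs_of_pos ht]
        have h1 : |σ * (t * f x)| ≤ t * M := by rw [habs]; gcongr; exact hM x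
        have h2 := exp_lower (h1.trans (by linarith only [e1]))
        have h3 : |σ * (t * f x)| ^ 3 ≤ (t * M) ^ 3 := pow_le_pow_left₀ (abs_nonneg _) h1 3
        have h4 : (σ * (t * f x)) ^ 2 = t ^ 2 * f x ^ 2 := by
          calc _ = σ ^ 2 * (t ^ 2 * f x ^ 2) := by ring
            _ = _ := by rw [hσ2, one_mul]
        rw [h4] at h2
        linarith only [h2, h3]
      have hint := integral_mono (μ := gibbs U)
        (f := fun x => 1 + t * (σ * f x) + t ^ 2 * f x ^ 2 / 2 - M ^ 3 * t ^ 3)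
        (g := fun x => Real.exp (σ * (t * f x))) ?_ ?_ hpt
      · refine le_trans (le_of_eq ?_) hint
        rw [integral_sub, integral_add, integral_add]
        · simp only [integral_const, probReal_univ, smul_eq_mul, one_mul,
            integral_const_mul, integral_div]
        · exact integrable_const _
        · exact (i1.const_mul σ).const_mul t
        · exact (integrable_const _).add ((i1.const_mul σ).const_mul t)
        · exact (i2.const_mul _).div_const 2
        · exact ((integrable_const _).add ((i1.const_mul σ).const_mul t)).add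
            ((i2.const_mul _).div_const 2)
        · exact integrable_const _
      · exact (((integrable_const _).add ((i1.const_mul σ).const_mul t)).add
            ((i2.const_mul _).div_const 2)).sub (integrable_const _)
      · refine bInt (Real.exp (t * M)) (by fun_prop) fun x => ?_
        rw [abs_of_pos (Real.exp_pos _)]
        refine Real.exp_le_exp.2 ((le_abs_self _).trans ?_)
        rw [abs_mul, abs_mul, hσ, one_mul, abs_of_pos ht]
        gcongr
        exact hM x
    have upE : ∫ x, Real.exp (t ^ 2 * q x) ∂(gibbs U)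
        ≤ 1 + t ^ 2 * (∫ x, q x ∂(gibbs U)) + Q ^ 2 * t ^ 4 := by
      have i1 : Integrable q (gibbs U) := bInt Q cq fun x => by
        rw [abs_of_nonneg (hq0 x)]; exact hqQ x
      have hpt : ∀ x, Real.exp (t ^ 2 * q x) ≤ 1 + t ^ 2 * q x + Q ^ 2 * t ^ 4 := by
        intro x
        have h1 : 0 ≤ t ^ 2 * q x := mul_nonneg (sq_nonneg _) (hq0 x)
        have h2 : t ^ 2 * q x ≤ t ^ 2 * Q := by have := hqQ x; (clear * - this ht; gcongr)
        have h3 := exp_upper h1 (h2.trans e5)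
        have h4 : (t ^ 2 * q x) ^ 2 ≤ (t ^ 2 * Q) ^ 2 := pow_le_pow_left₀ h1 h2 2
        linarith only [h3, h4]
      have hint := integral_mono (μ := gibbs U) (f := fun x => Real.exp (t ^ 2 * q x))
        (g := fun x => 1 + t ^ 2 * q x + Q ^ 2 * t ^ 4) ?_ ?_ hpt
      · refine hint.trans (le_of_eq ?_)
        rw [integral_add, integral_add]
        · simp only [integral_const, probReal_univ, smul_eq_mul, one_mul,
            integral_const_mul]
        · exact integrable_const _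
        · exact i1.const_mul _
        · exact (integrable_const _).add (i1.const_mul _)
        · exact integrable_const _
      · refine bInt (Real.exp (t ^ 2 * Q)) (by fun_prop) fun x => ?_
        rw [abs_of_pos (Real.exp_pos _)]
        refine Real.exp_le_exp.2 ?_
        have := hqQ x
        (clear * - this ht; gcongr)
      · exact ((integrable_const _).add (i1.const_mul _)).add (integrable_const _)
    have l1 := lowE 1 (by simp)
    have l2 := lowE (-1) (by simp)
    simp only [one_mul, neg_mul] at l1 l2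
    have hAl := (abs_le.1 hA).1
    have hAu := (abs_le.1 hA).2
    have hM3 : M ^ 3 * t ^ 3 ≤ 1 / 4 := by
      have h1 : (t * M) ^ 3 ≤ (1 / 4) ^ 3 := pow_le_pow_left₀ (by (clear * - ht; positivity)) e1 3
      calc M ^ 3 * t ^ 3 = (t * M) ^ 3 := by ring
        _ ≤ (1 / 4) ^ 3 := h1
        _ ≤ 1 / 4 := by norm_num
    have hb : 0 ≤ t ^ 2 * (∫ x, f x ^ 2 ∂(gibbs U)) / 2 := by (clear m hm hc g hf hg hcs cf hgcs M0 hM0 L0 hL0 M L hM hL hM1 hL1 bInt bIntE ε hε hε1 δ hδ hu hu' Q hQ hQ0 q hq cq hq0 hqQ t0 ht0 ht0' htt e1 e2 e3 e4 e5 hpl hA hB0 lowE upE l1 l2 hAl hAu hM3; positivity)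
    have p2 : 0 ≤ 1 - t * (∫ x, f x ∂(gibbs U)) + t ^ 2 * (∫ x, f x ^ 2 ∂(gibbs U)) / 2
        - M ^ 3 * t ^ 3 := by (refine le_of_not_gt fun hng_ => ?_; (clear hm hc g hf hg hcs cf hgcs hL0 hL hM1 hL1 bInt bIntE ε hε hε1 hδ hu hu' hQ hQ0 q hq cq hq0 hqQ ht0 ht0' e2 e4 e5 hpl hB0 lowE upE l1 l2 hAl; linarith only [mul_nonneg (sub_nonneg.2 e3) (le_of_lt (sub_pos.2 hng_)), mul_pos ht (sub_pos.2 hng_), mul_nonneg (le_of_lt ht) (sub_nonneg.2 hAu), mul_nonneg (le_of_lt ht) (sub_nonneg.2 hM3), mul_nonneg (le_of_lt ht) hb, mul_nonneg (le_of_lt ht) (sub_nonneg.2 e1), mul_nonneg (sub_nonneg.2 e1) (sub_nonneg.2 e3), mul_nonneg (sub_nonneg.2 e3) (sub_nonneg.2 hM3), mul_nonneg (sub_nonneg.2 e3) hb]))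
    have p1 : 0 ≤ 1 + t * (∫ x, f x ∂(gibbs U)) + t ^ 2 * (∫ x, f x ^ 2 ∂(gibbs U)) / 2
        - M ^ 3 * t ^ 3 := by (refine le_of_not_gt fun hng_ => ?_; linarith only [mul_nonneg (sub_nonneg.2 e3) (le_of_lt (sub_pos.2 hng_)), mul_pos ht (sub_pos.2 hng_), mul_nonneg (le_of_lt ht) (sub_nonneg.2 hAl), mul_nonneg (le_of_lt ht) (sub_nonneg.2 hM3), mul_nonneg (le_of_lt ht) hb, mul_nonneg (le_of_lt ht) (sub_nonneg.2 e1), mul_nonneg (sub_nonneg.2 e1) (sub_nonneg.2 e3), mul_nonneg (sub_nonneg.2 e3) (sub_nonneg.2 hM3), mul_nonneg (sub_nonneg.2 e3) hb])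
    calc _ ≤ (∫ x, Real.exp (t * f x) ∂(gibbs U)) * (∫ x, Real.exp (-(t * f x)) ∂(gibbs U)) := by
          refine mul_le_mul l1 ?_ p2 (integral_nonneg fun x => (Real.exp_pos _).le)
          refine le_trans (le_of_eq ?_) l2
          ring
      _ ≤ _ := hpl
      _ ≤ _ := pow_le_pow_left₀ (integral_nonneg fun x => (Real.exp_pos _).le) upE 2
  refine le_of_forall_pos_le_add fun η hη => ?_
  set ε : ℝ := min 1 (η * m / (2 * L + 1)) with hε
  have hε0 : 0 < ε := by (clear * - hη hm; positivity)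
  refine (key ε hε0 (min_le_left _ _)).trans ?_
  have i1 : Integrable (fun x => ‖g x‖ ^ 2) (gibbs U) := bInt (L ^ 2) (by fun_prop) fun x => by
    rw [abs_of_nonneg (by (clear * -; positivity))]; exact pow_le_pow_left₀ (norm_nonneg _) (hL x) 2
  have h1 : ∫ x, (‖g x‖ + ε) ^ 2 / (2 * m) ∂(gibbs U)
      ≤ ∫ x, (‖g x‖ ^ 2 + ε * (2 * L + 1)) / (2 * m) ∂(gibbs U) := by
    refine integral_mono ?_ ?_ fun x => ?_
    · exact bInt ((L + 1) ^ 2 / (2 * m)) (by fun_prop) fun x => by
        rw [abs_of_nonneg (by (clear * - hη hm; positivity))]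
        have := hL x
        have := min_le_left 1 (η * m / (2 * L + 1))
        (clear hc f hf hg hcs cf hgcs M0 hM0 M hM hM1 hL1 bInt bIntE key hε hε0 i1; gcongr)
    · exact (i1.add (integrable_const _)).div_const _
    · simp only
      have h2 := hL x
      have h3 : ε ≤ 1 := min_le_left _ _
      have h4 : 0 ≤ ‖g x‖ := norm_nonneg _
      gcongr
      (refine le_of_not_gt fun hng_ => ?_; linarith only [mul_pos hε0 (sub_pos.2 hng_), mul_nonneg (sub_nonneg.2 h3) (le_of_lt (sub_pos.2 hng_)), mul_nonneg (le_of_lt hε0) (sub_nonneg.2 h2), mul_nonneg (le_of_lt hε0) (sub_nonneg.2 h3)])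
  have h5 : ∫ x, (‖g x‖ ^ 2 + ε * (2 * L + 1)) / (2 * m) ∂(gibbs U)
      = (∫ x, ‖g x‖ ^ 2 ∂(gibbs U)) / (2 * m) + ε * (2 * L + 1) / (2 * m) := by
    rw [integral_div, integral_add i1 (integrable_const _)]
    simp only [integral_const, probReal_univ, smul_eq_mul, one_mul, add_div]
  have h6 : ε * (2 * L + 1) / m ≤ η := by
    have h7 : ε ≤ η * m / (2 * L + 1) := min_le_right _ _
    rw [le_div_iff₀ (by (clear * -; positivity))] at h7
    rw [div_le_iff₀ hm]
    exact h7
  calc 2 * ∫ x, (‖g x‖ + ε) ^ 2 / (2 * m) ∂(gibbs U)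
      ≤ 2 * ((∫ x, ‖g x‖ ^ 2 ∂(gibbs U)) / (2 * m) + ε * (2 * L + 1) / (2 * m)) := by
        rw [← h5]; gcongr
    _ = 1 / m * (∫ x, ‖g x‖ ^ 2 ∂(gibbs U)) + ε * (2 * L + 1) / m := by (clear hc f hf hg hcs cf hgcs M0 hM0 hL0 M hM hL hM1 bInt bIntE key hε i1 h1 h5 h6; field_simp)
    _ ≤ _ := by (clear hc f hf hg hcs cf hgcs M0 hM0 hL0 M hM hL hM1 hL1 bInt bIntE key hη hε hε0 i1 h1 h5; gcongr)

end Vale.Agent.P347
end

section

/-! Task B (P347): Poincare inequality and Gaussian concentration from Prekopa-Leindler. -/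

open MeasureTheory Filter Module
open scoped ENNReal NNReal

namespace Vale.Agent.P347

variable {E : Type*} [NormedAddCommGroup E] [InnerProductSpace ℝ E] [FiniteDimensional ℝ E]
  [MeasurableSpace E] [BorelSpace E]

/-- Midpoint strong convexity with parameter `m`. -/
def MidSC (m : ℝ) (U : E → ℝ) : Prop :=
  ∀ x y, U ((2 : ℝ)⁻¹ • (x + y)) ≤ (U x + U y) / 2 - m / 8 * ‖x - y‖ ^ 2

/-- Poincare inequality for `m`-strongly convex potentials. -/
theorem poincare {U : E → ℝ} {m : ℝ} (hm : 0 < m) (hU : Adm U) (hc : MidSC m U)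
    {f : E → ℝ} {g : E → E} (hf : ∀ x, HasFDerivAt f (innerSL ℝ (g x)) x) (hg : Continuous g)
    (pf : PG f) (pg : PG g) :
    (∫ x, f x ^ 2 ∂(gibbs U)) - (∫ x, f x ∂(gibbs U)) ^ 2
      ≤ (1 / m) * ∫ x, ‖g x‖ ^ 2 ∂(gibbs U) := by
  have := hU.isProb
  have cf : Continuous f := continuous_iff_continuousAt.2 fun x => (hf x).continuousAt
  -- a smooth cutoff
  let b : ContDiffBump (0 : E) := ⟨1, 2, one_pos, one_lt_two⟩
  set u : E → ℝ := fun x => b x with hu
  have cu : ContDiff ℝ 1 u := b.contDiff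
  have hu1 : ∀ x, |u x| ≤ 1 := fun x => by
    rw [abs_of_nonneg b.nonneg]; exact b.le_one
  have hu0 : u 0 = 1 := b.one_of_mem_closedBall (by simp [b])
  have hucs : HasCompactSupport u := b.hasCompactSupport
  set du : E → E := fun x => (InnerProductSpace.toDual ℝ E).symm (fderiv ℝ u x) with hdu
  have cdu : Continuous du :=
    (InnerProductSpace.toDual ℝ E).symm.continuous.comp (cu.continuous_fderiv one_ne_zero)
  have hdu' : ∀ x, HasFDerivAt u (innerSL ℝ (du x)) x := fun x => by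
    have h1 : innerSL ℝ (du x) = fderiv ℝ u x := by
      ext v
      simp only [hdu, innerSL_apply_apply]
      exact InnerProductSpace.toDual_symm_apply
    rw [h1]
    exact (cu.differentiable one_ne_zero x).hasFDerivAt
  have hducs : HasCompactSupport du := (hucs.fderiv ℝ).comp_left (map_zero _)
  obtain ⟨C0, hC0⟩ := cdu.bounded_above_of_compact_support hducs
  have hC00 : 0 ≤ C0 := (norm_nonneg _).trans (hC0 0)
  -- truncations
  set r : ℕ → ℝ := fun k => ((k : ℝ) + 1)⁻¹ with hr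
  have hr0 : ∀ k, 0 < r k := fun k => by simp only [hr]; positivity
  have hr1 : ∀ k, r k ≤ 1 := fun k => by
    simp only [hr]
    exact inv_le_one_of_one_le₀ (by have : (0:ℝ) ≤ k := Nat.cast_nonneg k; linarith only [])
  have hrlim : Tendsto r atTop (nhds 0) := by
    have := tendsto_one_div_add_atTop_nhds_zero_nat (𝕜 := ℝ)
    simpa [hr, one_div] using this
  set fk : ℕ → E → ℝ := fun k x => u (r k • x) * f x with hfk
  set gk : ℕ → E → E := fun k x => u (r k • x) • g x + (f x * r k) • du (r k • x) with hgk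
  have hder : ∀ k x, HasFDerivAt (fk k) (innerSL ℝ (gk k x)) x := by
    intro k x
    have h1 : HasFDerivAt (fun x : E => u (r k • x))
        ((innerSL ℝ (du (r k • x))).comp (r k • ContinuousLinearMap.id ℝ E)) x :=
      (hdu' (r k • x)).comp x ((hasFDerivAt_id x).const_smul (r k))
    have h2 := h1.mul (hf x)
    refine h2.congr_fderiv ?_
    ext v
    simp [hgk, inner_add_left, inner_smul_left, inner_smul_right]
    ring
  have hcs : ∀ k, HasCompactSupport (fk k) := by
    intro k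
    have h1 : HasCompactSupport (fun x : E => u (r k • x)) :=
      hucs.comp_homeomorph (Homeomorph.smulOfNeZero (r k) (hr0 k).ne')
    exact h1.mul_right
  have cgk : ∀ k, Continuous (gk k) := fun k => by
    have : Continuous u := cu.continuous
    fun_prop
  have key : ∀ k, (∫ x, fk k x ^ 2 ∂(gibbs U)) - (∫ x, fk k x ∂(gibbs U)) ^ 2
      ≤ (1 / m) * ∫ x, ‖gk k x‖ ^ 2 ∂(gibbs U) := fun k =>
    poincare_cs hm hU hc (hder k) (cgk k) (hcs k)
  have cu' : Continuous u := cu.continuous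
  have hul : ∀ x, Tendsto (fun k => u (r k • x)) atTop (nhds 1) := fun x => by
    have h1 : Tendsto (fun k => r k • x) atTop (nhds ((0 : ℝ) • x)) := hrlim.smul_const x
    rw [zero_smul] at h1
    have := (cu'.tendsto 0).comp h1
    rwa [hu0] at this
  have hdul : ∀ x, Tendsto (fun k => du (r k • x)) atTop (nhds (du 0)) := fun x => by
    have h1 : Tendsto (fun k => r k • x) atTop (nhds ((0 : ℝ) • x)) := hrlim.smul_const x
    rw [zero_smul] at h1
    exact (cdu.tendsto 0).comp h1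
  have lf : ∀ x, Tendsto (fun k => fk k x) atTop (nhds (f x)) := fun x => by
    have := (hul x).mul_const (f x)
    simpa [hfk] using this
  have lg : ∀ x, Tendsto (fun k => gk k x) atTop (nhds (g x)) := fun x => by
    have h1 := (hul x).smul_const (g x)
    have h2 := ((hrlim.const_mul (f x)).smul (hdul x))
    have := h1.add h2
    simpa [hgk] using this
  have t1 : Tendsto (fun k => ∫ x, fk k x ^ 2 ∂(gibbs U)) atTop
      (nhds (∫ x, f x ^ 2 ∂(gibbs U))) := by
    refine tendsto_integral_of_dominated_convergence (fun x => f x ^ 2)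
      (fun k => by simp only [hfk]; fun_prop)
      (hU.integrable (pf.pow 2) (by fun_prop)) (fun k => Eventually.of_forall fun x => ?_)
      (Eventually.of_forall fun x => (lf x).pow 2)
    simp only [hfk]
    rw [Real.norm_of_nonneg (sq_nonneg _), mul_pow]
    have h1 : u (r k • x) ^ 2 ≤ 1 := by
      rw [← sq_abs]; exact pow_le_one₀ (abs_nonneg _) (hu1 _)
    linarith only [mul_nonneg (sub_nonneg.2 h1) (sq_nonneg (f x))]
  have t2 : Tendsto (fun k => ∫ x, fk k x ∂(gibbs U)) atTop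
      (nhds (∫ x, f x ∂(gibbs U))) := by
    refine tendsto_integral_of_dominated_convergence (fun x => ‖f x‖)
      (fun k => by simp only [hfk]; fun_prop)
      (hU.integrable pf.norm (by fun_prop)) (fun k => Eventually.of_forall fun x => ?_)
      (Eventually.of_forall fun x => lf x)
    simp only [hfk]
    rw [norm_mul]
    calc ‖u (r k • x)‖ * ‖f x‖ ≤ 1 * ‖f x‖ := by gcongr; exact hu1 _
      _ = ‖f x‖ := one_mul _
  have t3 : Tendsto (fun k => ∫ x, ‖gk k x‖ ^ 2 ∂(gibbs U)) atTop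
      (nhds (∫ x, ‖g x‖ ^ 2 ∂(gibbs U))) := by
    refine tendsto_integral_of_dominated_convergence (fun x => (‖g x‖ + ‖f x‖ * C0) ^ 2)
      (fun k => by have := cgk k; fun_prop)
      (hU.integrable ((pg.norm.add (pf.norm.mul (PG.const C0))).pow 2) (by fun_prop))
      (fun k => Eventually.of_forall fun x => ?_)
      (Eventually.of_forall fun x => ((lg x).norm).pow 2)
    rw [Real.norm_of_nonneg (by positivity)]
    refine pow_le_pow_left₀ (norm_nonneg _) ?_ 2
    simp only [hgk]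
    refine (norm_add_le _ _).trans (add_le_add ?_ ?_)
    · rw [norm_smul]
      calc ‖u (r k • x)‖ * ‖g x‖ ≤ 1 * ‖g x‖ := by gcongr; exact hu1 _
        _ = ‖g x‖ := one_mul _
    · rw [norm_smul, norm_mul, Real.norm_of_nonneg (hr0 k).le]
      calc ‖f x‖ * r k * ‖du (r k • x)‖ ≤ ‖f x‖ * 1 * C0 := by
            gcongr
            · exact hr1 k
            · exact hC0 _
        _ = ‖f x‖ * C0 := by ring
  exact le_of_tendsto_of_tendsto' (t1.sub (t2.pow 2)) (t3.const_mul _) key

/-- Exponential concentration of Lipschitz functions under a strongly log-concave law. -/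
theorem exp_lip {U : E → ℝ} {m : ℝ} (hm : 0 < m) (hU : Adm U) (hc : MidSC m U)
    {f : E → ℝ} {L : ℝ} (hf : ∀ x y, |f x - f y| ≤ L * ‖x - y‖) :
    ∫ x, Real.exp (f x - ∫ y, f y ∂(gibbs U)) ∂(gibbs U) ≤ Real.exp (L ^ 2 / m) := by
  have := hU.isProb
  have hL' : ∀ x y, |f x - f y| ≤ |L| * ‖x - y‖ := fun x y =>
    (hf x y).trans (by gcongr; exact le_abs_self L)
  have cf : Continuous f := by
    have : LipschitzWith (Real.toNNReal |L|) f := LipschitzWith.of_dist_le_mul fun x y => by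
      rw [Real.coe_toNNReal _ (abs_nonneg _), Real.dist_eq, dist_eq_norm]
      exact hL' x y
    exact this.continuous
  have pf : PG f := PG.of_lip (L := |L|) fun x y => hL' x y
  obtain ⟨a, ha, b, hab⟩ := hU.low
  have hfl : ∀ x, |f x| ≤ a / 2 * ‖x‖ ^ 2 + (|f 0| + L ^ 2 / (2 * a)) := fun x => by
    have h1 := hL' x 0
    rw [sub_zero] at h1
    have h2 : |f x| ≤ |f 0| + |L| * ‖x‖ := by
      calc |f x| = |f 0 + (f x - f 0)| := by congr 1; ring
        _ ≤ |f 0| + |f x - f 0| := abs_add_le _ _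
        _ ≤ _ := by linarith only [h1]
    have h3 : |L| * ‖x‖ ≤ a / 2 * ‖x‖ ^ 2 + L ^ 2 / (2 * a) := by
      have h4 : L ^ 2 / (2 * a) * (2 * a) = |L| ^ 2 := by rw [sq_abs]; field_simp
      have h5 := sq_nonneg (a * ‖x‖ - |L|)
      (refine le_of_not_gt fun hng_ => ?_; linarith only [mul_pos ha (sub_pos.2 hng_), h4, h5])
    linarith only [h3, h2]
  have cU := hU.cont
  have mkInt : ∀ φ : E → ℝ, Continuous φ → (∀ x, φ x ≤ a / 2 * ‖x‖ ^ 2 + (|f 0| + L ^ 2 / (2 * a)))
      → Integrable (fun x => Real.exp (φ x - U x)) (volume : Measure E) := fun φ cφ hφ => by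
    have hA : Adm (fun x => U x - φ x) := ⟨by fun_prop, a / 2, by positivity,
      b + (|f 0| + L ^ 2 / (2 * a)), fun x => by have := hφ x; have := hab x; linarith⟩
    have := hA.integrable_exp
    simpa [neg_sub] using this
  have i1 := mkInt f cf fun x => (le_abs_self _).trans (hfl x)
  have i2 := mkInt (fun x => -f x) (by fun_prop) fun x => (neg_le_abs _).trans (hfl x)
  have i3 : Integrable (fun x => Real.exp (L ^ 2 / (2 * m) - U x)) (volume : Measure E) := by
    have := hU.integrable_exp.const_mul (Real.exp (L ^ 2 / (2 * m)))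
    refine this.congr (Eventually.of_forall fun x => ?_)
    simp only
    rw [← Real.exp_add, sub_eq_add_neg]
  have hpl := gibbs_pl (m := m) hU hc (φ := f) (ψ := fun _ => L ^ 2 / (2 * m)) cf
    continuous_const i1 i2 i3 (fun x y => by
      have h1 := (le_abs_self _).trans (hf x y)
      have h2 : 2 * (L ^ 2 / (2 * m)) = L ^ 2 / m := by field_simp
      rw [h2, le_div_iff₀ hm]
      have h3 := sq_nonneg (m / 2 * ‖x - y‖ - L)
      linarith only [mul_nonneg (le_of_lt hm) (sub_nonneg.2 h1), h3])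
  have h1 : (∫ x, Real.exp (L ^ 2 / (2 * m)) ∂(gibbs U)) ^ 2 = Real.exp (L ^ 2 / m) := by
    rw [integral_const, probReal_univ, one_smul, ← Real.exp_nat_mul]
    congr 1
    push_cast
    field_simp
  rw [h1] at hpl
  have hint : ∀ φ : E → ℝ, Continuous φ → (∀ x, φ x ≤ a / 2 * ‖x‖ ^ 2 + (|f 0| + L ^ 2 / (2 * a)))
      → Integrable (fun x => Real.exp (φ x)) (gibbs U) := fun φ cφ hφ =>
    Adm.integrable_exp_mul ha cU hab cφ (by linarith only [ha] : a / 2 < a) hφ
  have j2 := hint (fun x => -f x) (by fun_prop) fun x => (neg_le_abs _).trans (hfl x)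
  have h2 : Real.exp (-∫ x, f x ∂(gibbs U)) ≤ ∫ x, Real.exp (-f x) ∂(gibbs U) := by
    have hi : Integrable (fun x => -f x) (gibbs U) := (hU.integrable pf (by fun_prop)).neg
    have := ConvexOn.map_integral_le (μ := gibbs U) convexOn_exp Real.continuous_exp.continuousOn
      isClosed_univ (f := fun x => -f x) (Eventually.of_forall fun x => Set.mem_univ _) hi j2
    rwa [integral_neg] at this
  have h3 : ∫ x, Real.exp (f x - ∫ y, f y ∂(gibbs U)) ∂(gibbs U)
      = (∫ x, Real.exp (f x) ∂(gibbs U)) * Real.exp (-∫ x, f x ∂(gibbs U)) := by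
    rw [← integral_mul_const]
    refine integral_congr_ae (Eventually.of_forall fun x => ?_)
    simp only
    rw [← Real.exp_add, sub_eq_add_neg]
  rw [h3]
  calc _ ≤ (∫ x, Real.exp (f x) ∂(gibbs U)) * ∫ x, Real.exp (-f x) ∂(gibbs U) := by
        gcongr
    _ ≤ _ := hpl

end Vale.Agent.P347
end

section

/-! Task C (P347): facts about the standard Gaussian measure `gam E`. -/

open MeasureTheory Filter Module
open scoped ENNReal NNReal

namespace Vale.Agent.P347

variable {E : Type*} [NormedAddCommGroup E] [InnerProductSpace ℝ E] [FiniteDimensional ℝ E]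
  [MeasurableSpace E] [BorelSpace E]

omit [FiniteDimensional ℝ E] [MeasurableSpace E] [BorelSpace E] in
theorem adm_sq {c : ℝ} (hc : 0 < c) (m : E) : Adm (fun x : E => ‖x - m‖ ^ 2 / (2 * c)) := by
  refine ⟨by fun_prop, 1 / (4 * c), by positivity, ‖m‖ ^ 2 / (2 * c), fun x => ?_⟩
  have h1 : ‖x‖ ^ 2 ≤ 2 * ‖x - m‖ ^ 2 + 2 * ‖m‖ ^ 2 := by
    have h2 : ‖x‖ ≤ ‖x - m‖ + ‖m‖ := by
      have := norm_add_le (x - m) m
      rwa [sub_add_cancel] at this
    have h3 := norm_nonneg x
    linarith only [mul_nonneg (sub_nonneg.2 h2) (sub_nonneg.2 h2), mul_nonneg (sub_nonneg.2 h2) h3, (sq_nonneg (‖x - m‖ - ‖m‖))]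
  have e1 : 1 / (4 * c) * ‖x‖ ^ 2 - ‖m‖ ^ 2 / (2 * c) =
      (‖x‖ ^ 2 - 2 * ‖m‖ ^ 2) / 2 / (2 * c) := by
    field_simp
    ring
  rw [e1]
  apply div_le_div_of_nonneg_right _ (by positivity)
  linarith only [h1]

omit [FiniteDimensional ℝ E] [MeasurableSpace E] [BorelSpace E] in
theorem adm_gam : Adm (fun x : E => ‖x‖ ^ 2 / 2) := by
  have := adm_sq (E := E) one_pos 0
  simpa using this

instance gam_isProb : IsProbabilityMeasure (gam E) := adm_gam.isProb

theorem gam_integrable {F : Type*} [NormedAddCommGroup F] [NormedSpace ℝ F] {f : E → F}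
    (hf : PG f) (hm : AEStronglyMeasurable f (volume : Measure E)) : Integrable f (gam E) :=
  adm_gam.integrable hf hm

theorem gam_integral {F : Type*} [NormedAddCommGroup F] [NormedSpace ℝ F] (f : E → F) :
    ∫ z, f z ∂(gam E) =
      (∫ x : E, Real.exp (-(‖x‖ ^ 2 / 2)))⁻¹ • ∫ x, Real.exp (-(‖x‖ ^ 2 / 2)) • f x :=
  gibbs_integral f

theorem gam_const_pos : 0 < ∫ x : E, Real.exp (-(‖x‖ ^ 2 / 2)) := adm_gam.integral_exp_pos

/-- Lebesgue change of variables `x = m + √c z`. -/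
theorem vol_affine {F : Type*} [NormedAddCommGroup F] [NormedSpace ℝ F] (c : ℝ) (m : E)
    (f : E → F) :
    ∫ z, f (m + √c • z) = |(√c ^ finrank ℝ E)⁻¹| • ∫ x, f x := by
  rw [← integral_add_left_eq_self f m]
  exact Measure.integral_comp_smul volume (fun z => f (m + z)) √c

/-- Gaussian measures with mean `m` and covariance `c I`. -/
theorem gam_affine {F : Type*} [NormedAddCommGroup F] [NormedSpace ℝ F] {c : ℝ} (hc : 0 < c)
    (m : E) (f : E → F) :
    ∫ z, f (m + √c • z) ∂(gam E) = ∫ x, f x ∂(gibbs (fun x => ‖x - m‖ ^ 2 / (2 * c))) := by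
  rw [gam_integral, gibbs_integral]
  have hs : √c ^ 2 = c := Real.sq_sqrt hc.le
  have hs0 : 0 < √c := Real.sqrt_pos.2 hc
  have e : ∀ z : E, ‖m + √c • z - m‖ ^ 2 / (2 * c) = ‖z‖ ^ 2 / 2 := by
    intro z
    rw [add_sub_cancel_left, norm_smul, Real.norm_eq_abs, abs_of_pos hs0, mul_pow, hs]
    field_simp
  have h1 := vol_affine c m fun x => Real.exp (-(‖x - m‖ ^ 2 / (2 * c)))
  have h2 := vol_affine c m fun x => Real.exp (-(‖x - m‖ ^ 2 / (2 * c))) • f x
  simp_rw [e] at h1 h2
  rw [h1, h2]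
  set κ := |(√c ^ finrank ℝ E)⁻¹| with hκ
  have hκ0 : κ ≠ 0 := by
    rw [hκ]
    positivity
  rw [smul_smul, smul_eq_mul, mul_inv]
  congr 1
  field_simp

theorem gam_fderiv (x : E) : HasFDerivAt (fun x : E => ‖x‖ ^ 2 / 2) (innerSL ℝ x) x := by
  have h1 : HasFDerivAt (fun x : E => ‖x‖ ^ 2) (2 • innerSL ℝ x) x :=
    (hasStrictFDerivAt_norm_sq x).hasFDerivAt
  have h2 := h1.const_mul (1 / 2 : ℝ)
  have e : (fun x : E => ‖x‖ ^ 2 / 2) = fun x : E => 1 / 2 * ‖x‖ ^ 2 := by
    funext x; ring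
  rw [e]
  refine h2.congr_fderiv ?_
  ext v
  simp

/-- Polarised version. -/
theorem gam_inner_mul (u v : E) :
    ∫ z, (inner ℝ z u : ℝ) * inner ℝ z v ∂(gam E) = inner ℝ u v := by
  have h := gibbs_ibp (E := E) adm_gam gam_fderiv continuous_id PG.id
    (f := fun x => (inner ℝ x u : ℝ)) (f' := fun _ => u) (fun x => by
      have h1 : HasFDerivAt (fun x : E => (innerSL ℝ u) x) (innerSL ℝ u) x :=
        (innerSL ℝ u).hasFDerivAt
      refine h1.congr_of_eventuallyEq (Eventually.of_forall fun y => ?_)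
      simp only [innerSL_apply_apply]
      exact real_inner_comm _ _)
    continuous_const (PG.id.inner (PG.const u)) (PG.const u) v
  have h2 : ∫ _x : E, (inner ℝ u v : ℝ) ∂(gam E) = inner ℝ u v := by simp
  rw [← h2]
  exact h.symm

theorem gam_inner_sq (v : E) : ∫ z, (inner ℝ z v : ℝ) ^ 2 ∂(gam E) = ‖v‖ ^ 2 := by
  rw [← real_inner_self_eq_norm_sq, ← gam_inner_mul v v]
  simp_rw [pow_two]

theorem gam_sq : ∫ z, ‖z‖ ^ 2 ∂(gam E) = (finrank ℝ E : ℝ) := by
  set bb := stdOrthonormalBasis ℝ E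
  have h1 : ∀ z : E, ‖z‖ ^ 2 = ∑ i, (inner ℝ z (bb i) : ℝ) ^ 2 := by
    intro z
    rw [← bb.sum_sq_norm_inner_left z]
    simp only [Real.norm_eq_abs, sq_abs]
  simp_rw [h1]
  rw [integral_finsetSum]
  · simp_rw [gam_inner_sq]
    simp
  · intro i _
    refine gam_integrable ((PG.id.inner (PG.const (bb i))).pow 2) ?_
    exact Continuous.aestronglyMeasurable (by fun_prop)

theorem gam_mean : ∫ z, z ∂(gam E) = 0 := by
  have hint : Integrable (fun z : E => z) (gam E) :=
    gam_integrable PG.id continuous_id.aestronglyMeasurable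
  have h : ∀ v : E, (inner ℝ (∫ z, z ∂(gam E)) v : ℝ) = 0 := by
    intro v
    have h1 := gibbs_ibp (E := E) adm_gam gam_fderiv continuous_id PG.id
      (f := fun _ => (1 : ℝ)) (f' := fun _ => 0) (fun x => by
        refine (hasFDerivAt_const (1 : ℝ) x).congr_fderiv ?_
        ext w
        simp)
      continuous_const (PG.const _) (PG.const _) v
    simp only [inner_zero_left, integral_zero, one_mul] at h1
    have h2 := integral_inner (𝕜 := ℝ) hint v
    rw [real_inner_comm, ← h2, h1]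
    refine integral_congr_ae (Eventually.of_forall fun z => ?_)
    exact real_inner_comm _ _
  exact (inner_self_eq_zero (𝕜 := ℝ)).1 (h _)

/-! ### Rotation invariance -/

theorem shear₁_preserving (t : ℝ) :
    MeasurePreserving (fun p : E × E => (p.1, p.2 + t • p.1))
      ((volume : Measure E).prod volume) ((volume : Measure E).prod volume) := by
  refine MeasurePreserving.skew_product (f := fun x : E => x) (g := fun x y => y + t • x)
    (MeasurePreserving.id _) (by
      exact (continuous_snd.add (continuous_fst.const_smul t)).measurable) ?_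
  refine Eventually.of_forall fun x => ?_
  exact map_add_right_eq_self _ _

theorem shear₂_preserving (t : ℝ) :
    MeasurePreserving (fun p : E × E => (p.1 + t • p.2, p.2))
      ((volume : Measure E).prod volume) ((volume : Measure E).prod volume) := by
  have h2 : MeasurePreserving (Prod.swap : E × E → E × E)
      ((volume : Measure E).prod volume) ((volume : Measure E).prod volume) :=
    Measure.measurePreserving_swap
  exact (h2.comp ((shear₁_preserving t).comp h2))

theorem rot_preserving {a b : ℝ} (hab : a ^ 2 + b ^ 2 = 1) (hb : b ≠ 0) :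
    MeasurePreserving (fun p : E × E => (a • p.1 + b • p.2, (-b) • p.1 + a • p.2))
      ((volume : Measure E).prod volume) ((volume : Measure E).prod volume) := by
  set t := (1 - a) / b with ht
  have h := (shear₂_preserving (E := E) t).comp
    ((shear₁_preserving (E := E) (-b)).comp (shear₂_preserving (E := E) t))
  have htb : t * b = 1 - a := by rw [ht]; field_simp
  have h2 : t * a + t = b := by
    have : b * (t * a + t) = b * b := by
      have h3 : b * t = 1 - a := by rw [mul_comm]; exact htb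
      calc b * (t * a + t) = (b * t) * (1 + a) := by ring
        _ = (1 - a) * (1 + a) := by rw [h3]
        _ = b * b := by nlinarith
    exact mul_left_cancel₀ hb this
  convert h using 1
  funext p
  simp only [Function.comp_apply]
  ext1
  · simp only
    have e : p.1 + t • p.2 + t • (p.2 + -b • (p.1 + t • p.2)) =
        (1 - t * b) • p.1 + (t * (1 - t * b) + t) • p.2 := by module
    rw [e, htb]
    have e2 : 1 - (1 - a) = a := by ring
    rw [e2, h2]
  · simp only
    have e : p.2 + -b • (p.1 + t • p.2) = (-b) • p.1 + (1 - t * b) • p.2 := by module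
    rw [e, htb]
    have e2 : 1 - (1 - a) = a := by ring
    rw [e2]

theorem gam_prod_eq : (gam E).prod (gam E) =
    ((volume : Measure E).prod volume).withDensity (fun z =>
      ENNReal.ofReal (Real.exp (-(‖z.1‖ ^ 2 / 2)) / ∫ x : E, Real.exp (-(‖x‖ ^ 2 / 2))) *
      ENNReal.ofReal (Real.exp (-(‖z.2‖ ^ 2 / 2)) / ∫ x : E, Real.exp (-(‖x‖ ^ 2 / 2)))) := by
  unfold gam gibbs Measure.tilted
  rw [prod_withDensity] <;> fun_prop

omit [FiniteDimensional ℝ E] [MeasurableSpace E] [BorelSpace E] in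
theorem norm_rot {a b : ℝ} (hab : a ^ 2 + b ^ 2 = 1) (x z : E) :
    ‖a • x + b • z‖ ^ 2 + ‖(-b) • x + a • z‖ ^ 2 = ‖x‖ ^ 2 + ‖z‖ ^ 2 := by
  rw [norm_add_sq_real, norm_add_sq_real, norm_smul, norm_smul, norm_smul, norm_smul,
    real_inner_smul_left, real_inner_smul_left, real_inner_smul_right, real_inner_smul_right,
    mul_pow, mul_pow, mul_pow, mul_pow, Real.norm_eq_abs, Real.norm_eq_abs, Real.norm_eq_abs,
    sq_abs, sq_abs, sq_abs]
  linear_combination (‖x‖ ^ 2 + ‖z‖ ^ 2) * hab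

theorem gam_rot {a b : ℝ} (hab : a ^ 2 + b ^ 2 = 1) (hb : b ≠ 0) :
    MeasurePreserving (fun p : E × E => (a • p.1 + b • p.2, (-b) • p.1 + a • p.2))
      ((gam E).prod (gam E)) ((gam E).prod (gam E)) := by
  have h := rot_preserving (E := E) hab hb
  refine ⟨h.measurable, ?_⟩
  set T : E × E → E × E := fun p => (a • p.1 + b • p.2, (-b) • p.1 + a • p.2) with hT
  set D : E × E → ℝ≥0∞ := fun z =>
      ENNReal.ofReal (Real.exp (-(‖z.1‖ ^ 2 / 2)) / ∫ x : E, Real.exp (-(‖x‖ ^ 2 / 2))) *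
      ENNReal.ofReal (Real.exp (-(‖z.2‖ ^ 2 / 2)) / ∫ x : E, Real.exp (-(‖x‖ ^ 2 / 2))) with hD
  have hDm : Measurable D := by fun_prop
  have hDT : ∀ z, D (T z) = D z := by
    intro z
    have h1 := norm_rot hab z.1 z.2
    simp only [hD, hT]
    have hc0 : 0 ≤ ∫ x : E, Real.exp (-(‖x‖ ^ 2 / 2)) := gam_const_pos.le
    rw [← ENNReal.ofReal_mul (div_nonneg (Real.exp_pos _).le hc0),
      ← ENNReal.ofReal_mul (div_nonneg (Real.exp_pos _).le hc0), div_mul_div_comm,
      div_mul_div_comm, ← Real.exp_add, ← Real.exp_add]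
    congr 3
    linarith
  refine Measure.ext fun A hA => ?_
  rw [Measure.map_apply h.measurable hA, gam_prod_eq, withDensity_apply _ (h.measurable hA),
    withDensity_apply _ hA, ← lintegral_indicator (h.measurable hA), ← lintegral_indicator hA]
  calc ∫⁻ z, (T ⁻¹' A).indicator D z ∂((volume : Measure E).prod (volume : Measure E))
        = ∫⁻ z, (A.indicator D) (T z) ∂((volume : Measure E).prod (volume : Measure E)) := by
          refine lintegral_congr fun z => ?_
          by_cases hz : T z ∈ A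
          · rw [Set.indicator_of_mem (show z ∈ T ⁻¹' A from hz), Set.indicator_of_mem hz, hDT]
          · rw [Set.indicator_of_notMem (show z ∉ T ⁻¹' A from hz), Set.indicator_of_notMem hz]
      _ = ∫⁻ z, (A.indicator D) z ∂((volume : Measure E).prod (volume : Measure E)) :=
          h.lintegral_comp (hDm.indicator hA)

/-- Rotation invariance for integrable functions. -/
theorem gam_add_int {F : Type*} [NormedAddCommGroup F] [NormedSpace ℝ F] {a b : ℝ}
    (hab : a ^ 2 + b ^ 2 = 1) {f : E → F} (hf : Integrable f (gam E)) :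
    ∫ x, ∫ z, f (a • x + b • z) ∂(gam E) ∂(gam E) = ∫ x, f x ∂(gam E) := by
  by_cases hF : CompleteSpace F; swap
  · simp [integral, hF]
  by_cases hb : b = 0
  · subst hb
    have ha : a ^ 2 = 1 := by linarith
    simp only [zero_smul, add_zero, integral_const, probReal_univ, one_smul]
    have hcase : a = 1 ∨ a = -1 := by
      have h1 : (a - 1) * (a + 1) = 0 := by nlinarith
      rcases mul_eq_zero.1 h1 with h | h
      · left; linarith
      · right; linarith
    rcases hcase with h | h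
    · simp [h]
    · rw [gam_integral, gam_integral]
      congr 1
      rw [← integral_neg_eq_self]
      refine integral_congr_ae (Eventually.of_forall fun x => ?_)
      simp only [h, norm_neg, smul_neg, neg_smul, one_smul, neg_neg]
  · have hrot := gam_rot (E := E) hab hb
    have hfst : Integrable (fun p : E × E => f p.1) ((gam E).prod (gam E)) :=
      hf.comp_fst _
    have h1 : Integrable (fun p : E × E => f (a • p.1 + b • p.2)) ((gam E).prod (gam E)) :=
      hrot.integrable_comp_of_integrable hfst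
    rw [← integral_prod (fun p : E × E => f (a • p.1 + b • p.2)) h1]
    have h2 : ∫ p : E × E, f (a • p.1 + b • p.2) ∂((gam E).prod (gam E)) =
        ∫ p : E × E, f p.1 ∂((gam E).prod (gam E)) := by
      have h3 := integral_map (μ := (gam E).prod (gam E)) hrot.measurable.aemeasurable
        (f := fun p : E × E => f p.1) (by rw [hrot.map_eq]; exact hfst.aestronglyMeasurable)
      rw [hrot.map_eq] at h3
      exact h3.symm
    rw [h2, integral_prod _ hfst]
    simp

/-- The same for bounded measurable real functions. -/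
theorem gam_add_bdd {a b : ℝ} (hab : a ^ 2 + b ^ 2 = 1) {f : E → ℝ} (hf : Measurable f)
    (bf : ∃ C, ∀ x, |f x| ≤ C) :
    ∫ x, ∫ z, f (a • x + b • z) ∂(gam E) ∂(gam E) = ∫ x, f x ∂(gam E) := by
  obtain ⟨C, hC⟩ := bf
  exact gam_add_int hab (Integrable.of_bound hf.aestronglyMeasurable C (Eventually.of_forall hC))

/-! ### Exponential moments and shifts -/

theorem gam_exp_inner (v : E) : ∫ z, Real.exp (inner ℝ v z) ∂(gam E) = Real.exp (‖v‖ ^ 2 / 2) := by
  rw [gam_integral]
  have h1 : ∀ x : E, Real.exp (-(‖x‖ ^ 2 / 2)) • Real.exp (inner ℝ v x) =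
      Real.exp (‖v‖ ^ 2 / 2) * Real.exp (-(‖x - v‖ ^ 2 / 2)) := by
    intro x
    rw [smul_eq_mul, ← Real.exp_add, ← Real.exp_add, norm_sub_sq_real, real_inner_comm]
    congr 1
    ring
  simp_rw [h1]
  rw [integral_const_mul]
  have h2 : ∫ x : E, Real.exp (-(‖x - v‖ ^ 2 / 2)) = ∫ x : E, Real.exp (-(‖x‖ ^ 2 / 2)) :=
    integral_sub_right_eq_self (fun x : E => Real.exp (-(‖x‖ ^ 2 / 2))) v
  rw [h2, smul_eq_mul]
  have := (gam_const_pos (E := E)).ne'
  field_simp

theorem gam_exp_sq_le {θ : ℝ} (h0 : 0 ≤ θ) (h1 : θ ≤ 1 / 4) :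
    ∫ z, Real.exp (θ * ‖z‖ ^ 2) ∂(gam E) ≤ Real.exp (2 * θ * (finrank ℝ E : ℝ)) := by
  set c := (1 - 2 * θ) with hc
  have hc0 : 0 < c := by rw [hc]; linarith only [h1]
  have hs0 : 0 < √c := Real.sqrt_pos.2 hc0
  have hs : √c ^ 2 = c := Real.sq_sqrt hc0.le
  rw [gam_integral]
  have e1 : ∀ x : E, Real.exp (-(‖x‖ ^ 2 / 2)) • Real.exp (θ * ‖x‖ ^ 2) =
      Real.exp (-(‖(0 : E) + √c • x‖ ^ 2 / 2)) := by
    intro x
    rw [smul_eq_mul, ← Real.exp_add, zero_add, norm_smul, Real.norm_eq_abs, abs_of_pos hs0,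
      mul_pow, hs, hc]
    congr 1
    ring
  simp_rw [e1]
  have e2 := vol_affine c (0 : E) fun x => Real.exp (-(‖x‖ ^ 2 / 2))
  rw [e2, smul_eq_mul, smul_eq_mul]
  have hG := (gam_const_pos (E := E))
  rw [mul_comm |(√c ^ finrank ℝ E)⁻¹|, ← mul_assoc, inv_mul_cancel₀ hG.ne', one_mul,
    abs_of_pos (by positivity), ← inv_pow]
  have h3 : (√c)⁻¹ ≤ Real.exp (2 * θ) := by
    rw [inv_le_comm₀ hs0 (Real.exp_pos _), ← Real.exp_neg]
    apply Real.le_sqrt_of_sq_le
    rw [← Real.exp_nat_mul]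
    -- `exp (-4θ) ≤ 1 - 2θ`
    have h4 : 1 + 2 * (2 * θ) ≤ Real.exp (2 * (2 * θ)) := by
      have := Real.add_one_le_exp (2 * (2 * θ))
      linarith only [this]
    have h5 : ((2 : ℕ) : ℝ) * -(2 * θ) = -(2 * (2 * θ)) := by push_cast; ring
    rw [h5, Real.exp_neg, inv_le_comm₀ (Real.exp_pos _) hc0]
    refine le_trans ?_ h4
    rw [inv_le_iff_one_le_mul₀ hc0, hc]
    (refine le_of_not_gt fun hng_ => ?_; linarith only [mul_pos hc0 (sub_pos.2 hng_), mul_nonneg h0 (le_of_lt (sub_pos.2 hng_)), mul_nonneg h0 (sub_nonneg.2 h1)])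
  calc (√c)⁻¹ ^ finrank ℝ E ≤ (Real.exp (2 * θ)) ^ finrank ℝ E :=
        pow_le_pow_left₀ (by positivity) h3 _
    _ = Real.exp (2 * θ * (finrank ℝ E : ℝ)) := by
        rw [← Real.exp_nat_mul]; congr 1; ring

/-- Cameron-Martin: change of the mean. -/
theorem gam_shift {c : ℝ} (hc : 0 < c) (m m' : E) {f : E → ℝ} (hf : Measurable f)
    (bf : ∃ C, ∀ x, |f x| ≤ C) :
    ∫ z, f (m + √c • z) ∂(gam E)
      = ∫ z, f (m' + √c • z) * Real.exp (inner ℝ (m - m') z / √c - ‖m - m'‖ ^ 2 / (2 * c))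
        ∂(gam E) := by
  have hs0 : 0 < √c := Real.sqrt_pos.2 hc
  have hs : √c ^ 2 = c := Real.sq_sqrt hc.le
  set w : E := (√c)⁻¹ • (m - m') with hw
  rw [gam_integral, gam_integral]
  congr 1
  rw [← integral_sub_right_eq_self (fun z : E => Real.exp (-(‖z‖ ^ 2 / 2)) •
    f (m + √c • z)) w]
  refine integral_congr_ae (Eventually.of_forall fun z => ?_)
  simp only [smul_eq_mul]
  have e1 : m + √c • (z - w) = m' + √c • z := by
    rw [smul_sub, hw, smul_smul, mul_inv_cancel₀ hs0.ne', one_smul]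
    abel
  rw [e1, norm_sub_sq_real]
  have e2 : (inner ℝ z w : ℝ) = inner ℝ (m - m') z / √c := by
    rw [hw, real_inner_smul_right, real_inner_comm]
    field_simp
  have e3 : ‖w‖ ^ 2 = ‖m - m'‖ ^ 2 / c := by
    rw [hw, norm_smul, norm_inv, Real.norm_eq_abs, abs_of_pos hs0, mul_pow, inv_pow, hs]
    field_simp
  rw [e2, e3]
  have e4 : Real.exp (-((‖z‖ ^ 2 - 2 * (inner ℝ (m - m') z / √c) + ‖m - m'‖ ^ 2 / c) / 2)) =
      Real.exp (-(‖z‖ ^ 2 / 2)) *
        Real.exp (inner ℝ (m - m') z / √c - ‖m - m'‖ ^ 2 / (2 * c)) := by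
    rw [← Real.exp_add]
    congr 1
    field_simp
    ring
  rw [e4]
  ring

/-- Dual (Donsker-Varadhan) form of the relative entropy bound for a Gaussian shift. -/
theorem gam_dv {c : ℝ} (hc : 0 < c) (m m' : E) {f : E → ℝ} (hf : Measurable f)
    (bf : ∃ C, ∀ x, |f x| ≤ C) :
    ∫ z, f (m + √c • z) ∂(gam E)
      ≤ ‖m - m'‖ ^ 2 / (2 * c) + Real.log (∫ z, Real.exp (f (m' + √c • z)) ∂(gam E)) := by
  obtain ⟨C, hC⟩ := bf
  have hbe : ∃ C, ∀ x, |Real.exp (f x)| ≤ C := by
    refine ⟨Real.exp C, fun x => ?_⟩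
    rw [abs_of_pos (Real.exp_pos _)]
    exact Real.exp_le_exp.2 ((le_abs_self _).trans (hC x))
  have hsh := gam_shift hc m' m (f := fun x => Real.exp (f x)) (Real.measurable_exp.comp hf) hbe
  rw [hsh]
  set k : E → ℝ := fun z => inner ℝ (m' - m) z / √c with hk
  have hkm : Continuous k := by
    have : Continuous fun z : E => (inner ℝ (m' - m) z : ℝ) := by fun_prop
    exact this.div_const _
  have hkint : Integrable k (gam E) := by
    refine gam_integrable ?_ hkm.aestronglyMeasurable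
    exact ((PG.const (m' - m)).inner PG.id).mul (PG.const (√c)⁻¹)
  have hkmean : ∫ z, k z ∂(gam E) = 0 := by
    simp only [hk]
    rw [integral_div, integral_inner (gam_integrable PG.id continuous_id.aestronglyMeasurable),
      gam_mean, inner_zero_right, zero_div]
  have hcomp : Measurable fun z : E => m + √c • z := by fun_prop
  have hfm : Measurable fun z => f (m + √c • z) := hf.comp hcomp
  have hfint : Integrable (fun z => f (m + √c • z)) (gam E) :=
    Integrable.of_bound hfm.aestronglyMeasurable C (Eventually.of_forall fun z => hC _)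
  set a := ‖m' - m‖ ^ 2 / (2 * c) with ha
  have hgint : Integrable (fun z => f (m + √c • z) + (k z - a)) (gam E) :=
    hfint.add (hkint.sub (integrable_const a))
  have heq : ∀ z, Real.exp (f (m + √c • z)) * Real.exp (k z - a) =
      Real.exp (f (m + √c • z) + (k z - a)) := fun z => (Real.exp_add _ _).symm
  have hexpint : Integrable (fun z => Real.exp (f (m + √c • z) + (k z - a))) (gam E) := by
    have h1 : Integrable (fun z => Real.exp (k z - a)) (gam E) := by
      refine Adm.integrable_exp_mul (U := fun x : E => ‖x‖ ^ 2 / 2) (a := 1 / 2) (b := 0)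
        (by norm_num) (by fun_prop) (fun x => by linarith only []) (by fun_prop) (c := 1 / 4)
        (C := ‖m' - m‖ ^ 2 / c) (by norm_num) (fun x => ?_)
      have hs0 : 0 < √c := Real.sqrt_pos.2 hc
      have hs : √c ^ 2 = c := Real.sq_sqrt hc.le
      have h2 : k x ≤ (‖m' - m‖ / √c) * ‖x‖ := by
        simp only [hk]
        rw [div_mul_eq_mul_div]
        apply div_le_div_of_nonneg_right _ hs0.le
        exact real_inner_le_norm _ _
      have h3 : (‖m' - m‖ / √c) * ‖x‖ ≤ 1 / 4 * ‖x‖ ^ 2 + (‖m' - m‖ / √c) ^ 2 := by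
        (refine le_of_not_gt fun hng_ => ?_; linarith only [mul_nonneg (le_of_lt (sub_pos.2 hng_)) (sq_nonneg (‖x‖ / 2 - ‖m' - m‖ / √c)), mul_pos (sub_pos.2 hng_) (sub_pos.2 hng_)])
      have h4 : (‖m' - m‖ / √c) ^ 2 = ‖m' - m‖ ^ 2 / c := by rw [div_pow, hs]
      have h5 : 0 ≤ a := by positivity
      linarith only [h4, h2, h3, h5]
    simp_rw [← heq]
    exact h1.bdd_mul (c := Real.exp C) (Real.measurable_exp.comp hfm).aestronglyMeasurable
      (Eventually.of_forall fun z => by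
        rw [Real.norm_eq_abs, abs_of_pos (Real.exp_pos _)]
        exact Real.exp_le_exp.2 ((le_abs_self _).trans (hC _)))
  have hjensen : Real.exp (∫ z, (f (m + √c • z) + (k z - a)) ∂(gam E)) ≤
      ∫ z, Real.exp (f (m + √c • z) + (k z - a)) ∂(gam E) :=
    convexOn_exp.map_integral_le Real.continuous_exp.continuousOn isClosed_univ
      (Eventually.of_forall fun _ => Set.mem_univ _) hgint hexpint
  have hmean : ∫ z, (f (m + √c • z) + (k z - a)) ∂(gam E) =
      (∫ z, f (m + √c • z) ∂(gam E)) - a := by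
    have hk2 : Integrable (fun z => k z - a) (gam E) := hkint.sub (integrable_const a)
    rw [integral_add hfint hk2, integral_sub hkint (integrable_const a), hkmean]
    simp
    ring
  rw [hmean] at hjensen
  have hlog := Real.log_le_log (Real.exp_pos _) hjensen
  rw [Real.log_exp] at hlog
  have e5 : ‖m - m'‖ ^ 2 / (2 * c) = a := by rw [ha, norm_sub_rev]
  rw [e5]
  have e6 : ∫ z, Real.exp (f (m + √c • z)) * Real.exp (inner ℝ (m' - m) z / √c - a) ∂(gam E) =
      ∫ z, Real.exp (f (m + √c • z) + (k z - a)) ∂(gam E) :=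
    integral_congr_ae (Eventually.of_forall fun z => heq z)
  rw [e6]
  linarith only [hlog]

/-- Total variation bound for a Gaussian shift. -/
theorem gam_tv {c : ℝ} (hc : 0 < c) (m m' : E) {f : E → ℝ} (hf : Measurable f)
    (bf : ∀ x, 0 ≤ f x ∧ f x ≤ 1) :
    |(∫ z, f (m + √c • z) ∂(gam E)) - ∫ z, f (m' + √c • z) ∂(gam E)| ≤ 2 * ‖m - m'‖ / √c := by
  have hs0 : 0 < √c := Real.sqrt_pos.2 hc
  have hs : √c ^ 2 = c := Real.sq_sqrt hc.le
  have hbd : ∀ x, |f x| ≤ 1 := fun x => by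
    rw [abs_of_nonneg (bf x).1]; exact (bf x).2
  set w : E := (√c)⁻¹ • (m - m') with hw
  have hwn : ‖w‖ = ‖m - m'‖ / √c := by
    rw [hw, norm_smul, norm_inv, Real.norm_eq_abs, abs_of_pos hs0]
    field_simp
  clear_value w
  have hgoal : 2 * ‖m - m'‖ / √c = 2 * ‖w‖ := by rw [hwn]; ring
  rw [hgoal]
  have hcomp : ∀ y : E, Measurable fun z : E => y + √c • z := fun y => by fun_prop
  have hint : ∀ y : E, Integrable (fun z => f (y + √c • z)) (gam E) := fun y =>
    Integrable.of_bound (hf.comp (hcomp y)).aestronglyMeasurable 1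
      (Eventually.of_forall fun z => hbd _)
  have hin : ∀ y : E, 0 ≤ ∫ z, f (y + √c • z) ∂(gam E) ∧ ∫ z, f (y + √c • z) ∂(gam E) ≤ 1 := by
    intro y
    refine ⟨integral_nonneg fun z => (bf _).1, ?_⟩
    calc ∫ z, f (y + √c • z) ∂(gam E) ≤ ∫ _z : E, (1 : ℝ) ∂(gam E) :=
          integral_mono (hint y) (integrable_const _) fun z => (bf _).2
      _ = 1 := by simp
  rcases le_or_gt 1 ‖w‖ with h1 | h1
  · have h2 := hin m
    have h3 := hin m'
    rw [abs_le]
    constructor <;> linarith only [h2, h1, h3]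
  rcases (norm_nonneg w).eq_or_lt with h0 | h0
  · -- no shift
    have hmm : m = m' := by
      have : w = 0 := norm_eq_zero.1 h0.symm
      rw [hw, smul_eq_zero] at this
      rcases this with h | h
      · exact absurd h (inv_ne_zero hs0.ne')
      · exact sub_eq_zero.1 h
    rw [hmm, sub_self, abs_zero]
    positivity
  -- the density
  set L : E → ℝ := fun z => Real.exp (inner ℝ w z - ‖w‖ ^ 2 / 2) with hL
  have hLe : ∀ z, L z = Real.exp (-(‖w‖ ^ 2 / 2)) * Real.exp (inner ℝ w z) := fun z => by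
    simp only [hL]
    rw [← Real.exp_add]; congr 1; ring
  have hexpi : ∀ v : E, Integrable (fun z => Real.exp (inner ℝ v z)) (gam E) := by
    intro v
    refine Adm.integrable_exp_mul (U := fun x : E => ‖x‖ ^ 2 / 2) (a := 1 / 2) (b := 0)
        (by norm_num) (by fun_prop) (fun x => by linarith only []) (by fun_prop) (c := 1 / 4)
        (C := ‖v‖ ^ 2) (by norm_num) (fun x => ?_)
    have h2 := real_inner_le_norm v x
    (refine le_of_not_gt fun hng_ => ?_; linarith only [mul_nonneg (le_of_lt (sub_pos.2 hng_)) (sq_nonneg (‖x‖ / 2 - ‖v‖)), mul_nonneg (sub_nonneg.2 h2) (le_of_lt (sub_pos.2 hng_)), mul_pos (sub_pos.2 hng_) (sub_pos.2 hng_)])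
  have hL1 : Integrable L (gam E) := by
    simp_rw [show L = fun z => Real.exp (-(‖w‖ ^ 2 / 2)) * Real.exp (inner ℝ w z) from
      funext hLe]
    exact (hexpi w).const_mul _
  have hLs : ∀ z, L z ^ 2 = Real.exp (-‖w‖ ^ 2) * Real.exp (inner ℝ ((2 : ℝ) • w) z) := by
    intro z
    simp only [hL]
    rw [← Real.exp_nat_mul, ← Real.exp_add, real_inner_smul_left]
    congr 1
    push_cast
    ring
  have hL2 : Integrable (fun z => L z ^ 2) (gam E) := by
    simp_rw [hLs]
    exact (hexpi _).const_mul _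
  have hL1v : ∫ z, L z ∂(gam E) = 1 := by
    simp_rw [hLe]
    rw [integral_const_mul, gam_exp_inner, ← Real.exp_add, neg_add_cancel, Real.exp_zero]
  have hL2v : ∫ z, L z ^ 2 ∂(gam E) = Real.exp (‖w‖ ^ 2) := by
    simp_rw [hLs]
    rw [integral_const_mul, gam_exp_inner, ← Real.exp_add, norm_smul, Real.norm_eq_abs]
    congr 1
    rw [abs_two]
    ring
  have hshift := gam_shift hc m m' hf ⟨1, hbd⟩
  have hkey : (∫ z, f (m + √c • z) ∂(gam E)) - ∫ z, f (m' + √c • z) ∂(gam E) =
      ∫ z, f (m' + √c • z) * (L z - 1) ∂(gam E) := by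
    have e1 : ∀ z : E, Real.exp (inner ℝ (m - m') z / √c - ‖m - m'‖ ^ 2 / (2 * c)) = L z := by
      intro z
      simp only [hL]
      congr 1
      rw [hwn, div_pow, hs, hw, real_inner_smul_left]
      field_simp
    rw [hshift]
    simp_rw [e1]
    rw [← integral_sub]
    · refine integral_congr_ae (Eventually.of_forall fun z => ?_)
      simp only
      ring
    · exact hL1.bdd_mul (c := 1) (hf.comp (hcomp m')).aestronglyMeasurable
        (Eventually.of_forall fun z => hbd _)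
    · exact hint m'
  rw [hkey, ← Real.norm_eq_abs]
  have hdom : Integrable (fun z => (L z - 1) ^ 2 / (2 * ‖w‖) + ‖w‖ / 2) (gam E) := by
    have e1 : (fun z => (L z - 1) ^ 2 / (2 * ‖w‖) + ‖w‖ / 2) =
        fun z => (L z ^ 2 - 2 * L z + 1) / (2 * ‖w‖) + ‖w‖ / 2 := by
      funext z; ring
    rw [e1]
    exact (((hL2.sub (hL1.const_mul 2)).add (integrable_const _)).div_const _).add
      (integrable_const _)
  refine (norm_integral_le_of_norm_le hdom (Eventually.of_forall fun z => ?_)).trans ?_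
  · rw [norm_mul, Real.norm_eq_abs, Real.norm_eq_abs]
    have h2 : |f (m' + √c • z)| * |L z - 1| ≤ 1 * |L z - 1| :=
      mul_le_mul_of_nonneg_right (hbd _) (abs_nonneg _)
    refine h2.trans ?_
    rw [one_mul]
    have h3 : 0 ≤ (|L z - 1| - ‖w‖) ^ 2 / (2 * ‖w‖) := by positivity
    have h4 : (|L z - 1| - ‖w‖) ^ 2 / (2 * ‖w‖) =
        (L z - 1) ^ 2 / (2 * ‖w‖) + ‖w‖ / 2 - |L z - 1| := by
      rw [← sq_abs (L z - 1)]
      field_simp
      ring
    linarith only [h4, h3]
  · have e1 : ∫ z, ((L z - 1) ^ 2 / (2 * ‖w‖) + ‖w‖ / 2) ∂(gam E) =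
        (Real.exp (‖w‖ ^ 2) - 1) / (2 * ‖w‖) + ‖w‖ / 2 := by
      have e2 : (fun z => (L z - 1) ^ 2 / (2 * ‖w‖) + ‖w‖ / 2) =
        fun z => (L z ^ 2 - 2 * L z + 1) / (2 * ‖w‖) + ‖w‖ / 2 := by
        funext z; ring
      have i1 : Integrable (fun z => L z ^ 2 - 2 * L z) (gam E) := hL2.sub (hL1.const_mul 2)
      have i2 : Integrable (fun z => L z ^ 2 - 2 * L z + 1) (gam E) :=
        i1.add (integrable_const _)
      rw [e2, integral_add (i2.div_const _) (integrable_const _), integral_div,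
        integral_add i1 (integrable_const _), integral_sub hL2 (hL1.const_mul 2),
        integral_const_mul, hL1v, hL2v]
      simp
      ring
    rw [e1]
    have h5 : Real.exp (‖w‖ ^ 2) - 1 ≤ 2 * ‖w‖ ^ 2 := by
      have h6 : ‖w‖ ^ 2 ≤ 1 := by (refine le_of_not_gt fun hng_ => ?_; linarith only [mul_pos (sub_pos.2 h1) (sub_pos.2 hng_), mul_pos h0 (sub_pos.2 hng_), mul_pos (sub_pos.2 h1) (sub_pos.2 h1), mul_pos (sub_pos.2 h1) h0])
      have h7 := Real.abs_exp_sub_one_sub_id_le (x := ‖w‖ ^ 2) (by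
        rw [abs_of_nonneg (sq_nonneg _)]; exact h6)
      have h8 := (abs_le.1 h7).2
      (refine le_of_not_gt fun hng_ => ?_; linarith only [mul_pos h0 (sub_pos.2 hng_), mul_pos (sub_pos.2 h1) (sub_pos.2 hng_), mul_nonneg (sub_nonneg.2 h8) (sq_nonneg ‖w‖), mul_nonneg (sub_nonneg.2 h6) (sub_nonneg.2 h8), mul_nonneg (sub_nonneg.2 h6) (sq_nonneg ‖w‖)])
    have h6 : (Real.exp (‖w‖ ^ 2) - 1) / (2 * ‖w‖) ≤ ‖w‖ := by
      rw [div_le_iff₀ (by positivity)]
      (refine le_of_not_gt fun hng_ => ?_; linarith only [mul_pos (sub_pos.2 hng_) (sub_pos.2 hng_), mul_nonneg (sub_nonneg.2 h5) (le_of_lt (sub_pos.2 hng_))])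
    linarith only [h6, h0]

/-- Sub-Gaussian bound for the noise of the gradient estimator. -/
theorem noise_mgf {G : E → E} (hG : ∀ x y, ‖G x - G y‖ ≤ 2 * ‖x - y‖) {s : ℝ} (hs : 0 < s)
    (b lam : E) :
    ∫ z, Real.exp (inner ℝ lam (G (b + √s • z) - ∫ w, G (b + √s • w) ∂(gam E))) ∂(gam E)
      ≤ Real.exp (4 * s * ‖lam‖ ^ 2) := by
  have hs0 : 0 < √s := Real.sqrt_pos.2 hs
  have hss : √s ^ 2 = s := Real.sq_sqrt hs.le
  have hlip : ∀ x y : E, ‖G (b + √s • x) - G (b + √s • y)‖ ≤ (2 * √s) * ‖x - y‖ := by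
    intro x y
    refine (hG _ _).trans (le_of_eq ?_)
    have e : b + √s • x - (b + √s • y) = √s • (x - y) := by
      rw [smul_sub]; abel
    rw [e, norm_smul, Real.norm_eq_abs, abs_of_pos hs0]
    ring
  have hpg : PG fun z : E => G (b + √s • z) := PG.of_lip hlip
  have hcont : Continuous fun z : E => G (b + √s • z) := by
    have : LipschitzWith (Real.toNNReal (2 * √s)) fun z : E => G (b + √s • z) :=
      LipschitzWith.of_dist_le_mul fun x y => by
        rw [dist_eq_norm, dist_eq_norm, Real.coe_toNNReal _ (by positivity)]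
        exact hlip x y
    exact this.continuous
  have hint : Integrable (fun z : E => G (b + √s • z)) (gam E) :=
    gam_integrable hpg hcont.aestronglyMeasurable
  have hmid : MidSC 1 (fun x : E => ‖x‖ ^ 2 / 2) := by
    intro x y
    simp only
    rw [norm_smul, mul_pow, Real.norm_eq_abs, sq_abs, norm_add_sq_real, norm_sub_sq_real]
    apply le_of_eq
    ring
  have h := exp_lip (E := E) one_pos adm_gam hmid
    (f := fun z => (inner ℝ lam (G (b + √s • z)) : ℝ)) (L := 2 * √s * ‖lam‖) (fun x y => by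
      rw [← inner_sub_right]
      refine (abs_real_inner_le_norm _ _).trans ?_
      have := mul_le_mul_of_nonneg_left (hlip x y) (norm_nonneg lam)
      linarith only [this])
  have e1 : (2 * √s * ‖lam‖) ^ 2 / 1 = 4 * s * ‖lam‖ ^ 2 := by
    rw [mul_pow, mul_pow, hss]; ring
  rw [e1] at h
  refine le_trans (le_of_eq ?_) h
  refine integral_congr_ae (Eventually.of_forall fun z => ?_)
  simp only
  rw [inner_sub_right]
  congr 2
  exact (integral_inner hint lam).symm

end Vale.Agent.P347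
end

section

/-! Auxiliary file for task F (P347): elementary facts about gradients of convex potentials. -/

open MeasureTheory Filter Module Set
open scoped ENNReal NNReal

namespace Vale.Agent.P347

variable {E : Type*} [NormedAddCommGroup E] [InnerProductSpace ℝ E]

/-- A symmetric operator with quadratic form between `-c` and `c` has norm at most `c`. -/
theorem norm_le_of_quad {A : E →L[ℝ] E} {c : ℝ} (hc : 0 ≤ c)
    (hs : ∀ u v, inner ℝ (A u) v = inner ℝ u (A v))
    (hq : ∀ v, |inner ℝ (A v) v| ≤ c * ‖v‖ ^ 2) : ‖A‖ ≤ c := by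
  refine ContinuousLinearMap.opNorm_le_bound _ hc fun u => ?_
  by_cases hAu : A u = 0
  · rw [hAu, norm_zero]; positivity
  have hAu' : 0 < ‖A u‖ := norm_pos_iff.2 hAu
  set w : E := (‖u‖ / ‖A u‖) • A u with hw
  have hwn : ‖w‖ = ‖u‖ := by
    rw [hw, norm_smul, Real.norm_of_nonneg (by (clear * - hAu; positivity))]
    (clear * - hAu; field_simp)
  have h1 : inner ℝ (A u) w = ‖A u‖ * ‖u‖ := by
    rw [hw, inner_smul_right, real_inner_self_eq_norm_sq]
    (clear * - hAu; field_simp)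
  have h2 := (abs_le.1 (hq (u + w))).2
  have h3 := (abs_le.1 (hq (u - w))).1
  have h4 : inner ℝ (A (u + w)) (u + w) - inner ℝ (A (u - w)) (u - w) = 4 * inner ℝ (A u) w := by
    simp only [map_add, map_sub, inner_add_left, inner_add_right, inner_sub_left, inner_sub_right]
    have h5 : inner ℝ (A w) u = inner ℝ (A u) w := by
      rw [hs w u, real_inner_comm]
    rw [h5]
    ring
  have h5 : ‖u + w‖ ^ 2 + ‖u - w‖ ^ 2 = 2 * (‖u‖ ^ 2 + ‖w‖ ^ 2) := by
    have := parallelogram_law_with_norm ℝ u w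
    linarith
  rw [hwn] at h5
  have h6 : ‖A u‖ * ‖u‖ ≤ c * ‖u‖ ^ 2 := by linarith only [mul_eq_zero_of_left (sub_eq_zero.2 h5) (0 - c), h1, h2, h3, h4]
  rcases eq_or_lt_of_le (norm_nonneg u) with h0 | h0
  · have : u = 0 := norm_eq_zero.1 h0.symm
    rw [this, map_zero] at hAu
    exact absurd rfl hAu
  · have : ‖A u‖ * ‖u‖ ≤ (c * ‖u‖) * ‖u‖ := by linarith only [h6]
    exact le_of_mul_le_mul_right this h0

/-- derivative of a potential along a segment -/
theorem hasDerivAt_seg {W : E → ℝ} {F : E → E} (hW : ∀ x, HasFDerivAt W (innerSL ℝ (F x)) x)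
    (y v : E) (t : ℝ) :
    HasDerivAt (fun t : ℝ => W (y + t • v)) (inner ℝ (F (y + t • v)) v) t := by
  have h1 : HasDerivAt (fun t : ℝ => y + t • v) v t := by
    have := ((hasDerivAt_id t).smul_const v).const_add y
    simpa using this
  have := (hW (y + t • v)).comp_hasDerivAt t h1
  rw [innerSL_apply_apply] at this
  exact this

/-- Strong monotonicity of the gradient gives midpoint strong convexity. -/
theorem midSC_of_mono {W : E → ℝ} {F : E → E} (hW : ∀ x, HasFDerivAt W (innerSL ℝ (F x)) x)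
    {m : ℝ} (hm : ∀ x y, m * ‖x - y‖ ^ 2 ≤ inner ℝ (F x - F y) (x - y)) (x y : E) :
    W ((2 : ℝ)⁻¹ • (x + y)) ≤ (W x + W y) / 2 - m / 8 * ‖x - y‖ ^ 2 := by
  set v := x - y with hv
  set φ : ℝ → ℝ := fun t => W (y + t • v) - m / 2 * ‖v‖ ^ 2 * t ^ 2 with hφ
  have hd : ∀ t, HasDerivAt φ (inner ℝ (F (y + t • v)) v - m * ‖v‖ ^ 2 * t) t := fun t => by
    have h1 := (hasDerivAt_seg hW y v t).sub (((hasDerivAt_id t).pow 2).const_mul
      (m / 2 * ‖v‖ ^ 2))
    refine h1.congr_deriv ?_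
    simp only [Nat.cast_ofNat, id_eq, Nat.add_one_sub_one, pow_one, mul_one, sub_right_inj]
    ring
  have hmono : Monotone (deriv φ) := by
    intro a b hab
    rw [(hd a).deriv, (hd b).deriv]
    rcases eq_or_lt_of_le hab with h | h
    · rw [h]
    have h1 := hm (y + b • v) (y + a • v)
    have h2 : y + b • v - (y + a • v) = (b - a) • v := by module
    rw [h2, norm_smul, inner_smul_right, Real.norm_of_nonneg (by linarith only [h]), mul_pow,
      inner_sub_left] at h1
    have h3 : (b - a) * (m * ‖v‖ ^ 2 * (b - a)) ≤ (b - a) * (inner ℝ (F (y + b • v)) v -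
        inner ℝ (F (y + a • v)) v) := by linarith only [h1]
    have h4 := le_of_mul_le_mul_left h3 (by linarith only [h])
    linarith only [h4]
  have hconv : ConvexOn ℝ univ φ := hmono.convexOn_univ_of_deriv
    (fun t => (hd t).differentiableAt)
  have h1 := hconv.2 (mem_univ 0) (mem_univ 1) (by norm_num : (0 : ℝ) ≤ 1 / 2)
    (by norm_num : (0 : ℝ) ≤ 1 / 2) (by norm_num)
  simp only [hφ, smul_eq_mul, mul_zero, mul_one, zero_add, zero_smul, add_zero, one_smul,
    ne_eq, OfNat.ofNat_ne_zero, not_false_eq_true, zero_pow, sub_zero, one_pow] at h1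
  have h2 : y + (1 / 2 : ℝ) • v = (2 : ℝ)⁻¹ • (x + y) := by
    rw [hv]; module
  have h3 : y + v = x := by rw [hv]; abel
  rw [h2, h3] at h1
  linarith only [h1]

/-- Lower bound of a strongly convex potential by its tangent. -/
theorem tangent_le {W : E → ℝ} {F : E → E} (hW : ∀ x, HasFDerivAt W (innerSL ℝ (F x)) x)
    {m : ℝ} (hm : ∀ x y, m * ‖x - y‖ ^ 2 ≤ inner ℝ (F x - F y) (x - y)) (x y : E) :
    W y + inner ℝ (F y) (x - y) + m / 2 * ‖x - y‖ ^ 2 ≤ W x := by
  set v := x - y with hv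
  set φ : ℝ → ℝ := fun t => W (y + t • v) - t * inner ℝ (F y) v - m / 2 * ‖v‖ ^ 2 * t ^ 2 with hφ
  have hd : ∀ t, HasDerivAt φ (inner ℝ (F (y + t • v)) v - inner ℝ (F y) v - m * ‖v‖ ^ 2 * t) t :=
    fun t => by
    have h1 := ((hasDerivAt_seg hW y v t).sub ((hasDerivAt_id t).mul_const
      (inner ℝ (F y) v))).sub (((hasDerivAt_id t).pow 2).const_mul (m / 2 * ‖v‖ ^ 2))
    refine h1.congr_deriv ?_
    simp only [one_mul, Nat.cast_ofNat, id_eq, Nat.add_one_sub_one, pow_one, mul_one, sub_right_inj]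
    ring
  have hmono : MonotoneOn φ (Icc 0 1) := by
    refine monotoneOn_of_deriv_nonneg (convex_Icc 0 1)
      (fun t _ => (hd t).continuousAt.continuousWithinAt)
      (fun t _ => (hd t).differentiableAt.differentiableWithinAt) fun t ht => ?_
    rw [interior_Icc] at ht
    rw [(hd t).deriv]
    have h1 := hm (y + t • v) y
    have h2 : y + t • v - y = t • v := by abel
    rw [h2, norm_smul, inner_smul_right, Real.norm_of_nonneg ht.1.le, mul_pow,
      inner_sub_left] at h1
    have h3 : t * (m * ‖v‖ ^ 2 * t) ≤ t * (inner ℝ (F (y + t • v)) v - inner ℝ (F y) v) := by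
      linarith only [h1]
    have h4 := le_of_mul_le_mul_left h3 ht.1
    linarith only [h4]
  have h1 := hmono (left_mem_Icc.2 zero_le_one) (right_mem_Icc.2 zero_le_one) zero_le_one
  simp only [hφ, zero_smul, add_zero, zero_mul, sub_zero, one_smul, one_mul, one_pow, mul_one,
    ne_eq, OfNat.ofNat_ne_zero, not_false_eq_true, zero_pow, mul_zero] at h1
  have h3 : y + v = x := by rw [hv]; abel
  rw [h3] at h1
  linarith only [h1]

/-- Upper bound of a smooth potential by its tangent. -/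
theorem le_tangent {W : E → ℝ} {F : E → E} (hW : ∀ x, HasFDerivAt W (innerSL ℝ (F x)) x)
    {L : ℝ} (hL : ∀ x y, ‖F x - F y‖ ≤ L * ‖x - y‖) (x y : E) :
    W x ≤ W y + inner ℝ (F y) (x - y) + L / 2 * ‖x - y‖ ^ 2 := by
  have h1 := tangent_le (W := fun x => -W x) (F := fun x => -F x) (m := -L)
    (fun x => by
      have := (hW x).neg
      rw [← map_neg] at this
      exact this) (fun x y => by
      have h2 : inner ℝ (F x - F y) (x - y) ≤ L * ‖x - y‖ ^ 2 := by
        refine (real_inner_le_norm _ _).trans ?_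
        have := hL x y
        linarith only [mul_nonneg (sub_nonneg.2 this) (norm_nonneg (x - y))]
      have h3 : -F x - -F y = -(F x - F y) := by abel
      rw [h3, inner_neg_left]
      linarith only [h2]) x y
  simp only [inner_neg_left] at h1
  linarith only [h1]

end Vale.Agent.P347
end

section

/-! Task F (P347): the smoothed potential `Wp V s` and its gradient `Fp V G s`. -/

open MeasureTheory Filter Module Set
open scoped ENNReal NNReal

namespace Vale.Agent.P347

variable {E : Type*} [NormedAddCommGroup E] [InnerProductSpace ℝ E] [FiniteDimensional ℝ E]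
  [MeasurableSpace E] [BorelSpace E]

/-! ### Elementary consequences of `Pot` -/

omit [FiniteDimensional ℝ E] [MeasurableSpace E] [BorelSpace E] in
/-- The key centred Lipschitz bound. -/
theorem Pot.lipG' {V : E → ℝ} {G : E → E} {H : E → E →L[ℝ] E} (hV : Pot V G H) (x y : E) :
    ‖G x - G y - (3 / 2 : ℝ) • (x - y)‖ ≤ 1 / 2 * ‖x - y‖ := by
  have hn : ∀ w, ‖H w - (3 / 2 : ℝ) • ContinuousLinearMap.id ℝ E‖ ≤ 1 / 2 := fun w => by
    refine norm_le_of_quad (by norm_num) (fun u v => ?_) fun v => ?_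
    · simp only [_root_.sub_apply, _root_.smul_apply,
        ContinuousLinearMap.id_apply, inner_sub_left, inner_sub_right, inner_smul_left,
        inner_smul_right, hV.symm w u v]
      simp only [map_div₀, Real.ringHom_apply]
    · simp only [sub_apply, smul_apply, ContinuousLinearMap.id_apply, inner_sub_left, real_inner_smul_left, real_inner_self_eq_norm_sq]
      have h1 := hV.lo w v
      have h2 := hV.hi w v
      rw [abs_le]
      constructor <;> (first | linarith only [h1] | linarith only [h2])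
  have h := Convex.norm_image_sub_le_of_norm_hasFDerivWithin_le (𝕜 := ℝ) (s := univ)
    (f := fun w => G w - (3 / 2 : ℝ) • w)
    (f' := fun w => H w - (3 / 2 : ℝ) • ContinuousLinearMap.id ℝ E) (C := 1 / 2)
    (fun w _ => ((hV.hess w).sub ((hasFDerivAt_id w).const_smul (3 / 2 : ℝ))).hasFDerivWithinAt)
    (fun w _ => hn w) convex_univ (mem_univ y) (mem_univ x)
  have h2 : G x - G y - (3 / 2 : ℝ) • (x - y) = G x - (3 / 2 : ℝ) • x - (G y - (3 / 2 : ℝ) • y) := by
    module
  rw [h2]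
  exact h

omit [FiniteDimensional ℝ E] [MeasurableSpace E] [BorelSpace E] in
theorem Pot.lipG {V : E → ℝ} {G : E → E} {H : E → E →L[ℝ] E} (hV : Pot V G H) (x y : E) :
    ‖G x - G y‖ ≤ 2 * ‖x - y‖ := by
  have h1 := hV.lipG' x y
  calc ‖G x - G y‖ = ‖(G x - G y - (3 / 2 : ℝ) • (x - y)) + (3 / 2 : ℝ) • (x - y)‖ := by
        congr 1; abel
    _ ≤ ‖G x - G y - (3 / 2 : ℝ) • (x - y)‖ + ‖(3 / 2 : ℝ) • (x - y)‖ := norm_add_le _ _
    _ ≤ 1 / 2 * ‖x - y‖ + 3 / 2 * ‖x - y‖ := by
        rw [norm_smul]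
        norm_num
        linarith only [h1]
    _ = _ := by ring

omit [FiniteDimensional ℝ E] [MeasurableSpace E] [BorelSpace E] in
theorem Pot.monoG {V : E → ℝ} {G : E → E} {H : E → E →L[ℝ] E} (hV : Pot V G H) (x y : E) :
    ‖x - y‖ ^ 2 ≤ inner ℝ (G x - G y) (x - y) := by
  have h1 := hV.lipG' x y
  have h2 : inner ℝ (G x - G y) (x - y) = inner ℝ (G x - G y - (3 / 2 : ℝ) • (x - y)) (x - y)
      + 3 / 2 * ‖x - y‖ ^ 2 := by
    rw [inner_sub_left (G x - G y), real_inner_smul_left, real_inner_self_eq_norm_sq]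
    ring
  have h3 := (abs_le.1 (abs_real_inner_le_norm (G x - G y - (3 / 2 : ℝ) • (x - y)) (x - y))).1
  have h4 := norm_nonneg (x - y)
  rw [h2]
  linarith only [mul_nonneg (mul_self_nonneg (1)) (sub_nonneg.2 h3), mul_nonneg (sub_nonneg.2 h1) h4]

omit [FiniteDimensional ℝ E] [MeasurableSpace E] [BorelSpace E] in
theorem Pot.midSC {V : E → ℝ} {G : E → E} {H : E → E →L[ℝ] E} (hV : Pot V G H) :
    MidSC 1 V := fun x y =>
  midSC_of_mono hV.grad (m := 1) (fun x y => by rw [one_mul]; exact hV.monoG x y) x y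

omit [FiniteDimensional ℝ E] [MeasurableSpace E] [BorelSpace E] in
theorem Pot.low {V : E → ℝ} {G : E → E} {H : E → E →L[ℝ] E} (hV : Pot V G H) (x : E) :
    ‖x‖ ^ 2 / 2 ≤ V x := by
  have := tangent_le hV.grad (m := 1) (fun x y => by rw [one_mul]; exact hV.monoG x y) x 0
  rw [hV.zero, hV.gzero, inner_zero_left, sub_zero] at this
  linarith only [this]

omit [FiniteDimensional ℝ E] [MeasurableSpace E] [BorelSpace E] in
theorem Pot.up {V : E → ℝ} {G : E → E} {H : E → E →L[ℝ] E} (hV : Pot V G H) (x : E) :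
    V x ≤ ‖x‖ ^ 2 := by
  have := le_tangent hV.grad (L := 2) hV.lipG x 0
  rw [hV.zero, hV.gzero, inner_zero_left, sub_zero] at this
  linarith only [this]

omit [FiniteDimensional ℝ E] [MeasurableSpace E] [BorelSpace E] in
theorem Pot.adm {V : E → ℝ} {G : E → E} {H : E → E →L[ℝ] E} (hV : Pot V G H) : Adm V :=
  ⟨continuous_iff_continuousAt.2 fun x => (hV.grad x).continuousAt, 1 / 2, by norm_num, 0,
    fun x => by have := hV.low x; linarith only [this]⟩

omit [FiniteDimensional ℝ E] [MeasurableSpace E] [BorelSpace E] in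
theorem Pot.cpot {V : E → ℝ} {G : E → E} {H : E → E →L[ℝ] E} (hV : Pot V G H) : CPot V G :=
  ⟨hV.grad, fun x y => (sq_nonneg _).trans (hV.monoG x y), hV.lipG⟩

omit [FiniteDimensional ℝ E] [MeasurableSpace E] [BorelSpace E] in
theorem CPot.midSC {W : E → ℝ} {F : E → E} (hW : CPot W F) : MidSC 0 W := fun x y =>
  midSC_of_mono hW.grad (m := 0) (fun x y => by rw [zero_mul]; exact hW.mono x y) x y

omit [FiniteDimensional ℝ E] [MeasurableSpace E] [BorelSpace E] in
theorem CPot.contW {W : E → ℝ} {F : E → E} (hW : CPot W F) : Continuous W :=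
  continuous_iff_continuousAt.2 fun x => (hW.grad x).continuousAt

omit [FiniteDimensional ℝ E] [MeasurableSpace E] [BorelSpace E] in
theorem CPot.contF {W : E → ℝ} {F : E → E} (hW : CPot W F) : Continuous F := by
  have : LipschitzWith 2 F := LipschitzWith.of_dist_le_mul fun x y => by
    rw [dist_eq_norm, dist_eq_norm]
    exact_mod_cast hW.lip x y
  exact this.continuous

omit [FiniteDimensional ℝ E] [MeasurableSpace E] [BorelSpace E] in
theorem CPot.pgF {W : E → ℝ} {F : E → E} (hW : CPot W F) : PG F := PG.of_lip hW.lip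

omit [FiniteDimensional ℝ E] [MeasurableSpace E] [BorelSpace E] in
/-- `ρ_y` is strongly log-concave with parameter `1/s`. -/
theorem CPot.post_midSC {W : E → ℝ} {F : E → E} (hW : CPot W F) {s : ℝ} (hs : 0 < s) (y : E) :
    MidSC (1 / s) (post W s y) := by
  intro x x'
  have h1 := hW.midSC x x'
  simp only [zero_div, zero_mul, sub_zero] at h1
  have h2 : ‖(2 : ℝ)⁻¹ • (x + x') - y‖ ^ 2 = (‖x - y‖ ^ 2 + ‖x' - y‖ ^ 2) / 2
      - ‖x - x'‖ ^ 2 / 4 := by
    have h3 : (2 : ℝ)⁻¹ • (x + x') - y = (2 : ℝ)⁻¹ • ((x - y) + (x' - y)) := by module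
    have h4 := parallelogram_law_with_norm ℝ (x - y) (x' - y)
    have h5 : x - y - (x' - y) = x - x' := by abel
    rw [h5] at h4
    rw [h3, norm_smul, mul_pow]
    norm_num
    linarith
  unfold post
  rw [h2]
  have h6 : ((‖x - y‖ ^ 2 + ‖x' - y‖ ^ 2) / 2 - ‖x - x'‖ ^ 2 / 4) / (2 * s)
      = (‖x - y‖ ^ 2 / (2 * s) + ‖x' - y‖ ^ 2 / (2 * s)) / 2 - 1 / s / 8 * ‖x - x'‖ ^ 2 := by
    field_simp
    ring
  rw [h6]
  linarith only [h1]

omit [FiniteDimensional ℝ E] [MeasurableSpace E] [BorelSpace E] in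
/-- Quantitative lower bound for the posterior potential. -/
theorem CPot.post_low {W : E → ℝ} {F : E → E} (hW : CPot W F) {s : ℝ} (hs : 0 < s) (x y : E) :
    1 / (8 * s) * ‖x‖ ^ 2 - (‖y‖ ^ 2 / (2 * s) + 2 * s * ‖F 0‖ ^ 2 - W 0) ≤ post W s y x := by
  have h1 := tangent_le hW.grad (m := 0) (fun x y => by rw [zero_mul]; exact hW.mono x y) x 0
  simp only [sub_zero, zero_div, zero_mul, add_zero] at h1
  have h2 := (abs_le.1 (abs_real_inner_le_norm (F 0) x)).1
  have h3 : ‖x‖ ^ 2 / 2 - ‖y‖ ^ 2 ≤ ‖x - y‖ ^ 2 := by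
    have h4 : ‖x‖ ≤ ‖x - y‖ + ‖y‖ := by
      calc ‖x‖ = ‖(x - y) + y‖ := by congr 1; abel
        _ ≤ _ := norm_add_le _ _
    have h5 : ‖x‖ ^ 2 ≤ (‖x - y‖ + ‖y‖) ^ 2 := pow_le_pow_left₀ (norm_nonneg _) h4 2
    have h6 := sq_nonneg (‖x - y‖ - ‖y‖)
    linarith only [h5, h6]
  have h7 : (‖x‖ ^ 2 / 2 - ‖y‖ ^ 2) / (2 * s) ≤ ‖x - y‖ ^ 2 / (2 * s) := by (clear * - h3 hs; gcongr)
  have h8 : ‖F 0‖ * ‖x‖ ≤ 1 / (8 * s) * ‖x‖ ^ 2 + 2 * s * ‖F 0‖ ^ 2 := by
    have h9 := sq_nonneg (‖x‖ - 4 * s * ‖F 0‖)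
    have h10 : 1 / (8 * s) * ‖x‖ ^ 2 + 2 * s * ‖F 0‖ ^ 2 - ‖F 0‖ * ‖x‖
        = (‖x‖ - 4 * s * ‖F 0‖) ^ 2 / (8 * s) := by
      field_simp
      ring
    have h11 : 0 ≤ (‖x‖ - 4 * s * ‖F 0‖) ^ 2 / (8 * s) := by (clear * - hs; positivity)
    linarith only [h11, h10]
  have h12 : (‖x‖ ^ 2 / 2 - ‖y‖ ^ 2) / (2 * s) = 2 * (1 / (8 * s) * ‖x‖ ^ 2)
      - ‖y‖ ^ 2 / (2 * s) := by
    field_simp
    ring
  unfold post
  linarith only [h7, h1, h2, h8, h12]

omit [FiniteDimensional ℝ E] [MeasurableSpace E] [BorelSpace E] in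
theorem CPot.post_adm {W : E → ℝ} {F : E → E} (hW : CPot W F) {s : ℝ} (hs : 0 < s) (y : E) :
    Adm (post W s y) := by
  have := hW.contW
  exact ⟨by unfold post; (clear * - this; fun_prop), 1 / (8 * s), by positivity, _, fun x => hW.post_low hs x y⟩

/-! ### The smoothed potential. In this section `0 < s`. -/

omit [FiniteDimensional ℝ E] [MeasurableSpace E] [BorelSpace E] in
/-- Gradient of the posterior potential. -/
theorem post_grad {V : E → ℝ} {G : E → E} (hV : ∀ x, HasFDerivAt V (innerSL ℝ (G x)) x)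
    (s : ℝ) (y x : E) :
    HasFDerivAt (post V s y) (innerSL ℝ (G x + s⁻¹ • (x - y))) x := by
  have h1 : HasFDerivAt (fun x : E => ‖x - y‖ ^ 2)
      (2 • (innerSL ℝ (x - y)).comp (ContinuousLinearMap.id ℝ E)) x :=
    ((hasFDerivAt_id x).sub_const y).norm_sq
  have h2 := (hV x).add (h1.mul_const (2 * s)⁻¹)
  have h3 : innerSL ℝ (G x + s⁻¹ • (x - y)) = innerSL ℝ (G x)
      + (2 * s)⁻¹ • (2 • (innerSL ℝ (x - y)).comp (ContinuousLinearMap.id ℝ E)) := by
    ext v
    simp only [innerSL_apply_apply, inner_add_left, real_inner_smul_left, _root_.add_apply,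
      _root_.smul_apply, ContinuousLinearMap.comp_apply, ContinuousLinearMap.id_apply, smul_eq_mul,
      nsmul_eq_mul, mul_inv]
    push_cast
    ring
  rw [h3]
  refine h2.congr_of_eventuallyEq (Eventually.of_forall fun w => ?_)
  simp only [post, div_eq_mul_inv, mul_inv_rev, Pi.add_apply]

/-- The gradient of the potential has mean zero. -/
theorem gibbs_mean_grad {U : E → ℝ} (hU : Adm U) {g : E → E}
    (hg : ∀ x, HasFDerivAt U (innerSL ℝ (g x)) x) (hgc : Continuous g) (hgp : PG g) :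
    ∫ x, g x ∂(gibbs U) = 0 := by
  have hi : Integrable g (gibbs U) := hU.integrable hgp hgc.aestronglyMeasurable
  refine ext_inner_right ℝ fun v => ?_
  rw [inner_zero_left]
  have h1 := gibbs_ibp hU hg hgc hgp (f := fun _ => (1 : ℝ)) (f' := fun _ => (0 : E))
    (fun x => by simpa only [map_zero] using hasFDerivAt_const (1 : ℝ) x) continuous_const (PG.const _)
    (PG.const _) v
  simp only [inner_zero_left, integral_zero, one_mul] at h1
  rw [real_inner_comm, ← integral_inner hi v, h1]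
  exact integral_congr_ae (Eventually.of_forall fun x => real_inner_comm _ _)

/-- Posterior mean (Tweedie). -/
theorem post_mean {V : E → ℝ} {G : E → E} (hV : CPot V G) {s : ℝ} (hs : 0 < s) (y : E) :
    ∫ x, x ∂(gibbs (post V s y)) = y - s • Fp V G s y := by
  have hA := hV.post_adm hs y
  have := hA.isProb
  have cG := hV.contF
  have pG := hV.pgF
  have h1 := gibbs_mean_grad hA (post_grad hV.grad s y) (by fun_prop)
    (pG.add ((PG.const s⁻¹).smul (PG.id.sub (PG.const y))))
  have i1 : Integrable G (gibbs (post V s y)) := hA.integrable pG cG.aestronglyMeasurable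
  have i2 : Integrable (fun x : E => x) (gibbs (post V s y)) :=
    hA.integrable PG.id continuous_id.aestronglyMeasurable
  have i3 : Integrable (fun x : E => s⁻¹ • (x - y)) (gibbs (post V s y)) :=
    (i2.sub (integrable_const y)).smul _
  rw [integral_add i1 i3, integral_smul, integral_sub i2 (integrable_const y), integral_const,
    probReal_univ, one_smul] at h1
  have h2 : s • (∫ x, G x ∂(gibbs (post V s y)) + s⁻¹ • (∫ x, x ∂(gibbs (post V s y)) - y))
      = 0 := by rw [h1, smul_zero]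
  rw [smul_add, smul_smul, mul_inv_cancel₀ hs.ne', one_smul] at h2
  have h3 : Fp V G s y = ∫ x, G x ∂(gibbs (post V s y)) := rfl
  rw [h3]
  rw [add_comm] at h2
  have h4 := eq_neg_of_add_eq_zero_left h2
  rw [sub_eq_iff_eq_add] at h4
  rw [h4]
  abel

/-- Derivative of posterior expectations when the observation moves. -/
theorem post_hasDerivAt {F : Type*} [NormedAddCommGroup F] [NormedSpace ℝ F]
    {V : E → ℝ} {G : E → E} {H : E → E →L[ℝ] E} (hV : Pot V G H) {s : ℝ}
    (hs : 0 < s) {Y Y' : ℝ → E} {h h' : ℝ → E → F} {t0 r B C : ℝ} {k : ℕ} (hr : 0 < r)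
    (hY : ∀ t, |t - t0| < r → HasDerivAt Y (Y' t) t)
    (bY : ∀ t, |t - t0| < r → ‖Y t‖ ≤ B) (bY' : ∀ t, |t - t0| < r → ‖Y' t‖ ≤ B)
    (hh : ∀ t, |t - t0| < r → ∀ x, HasDerivAt (fun t => h t x) (h' t x) t)
    (ch : ∀ t, |t - t0| < r → Continuous (h t)) (ch' : ∀ t, |t - t0| < r → Continuous (h' t))
    (bh : ∀ t, |t - t0| < r → ∀ x, ‖h t x‖ ≤ C * (1 + ‖x‖) ^ k)
    (bh' : ∀ t, |t - t0| < r → ∀ x, ‖h' t x‖ ≤ C * (1 + ‖x‖) ^ k) :
    HasDerivAt (fun t => ∫ x, h t x ∂(gibbs (post V s (Y t))))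
      ((∫ x, h' t0 x ∂(gibbs (post V s (Y t0))))
        + (1 / s) • ((∫ x, (inner ℝ x (Y' t0) : ℝ) • h t0 x ∂(gibbs (post V s (Y t0))))
          - (∫ x, (inner ℝ x (Y' t0) : ℝ) ∂(gibbs (post V s (Y t0))))
            • ∫ x, h t0 x ∂(gibbs (post V s (Y t0))))) t0 := by
  have ht0 : |t0 - t0| < r := by simpa using hr
  have hB : 0 ≤ B := (norm_nonneg _).trans (bY t0 ht0)
  have hC : 0 ≤ C := by
    have := bh t0 ht0 0
    rw [norm_zero, add_zero, one_pow, mul_one] at this
    exact (norm_nonneg _).trans this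
  have cV := hV.cpot.contW
  have key := gibbs_hasDerivAt (U := fun t => post V s (Y t))
    (U' := fun t x => -(inner ℝ (x - Y t) (Y' t)) / s) (h := h) (h' := h') (t0 := t0) (r := r)
    (a := 1 / 2) (b := 0) (C := C + (1 + B) * B / s) (k := k + 1) hr (by norm_num)
    (fun t ht x => by
      have h1 : HasDerivAt (fun t => ‖x - Y t‖ ^ 2) (2 * inner ℝ (x - Y t) (-Y' t)) t := by
        have := ((hY t ht).const_sub x).norm_sq
        simpa only [inner_neg_right, mul_neg] using this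
      have h2 := (h1.div_const (2 * s)).const_add (V x)
      refine h2.congr_deriv ?_
      rw [inner_neg_right]
      (clear * - hs; field_simp))
    hh (fun t ht => by unfold post; fun_prop)
    (fun t ht => by
      have : Continuous fun x : E => (inner ℝ (x - Y t) (Y' t) : ℝ) := by fun_prop
      exact (this.neg).div_const s)
    ch ch'
    (fun t ht x => by
      have h1 := hV.low x
      have h2 : 0 ≤ ‖x - Y t‖ ^ 2 / (2 * s) := by (clear * - hs; positivity)
      unfold post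
      linarith only [h2, h1])
    (fun t ht x => by
      have h1 := abs_real_inner_le_norm (x - Y t) (Y' t)
      have h2 : ‖x - Y t‖ ≤ ‖x‖ + B := (norm_sub_le _ _).trans (by gcongr; exact bY t ht)
      have h3 : |-(inner ℝ (x - Y t) (Y' t)) / s| ≤ (‖x‖ + B) * B / s := by
        rw [abs_div, abs_neg, abs_of_pos hs]
        gcongr
        exact h1.trans (mul_le_mul h2 (bY' t ht) (norm_nonneg _) (by (clear * - hB; positivity)))
      refine h3.trans ?_
      have h4 : (‖x‖ + B) * B / s ≤ ((1 + B) * B / s) * (1 + ‖x‖) := by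
        have : (‖x‖ + B) * B ≤ (1 + B) * B * (1 + ‖x‖) := by
          have := norm_nonneg x
          (refine le_of_not_gt fun hng_ => ?_; linarith only [mul_nonneg (le_of_lt (sub_pos.2 hng_)) (mul_nonneg (mul_nonneg hB hB) this), mul_nonneg hB (le_of_lt (sub_pos.2 hng_)), mul_pos (sub_pos.2 hng_) (sub_pos.2 hng_)])
        calc (‖x‖ + B) * B / s ≤ ((1 + B) * B * (1 + ‖x‖)) / s := by (clear * - this hs; gcongr)
          _ = _ := by ring
      refine h4.trans ?_
      have h5 := one_le_one_add_norm x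
      have h6 : (1 + ‖x‖) ≤ (1 + ‖x‖) ^ (k + 1) := by
        calc (1 + ‖x‖) = (1 + ‖x‖) ^ 1 := (pow_one _).symm
          _ ≤ _ := pow_le_pow_right₀ h5 (by omega)
      have h7 : 0 ≤ (1 + B) * B / s := by (clear * - hB hs; positivity)
      exact mul_le_mul (by linarith only [hC]) h6 (by linarith only [h5]) (by (clear * - hC hB hs; positivity)))
    (fun t ht x => (bh t ht x).trans (by
      have h5 := one_le_one_add_norm x
      have h6 : 0 ≤ (1 + B) * B / s := by (clear * - hB hs; positivity)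
      gcongr
      · linarith only [h6]
      · omega))
    (fun t ht x => (bh' t ht x).trans (by
      have h5 := one_le_one_add_norm x
      have h6 : 0 ≤ (1 + B) * B / s := by (clear * - hB hs; positivity)
      gcongr
      · linarith only [h6]
      · omega))
  refine key.congr_deriv ?_
  have hA := hV.cpot.post_adm hs (Y t0)
  have := hA.isProb
  have ph : PG (h t0) := ⟨C, k, bh t0 ht0⟩
  have ih : Integrable (h t0) (gibbs (post V s (Y t0))) :=
    hA.integrable ph (ch t0 ht0).aestronglyMeasurable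
  have i1 : Integrable (fun x : E => (inner ℝ x (Y' t0) : ℝ)) (gibbs (post V s (Y t0))) :=
    hA.integrable (PG.id.inner (PG.const _)) (by (clear h h' r B C k hr hY bY bY' hh ch ch' bh bh' ht0 hB hC cV key ph ih; fun_prop))
  have i2 : Integrable (fun x : E => (inner ℝ x (Y' t0) : ℝ) • h t0 x)
      (gibbs (post V s (Y t0))) := by
    have := ch t0 ht0
    exact hA.integrable ((PG.id.inner (PG.const _)).smul ph) (by (clear h' B C k hY bY bY' hh ch' bh bh' hB hC cV key ph ih i1; fun_prop))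
  have e1 : ∫ x, (-(inner ℝ (x - Y t0) (Y' t0)) / s) • h t0 x ∂(gibbs (post V s (Y t0)))
      = -(1 / s) • (∫ x, (inner ℝ x (Y' t0) : ℝ) • h t0 x ∂(gibbs (post V s (Y t0))))
        + (inner ℝ (Y t0) (Y' t0) / s) • ∫ x, h t0 x ∂(gibbs (post V s (Y t0))) := by
    rw [← integral_smul, ← integral_smul, ← integral_add]
    · refine integral_congr_ae (Eventually.of_forall fun x => ?_)
      simp only [inner_sub_left, smul_smul, ← add_smul]
      congr 1
      ring
    · exact i2.smul _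
    · exact ih.smul _
  have e2 : ∫ x, -(inner ℝ (x - Y t0) (Y' t0)) / s ∂(gibbs (post V s (Y t0)))
      = -(1 / s) * (∫ x, (inner ℝ x (Y' t0) : ℝ) ∂(gibbs (post V s (Y t0))))
        + (inner ℝ (Y t0) (Y' t0) / s) := by
    have : ∀ x, -(inner ℝ (x - Y t0) (Y' t0)) / s = -(1 / s) * (inner ℝ x (Y' t0) : ℝ)
        + (inner ℝ (Y t0) (Y' t0) / s) := fun x => by
      rw [inner_sub_left]; ring
    simp_rw [this]
    rw [integral_add (i1.const_mul _) (integrable_const _), integral_const_mul, integral_const,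
      probReal_univ, one_smul]
  rw [e1, e2]
  module

omit [NormedAddCommGroup E] [InnerProductSpace ℝ E] [FiniteDimensional ℝ E] [BorelSpace E] in
/-- Cauchy-Schwarz for covariances. -/
theorem cov_sq_le {μ : Measure E} [IsProbabilityMeasure μ] {f g : E → ℝ} (hf : Integrable f μ)
    (hg : Integrable g μ) (hf2 : Integrable (fun x => f x ^ 2) μ)
    (hg2 : Integrable (fun x => g x ^ 2) μ) (hfg : Integrable (fun x => f x * g x) μ) :
    (∫ x, f x * g x ∂μ - (∫ x, f x ∂μ) * ∫ x, g x ∂μ) ^ 2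
      ≤ (∫ x, f x ^ 2 ∂μ - (∫ x, f x ∂μ) ^ 2) * (∫ x, g x ^ 2 ∂μ - (∫ x, g x ∂μ) ^ 2) := by
  set a := ∫ x, f x ∂μ with ha
  set b := ∫ x, g x ∂μ with hb
  have h1 : ∀ t : ℝ, 0 ≤ (∫ x, g x ^ 2 ∂μ - b ^ 2) * (t * t)
      + (2 * (∫ x, f x * g x ∂μ - a * b)) * t + (∫ x, f x ^ 2 ∂μ - a ^ 2) := by
    intro t
    have h2 : 0 ≤ ∫ x, ((f x - a) + t * (g x - b)) ^ 2 ∂μ := integral_nonneg fun x => sq_nonneg _
    have h3 : ∀ x, ((f x - a) + t * (g x - b)) ^ 2 = f x ^ 2 + (t ^ 2 * g x ^ 2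
        + (2 * t * (f x * g x) + (-(2 * (a + t * b)) * f x + (-(2 * t * (a + t * b)) * g x
        + (a + t * b) ^ 2)))) := fun x => by ring
    simp_rw [h3] at h2
    rw [integral_add hf2 (by fun_prop), integral_add (by fun_prop) (by fun_prop),
      integral_add (by fun_prop) (by fun_prop), integral_add (by fun_prop) (by fun_prop),
      integral_add (by fun_prop) (by fun_prop), integral_const_mul, integral_const_mul,
      integral_const_mul, integral_const_mul, integral_const, probReal_univ, one_smul, ← ha,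
      ← hb] at h2
    linarith only [h2]
  have h4 := discrim_le_zero h1
  unfold discrim at h4
  linarith only [h4]

omit [NormedAddCommGroup E] [InnerProductSpace ℝ E] [FiniteDimensional ℝ E] [BorelSpace E] in
theorem var_nonneg {μ : Measure E} [IsProbabilityMeasure μ] {f : E → ℝ} (hf : Integrable f μ)
    (hf2 : Integrable (fun x => f x ^ 2) μ) : 0 ≤ ∫ x, f x ^ 2 ∂μ - (∫ x, f x ∂μ) ^ 2 := by
  set c := ∫ x, f x ∂μ with hc
  have h7 : 0 ≤ ∫ x, (f x - c) ^ 2 ∂μ := integral_nonneg fun x => sq_nonneg _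
  have h8 : ∀ x : E, (f x - c) ^ 2 = f x ^ 2 + (-(2 * c) * f x + c ^ 2) := fun x => by ring
  simp_rw [h8] at h7
  rw [integral_add hf2 (by (clear hf2 hc h8 h7; fun_prop)), integral_add (by fun_prop) (by fun_prop),
    integral_const_mul, integral_const, probReal_univ, one_smul, ← hc] at h7
  linarith only [h7]

/-- Variance of a linear form under the posterior. -/
theorem post_var_lin {V : E → ℝ} {G : E → E} (hV : CPot V G) {s : ℝ} (hs : 0 < s) (y u : E) :
    (∫ x, (inner ℝ x u : ℝ) ^ 2 ∂(gibbs (post V s y)))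
      - (∫ x, (inner ℝ x u : ℝ) ∂(gibbs (post V s y))) ^ 2 ≤ s * ‖u‖ ^ 2 := by
  have hA := hV.post_adm hs y
  have := hA.isProb
  have h1 := poincare (m := 1 / s) (by positivity) hA (hV.post_midSC hs y)
    (f := fun x => (inner ℝ x u : ℝ)) (g := fun _ => u)
    (fun x => by
      have h2 : (fun x : E => (inner ℝ x u : ℝ)) = fun x => innerSL ℝ u x := by
        funext x; rw [innerSL_apply_apply, real_inner_comm]
      rw [h2]
      exact (innerSL ℝ u).hasFDerivAt) continuous_const (PG.id.inner (PG.const _)) (PG.const _)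
  rw [integral_const, probReal_univ, one_smul, one_div_one_div] at h1
  exact h1

/-- Variance of a component of the gradient under the posterior. -/
theorem post_var_G {V : E → ℝ} {G : E → E} {H : E → E →L[ℝ] E} (hV : Pot V G H) {s : ℝ}
    (hs : 0 < s) (y v : E) :
    (∫ x, (inner ℝ (G x) v : ℝ) ^ 2 ∂(gibbs (post V s y)))
      - (∫ x, (inner ℝ (G x) v : ℝ) ∂(gibbs (post V s y))) ^ 2 ≤ s * (4 * ‖v‖ ^ 2) := by
  have hA := hV.cpot.post_adm hs y
  have := hA.isProb
  have hHn : ∀ x, ‖H x v‖ ≤ 2 * ‖v‖ := fun x => by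
    have h1 : ‖H x‖ ≤ 2 := norm_le_of_quad (by norm_num) (hV.symm x) fun w => by
      rw [abs_of_nonneg ((sq_nonneg _).trans (hV.lo x w))]
      exact hV.hi x w
    exact (H x).le_of_opNorm_le h1 v
  have cH := hV.contH
  have h1 := poincare (m := 1 / s) (by positivity) hA (hV.cpot.post_midSC hs y)
    (f := fun x => (inner ℝ (G x) v : ℝ)) (g := fun x => H x v)
    (fun x => by
      have h2 : HasFDerivAt (fun x : E => innerSL ℝ v (G x)) ((innerSL ℝ v).comp (H x)) x :=
        (innerSL ℝ v).hasFDerivAt.comp x (hV.hess x)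
      have h3 : (fun x : E => (inner ℝ (G x) v : ℝ)) = fun x => innerSL ℝ v (G x) := by
        funext x; rw [innerSL_apply_apply, real_inner_comm]
      rw [h3]
      refine h2.congr_fderiv ?_
      ext w
      simp only [ContinuousLinearMap.comp_apply, innerSL_apply_apply]
      rw [hV.symm x v w]) (by (clear * - cH; fun_prop)) (hV.cpot.pgF.inner (PG.const _))
    ⟨2 * ‖v‖, 0, fun x => by simpa only [pow_zero, mul_one] using hHn x⟩
  rw [one_div_one_div] at h1
  refine h1.trans ?_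
  gcongr
  have h4 : ∫ x, ‖H x v‖ ^ 2 ∂(gibbs (post V s y)) ≤ ∫ x, 4 * ‖v‖ ^ 2 ∂(gibbs (post V s y)) := by
    refine integral_mono ?_ (integrable_const _) fun x => ?_
    · refine Integrable.of_bound (by (clear hHn h1; fun_prop)) (4 * ‖v‖ ^ 2) (Eventually.of_forall fun x => ?_)
      rw [Real.norm_of_nonneg (by positivity)]
      have := hHn x
      linarith only [mul_nonneg (sub_nonneg.2 this) (norm_nonneg v), mul_nonneg (sub_nonneg.2 this) (norm_nonneg (H x v))]
    · have := hHn x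
      simp only
      linarith only [mul_nonneg (sub_nonneg.2 this) (norm_nonneg v), mul_nonneg (sub_nonneg.2 this) (norm_nonneg (H x v))]
  rw [integral_const, probReal_univ, one_smul] at h4
  exact h4

/-- The smoothed potential is again convex with `2`-Lipschitz gradient `Fp`. -/
theorem Wp_cpot {V : E → ℝ} {G : E → E} {H : E → E →L[ℝ] E} (hV : Pot V G H) {s : ℝ}
    (hs : 0 < s) : CPot (Wp V s) (Fp V G s) := by
  have hA := fun y => hV.cpot.post_adm hs y
  have cV := hV.cpot.contW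
  have cG := hV.cpot.contF
  have pG := hV.cpot.pgF
  -- derivative of `Fp` along lines
  have hline : ∀ y u : E, ∀ t : ℝ, ∀ h : E → E, Continuous h → PG h →
      HasDerivAt (fun t => ∫ x, h x ∂(gibbs (post V s (y + t • u))))
      ((1 / s) • ((∫ x, (inner ℝ x u : ℝ) • h x ∂(gibbs (post V s (y + t • u))))
        - (∫ x, (inner ℝ x u : ℝ) ∂(gibbs (post V s (y + t • u))))
          • ∫ x, h x ∂(gibbs (post V s (y + t • u))))) t := by
    intro y u t h chh ph
    obtain ⟨C, k, hC, hCk⟩ := ph.nonneg_bound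
    have := post_hasDerivAt (F := E) hV hs (Y := fun t => y + t • u) (Y' := fun _ => u)
      (h := fun _ => h) (h' := fun _ _ => 0) (t0 := t) (r := 1) (B := ‖y‖ + (|t| + 1) * ‖u‖ + ‖u‖)
      (C := C) (k := k) one_pos (fun t' _ => by
        have := ((hasDerivAt_id t').smul_const u).const_add y
        simpa only [hasDerivAt_const_add_iff, id_eq, one_smul] using this)
      (fun t' ht' => by
        have h1 : |t'| ≤ |t| + 1 := by
          have := abs_sub_abs_le_abs_sub t' t
          linarith only [this, ht']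
        calc ‖y + t' • u‖ ≤ ‖y‖ + ‖t' • u‖ := norm_add_le _ _
          _ = ‖y‖ + |t'| * ‖u‖ := by rw [norm_smul, Real.norm_eq_abs]
          _ ≤ ‖y‖ + (|t| + 1) * ‖u‖ := by (clear * - h1; gcongr)
          _ ≤ _ := by linarith only [(norm_nonneg u)])
      (fun t' _ => by
        have h1 : 0 ≤ (|t| + 1) * ‖u‖ := by (clear * -; positivity)
        linarith only [(norm_nonneg y), h1])
      (fun t' _ x => hasDerivAt_const _ _) (fun _ _ => chh) (fun _ _ => continuous_const)
      (fun _ _ x => hCk x) (fun _ _ x => by rw [norm_zero]; (clear * - hC; positivity))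
    simpa only [one_div, integral_zero, zero_add] using this
  refine ⟨fun y => ?_, fun x y => ?_, fun x y => ?_⟩
  · -- the gradient
    have hZ : HasFDerivAt (fun y => ∫ x, Real.exp (-post V s y x))
        (∫ x, Real.exp (-post V s y x) • innerSL ℝ (s⁻¹ • (x - y))) y := by
      refine hasFDerivAt_integral_of_dominated_of_fderiv_le (s := Metric.ball y 1)
        (F' := fun y x => Real.exp (-post V s y x) • innerSL ℝ (s⁻¹ • (x - y)))
        (bound := fun x => (s⁻¹ * (‖y‖ + 1)) * (1 + ‖x‖) ^ 1 * Real.exp (0 - 1 / 2 * ‖x‖ ^ 2))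
        (Metric.ball_mem_nhds y one_pos) ?_ ?_ ?_ ?_ ?_ ?_
      · refine Eventually.of_forall fun y' => ?_
        exact (Real.continuous_exp.comp (hA y').cont.neg).aestronglyMeasurable
      · exact (hA y).integrable_exp
      · have c1 : Continuous fun x : E => innerSL ℝ (s⁻¹ • (x - y)) :=
          (innerSL ℝ).continuous.comp (by fun_prop)
        exact ((Real.continuous_exp.comp (hA y).cont.neg).smul c1).aestronglyMeasurable
      · refine Eventually.of_forall fun x y' hy' => ?_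
        rw [norm_smul, innerSL_apply_norm, norm_smul, Real.norm_of_nonneg (Real.exp_pos _).le,
          Real.norm_of_nonneg (by positivity), pow_one]
        have h1 : Real.exp (-post V s y' x) ≤ Real.exp (0 - 1 / 2 * ‖x‖ ^ 2) := by
          refine Real.exp_le_exp.2 ?_
          have h2 := hV.low x
          have h3 : 0 ≤ ‖x - y'‖ ^ 2 / (2 * s) := by (clear * - hs; positivity)
          unfold post
          linarith only [h3, h2]
        have h2 : ‖x - y'‖ ≤ (‖y‖ + 1) * (1 + ‖x‖) := by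
          have h3 : ‖y'‖ ≤ ‖y‖ + 1 := by
            have h4 : ‖y' - y‖ < 1 := by rwa [← dist_eq_norm]
            calc ‖y'‖ = ‖y + (y' - y)‖ := by congr 1; abel
              _ ≤ ‖y‖ + ‖y' - y‖ := norm_add_le _ _
              _ ≤ _ := by linarith only [h4]
          have h4 := norm_sub_le x y'
          linarith only [mul_nonneg (norm_nonneg x) (norm_nonneg y), h3, h4]
        calc Real.exp (-post V s y' x) * (s⁻¹ * ‖x - y'‖)
            ≤ Real.exp (0 - 1 / 2 * ‖x‖ ^ 2) * (s⁻¹ * ((‖y‖ + 1) * (1 + ‖x‖))) := by (clear * - h1 h2 hs; gcongr)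
          _ = _ := by ring
      · exact integrable_pow_mul_exp (E := E) (by norm_num) _ _ _
      · refine Eventually.of_forall fun x y' _ => ?_
        have h1 : HasFDerivAt (fun y : E => ‖x - y‖ ^ 2)
            (2 • (innerSL ℝ (x - y')).comp (-ContinuousLinearMap.id ℝ E)) y' :=
          ((hasFDerivAt_id y').const_sub x).norm_sq
        have h2 : HasFDerivAt (fun y : E => post V s y x)
            (-innerSL ℝ (s⁻¹ • (x - y'))) y' := by
          have h3 := (h1.mul_const (2 * s)⁻¹).const_add (V x)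
          have h4 : -innerSL ℝ (s⁻¹ • (x - y'))
              = (2 * s)⁻¹ • (2 • (innerSL ℝ (x - y')).comp (-ContinuousLinearMap.id ℝ E)) := by
            ext v
            simp only [innerSL_apply_apply, real_inner_smul_left, _root_.neg_apply,
              _root_.smul_apply, ContinuousLinearMap.comp_apply, ContinuousLinearMap.id_apply,
              smul_eq_mul, nsmul_eq_mul, mul_inv, inner_neg_right]
            push_cast
            ring
          rw [h4]
          refine h3.congr_of_eventuallyEq (Eventually.of_forall fun w => ?_)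
          simp only [post, div_eq_mul_inv, mul_inv_rev]
        have h5 := h2.neg.exp
        rw [neg_neg] at h5
        exact h5
    have hZ0 := (hA y).integral_exp_pos
    have h1 := (hZ.log hZ0.ne').neg
    have h2 : -((∫ x, Real.exp (-post V s y x))⁻¹
        • ∫ x, Real.exp (-post V s y x) • innerSL ℝ (s⁻¹ • (x - y)))
        = innerSL ℝ (Fp V G s y) := by
      have e1 : ∫ x, Real.exp (-post V s y x) • innerSL ℝ (s⁻¹ • (x - y))
          = innerSL ℝ (∫ x, Real.exp (-post V s y x) • (s⁻¹ • (x - y))) := by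
        rw [← ContinuousLinearMap.integral_comp_comm]
        · refine integral_congr_ae (Eventually.of_forall fun x => ?_)
          simp only [map_smul]
        · have hi : Integrable (fun x : E => s⁻¹ • (x - y)) (gibbs (post V s y)) :=
            (hA y).integrable ((PG.const s⁻¹).smul (PG.id.sub (PG.const y))) (by (clear V G H hV hs hA cV cG pG hline hZ hZ0 h1; fun_prop))
          unfold gibbs at hi
          rwa [integrable_tilted_iff (hA y).integrable_exp] at hi
      rw [e1, ← map_smul, ← gibbs_integral]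
      have := (hA y).isProb
      have i2 : Integrable (fun x : E => x) (gibbs (post V s y)) :=
        (hA y).integrable PG.id continuous_id.aestronglyMeasurable
      rw [integral_smul, integral_sub i2 (integrable_const y), integral_const, probReal_univ,
        one_smul, post_mean hV.cpot hs y, ← map_neg]
      congr 1
      have h3 : y - s • Fp V G s y - y = -(s • Fp V G s y) := by abel
      rw [h3, smul_neg, neg_neg, smul_smul, inv_mul_cancel₀ hs.ne', one_smul]
    rw [← h2]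
    exact h1
  · -- monotonicity
    obtain ⟨u, hu⟩ : ∃ u, u = x - y := ⟨_, rfl⟩
    rw [← hu]
    set φ : ℝ → ℝ := fun t => inner ℝ (Fp V G s (y + t • u)) u with hφ
    have hFp : ∀ t : ℝ, Fp V G s (y + t • u)
        = s⁻¹ • (y + t • u - ∫ x, x ∂(gibbs (post V s (y + t • u)))) := fun t => by
      rw [post_mean hV.cpot hs, sub_sub_cancel, smul_smul, inv_mul_cancel₀ hs.ne', one_smul]
    have hd : ∀ t, HasDerivAt φ (s⁻¹ * (‖u‖ ^ 2
        - (1 / s) * ((∫ x, (inner ℝ x u : ℝ) ^ 2 ∂(gibbs (post V s (y + t • u))))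
          - (∫ x, (inner ℝ x u : ℝ) ∂(gibbs (post V s (y + t • u)))) ^ 2))) t := by
      intro t
      have h1 := hline y u t (fun x => x) continuous_id PG.id
      have h2 : HasDerivAt (fun t : ℝ => y + t • u) u t := by
        have := ((hasDerivAt_id t).smul_const u).const_add y
        simpa using this
      have h3 := ((h2.sub h1).const_smul s⁻¹)
      have h4 := (innerSL ℝ u).hasFDerivAt.comp_hasDerivAt t h3
      have h5 : φ = fun t => innerSL ℝ u (s⁻¹ • (y + t • u
          - ∫ x, x ∂(gibbs (post V s (y + t • u))))) := by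
        funext t
        rw [innerSL_apply_apply, ← hFp t, real_inner_comm]
      rw [h5]
      refine HasDerivAt.congr_deriv h4 ?_
      have hAt := hA (y + t • u)
      have := hAt.isProb
      have i2 : Integrable (fun x : E => x) (gibbs (post V s (y + t • u))) :=
        hAt.integrable PG.id continuous_id.aestronglyMeasurable
      have i3 : Integrable (fun x : E => (inner ℝ x u : ℝ) • x) (gibbs (post V s (y + t • u))) :=
        hAt.integrable ((PG.id.inner (PG.const u)).smul PG.id) (by (clear cV cG pG hline x hu φ hφ hFp h1 h2 h3 h4 h5 i2; fun_prop))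
      rw [innerSL_apply_apply, inner_smul_right, inner_sub_right, inner_smul_right,
        inner_sub_right, inner_smul_right, real_inner_self_eq_norm_sq]
      have e1 := integral_inner (𝕜 := ℝ) i3 u
      have e2 := integral_inner (𝕜 := ℝ) i2 u
      rw [← e1, ← e2]
      have e3 : ∀ x : E, (inner ℝ u ((inner ℝ x u : ℝ) • x) : ℝ) = (inner ℝ x u : ℝ) ^ 2 :=
        fun x => by rw [inner_smul_right, real_inner_comm x u]; ring
      have e4 : ∀ x : E, (inner ℝ u x : ℝ) = inner ℝ x u := fun x => real_inner_comm _ _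
      simp_rw [e3, e4]
      ring
    have hmono : Monotone φ := monotone_of_deriv_nonneg (fun t => (hd t).differentiableAt)
      fun t => by
        rw [(hd t).deriv]
        have h1 := post_var_lin hV.cpot hs (y + t • u) u
        have h2 : (1 / s) * ((∫ x, (inner ℝ x u : ℝ) ^ 2 ∂(gibbs (post V s (y + t • u))))
          - (∫ x, (inner ℝ x u : ℝ) ∂(gibbs (post V s (y + t • u)))) ^ 2)
          ≤ (1 / s) * (s * ‖u‖ ^ 2) := by (clear hA cV cG pG hline x hu φ hφ hFp hd; gcongr)
        have h3 : (1 / s) * (s * ‖u‖ ^ 2) = ‖u‖ ^ 2 := by field_simp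
        have h4 : 0 ≤ s⁻¹ := by positivity
        exact mul_nonneg h4 (by (clear hA cV cG pG hline x hu φ hφ hFp hd h4; linarith only [h3, h2]))
    have h1 := hmono zero_le_one
    simp only [hφ, zero_smul, add_zero, one_smul] at h1
    have h2 : y + u = x := by rw [hu]; abel
    rw [h2] at h1
    rw [inner_sub_left]
    linarith only [h1]
  · -- Lipschitz bound
    obtain ⟨u, hu⟩ : ∃ u, u = x - y := ⟨_, rfl⟩
    rw [← hu]
    have hd := fun t => hline y u t G cG pG
    have hb : ∀ t : ℝ, ‖(1 / s) • ((∫ x, (inner ℝ x u : ℝ) • G x ∂(gibbs (post V s (y + t • u))))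
        - (∫ x, (inner ℝ x u : ℝ) ∂(gibbs (post V s (y + t • u))))
          • ∫ x, G x ∂(gibbs (post V s (y + t • u))))‖ ≤ 2 * ‖u‖ := by
      intro t
      have hAt := hA (y + t • u)
      have := hAt.isProb
      set D := (∫ x, (inner ℝ x u : ℝ) • G x ∂(gibbs (post V s (y + t • u))))
        - (∫ x, (inner ℝ x u : ℝ) ∂(gibbs (post V s (y + t • u))))
          • ∫ x, G x ∂(gibbs (post V s (y + t • u))) with hD
      have iG : Integrable G (gibbs (post V s (y + t • u))) :=
        hAt.integrable pG cG.aestronglyMeasurable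
      have i3 : Integrable (fun x : E => (inner ℝ x u : ℝ) • G x)
          (gibbs (post V s (y + t • u))) :=
        hAt.integrable ((PG.id.inner (PG.const u)).smul pG) (by (clear cV pG hline x hu hd D hD iG; fun_prop))
      have h1 : inner ℝ D D = (∫ x, (inner ℝ x u : ℝ) * (inner ℝ (G x) D : ℝ)
          ∂(gibbs (post V s (y + t • u)))) - (∫ x, (inner ℝ x u : ℝ)
          ∂(gibbs (post V s (y + t • u)))) * ∫ x, (inner ℝ (G x) D : ℝ)
          ∂(gibbs (post V s (y + t • u))) := by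
        have e0 : inner ℝ D D = inner ℝ D ((∫ x, (inner ℝ x u : ℝ) • G x
          ∂(gibbs (post V s (y + t • u)))) - (∫ x, (inner ℝ x u : ℝ)
          ∂(gibbs (post V s (y + t • u)))) • ∫ x, G x ∂(gibbs (post V s (y + t • u)))) := by
          rw [← hD]
        rw [e0, inner_sub_right, inner_smul_right, ← integral_inner i3 D, ← integral_inner iG D]
        have e3 : ∀ x : E, (inner ℝ D ((inner ℝ x u : ℝ) • G x) : ℝ)
            = (inner ℝ x u : ℝ) * inner ℝ (G x) D :=
          fun x => by rw [inner_smul_right, real_inner_comm (G x) D]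
        have e4 : ∀ x : E, (inner ℝ D (G x) : ℝ) = inner ℝ (G x) D := fun x => real_inner_comm _ _
        simp_rw [e3, e4]
      have h2 := cov_sq_le (μ := gibbs (post V s (y + t • u)))
        (f := fun x => (inner ℝ x u : ℝ)) (g := fun x => (inner ℝ (G x) D : ℝ))
        (hAt.integrable (PG.id.inner (PG.const _)) (by (clear cV cG pG hline x hu hd D hD iG i3 h1; fun_prop)))
        (hAt.integrable (pG.inner (PG.const _)) (by (clear cV pG hline x hu hd hD iG i3 h1; fun_prop)))
        (hAt.integrable ((PG.id.inner (PG.const _)).pow 2) (by fun_prop))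
        (hAt.integrable ((pG.inner (PG.const _)).pow 2) (by fun_prop))
        (hAt.integrable ((PG.id.inner (PG.const _)).mul (pG.inner (PG.const _))) (by fun_prop))
      rw [← h1] at h2
      have h3 := post_var_lin hV.cpot hs (y + t • u) u
      have h4 := post_var_G hV hs (y + t • u) D
      have h5 : (inner ℝ D D : ℝ) = ‖D‖ ^ 2 := real_inner_self_eq_norm_sq D
      rw [h5] at h2
      have h6 : 0 ≤ (∫ x, (inner ℝ x u : ℝ) ^ 2 ∂(gibbs (post V s (y + t • u))))
          - (∫ x, (inner ℝ x u : ℝ) ∂(gibbs (post V s (y + t • u)))) ^ 2 :=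
        var_nonneg (hAt.integrable (PG.id.inner (PG.const _)) (by (clear cV cG pG hline x hu hd D hD iG i3 h1 h2 h3 h4 h5; fun_prop)))
          (hAt.integrable ((PG.id.inner (PG.const _)).pow 2) (by fun_prop))
      have h7 : (‖D‖ ^ 2) ^ 2 ≤ (s * ‖u‖ ^ 2) * (s * (4 * ‖D‖ ^ 2)) :=
        h2.trans (mul_le_mul h3 h4 (var_nonneg (hAt.integrable (pG.inner (PG.const _))
          (by (clear cV pG hline x hu hd hD iG i3 h1 h2 h3 h4 h5 h6; fun_prop))) (hAt.integrable ((pG.inner (PG.const _)).pow 2) (by fun_prop)))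
          (by (clear * - hs; positivity)))
      have h8 : ‖D‖ ≤ 2 * s * ‖u‖ := by
        by_contra hcon
        push Not at hcon
        have hDpos : 0 < ‖D‖ := lt_of_le_of_lt (by (clear * - hs; positivity)) hcon
        have h9 : (2 * s * ‖u‖) ^ 2 < ‖D‖ ^ 2 := pow_lt_pow_left₀ hcon (by (clear * - hs; positivity)) two_ne_zero
        have h10 : (2 * s * ‖u‖) ^ 2 * ‖D‖ ^ 2 < ‖D‖ ^ 2 * ‖D‖ ^ 2 := by
          exact mul_lt_mul_of_pos_right h9 (by positivity)
        linarith only [h10, h7]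
      rw [norm_smul, Real.norm_of_nonneg (by positivity)]
      calc 1 / s * ‖D‖ ≤ 1 / s * (2 * s * ‖u‖) := by (clear * - h8 hs; gcongr)
        _ = 2 * ‖u‖ := by (clear * - hs; field_simp)
    have h1 := Convex.norm_image_sub_le_of_norm_hasDerivWithin_le (s := univ)
      (fun t _ => (hd t).hasDerivWithinAt) (fun t _ => hb t) convex_univ (mem_univ (0 : ℝ))
      (mem_univ (1 : ℝ))
    simp only [zero_smul, add_zero, one_smul, sub_zero, norm_one, mul_one] at h1
    have h2 : y + u = x := by rw [hu]; abel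
    rw [h2] at h1
    exact h1

theorem Wp_adm {V : E → ℝ} {G : E → E} {H : E → E →L[ℝ] E} (hV : Pot V G H) {s : ℝ}
    (hs : 0 < s) : Adm (Wp V s) := by
  have hA := fun y => hV.cpot.post_adm hs y
  have ha : 0 < (1 + s) / (2 * s) := by positivity
  set C := ∫ x : E, Real.exp (-((1 + s) / (2 * s) * ‖x‖ ^ 2)) with hC
  have hCi := integrable_exp_neg_sq (E := E) ha
  have hC0 : 0 < C := MeasureTheory.integral_exp_pos hCi
  refine ⟨(Wp_cpot hV hs).contW, 1 / (2 * (1 + s)), by positivity, Real.log C, fun y => ?_⟩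
  have hid : ∀ x : E, ‖x‖ ^ 2 / 2 + ‖x - y‖ ^ 2 / (2 * s)
      = (1 + s) / (2 * s) * ‖x - (1 + s)⁻¹ • y‖ ^ 2 + 1 / (2 * (1 + s)) * ‖y‖ ^ 2 := fun x => by
    rw [norm_sub_sq_real, norm_sub_sq_real, inner_smul_right, norm_smul,
      Real.norm_of_nonneg (by positivity)]
    field_simp
    ring
  have h1 : ∫ x, Real.exp (-post V s y x) ≤ Real.exp (-(1 / (2 * (1 + s)) * ‖y‖ ^ 2)) * C := by
    have h2 : ∀ x : E, Real.exp (-post V s y x) ≤ Real.exp (-(1 / (2 * (1 + s)) * ‖y‖ ^ 2))
        * Real.exp (-((1 + s) / (2 * s) * ‖x - (1 + s)⁻¹ • y‖ ^ 2)) := fun x => by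
      rw [← Real.exp_add]
      refine Real.exp_le_exp.2 ?_
      have h3 := hV.low x
      have h4 := hid x
      unfold post
      linarith only [h4, h3]
    have h3 : Integrable (fun x : E => Real.exp (-((1 + s) / (2 * s)
        * ‖x - (1 + s)⁻¹ • y‖ ^ 2))) := hCi.comp_sub_right _
    calc _ ≤ ∫ x : E, Real.exp (-(1 / (2 * (1 + s)) * ‖y‖ ^ 2))
        * Real.exp (-((1 + s) / (2 * s) * ‖x - (1 + s)⁻¹ • y‖ ^ 2)) :=
          integral_mono (hA y).integrable_exp (h3.const_mul _) h2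
      _ = Real.exp (-(1 / (2 * (1 + s)) * ‖y‖ ^ 2)) * C := by
          rw [integral_const_mul]
          congr 1
          exact integral_sub_right_eq_self
            (fun x : E => Real.exp (-((1 + s) / (2 * s) * ‖x‖ ^ 2))) _
  have h2 := Real.log_le_log (hA y).integral_exp_pos h1
  rw [Real.log_mul (Real.exp_pos _).ne' hC0.ne', Real.log_exp] at h2
  unfold Wp
  linarith only [h2]

/-- Joint integrability behind the disintegration. -/
theorem joint_integrable_vol {V : E → ℝ} {G : E → E} {H : E → E →L[ℝ] E} (hV : Pot V G H) {s : ℝ}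
    (hs : 0 < s) {f : E × E → ℝ} (hf : Measurable f)
    (bf : ∃ C k, ∀ q, |f q| ≤ C * (1 + ‖q‖) ^ (k : ℕ)) :
    Integrable (fun q : E × E => Real.exp (-post V s q.2 q.1) * f q)
      ((volume : Measure E).prod volume) := by
  obtain ⟨C, k, hb⟩ := bf
  have hC : 0 ≤ C := by
    have := hb 0
    rw [norm_zero, add_zero, one_pow, mul_one] at this
    exact (abs_nonneg _).trans this
  have cV := hV.cpot.contW
  have i1 := integrable_pow_mul_exp (E := E) (a := 1 / 4) (by norm_num) C k 0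
  have i2 := integrable_pow_mul_exp (E := E) (a := 1 / (4 + 2 * s)) (by positivity) 1 k 0
  refine (i1.mul_prod i2).mono' ?_ (Eventually.of_forall fun q => ?_)
  · have c1 : Continuous fun q : E × E => Real.exp (-post V s q.2 q.1) := by
      unfold post; (clear * - cV; fun_prop)
    exact (c1.measurable.mul hf).aestronglyMeasurable
  · obtain ⟨x, y⟩ := q
    rw [norm_mul, Real.norm_of_nonneg (Real.exp_pos _).le, Real.norm_eq_abs]
    have h1 : |f (x, y)| ≤ C * ((1 + ‖x‖) ^ k * (1 + ‖y‖) ^ k) := by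
      refine (hb (x, y)).trans ?_
      rw [← mul_pow]
      have h2 : 1 + ‖(x, y)‖ ≤ (1 + ‖x‖) * (1 + ‖y‖) := by
        have h3 : ‖(x, y)‖ ≤ ‖x‖ + ‖y‖ := by
          rw [Prod.norm_def]
          exact max_le (by linarith only [(norm_nonneg y)]) (by linarith only [(norm_nonneg x)])
        (refine le_of_not_gt fun hng_ => ?_; linarith only [mul_nonneg (le_of_lt (sub_pos.2 hng_)) (mul_nonneg (norm_nonneg x) (norm_nonneg y)), mul_nonneg (sub_nonneg.2 h3) (le_of_lt (sub_pos.2 hng_)), mul_pos (sub_pos.2 hng_) (sub_pos.2 hng_)])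
      (clear * - h2 hC; gcongr)
    have h2 : Real.exp (-post V s y x) ≤ Real.exp (0 - 1 / 4 * ‖x‖ ^ 2)
        * Real.exp (0 - 1 / (4 + 2 * s) * ‖y‖ ^ 2) := by
      rw [← Real.exp_add]
      refine Real.exp_le_exp.2 ?_
      have h3 := hV.low x
      have h4 : 1 / (4 + 2 * s) * ‖y‖ ^ 2 ≤ ‖x‖ ^ 2 / 4 + ‖x - y‖ ^ 2 / (2 * s) := by
        have h5 : ‖y‖ ≤ ‖x‖ + ‖x - y‖ := by
          calc ‖y‖ = ‖x - (x - y)‖ := by congr 1; abel
            _ ≤ _ := norm_sub_le _ _
        have h6 : ‖y‖ ^ 2 ≤ (‖x‖ + ‖x - y‖) ^ 2 := pow_le_pow_left₀ (norm_nonneg _) h5 2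
        have h7 : (‖x‖ + ‖x - y‖) ^ 2 ≤ (‖x‖ ^ 2 / 4 + ‖x - y‖ ^ 2 / (2 * s)) * (4 + 2 * s) := by
          have h8 : (‖x‖ ^ 2 / 4 + ‖x - y‖ ^ 2 / (2 * s)) * (4 + 2 * s)
              - (‖x‖ + ‖x - y‖) ^ 2 = (s * ‖x‖ - 2 * ‖x - y‖) ^ 2 / (2 * s) := by
            field_simp
            ring
          have h9 : 0 ≤ (s * ‖x‖ - 2 * ‖x - y‖) ^ 2 / (2 * s) := by (clear * - hs; positivity)
          linarith only [h9, h8]
        rw [div_mul_eq_mul_div, one_mul, div_le_iff₀ (by positivity)]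
        exact h6.trans h7
      unfold post
      linarith only [h4, h3]
    calc Real.exp (-post V s y x) * |f (x, y)|
        ≤ (Real.exp (0 - 1 / 4 * ‖x‖ ^ 2) * Real.exp (0 - 1 / (4 + 2 * s) * ‖y‖ ^ 2))
          * (C * ((1 + ‖x‖) ^ k * (1 + ‖y‖) ^ k)) := by (clear * - h2 h1; gcongr)
      _ = _ := by ring

/-- Posterior expectations are integrable functions of the observation. -/
theorem joint_integrable {V : E → ℝ} {G : E → E} {H : E → E →L[ℝ] E} (hV : Pot V G H) {s : ℝ}
    (hs : 0 < s) {f : E × E → ℝ} (hf : Measurable f)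
    (bf : ∃ C k, ∀ q, |f q| ≤ C * (1 + ‖q‖) ^ (k : ℕ)) :
    Integrable (fun y => ∫ x, f (x, y) ∂(gibbs (post V s y))) (gibbs (Wp V s)) := by
  have hA := fun y => hV.cpot.post_adm hs y
  have h1 := (joint_integrable_vol hV hs hf bf).integral_prod_right
  unfold gibbs
  rw [integrable_tilted_iff (Wp_adm hV hs).integrable_exp]
  refine h1.congr (Eventually.of_forall fun y => ?_)
  simp only [smul_eq_mul]
  have h2 := gibbs_integral (U := post V s y) (fun x => f (x, y))
  unfold gibbs at h2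
  rw [h2]
  have hZ := (hA y).integral_exp_pos
  have h3 : Real.exp (-Wp V s y) = ∫ x, Real.exp (-post V s y x) := by
    unfold Wp
    rw [neg_neg, Real.exp_log hZ]
  rw [h3, smul_eq_mul, ← mul_assoc, mul_inv_cancel₀ hZ.ne', one_mul]
  rfl

/-- Disintegration: `Y ∼ gibbs W`, `X | Y ∼ ρ_Y` is the same as `X ∼ π`, `Y = X + √s Z`. -/
theorem joint_law {V : E → ℝ} {G : E → E} {H : E → E →L[ℝ] E} (hV : Pot V G H) {s : ℝ}
    (hs : 0 < s) {f : E × E → ℝ} (hf : Measurable f) (bf : ∃ C k, ∀ q, |f q| ≤ C * (1 + ‖q‖) ^ (k : ℕ)) :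
    ∫ y, ∫ x, f (x, y) ∂(gibbs (post V s y)) ∂(gibbs (Wp V s))
      = ∫ x, ∫ z, f (x, x + √s • z) ∂(gam E) ∂(gibbs V) := by
  have hA := fun y => hV.cpot.post_adm hs y
  have hΦ := joint_integrable_vol hV hs hf bf
  have hK := joint_integrable_vol hV hs (f := fun _ => 1) measurable_const ⟨1, 0, by simp⟩
  simp only [mul_one] at hK
  set c := ∫ y : E, Real.exp (-(‖y‖ ^ 2 / (2 * s))) with hc
  have hci : Integrable (fun y : E => Real.exp (-(‖y‖ ^ 2 / (2 * s)))) := by
    have := integrable_exp_neg_sq (E := E) (b := 1 / (2 * s)) (by positivity)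
    refine this.congr (Eventually.of_forall fun x => ?_)
    simp only
    congr 2
    ring
  have hc0 : 0 < c := MeasureTheory.integral_exp_pos hci
  have hcx : ∀ x : E, ∫ y : E, Real.exp (-(‖y - x‖ ^ 2 / (2 * s))) = c := fun x =>
    integral_sub_right_eq_self (fun y : E => Real.exp (-(‖y‖ ^ 2 / (2 * s)))) x
  have hexpW : ∀ y, Real.exp (-Wp V s y) = ∫ x, Real.exp (-post V s y x) := fun y => by
    unfold Wp
    rw [neg_neg, Real.exp_log (hA y).integral_exp_pos]
  have hLHS : ∫ y, ∫ x, f (x, y) ∂(gibbs (post V s y)) ∂(gibbs (Wp V s))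
      = (∫ y, ∫ x, Real.exp (-post V s y x))⁻¹
        * ∫ y, ∫ x, Real.exp (-post V s y x) * f (x, y) := by
    rw [gibbs_integral]
    simp only [smul_eq_mul]
    congr 1
    · simp_rw [hexpW]
    · refine integral_congr_ae (Eventually.of_forall fun y => ?_)
      simp only
      rw [gibbs_integral, hexpW, smul_eq_mul, ← mul_assoc,
        mul_inv_cancel₀ (hA y).integral_exp_pos.ne', one_mul]
      rfl
  have hpost : ∀ x y, Real.exp (-post V s y x)
      = Real.exp (-V x) * Real.exp (-(‖y - x‖ ^ 2 / (2 * s))) := fun x y => by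
    rw [← Real.exp_add]
    unfold post
    rw [norm_sub_rev x y]
    congr 1
    ring
  have hRHS : ∫ x, ∫ z, f (x, x + √s • z) ∂(gam E) ∂(gibbs V)
      = (∫ x, Real.exp (-V x))⁻¹ * (c⁻¹ * ∫ x, ∫ y, Real.exp (-post V s y x) * f (x, y)) := by
    rw [gibbs_integral]
    simp only [smul_eq_mul]
    congr 1
    rw [← integral_const_mul]
    refine integral_congr_ae (Eventually.of_forall fun x => ?_)
    simp only
    rw [gam_affine hs x (fun y => f (x, y)), gibbs_integral, hcx x, smul_eq_mul,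
      mul_left_comm, ← integral_const_mul]
    congr 1
    refine integral_congr_ae (Eventually.of_forall fun y => ?_)
    simp only [smul_eq_mul]
    rw [hpost x y, mul_assoc]
  have hZ : ∫ y, ∫ x, Real.exp (-post V s y x) = c * ∫ x, Real.exp (-V x) := by
    rw [← integral_integral_swap (f := fun x y => Real.exp (-post V s y x)) hK,
      ← integral_const_mul]
    refine integral_congr_ae (Eventually.of_forall fun x => ?_)
    simp only
    simp_rw [hpost x]
    rw [integral_const_mul, hcx x, mul_comm]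
  rw [hLHS, hRHS, hZ, ← integral_integral_swap
    (f := fun x y => Real.exp (-post V s y x) * f (x, y)) hΦ, mul_inv]
  ring

theorem moment_pi {V : E → ℝ} {G : E → E} {H : E → E →L[ℝ] E} (hV : Pot V G H) :
    ∫ x, ‖x‖ ^ 2 ∂(gibbs V) ≤ (finrank ℝ E : ℝ) := by
  have hA := hV.adm
  have := hA.isProb
  have cG := hV.cpot.contF
  have pG := hV.cpot.pgF
  set b := stdOrthonormalBasis ℝ E
  have h1 : ∀ i, ∫ x, (inner ℝ x (b i) : ℝ) * inner ℝ (b i) (G x) ∂(gibbs V) = 1 := fun i => by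
    have h2 := gibbs_ibp hA hV.grad cG pG (f := fun x => (inner ℝ x (b i) : ℝ))
      (f' := fun _ => b i) (fun x => by
        have h2 : (fun x : E => (inner ℝ x (b i) : ℝ)) = fun x => innerSL ℝ (b i) x := by
          funext x; rw [innerSL_apply_apply, real_inner_comm]
        rw [h2]
        exact (innerSL ℝ (b i)).hasFDerivAt) continuous_const (PG.id.inner (PG.const _))
      (PG.const _) (b i)
    rw [integral_const, probReal_univ, one_smul, real_inner_self_eq_norm_sq,
      b.orthonormal.1 i, one_pow] at h2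
    rw [h2]
    refine integral_congr_ae (Eventually.of_forall fun x => ?_)
    simp only
    rw [real_inner_comm (G x) (b i)]
  have h3 : ∫ x, (inner ℝ x (G x) : ℝ) ∂(gibbs V) = (finrank ℝ E : ℝ) := by
    have h4 : ∀ x, (inner ℝ x (G x) : ℝ) = ∑ i, (inner ℝ x (b i) : ℝ) * inner ℝ (b i) (G x) :=
      fun x => (b.sum_inner_mul_inner x (G x)).symm
    simp_rw [h4]
    rw [integral_finsetSum]
    · simp_rw [h1]
      simp only [Finset.sum_const, Finset.card_univ, Fintype.card_fin, nsmul_eq_mul, mul_one]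
    · intro i _
      exact hA.integrable ((PG.id.inner (PG.const _)).mul ((PG.const _).inner pG)) (by (clear pG h1 h4; fun_prop))
  rw [← h3]
  refine integral_mono (hA.integrable (PG.id.norm.pow 2) (by (clear cG pG b h1 h3; fun_prop)))
    (hA.integrable (PG.id.inner pG) (by (clear pG b h1 h3; fun_prop))) fun x => ?_
  have h5 := hV.monoG x 0
  rw [hV.gzero, sub_zero, sub_zero, real_inner_comm] at h5
  exact h5

theorem moment_W {V : E → ℝ} {G : E → E} {H : E → E →L[ℝ] E} (hV : Pot V G H) {s : ℝ}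
    (hs : 0 < s) (hs1 : s ≤ 1) :
    ∫ y, ‖y‖ ^ 2 ∂(gibbs (Wp V s)) ≤ 2 * (finrank ℝ E : ℝ) := by
  have hA := hV.adm
  have := hA.isProb
  have h1 := joint_law hV hs (f := fun q => ‖q.2‖ ^ 2) (by fun_prop) ⟨1, 2, fun q => by
    rw [abs_of_nonneg (by (clear * -; positivity)), one_mul]
    have h2 : ‖q.2‖ ≤ ‖q‖ := norm_snd_le q
    exact pow_le_pow_left₀ (norm_nonneg _) (by linarith only [h2]) 2⟩
  have h2 : ∫ y, ∫ x, (fun q : E × E => ‖q.2‖ ^ 2) (x, y) ∂(gibbs (post V s y))
      ∂(gibbs (Wp V s)) = ∫ y, ‖y‖ ^ 2 ∂(gibbs (Wp V s)) := by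
    refine integral_congr_ae (Eventually.of_forall fun y => ?_)
    have := (hV.cpot.post_adm hs y).isProb
    simp only
    rw [integral_const, probReal_univ, one_smul]
  rw [h2] at h1
  rw [h1]
  have h3 : ∀ x : E, ∫ z, (fun q : E × E => ‖q.2‖ ^ 2) (x, x + √s • z) ∂(gam E)
      = ‖x‖ ^ 2 + s * (finrank ℝ E : ℝ) := fun x => by
    have h4 : ∀ z : E, (fun q : E × E => ‖q.2‖ ^ 2) (x, x + √s • z)
        = ‖x‖ ^ 2 + (2 * √s * inner ℝ x z + s * ‖z‖ ^ 2) := fun z => by
      simp only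
      rw [norm_add_sq_real, inner_smul_right, norm_smul, Real.norm_of_nonneg (Real.sqrt_nonneg _),
        mul_pow, Real.sq_sqrt hs.le]
      ring
    simp_rw [h4]
    have j1 : Integrable (fun z : E => (inner ℝ x z : ℝ)) (gam E) :=
      gam_integrable ((PG.const x).inner PG.id) (by (clear s hs hs1 h1 h2 h4; fun_prop))
    have j2 : Integrable (fun z : E => ‖z‖ ^ 2) (gam E) :=
      gam_integrable (PG.id.norm.pow 2) (by fun_prop)
    have j3 : Integrable (fun z : E => z) (gam E) := gam_integrable PG.id (by fun_prop)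
    rw [integral_add (integrable_const _) (by fun_prop),
      integral_add (by fun_prop) (by fun_prop), integral_const_mul, integral_const_mul,
      integral_const, probReal_univ, one_smul, gam_sq, integral_inner (𝕜 := ℝ) j3 x, gam_mean,
      inner_zero_right]
    ring
  simp_rw [h3]
  rw [integral_add (hA.integrable (PG.id.norm.pow 2) (by (clear s hs hs1 h1 h2 h3; fun_prop))) (integrable_const _),
    integral_const, probReal_univ, one_smul]
  have h5 := moment_pi hV
  have h6 : s * (finrank ℝ E : ℝ) ≤ 1 * (finrank ℝ E : ℝ) := by (clear * - hs1; gcongr)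
  (clear hs h1 h2 h3; linarith only [h6, h5])

/-- Posterior second moment of the gradient, averaged over `y`. -/
theorem moment_G {V : E → ℝ} {G : E → E} {H : E → E →L[ℝ] E} (hV : Pot V G H) {s : ℝ}
    (hs : 0 < s) :
    ∫ y, ∫ x, ‖G x‖ ^ 2 ∂(gibbs (post V s y)) ∂(gibbs (Wp V s)) ≤ 4 * (finrank ℝ E : ℝ) := by
  have hA := hV.adm
  have := hA.isProb
  have cG := hV.cpot.contF
  have pG := hV.cpot.pgF
  have hGx : ∀ x, ‖G x‖ ≤ 2 * ‖x‖ := fun x => by
    have := hV.lipG x 0
    rwa [hV.gzero, sub_zero, sub_zero] at this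
  have h1 := joint_law hV hs (f := fun q => ‖G q.1‖ ^ 2) (by
    have : Continuous fun q : E × E => ‖G q.1‖ ^ 2 := by fun_prop
    exact this.measurable) ⟨4, 2, fun q => by
    rw [abs_of_nonneg (by positivity)]
    have h2 : ‖q.1‖ ≤ ‖q‖ := norm_fst_le q
    have h3 := hGx q.1
    have h4 : ‖G q.1‖ ≤ 2 * (1 + ‖q‖) := by linarith only [h3, h2]
    calc ‖G q.1‖ ^ 2 ≤ (2 * (1 + ‖q‖)) ^ 2 := pow_le_pow_left₀ (norm_nonneg _) h4 2
      _ = 4 * (1 + ‖q‖) ^ 2 := by ring⟩
  simp only at h1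
  rw [h1]
  simp only [integral_const, probReal_univ, one_smul]
  have h2 : ∫ x, ‖G x‖ ^ 2 ∂(gibbs V) ≤ ∫ x, 4 * ‖x‖ ^ 2 ∂(gibbs V) := by
    refine integral_mono (hA.integrable (pG.norm.pow 2) (by (clear s hs pG hGx h1; fun_prop)))
      ((hA.integrable (PG.id.norm.pow 2) (by (clear s hs cG pG hGx h1; fun_prop))).const_mul 4) fun x => ?_
    have := hGx x
    simp only
    linarith only [mul_nonneg (sub_nonneg.2 this) (norm_nonneg x), mul_nonneg (sub_nonneg.2 this) (norm_nonneg (G x))]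
  rw [integral_const_mul] at h2
  have h3 := moment_pi hV
  (clear s hs cG pG hGx h1; linarith only [h3, h2])

theorem moment_F {V : E → ℝ} {G : E → E} {H : E → E →L[ℝ] E} (hV : Pot V G H) {s : ℝ}
    (hs : 0 < s) :
    ∫ y, ‖Fp V G s y‖ ^ 2 ∂(gibbs (Wp V s)) ≤ 4 * (finrank ℝ E : ℝ) := by
  have cG := hV.cpot.contF
  have pG := hV.cpot.pgF
  have hGx : ∀ x, ‖G x‖ ≤ 2 * ‖x‖ := fun x => by
    have := hV.lipG x 0
    rwa [hV.gzero, sub_zero, sub_zero] at this
  have hW := Wp_cpot hV hs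
  have hWA := Wp_adm hV hs
  refine le_trans ?_ (moment_G hV hs)
  have hint := joint_integrable hV hs (f := fun q => ‖G q.1‖ ^ 2) (by
    have : Continuous fun q : E × E => ‖G q.1‖ ^ 2 := by (clear * - cG; fun_prop)
    exact this.measurable) ⟨4, 2, fun q => by
    rw [abs_of_nonneg (by positivity)]
    have h2 : ‖q.1‖ ≤ ‖q‖ := norm_fst_le q
    have h3 := hGx q.1
    have h4 : ‖G q.1‖ ≤ 2 * (1 + ‖q‖) := by linarith only [h3, h2]
    calc ‖G q.1‖ ^ 2 ≤ (2 * (1 + ‖q‖)) ^ 2 := pow_le_pow_left₀ (norm_nonneg _) h4 2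
      _ = 4 * (1 + ‖q‖) ^ 2 := by ring⟩
  have cF := hW.contF
  refine integral_mono (hWA.integrable (hW.pgF.norm.pow 2) (by fun_prop)) hint fun y => ?_
  have hA := hV.cpot.post_adm hs y
  have := hA.isProb
  simp only
  have h1 : ‖Fp V G s y‖ ≤ ∫ x, ‖G x‖ ∂(gibbs (post V s y)) := norm_integral_le_integral_norm _
  have h2 := var_nonneg (μ := gibbs (post V s y)) (f := fun x => ‖G x‖)
    (hA.integrable pG.norm (by (clear pG hGx hW hWA hint cF h1; fun_prop))) (hA.integrable (pG.norm.pow 2) (by (clear pG hGx hW hWA hint cF h1; fun_prop)))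
  have h3 : ‖Fp V G s y‖ ^ 2 ≤ (∫ x, ‖G x‖ ∂(gibbs (post V s y))) ^ 2 :=
    pow_le_pow_left₀ (norm_nonneg _) h1 2
  (clear hGx hW hWA hint cF; linarith only [h3, h2])

end Vale.Agent.P347
end

section

/-! Task G1/G3 (P347): auxiliary facts on posterior expectations depending on a parameter. -/

open MeasureTheory Filter Module Set Topology
open scoped ENNReal NNReal

namespace Vale.Agent.P347

variable {E : Type*} [NormedAddCommGroup E] [InnerProductSpace ℝ E] [FiniteDimensional ℝ E]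
  [MeasurableSpace E] [BorelSpace E]
variable {F : Type*} [NormedAddCommGroup F] [NormedSpace ℝ F]
variable {T : Type*} [TopologicalSpace T]

/-! ### Locally uniform polynomial growth -/

section lpg

omit [FiniteDimensional ℝ E] [MeasurableSpace E] [BorelSpace E]

/-- Polynomial growth, locally uniform in a parameter. -/
def LPG (t0 : T) (h : T → E → F) : Prop :=
  ∃ (C : ℝ) (k : ℕ), ∀ᶠ t in 𝓝 t0, ∀ x, ‖h t x‖ ≤ C * (1 + ‖x‖) ^ k

omit [NormedSpace ℝ F] in
theorem LPG.nonneg_bound {t0 : T} {h : T → E → F} (hh : LPG t0 h) :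
    ∃ (C : ℝ) (k : ℕ), 0 ≤ C ∧ ∀ᶠ t in 𝓝 t0, ∀ x, ‖h t x‖ ≤ C * (1 + ‖x‖) ^ k := by
  obtain ⟨C, k, h⟩ := hh
  refine ⟨|C|, k, abs_nonneg _, ?_⟩
  filter_upwards [h] with t ht x
  refine (ht x).trans ?_
  have := one_le_one_add_norm x
  gcongr
  exact le_abs_self C

theorem LPG.smul {t0 : T} {f : T → E → ℝ} {g : T → E → F} (hf : LPG t0 f) (hg : LPG t0 g) :
    LPG t0 (fun t x => f t x • g t x) := by
  obtain ⟨C, k, hC, h⟩ := hf.nonneg_bound
  obtain ⟨C', k', hC', h'⟩ := hg.nonneg_bound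
  refine ⟨C * C', k + k', ?_⟩
  filter_upwards [h, h'] with t ht ht' x
  have h1 := one_le_one_add_norm x
  rw [norm_smul, pow_add]
  calc ‖f t x‖ * ‖g t x‖ ≤ (C * (1 + ‖x‖) ^ k) * (C' * (1 + ‖x‖) ^ k') :=
        mul_le_mul (ht x) (ht' x) (norm_nonneg _) (by positivity)
    _ = _ := by ring

theorem LPG.mul {t0 : T} {f g : T → E → ℝ} (hf : LPG t0 f) (hg : LPG t0 g) :
    LPG t0 (fun t x => f t x * g t x) := hf.smul hg

omit [NormedSpace ℝ F] in
theorem LPG.norm {t0 : T} {f : T → E → F} (hf : LPG t0 f) : LPG t0 (fun t x => ‖f t x‖) := by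
  obtain ⟨C, k, h⟩ := hf
  refine ⟨C, k, ?_⟩
  filter_upwards [h] with t ht x
  rw [norm_norm]
  exact ht x

omit [NormedSpace ℝ F] in
theorem LPG.of_le {F' : Type*} [NormedAddCommGroup F'] {t0 : T} {f : T → E → F} {g : T → E → F'}
    (hf : LPG t0 f) (h : ∀ t x, ‖g t x‖ ≤ ‖f t x‖) : LPG t0 g := by
  obtain ⟨C, k, h'⟩ := hf
  refine ⟨C, k, ?_⟩
  filter_upwards [h'] with t ht x
  exact (h t x).trans (ht x)

theorem LPG.inner {t0 : T} {f g : T → E → E} (hf : LPG t0 f) (hg : LPG t0 g) :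
    LPG t0 (fun t x => (inner ℝ (f t x) (g t x) : ℝ)) := by
  refine (hf.norm.mul hg.norm).of_le fun t x => ?_
  rw [norm_mul, norm_norm, norm_norm]
  exact norm_inner_le_norm _ _

end lpg

/-! ### Continuity and derivative of posterior expectations -/

end Vale.Agent.P347
end

section

/-! Auxiliary material for task D (P347): trajectories of Lipschitz Hamiltonian fields and
measure preservation. -/

open MeasureTheory Filter Module Set Topology
open scoped ENNReal NNReal

namespace Vale.Agent.P347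

section euler

variable {Y : Type*} [NormedAddCommGroup Y] [NormedSpace ℝ Y]

theorem aux_exact_step {Fd : Y → Y} {K : ℝ≥0} (hF : LipschitzWith K Fd) {γ : ℝ → Y} {V T : ℝ}
    (hγ : ∀ t ∈ Icc (0 : ℝ) T, HasDerivAt γ (Fd (γ t)) t)
    (hV : ∀ t ∈ Icc (0 : ℝ) T, ‖Fd (γ t)‖ ≤ V)
    {t h : ℝ} (ht : 0 ≤ t) (hh : 0 ≤ h) (hth : t + h ≤ T) :
    ‖γ (t + h) - γ t - h • Fd (γ t)‖ ≤ K * V * h ^ 2 := by
  have hV0 : 0 ≤ V := (norm_nonneg _).trans (hV t ⟨ht, by linarith⟩)
  have h1 : ∀ τ ∈ Icc t (t + h), ‖γ τ - γ t‖ ≤ V * (τ - t) := by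
    intro τ hτ
    refine norm_image_sub_le_of_norm_deriv_le_segment' (f := γ) (a := t) (b := t + h)
      (f' := fun s => Fd (γ s)) (fun s hs => (hγ s ⟨by linarith [hs.1], by
        linarith [hs.2]⟩).hasDerivWithinAt) ?_ τ hτ
    intro s hs
    exact hV s ⟨by linarith [hs.1], by linarith [hs.2]⟩
  have h2 := norm_image_sub_le_of_norm_deriv_le_segment'
    (f := fun τ => γ τ - (τ - t) • Fd (γ t)) (a := t) (b := t + h)
    (f' := fun s => Fd (γ s) - Fd (γ t)) (C := K * V * h) ?_ ?_ (t + h) ⟨by linarith, le_rfl⟩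
  · have e : (fun τ => γ τ - (τ - t) • Fd (γ t)) (t + h) - (fun τ => γ τ - (τ - t) • Fd (γ t)) t
        = γ (t + h) - γ t - h • Fd (γ t) := by
      simp only [add_sub_cancel_left, sub_self, zero_smul, sub_zero]
      abel
    rw [e] at h2
    refine h2.trans (le_of_eq ?_)
    ring
  · intro s hs
    have h3 : HasDerivAt (fun τ : ℝ => (τ - t) • Fd (γ t)) ((1 : ℝ) • Fd (γ t)) s :=
      ((hasDerivAt_id s).sub_const t).smul_const _
    rw [one_smul] at h3
    exact ((hγ s ⟨by linarith [hs.1], by linarith [hs.2]⟩).sub h3).hasDerivWithinAt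
  · intro s hs
    have h4 := hF.dist_le_mul (γ s) (γ t)
    rw [dist_eq_norm, dist_eq_norm] at h4
    have h5 := h1 s ⟨hs.1, hs.2.le⟩
    calc ‖Fd (γ s) - Fd (γ t)‖ ≤ K * ‖γ s - γ t‖ := h4
      _ ≤ K * (V * h) := by
        apply mul_le_mul_of_nonneg_left _ K.2
        refine h5.trans (mul_le_mul_of_nonneg_left ?_ hV0)
        linarith [hs.2]
      _ = K * V * h := by ring

/-- Error of a one-step scheme which is consistent along the exact trajectory and Lipschitz with
constant `1 + C h`. -/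
theorem aux_scheme_error {Fd : Y → Y} {K : ℝ≥0} (hF : LipschitzWith K Fd) {γ : ℝ → Y}
    {V M C T : ℝ} (hC : 0 ≤ C) (hM : 0 ≤ M)
    (hγ : ∀ t ∈ Icc (0 : ℝ) T, HasDerivAt γ (Fd (γ t)) t)
    (hV : ∀ t ∈ Icc (0 : ℝ) T, ‖Fd (γ t)‖ ≤ V) {h : ℝ} (hh : 0 ≤ h) {Ψ : Y → Y}
    (hΨl : ∀ Z Z', ‖Ψ Z - Ψ Z'‖ ≤ (1 + C * h) * ‖Z - Z'‖)
    (hΨ : ∀ t ∈ Icc (0 : ℝ) T, ‖Ψ (γ t) - γ t - h • Fd (γ t)‖ ≤ M * h ^ 2) (k : ℕ)
    (hk : k * h ≤ T) :
    ‖Ψ^[k] (γ 0) - γ (k * h)‖ ≤ (M + K * V) * h ^ 2 * k * (1 + C * h) ^ k := by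
  induction k with
  | zero => simp
  | succ k ih =>
    have hk' : (k : ℝ) * h ≤ T := by
      push_cast at hk; nlinarith
    have ih := ih hk'
    have hkh : 0 ≤ (k : ℝ) * h := by positivity
    have hV0 : 0 ≤ V := (norm_nonneg _).trans (hV 0 ⟨le_rfl, hkh.trans hk'⟩)
    rw [Function.iterate_succ_apply']
    set Zk := Ψ^[k] (γ 0) with hZk
    have e1 : ((k + 1 : ℕ) : ℝ) * h = k * h + h := by push_cast; ring
    rw [e1]
    have h2 := aux_exact_step hF hγ hV (t := k * h) (h := h) hkh hh (by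
      rw [← e1]; exact hk)
    have h3 := hΨl Zk (γ (k * h))
    have h3' := hΨ (k * h) ⟨hkh, hk'⟩
    have e2 : Ψ Zk - γ (k * h + h) = (Ψ Zk - Ψ (γ (k * h))) +
        (Ψ (γ (k * h)) - γ (k * h) - h • Fd (γ (k * h))) -
        (γ (k * h + h) - γ (k * h) - h • Fd (γ (k * h))) := by
      abel
    have h4 : ‖Ψ Zk - γ (k * h + h)‖ ≤ (1 + C * h) * ‖Zk - γ (k * h)‖ + M * h ^ 2 +
        K * V * h ^ 2 := by
      rw [e2]
      exact (norm_sub_le _ _).trans (add_le_add ((norm_add_le _ _).trans (add_le_add h3 h3')) h2)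
    refine h4.trans ?_
    set D := (M + K * V) * h ^ 2 with hD
    have hD0 : 0 ≤ D := by positivity
    have hq' : 1 ≤ (1 + C * h) := by
      have : 0 ≤ C * h := by positivity
      linarith
    have hq : 1 ≤ (1 + C * h) ^ (k + 1) := one_le_pow₀ hq'
    calc (1 + C * h) * ‖Zk - γ (k * h)‖ + M * h ^ 2 + K * V * h ^ 2
        = (1 + C * h) * ‖Zk - γ (k * h)‖ + D := by rw [hD]; ring
      _ ≤ (1 + C * h) * (D * k * (1 + C * h) ^ k) + D * (1 + C * h) ^ (k + 1) := by
          refine add_le_add (mul_le_mul_of_nonneg_left ih (by linarith)) ?_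
          nlinarith
      _ = D * ((k + 1 : ℕ) : ℝ) * (1 + C * h) ^ (k + 1) := by
          push_cast; ring

theorem aux_scheme_tendsto {Fd : Y → Y} {K : ℝ≥0} (hF : LipschitzWith K Fd) {γ : ℝ → Y}
    {M C T : ℝ} (hC : 0 ≤ C) (hM : 0 ≤ M) (hT : 0 ≤ T)
    (hγ : ∀ t ∈ Icc (0 : ℝ) T, HasDerivAt γ (Fd (γ t)) t)
    {Ψ : ℝ → Y → Y}
    (hΨl : ∀ h, 0 ≤ h → h ≤ T → ∀ Z Z', ‖Ψ h Z - Ψ h Z'‖ ≤ (1 + C * h) * ‖Z - Z'‖)
    (hΨ : ∀ h, 0 ≤ h → ∀ t ∈ Icc (0 : ℝ) T, ‖Ψ h (γ t) - γ t - h • Fd (γ t)‖ ≤ M * h ^ 2) :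
    Tendsto (fun N : ℕ => (Ψ (T / N))^[N] (γ 0)) atTop (𝓝 (γ T)) := by
  have hcont : ContinuousOn (fun t => Fd (γ t)) (Icc 0 T) := hF.continuous.comp_continuousOn
    fun t ht => (hγ t ht).continuousAt.continuousWithinAt
  obtain ⟨V, hV⟩ := (isCompact_Icc (a := (0 : ℝ)) (b := T)).exists_bound_of_continuousOn hcont
  have hV0 : 0 ≤ V := (norm_nonneg _).trans (hV 0 ⟨le_rfl, hT⟩)
  rw [tendsto_iff_norm_sub_tendsto_zero]
  refine squeeze_zero' (g := fun N : ℕ => ((M + K * V) * T ^ 2 * Real.exp (C * T)) / N)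
    (Eventually.of_forall fun _ => norm_nonneg _) ?_ ?_
  · filter_upwards [eventually_gt_atTop 0] with N hN
    have hN' : (0 : ℝ) < N := by exact_mod_cast hN
    have hN1 : (1 : ℝ) ≤ N := by exact_mod_cast hN
    have hTN : T / N ≤ T := div_le_self hT hN1
    have h1 := aux_scheme_error hF hC hM hγ hV (h := T / N) (by positivity) (Ψ := Ψ (T / N))
      (hΨl _ (by positivity) hTN)
      (fun t ht => hΨ _ (by positivity) t ht) N (by rw [mul_div_cancel₀ _ hN'.ne'])
    rw [mul_div_cancel₀ _ hN'.ne'] at h1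
    refine h1.trans ?_
    have h2 : (1 + C * (T / N)) ^ N ≤ Real.exp (C * T) := by
      have h3 : 1 + C * (T / N) ≤ Real.exp (C * (T / N)) := by
        rw [add_comm]; exact Real.add_one_le_exp _
      calc (1 + C * (T / N)) ^ N ≤ (Real.exp (C * (T / N))) ^ N := by
            apply pow_le_pow_left₀ (by positivity) h3
        _ = Real.exp (C * T) := by
            rw [← Real.exp_nat_mul]; congr 1; field_simp
    calc (M + K * V) * (T / N) ^ 2 * N * (1 + C * (T / N)) ^ N
        ≤ (M + K * V) * (T / N) ^ 2 * N * Real.exp (C * T) := by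
          apply mul_le_mul_of_nonneg_left h2 (by positivity)
      _ = (M + K * V) * T ^ 2 * Real.exp (C * T) / N := by field_simp
  · exact tendsto_const_div_atTop_nhds_zero_nat _

end euler

section limits

variable {Y : Type*} [TopologicalSpace Y] [MeasurableSpace Y] [BorelSpace Y]

theorem aux_map_le_of_tendsto {μ : Measure Y} [μ.OuterRegular] {S : Y → Y} (hS : Measurable S)
    {Ψ : ℕ → Y → Y} (hΨ : ∀ N, MeasurePreserving (Ψ N) μ μ)
    (hlim : ∀ z, Tendsto (fun N => Ψ N z) atTop (𝓝 (S z))) : μ.map S ≤ μ := by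
  have hopen : ∀ O : Set Y, IsOpen O → μ (S ⁻¹' O) ≤ μ O := by
    intro O hO
    have h1 : μ (S ⁻¹' O) = ∫⁻ z, (S ⁻¹' O).indicator 1 z ∂μ := by
      rw [lintegral_indicator_one (hS hO.measurableSet)]
    rw [h1]
    have h2 : ∀ z, (S ⁻¹' O).indicator (1 : Y → ℝ≥0∞) z ≤
        liminf (fun N => (Ψ N ⁻¹' O).indicator (1 : Y → ℝ≥0∞) z) atTop := by
      intro z
      by_cases hz : S z ∈ O
      · have h3 : ∀ᶠ N in atTop, Ψ N z ∈ O := (hlim z).eventually (hO.mem_nhds hz)
        have h4 : ∀ᶠ N in atTop, (1 : ℝ≥0∞) ≤ (Ψ N ⁻¹' O).indicator (1 : Y → ℝ≥0∞) z := by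
          filter_upwards [h3] with N hN
          have : z ∈ Ψ N ⁻¹' O := hN
          simp [this]
        have h5 : (S ⁻¹' O).indicator (1 : Y → ℝ≥0∞) z = 1 := by
          have : z ∈ S ⁻¹' O := hz
          simp [this]
        rw [h5]
        exact le_liminf_of_le (by isBoundedDefault) h4
      · have h5 : (S ⁻¹' O).indicator (1 : Y → ℝ≥0∞) z = 0 := by
          have : z ∉ S ⁻¹' O := hz
          simp [this]
        rw [h5]; exact zero_le
    calc ∫⁻ z, (S ⁻¹' O).indicator 1 z ∂μ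
        ≤ ∫⁻ z, liminf (fun N => (Ψ N ⁻¹' O).indicator (1 : Y → ℝ≥0∞) z) atTop ∂μ :=
          lintegral_mono h2
      _ ≤ liminf (fun N => ∫⁻ z, (Ψ N ⁻¹' O).indicator (1 : Y → ℝ≥0∞) z ∂μ) atTop := by
          apply lintegral_liminf_le
          intro N
          exact measurable_one.indicator ((hΨ N).measurable hO.measurableSet)
      _ = liminf (fun _ : ℕ => μ O) atTop := by
          congr 1
          funext N
          rw [lintegral_indicator_one ((hΨ N).measurable hO.measurableSet)]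
          exact (hΨ N).measure_preimage hO.measurableSet.nullMeasurableSet
      _ = μ O := by simp
  refine Measure.le_iff.2 fun A hA => ?_
  rw [Measure.map_apply hS hA]
  rw [Set.measure_eq_iInf_isOpen A μ]
  refine le_iInf₂ fun O hAO => le_iInf fun hO => ?_
  exact (measure_mono (preimage_mono hAO)).trans (hopen O hO)

end limits

variable {E : Type*} [NormedAddCommGroup E] [InnerProductSpace ℝ E] [FiniteDimensional ℝ E]
  [MeasurableSpace E] [BorelSpace E]

/-- The Hamiltonian vector field. -/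
def hfield (F : E → E) (z : E × E) : E × E := (z.2, -F z.1)

omit [FiniteDimensional ℝ E] [MeasurableSpace E] [BorelSpace E] in
theorem hfield_lip {F : E → E} (hF : ∀ x y, ‖F x - F y‖ ≤ 2 * ‖x - y‖) :
    LipschitzWith 2 (hfield F) := by
  refine LipschitzWith.of_dist_le_mul fun z w => ?_
  rw [dist_eq_norm, dist_eq_norm, Prod.norm_def]
  have h1 := norm_fst_le (z - w)
  have h2 := norm_snd_le (z - w)
  have h0 := norm_nonneg (z - w)
  apply max_le
  · change ‖z.2 - w.2‖ ≤ _
    rw [Prod.snd_sub] at h2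
    push_cast
    linarith
  · change ‖-F z.1 - -F w.1‖ ≤ _
    have e : -F z.1 - -F w.1 = -(F z.1 - F w.1) := by abel
    rw [e, norm_neg]
    have h3 := hF z.1 w.1
    rw [Prod.fst_sub] at h1
    push_cast
    linarith

omit [MeasurableSpace E] [BorelSpace E] in
theorem exists_traj {F : E → E} (hF : ∀ x y, ‖F x - F y‖ ≤ 2 * ‖x - y‖) (z : E × E) :
    ∃ α : ℝ → E × E, α 0 = z ∧
      ∀ t ∈ Ioo (-(1 / 4) : ℝ) (1 / 4), HasDerivAt α (hfield F (α t)) t := by
  have hl := hfield_lip hF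
  set A : ℝ≥0 := ‖hfield F z‖₊ with hA
  have h0mem : (0 : ℝ) ∈ Icc (-(1 / 4) : ℝ) (1 / 4) := by constructor <;> norm_num
  have hPL : IsPicardLindelof (fun _ : ℝ => hfield F)
      (⟨0, h0mem⟩ : Icc (-(1 / 4) : ℝ) (1 / 4)) z A 0 (3 * A) 2 := by
    refine ⟨fun t ht => hl.lipschitzOnWith, fun q _ => continuousOn_const,
      fun t ht q hq => ?_, ?_⟩
    · have h1 := hl.dist_le_mul q z
      rw [dist_eq_norm] at h1
      have h2 : dist q z ≤ A := hq
      have h3 : ‖hfield F q‖ ≤ ‖hfield F q - hfield F z‖ + ‖hfield F z‖ := by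
        have := norm_add_le (hfield F q - hfield F z) (hfield F z)
        rwa [sub_add_cancel] at this
      have h4 : (A : ℝ) = ‖hfield F z‖ := rfl
      push_cast at h1 ⊢
      linarith
    · have hA0 : (0 : ℝ) ≤ A := A.2
      have e1 : max ((1 : ℝ) / 4 - 0) (0 - -(1 / 4)) = 1 / 4 := by norm_num
      simp only
      rw [e1]
      push_cast
      linarith
  obtain ⟨α, hα0, hα⟩ := hPL.exists_eq_forall_mem_Icc_hasDerivWithinAt₀
  exact ⟨α, hα0, fun t ht => (hα t (Ioo_subset_Icc_self ht)).hasDerivAt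
    (Icc_mem_nhds ht.1 ht.2)⟩

omit [FiniteDimensional ℝ E] [MeasurableSpace E] [BorelSpace E] in
/-- Stability of trajectories. -/
theorem traj_dist {F : E → E} (hF : ∀ x y, ‖F x - F y‖ ≤ 2 * ‖x - y‖) {α β : ℝ → E × E}
    (hα : ∀ t ∈ Ioo (-(1 / 4) : ℝ) (1 / 4), HasDerivAt α (hfield F (α t)) t)
    (hβ : ∀ t ∈ Ioo (-(1 / 4) : ℝ) (1 / 4), HasDerivAt β (hfield F (β t)) t)
    {t : ℝ} (ht : t ∈ Ioo (-(1 / 4) : ℝ) (1 / 4)) :
    dist (α t) (β t) ≤ dist (α 0) (β 0) * Real.exp 1 := by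
  have hl := hfield_lip hF
  have hd0 : 0 ≤ dist (α 0) (β 0) := dist_nonneg
  rcases le_total 0 t with h0 | h0
  · have h3 := dist_le_of_trajectories_ODE (v := fun _ => hfield F) (K := 2)
        (f := α) (g := β) (a := 0) (b := t) (δ := dist (α 0) (β 0)) (fun _ => hl)
        (fun s hs => (hα s ⟨by linarith [hs.1], hs.2.trans_lt ht.2⟩).continuousAt.continuousWithinAt)
        (fun s hs => (hα s ⟨by linarith [hs.1], hs.2.trans ht.2⟩).hasDerivWithinAt)
        (fun s hs => (hβ s ⟨by linarith [hs.1], hs.2.trans_lt ht.2⟩).continuousAt.continuousWithinAt)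
        (fun s hs => (hβ s ⟨by linarith [hs.1], hs.2.trans ht.2⟩).hasDerivWithinAt)
        le_rfl t ⟨h0, le_rfl⟩
    refine h3.trans (mul_le_mul_of_nonneg_left (Real.exp_le_exp.2 ?_) hd0)
    push_cast
    linarith [ht.2]
  · have hL' : LipschitzWith 2 (fun z => -hfield F z) := hl.neg
    have hd : ∀ γ : ℝ → E × E, (∀ t ∈ Ioo (-(1 / 4) : ℝ) (1 / 4),
        HasDerivAt γ (hfield F (γ t)) t) → ∀ s ∈ Ioo (-(1 / 4) : ℝ) (1 / 4),
        HasDerivAt (fun τ => γ (-τ)) (-hfield F (γ (-s))) s := by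
      intro γ hγ s hs
      have h4 := HasDerivAt.scomp s (hγ (-s) ⟨by linarith [hs.2], by linarith [hs.1]⟩)
        (hasDerivAt_neg s)
      rw [neg_one_smul] at h4
      exact h4
    have h3 := dist_le_of_trajectories_ODE (v := fun _ z => -hfield F z) (K := 2)
        (f := fun τ => α (-τ)) (g := fun τ => β (-τ)) (a := 0) (b := -t)
        (δ := dist (α 0) (β 0)) (fun _ => hL')
        (fun s hs => (hd α hα s ⟨by linarith [hs.1], by
          linarith [hs.2, ht.1]⟩).continuousAt.continuousWithinAt)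
        (fun s hs => (hd α hα s ⟨by linarith [hs.1], by linarith [hs.2, ht.1]⟩).hasDerivWithinAt)
        (fun s hs => (hd β hβ s ⟨by linarith [hs.1], by
          linarith [hs.2, ht.1]⟩).continuousAt.continuousWithinAt)
        (fun s hs => (hd β hβ s ⟨by linarith [hs.1], by linarith [hs.2, ht.1]⟩).hasDerivWithinAt)
        (by simp only [neg_zero]; exact le_rfl) (-t) ⟨by linarith, le_rfl⟩
    simp only [neg_neg] at h3
    refine h3.trans (mul_le_mul_of_nonneg_left (Real.exp_le_exp.2 ?_) hd0)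
    push_cast
    linarith [ht.1]

end Vale.Agent.P347
end

section

/-! Task D (P347): Hamiltonian flow of `W(y) + |p|^2/2` with `∇W = F` Lipschitz, and invariance of
the Gibbs law `gibbs W × gam`. -/

open MeasureTheory Filter Module Set Topology
open scoped ENNReal NNReal

namespace Vale.Agent.P347

variable {E : Type*} [NormedAddCommGroup E] [InnerProductSpace ℝ E] [FiniteDimensional ℝ E]
  [MeasurableSpace E] [BorelSpace E]

/-- A Hamiltonian flow on the time interval `(-1/4, 1/4)`. -/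
structure HamFlow (F : E → E) (Y P : ℝ → E × E → E) : Prop where
  Y0 : ∀ z, Y 0 z = z.1
  P0 : ∀ z, P 0 z = z.2
  dY : ∀ z, ∀ t ∈ Ioo (-(1 / 4) : ℝ) (1 / 4), HasDerivAt (fun t => Y t z) (P t z) t
  dP : ∀ z, ∀ t ∈ Ioo (-(1 / 4) : ℝ) (1 / 4), HasDerivAt (fun t => P t z) (-F (Y t z)) t
  contY : ContinuousOn (fun q : ℝ × (E × E) => Y q.1 q.2) (Ioo (-(1 / 4) : ℝ) (1 / 4) ×ˢ univ)
  contP : ContinuousOn (fun q : ℝ × (E × E) => P q.1 q.2) (Ioo (-(1 / 4) : ℝ) (1 / 4) ×ˢ univ)

/-- Existence of the flow for a globally `2`-Lipschitz force. -/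
theorem exists_hamFlow {F : E → E} (hF : ∀ x y, ‖F x - F y‖ ≤ 2 * ‖x - y‖) :
    ∃ Y P : ℝ → E × E → E, HamFlow F Y P := by
  choose α hα0 hα using exists_traj hF
  have hcont : ContinuousOn (fun q : ℝ × (E × E) => α q.2 q.1)
      (Ioo (-(1 / 4) : ℝ) (1 / 4) ×ˢ univ) := by
    rintro ⟨t0, z0⟩ ⟨ht0, -⟩
    have ht0' : t0 ∈ Ioo (-(1 / 4) : ℝ) (1 / 4) := ht0
    rw [ContinuousWithinAt, tendsto_iff_dist_tendsto_zero]
    have hb : ∀ᶠ q : ℝ × (E × E) in 𝓝[Ioo (-(1 / 4) : ℝ) (1 / 4) ×ˢ univ] (t0, z0),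
        dist (α q.2 q.1) (α z0 t0) ≤ dist q.2 z0 * Real.exp 1 + dist (α z0 q.1) (α z0 t0) := by
      filter_upwards [self_mem_nhdsWithin] with q hq
      have h1 := traj_dist hF (hα q.2) (hα z0) hq.1
      rw [hα0, hα0] at h1
      exact (dist_triangle _ _ _).trans (add_le_add h1 le_rfl)
    have hl : Tendsto (fun q : ℝ × (E × E) =>
        dist q.2 z0 * Real.exp 1 + dist (α z0 q.1) (α z0 t0))
        (𝓝[Ioo (-(1 / 4) : ℝ) (1 / 4) ×ˢ univ] (t0, z0)) (𝓝 0) := by
      have hc : ContinuousAt (fun q : ℝ × (E × E) =>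
          dist q.2 z0 * Real.exp 1 + dist (α z0 q.1) (α z0 t0)) (t0, z0) := by
        have h2 : ContinuousAt (fun q : ℝ × (E × E) => α z0 q.1) (t0, z0) :=
          ContinuousAt.comp (f := fun q : ℝ × (E × E) => q.1) (g := α z0)
            (hα z0 t0 ht0').continuousAt continuousAt_fst
        exact ((continuousAt_snd.dist continuousAt_const).mul continuousAt_const).add
          (h2.dist continuousAt_const)
      have h3 := hc.tendsto
      simp only [dist_self, zero_mul, add_zero] at h3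
      exact h3.mono_left nhdsWithin_le_nhds
    exact squeeze_zero' (Eventually.of_forall fun _ => dist_nonneg) hb hl
  refine ⟨fun t z => (α z t).1, fun t z => (α z t).2, ⟨fun z => ?_, fun z => ?_,
    fun z t ht => (hα z t ht).fst, fun z t ht => (hα z t ht).snd, ?_, ?_⟩⟩
  · simp only [hα0]
  · simp only [hα0]
  · exact continuous_fst.comp_continuousOn hcont
  · exact continuous_snd.comp_continuousOn hcont

/-- The flow as a map of phase space. -/
theorem HamFlow.traj {F : E → E} {Y P : ℝ → E × E → E} (hf : HamFlow F Y P) (z : E × E) {t : ℝ}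
    (ht : t ∈ Ioo (-(1 / 4) : ℝ) (1 / 4)) :
    HasDerivAt (fun t => (Y t z, P t z)) (hfield F (Y t z, P t z)) t :=
  (hf.dY z t ht).prodMk (hf.dP z t ht)

theorem HamFlow.continuous {F : E → E} {Y P : ℝ → E × E → E} (hf : HamFlow F Y P) {t : ℝ}
    (ht : t ∈ Ioo (-(1 / 4) : ℝ) (1 / 4)) : Continuous fun z => (Y t z, P t z) := by
  have h1 : ContinuousOn (fun q : ℝ × (E × E) => (Y q.1 q.2, P q.1 q.2))
      (Ioo (-(1 / 4) : ℝ) (1 / 4) ×ˢ univ) := hf.contY.prodMk hf.contP
  have h2 : Continuous fun z : E × E => (t, z) := by fun_prop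
  exact h1.comp_continuous h2 fun z => ⟨ht, trivial⟩

/-- Liouville: the flow does not increase Lebesgue measure. -/
theorem HamFlow.liouville {F : E → E} (hF : ∀ x y, ‖F x - F y‖ ≤ 2 * ‖x - y‖)
    {Y P : ℝ → E × E → E} (hf : HamFlow F Y P) {t : ℝ} (ht : t ∈ Ico (0 : ℝ) (1 / 4)) :
    ((volume : Measure E).prod (volume : Measure E)).map (fun z => (Y t z, P t z)) ≤
      (volume : Measure E).prod (volume : Measure E) := by
  have hFc : Continuous F := by
    have : LipschitzWith 2 F := LipschitzWith.of_dist_le_mul fun x y => by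
      rw [dist_eq_norm, dist_eq_norm]; exact hF x y
    exact this.continuous
  set K : ℝ → E × E → E × E := fun h z => (z.1, z.2 + h • (-F z.1)) with hK
  set Dr : ℝ → E × E → E × E := fun h z => (z.1 + h • z.2, z.2) with hDr
  have hKp : ∀ h, MeasurePreserving (K h) ((volume : Measure E).prod (volume : Measure E))
      ((volume : Measure E).prod (volume : Measure E)) := by
    intro h
    refine MeasurePreserving.skew_product (f := fun x : E => x) (g := fun x y => y + h • (-F x))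
      (MeasurePreserving.id _) ?_ ?_
    · exact (continuous_snd.add ((hFc.comp continuous_fst).neg.const_smul h)).measurable
    · refine Eventually.of_forall fun x => ?_
      exact map_add_right_eq_self _ _
  have hDp : ∀ h, MeasurePreserving (Dr h) ((volume : Measure E).prod (volume : Measure E))
      ((volume : Measure E).prod (volume : Measure E)) := by
    intro h
    have h1 : MeasurePreserving (fun p : E × E => (p.1, p.2 + h • p.1))
        ((volume : Measure E).prod (volume : Measure E))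
        ((volume : Measure E).prod (volume : Measure E)) := by
      refine MeasurePreserving.skew_product (f := fun x : E => x) (g := fun x y => y + h • x)
        (MeasurePreserving.id _) ?_ ?_
      · exact (continuous_snd.add (continuous_fst.const_smul h)).measurable
      · refine Eventually.of_forall fun x => ?_
        exact map_add_right_eq_self _ _
    have h2 : MeasurePreserving (Prod.swap : E × E → E × E)
        ((volume : Measure E).prod (volume : Measure E))
        ((volume : Measure E).prod (volume : Measure E)) := Measure.measurePreserving_swap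
    exact (h2.comp (h1.comp h2))
  have hIcc : ∀ s ∈ Icc (0 : ℝ) t, s ∈ Ioo (-(1 / 4) : ℝ) (1 / 4) := fun s hs =>
    ⟨by linarith [hs.1], hs.2.trans_lt ht.2⟩
  have htI : t ∈ Ioo (-(1 / 4) : ℝ) (1 / 4) := hIcc t ⟨ht.1, le_rfl⟩
  refine aux_map_le_of_tendsto (hf.continuous htI).measurable
    (Ψ := fun N => (fun z => Dr (t / N) (K (t / N) z))^[N]) ?_ ?_
  · intro N
    exact ((hDp _).comp (hKp _)).iterate N
  · intro z
    have hγ : ∀ s ∈ Icc (0 : ℝ) t, HasDerivAt (fun t => (Y t z, P t z))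
        (hfield F (Y s z, P s z)) s := fun s hs => hf.traj z (hIcc s hs)
    have hc : ContinuousOn (fun s => F (Y s z)) (Icc 0 t) :=
      hFc.comp_continuousOn fun s hs => (hf.dY z s (hIcc s hs)).continuousAt.continuousWithinAt
    obtain ⟨M, hM⟩ := (isCompact_Icc (a := (0 : ℝ)) (b := t)).exists_bound_of_continuousOn hc
    have hM0 : 0 ≤ M := (norm_nonneg _).trans (hM 0 ⟨le_rfl, ht.1⟩)
    have h := aux_scheme_tendsto (hfield_lip hF) (γ := fun t => (Y t z, P t z)) (M := M) (C := 2)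
      (T := t) (by norm_num) hM0 ht.1 hγ (Ψ := fun h z => Dr h (K h z)) ?_ ?_
    · have e0 : ((Y 0 z, P 0 z) : E × E) = z := by rw [hf.Y0, hf.P0]
      rw [e0] at h
      exact h
    · -- Lipschitz bound of one step
      intro h hh hht Z Z'
      have hh4 : h ≤ 1 / 4 := hht.trans ht.2.le
      have h1 := norm_fst_le (Z - Z')
      have h2 := norm_snd_le (Z - Z')
      rw [Prod.fst_sub] at h1
      rw [Prod.snd_sub] at h2
      have h3 := hF Z.1 Z'.1
      have h0 := norm_nonneg (Z - Z')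
      have hp : ‖(Z.2 + h • (-F Z.1)) - (Z'.2 + h • (-F Z'.1))‖ ≤ (1 + 2 * h) * ‖Z - Z'‖ := by
        have e : (Z.2 + h • (-F Z.1)) - (Z'.2 + h • (-F Z'.1)) =
            (Z.2 - Z'.2) - h • (F Z.1 - F Z'.1) := by
          rw [smul_neg, smul_neg, smul_sub]; abel
        rw [e]
        refine (norm_sub_le _ _).trans ?_
        rw [norm_smul, Real.norm_eq_abs, abs_of_nonneg hh]
        have h5 : h * ‖F Z.1 - F Z'.1‖ ≤ h * (2 * ‖Z - Z'‖) := by
          apply mul_le_mul_of_nonneg_left _ hh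
          linarith
        linarith
      simp only [hDr, hK]
      rw [Prod.norm_def]
      apply max_le
      · simp only [Prod.fst_sub]
        have e : (Z.1 + h • (Z.2 + h • (-F Z.1))) - (Z'.1 + h • (Z'.2 + h • (-F Z'.1))) =
            (Z.1 - Z'.1) + h • ((Z.2 + h • (-F Z.1)) - (Z'.2 + h • (-F Z'.1))) := by
          rw [smul_sub]; abel
        rw [e]
        refine (norm_add_le _ _).trans ?_
        rw [norm_smul, Real.norm_eq_abs, abs_of_nonneg hh]
        have h5 := mul_le_mul_of_nonneg_left hp hh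
        have h6 : h * ((1 + 2 * h) * ‖Z - Z'‖) ≤ 2 * h * ‖Z - Z'‖ := by
          have h7 : h * (1 + 2 * h) ≤ 2 * h := by nlinarith
          calc h * ((1 + 2 * h) * ‖Z - Z'‖) = (h * (1 + 2 * h)) * ‖Z - Z'‖ := by ring
            _ ≤ 2 * h * ‖Z - Z'‖ := mul_le_mul_of_nonneg_right h7 h0
        linarith
      · simp only [Prod.snd_sub]
        exact hp
    · -- consistency
      intro h hh s hs
      have e : Dr h (K h (Y s z, P s z)) - (Y s z, P s z) - h • hfield F (Y s z, P s z) =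
          (-(h ^ 2 • F (Y s z)), 0) := by
        simp only [hDr, hK, hfield]
        ext1
        · simp only [Prod.fst_sub, Prod.smul_fst]
          rw [smul_add, smul_neg, smul_neg, smul_smul, ← pow_two]
          abel
        · simp only [Prod.snd_sub, Prod.smul_snd]
          abel
      change ‖Dr h (K h (Y s z, P s z)) - (Y s z, P s z) - h • hfield F (Y s z, P s z)‖ ≤ _
      rw [e, Prod.norm_def]
      simp only [norm_neg, norm_zero]
      rw [max_eq_left (norm_nonneg _), norm_smul, mul_comm]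
      have h2 : ‖h ^ 2‖ = h ^ 2 := by rw [Real.norm_eq_abs]; exact abs_of_nonneg (sq_nonneg _)
      rw [h2]
      exact mul_le_mul_of_nonneg_right (hM s hs) (sq_nonneg _)

/-- Conservation of energy. -/
theorem HamFlow.energy {W : E → ℝ} {F : E → E} (hW : CPot W F)
    {Y P : ℝ → E × E → E} (hf : HamFlow F Y P) {t : ℝ} (ht : t ∈ Ico (0 : ℝ) (1 / 4)) (z : E × E) :
    W (Y t z) + ‖P t z‖ ^ 2 / 2 = W z.1 + ‖z.2‖ ^ 2 / 2 := by
  have hIcc : ∀ s ∈ Icc (0 : ℝ) t, s ∈ Ioo (-(1 / 4) : ℝ) (1 / 4) := fun s hs =>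
    ⟨by linarith [hs.1], hs.2.trans_lt ht.2⟩
  have hd : ∀ s ∈ Icc (0 : ℝ) t, HasDerivAt (fun s => W (Y s z) + ‖P s z‖ ^ 2 / 2) 0 s := by
    intro s hs
    have h1 := (hW.grad (Y s z)).comp_hasDerivAt s (hf.dY z s (hIcc s hs))
    have h2 := ((hf.dP z s (hIcc s hs)).norm_sq).div_const 2
    refine HasDerivAt.congr_deriv (h1.add h2) ?_
    rw [innerSL_apply_apply, inner_neg_right, real_inner_comm]
    ring
  have h3 := norm_image_sub_le_of_norm_deriv_le_segment' (a := 0) (b := t) (C := 0)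
    (f' := fun _ => (0 : ℝ)) (fun s hs => (hd s hs).hasDerivWithinAt)
    (fun s _ => by simp) t ⟨ht.1, le_rfl⟩
  rw [zero_mul, norm_le_zero_iff, sub_eq_zero] at h3
  rw [h3, hf.Y0, hf.P0]

/-- Invariance of the Gibbs law under the flow. -/
theorem HamFlow.invariant {W : E → ℝ} {F : E → E} (hW : CPot W F) (ha : Adm W)
    {Y P : ℝ → E × E → E} (hf : HamFlow F Y P) {t : ℝ} (ht : t ∈ Ico (0 : ℝ) (1 / 4)) :
    ((gibbs W).prod (gam E)).map (fun z => (Y t z, P t z)) = (gibbs W).prod (gam E) := by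
  have hprob : IsProbabilityMeasure (gibbs W) := ha.isProb
  have htI : t ∈ Ioo (-(1 / 4) : ℝ) (1 / 4) := ⟨by linarith [ht.1], ht.2⟩
  have hSm : Measurable fun z => (Y t z, P t z) := (hf.continuous htI).measurable
  set S : E × E → E × E := fun z => (Y t z, P t z) with hS
  -- the density
  set c : ℝ := ∫ x, Real.exp (-W x) with hc
  set c' : ℝ := ∫ x : E, Real.exp (-(‖x‖ ^ 2 / 2)) with hc'
  set D : E × E → ℝ≥0∞ := fun z =>
    ENNReal.ofReal (Real.exp (-W z.1) / c) * ENNReal.ofReal (Real.exp (-(‖z.2‖ ^ 2 / 2)) / c')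
    with hD
  have hWc : Continuous W := ha.cont
  have hDm : Measurable D := by
    have := hWc.measurable
    fun_prop
  have hmu : (gibbs W).prod (gam E) =
      ((volume : Measure E).prod (volume : Measure E)).withDensity D := by
    unfold gam gibbs Measure.tilted
    rw [prod_withDensity]
    · have := hWc.measurable
      fun_prop
    · fun_prop
  have hDS : ∀ z, D (S z) = D z := by
    intro z
    have h1 := hf.energy hW ht z
    simp only [hD, hS]
    have hc0 : 0 ≤ c := integral_nonneg fun x => (Real.exp_pos _).le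
    rw [← ENNReal.ofReal_mul (div_nonneg (Real.exp_pos _).le hc0),
      ← ENNReal.ofReal_mul (div_nonneg (Real.exp_pos _).le hc0), div_mul_div_comm,
      div_mul_div_comm, ← Real.exp_add, ← Real.exp_add]
    congr 3
    linarith
  have hle : ((gibbs W).prod (gam E)).map S ≤ (gibbs W).prod (gam E) := by
    refine Measure.le_iff.2 fun A hA => ?_
    rw [Measure.map_apply hSm hA, hmu, withDensity_apply _ (hSm hA), withDensity_apply _ hA,
      ← lintegral_indicator (hSm hA), ← lintegral_indicator hA]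
    calc ∫⁻ z, (S ⁻¹' A).indicator D z ∂((volume : Measure E).prod (volume : Measure E))
        = ∫⁻ z, (A.indicator D) (S z) ∂((volume : Measure E).prod (volume : Measure E)) := by
          refine lintegral_congr fun z => ?_
          by_cases hz : S z ∈ A
          · rw [indicator_of_mem (show z ∈ S ⁻¹' A from hz), indicator_of_mem hz, hDS]
          · rw [indicator_of_notMem (show z ∉ S ⁻¹' A from hz), indicator_of_notMem hz]
      _ = ∫⁻ z, (A.indicator D) z
            ∂(((volume : Measure E).prod (volume : Measure E)).map S) := by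
          rw [lintegral_map (hDm.indicator hA) hSm]
      _ ≤ ∫⁻ z, (A.indicator D) z ∂((volume : Measure E).prod (volume : Measure E)) :=
          lintegral_mono' (hf.liouville hW.lip ht) le_rfl
  have hp1 : IsProbabilityMeasure (((gibbs W).prod (gam E)).map S) :=
    Measure.isProbabilityMeasure_map hSm.aemeasurable
  exact Measure.eq_of_le_of_isProbabilityMeasure hle

end Vale.Agent.P347
end

section

/-! Definitions for task G (P347): moments of the posterior and the time derivatives of the force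
along the Hamiltonian flow. -/

open MeasureTheory Filter Module Set
open scoped ENNReal NNReal

namespace Vale.Agent.P347

variable {E : Type*} [NormedAddCommGroup E] [InnerProductSpace ℝ E] [FiniteDimensional ℝ E]
  [MeasurableSpace E] [BorelSpace E]

/-- Posterior mean of `X`. -/
noncomputable def xb (V : E → ℝ) (s : ℝ) (y : E) : E := ∫ x, x ∂(gibbs (post V s y))

/-- `E[⟨R,p⟩ v]`, with `R = x - xb`, `v = G x - F`. -/
noncomputable def mom1 (V : E → ℝ) (G : E → E) (s : ℝ) (y p : E) : E :=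
  ∫ x, (inner ℝ (x - xb V s y) p : ℝ) • (G x - Fp V G s y) ∂(gibbs (post V s y))

/-- `E[⟨R,p⟩ ⟨R,q⟩ v]`. -/
noncomputable def mom2 (V : E → ℝ) (G : E → E) (s : ℝ) (y p q : E) : E :=
  ∫ x, ((inner ℝ (x - xb V s y) p : ℝ) * inner ℝ (x - xb V s y) q) • (G x - Fp V G s y)
    ∂(gibbs (post V s y))

/-- `E[⟨R,p⟩^3 v]`. -/
noncomputable def mom3 (V : E → ℝ) (G : E → E) (s : ℝ) (y p : E) : E :=
  ∫ x, ((inner ℝ (x - xb V s y) p : ℝ) ^ 3) • (G x - Fp V G s y) ∂(gibbs (post V s y))

/-- `E[⟨R,p⟩^2]`. -/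
noncomputable def var2 (V : E → ℝ) (s : ℝ) (y p : E) : ℝ :=
  ∫ x, (inner ℝ (x - xb V s y) p : ℝ) ^ 2 ∂(gibbs (post V s y))

/-- First derivative of the force in direction `p`. -/
noncomputable def dF1 (V : E → ℝ) (G : E → E) (s : ℝ) (y p : E) : E := (1 / s) • mom1 V G s y p

/-- Third time derivative of the force. -/
noncomputable def dF3 (V : E → ℝ) (G : E → E) (s : ℝ) (y p : E) : E :=
  (1 / s ^ 3) • (mom3 V G s y p - (3 * var2 V s y p) • mom1 V G s y p)
    - (3 / s ^ 2) • mom2 V G s y p (Fp V G s y)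
    - (1 / s) • mom1 V G s y (dF1 V G s y p)

end Vale.Agent.P347
end

section

/-! Task G1/G3 (P347): derivatives in time of the force along the flow. -/

open MeasureTheory Filter Module Set Topology
open scoped ENNReal NNReal

namespace Vale.Agent.P347

variable {E : Type*} [NormedAddCommGroup E] [InnerProductSpace ℝ E] [FiniteDimensional ℝ E]
  [MeasurableSpace E] [BorelSpace E]
variable {F : Type*} [NormedAddCommGroup F] [NormedSpace ℝ F]

section cont

variable {T : Type*} [TopologicalSpace T] [FirstCountableTopology T]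
variable {V : E → ℝ} {G : E → E} {H : E → E →L[ℝ] E} {s : ℝ}

end cont

/-! ### Derivatives -/

section deriv

variable {V : E → ℝ} {G : E → E} {H : E → E →L[ℝ] E} {s : ℝ}

end deriv

/-! ### Along the flow -/

end Vale.Agent.P347
end

section

/-! Realisation of sampling schemes by algorithms: a small library (P347, task N2). -/

set_option linter.style.haveILetI false

open MeasureTheory Filter Set

namespace Vale.Agent.P347

variable {d : ℕ}

lemma PotClass.measurable_oracle {V : Eu d → ℝ} (hV : V ∈ PotClass d) :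
    Measurable (oracle V) := by
  have h1 : ContDiff ℝ 2 V := hV.1
  have h2 : Continuous (gradient V) := by
    have h3 : Continuous (fderiv ℝ V) := h1.continuous_fderiv (by norm_num)
    exact (InnerProductSpace.toDual ℝ (Eu d)).symm.continuous.comp h3
  exact h1.continuous.measurable.prodMk h2.measurable

lemma Algo.measurable_answers {q : ℕ} (A : Algo d q) {V : Eu d → ℝ} (hV : V ∈ PotClass d)
    (k : ℕ) (hk : k ≤ q) :
    letI := A.mΩ
    Measurable (fun ω => A.answers V ω k hk) := by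
  letI := A.mΩ
  induction k with
  | zero =>
    show Measurable (fun _ : A.Ω => (Fin.elim0 : Fin 0 → ℝ × Eu d))
    exact measurable_const
  | succ k ih =>
    have h := ih (Nat.le_of_succ_le hk)
    refine measurable_pi_iff.2 fun j => ?_
    refine Fin.lastCases ?_ (fun j => ?_) j
    · simp only [Algo.answers, Fin.snoc_last]
      exact (PotClass.measurable_oracle hV).comp
        ((A.query_meas ⟨k, hk⟩).comp (measurable_id.prodMk h))
    · simp only [Algo.answers, Fin.snoc_castSucc]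
      exact (measurable_pi_apply j).comp h

/-- Replace the output map of an algorithm. -/
def Algo.withOut {q : ℕ} (A : Algo d q) (g : A.Ω × (Fin q → ℝ × Eu d) → Eu d)
    (hg : letI := A.mΩ; Measurable g) : Algo d q :=
  { A with out := g, out_meas := hg }

lemma Algo.withOut_answers {q : ℕ} (A : Algo d q) (g : A.Ω × (Fin q → ℝ × Eu d) → Eu d)
    (hg : letI := A.mΩ; Measurable g) (V : Eu d → ℝ) (ω : A.Ω) (k : ℕ) (hk : k ≤ q) :
    (A.withOut g hg).answers V ω k hk = A.answers V ω k hk := by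
  induction k with
  | zero => rfl
  | succ k ih =>
    simp only [Algo.answers]
    rw [ih]
    rfl

/-- `Λ V` is the law of the state (an element of `S`) of a procedure which made `q` queries. -/
def Realizes (d q : ℕ) {S : Type} [MeasurableSpace S] (Λ : (Eu d → ℝ) → Measure S) : Prop :=
  ∃ (A : Algo d q) (g : A.Ω × (Fin q → ℝ × Eu d) → S),
    (letI := A.mΩ; Measurable g) ∧ ∀ V ∈ PotClass d,
      Λ V = (letI := A.mΩ; A.P.map (fun ω => g (ω, A.answers V ω q le_rfl)))

variable {S S' S'' : Type} [MeasurableSpace S] [MeasurableSpace S'] [MeasurableSpace S'']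

lemma Realizes.congr {q : ℕ} {Λ Λ' : (Eu d → ℝ) → Measure S} (h : Realizes d q Λ)
    (h' : ∀ V ∈ PotClass d, Λ' V = Λ V) : Realizes d q Λ' := by
  obtain ⟨A, g, hg, hA⟩ := h
  exact ⟨A, g, hg, fun V hV => (h' V hV).trans (hA V hV)⟩

lemma Algo.measurable_state {q : ℕ} (A : Algo d q) {g : A.Ω × (Fin q → ℝ × Eu d) → S}
    (hg : letI := A.mΩ; Measurable g) {V : Eu d → ℝ} (hV : V ∈ PotClass d) :
    letI := A.mΩ
    Measurable (fun ω => g (ω, A.answers V ω q le_rfl)) := by
  letI := A.mΩ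
  exact hg.comp (measurable_id.prodMk (A.measurable_answers hV q le_rfl))

lemma Realizes.prob {q : ℕ} {Λ : (Eu d → ℝ) → Measure S} (h : Realizes d q Λ) {V : Eu d → ℝ}
    (hV : V ∈ PotClass d) : IsProbabilityMeasure (Λ V) := by
  obtain ⟨A, g, hg, hA⟩ := h
  rw [hA V hV]
  letI := A.mΩ
  have := A.prob
  exact Measure.isProbabilityMeasure_map (A.measurable_state hg hV).aemeasurable

/-- An algorithm from a realised law on the space itself. -/
lemma Realizes.algo {q : ℕ} {Λ : (Eu d → ℝ) → Measure (Eu d)} (h : Realizes d q Λ) :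
    ∃ A : Algo d q, ∀ V ∈ PotClass d, A.law V = Λ V := by
  obtain ⟨A, g, hg, hA⟩ := h
  refine ⟨A.withOut g hg, fun V hV => ?_⟩
  rw [hA V hV]
  letI := A.mΩ
  exact congrArg (fun F : A.Ω → Eu d => A.P.map F) (funext fun ω =>
    congrArg (fun a => g (ω, a)) (A.withOut_answers g hg V ω q le_rfl))

lemma realizes_start (s0 : S) : Realizes d 0 (fun _ => Measure.dirac s0) := by
  refine ⟨⟨Unit, inferInstance, inferInstance, Measure.dirac (), inferInstance,
    fun k => k.elim0, fun k => k.elim0, fun _ => 0, measurable_const⟩, fun _ => s0,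
    measurable_const, fun V hV => ?_⟩
  simp

lemma Realizes.map {q : ℕ} {Λ : (Eu d → ℝ) → Measure S} (h : Realizes d q Λ) {f : S → S'}
    (hf : Measurable f) : Realizes d q (fun V => (Λ V).map f) := by
  obtain ⟨A, g, hg, hA⟩ := h
  refine ⟨A, fun x => f (g x), ?_, fun V hV => ?_⟩
  · letI := A.mΩ
    exact hf.comp hg
  · show (Λ V).map f = _
    rw [hA V hV]
    letI := A.mΩ
    rw [Measure.map_map hf (A.measurable_state hg hV)]
    rfl

/-- The procedure with additional independent noise. -/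
noncomputable def Algo.addNoise {q : ℕ} (A : Algo d q) (W : Type) [mW : MeasurableSpace W]
    [sW : StandardBorelSpace W] (ν : Measure W) [hν : IsProbabilityMeasure ν] : Algo d q where
  Ω := A.Ω × W
  mΩ := A.mΩ.prod mW
  sΩ := by
    letI := A.mΩ
    haveI := A.sΩ
    infer_instance
  P := by
    letI := A.mΩ
    exact A.P.prod ν
  prob := by
    letI := A.mΩ
    haveI := A.prob
    infer_instance
  query := fun k x => A.query k (x.1.1, x.2)
  query_meas := fun k => by
    letI := A.mΩ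
    exact (A.query_meas k).comp ((measurable_fst.comp measurable_fst).prodMk measurable_snd)
  out := fun x => A.out (x.1.1, x.2)
  out_meas := by
    letI := A.mΩ
    exact A.out_meas.comp ((measurable_fst.comp measurable_fst).prodMk measurable_snd)

lemma Algo.addNoise_answers {q : ℕ} (A : Algo d q) (W : Type) [mW : MeasurableSpace W]
    [sW : StandardBorelSpace W] (ν : Measure W) [hν : IsProbabilityMeasure ν] (V : Eu d → ℝ)
    (ω : A.Ω × W) (k : ℕ) (hk : k ≤ q) :
    (A.addNoise W ν).answers V ω k hk = A.answers V ω.1 k hk := by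
  induction k with
  | zero => rfl
  | succ k ih =>
    simp only [Algo.answers]
    rw [ih]
    rfl

lemma Realizes.noise {q : ℕ} {Λ : (Eu d → ℝ) → Measure S} (h : Realizes d q Λ) (W : Type)
    [mW : MeasurableSpace W] [sW : StandardBorelSpace W] (ν : Measure W)
    [hν : IsProbabilityMeasure ν] : Realizes d q (fun V => (Λ V).prod ν) := by
  obtain ⟨A, g, hg, hA⟩ := h
  refine ⟨A.addNoise W ν, fun x => (g (x.1.1, x.2), x.1.2), ?_, fun V hV => ?_⟩
  · letI := A.mΩ
    exact (hg.comp ((measurable_fst.comp measurable_fst).prodMk measurable_snd)).prodMk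
      (measurable_snd.comp measurable_fst)
  · show (Λ V).prod ν = _
    rw [hA V hV]
    letI := A.mΩ
    haveI := A.prob
    have h1 := Measure.map_prod_map A.P ν (A.measurable_state hg hV) (measurable_id (α := W))
    rw [Measure.map_id] at h1
    rw [h1]
    exact congrArg (fun F : A.Ω × W → S × W => (A.P.prod ν).map F) (funext fun ω =>
      congrArg (fun a => (g (ω.1, a), ω.2)) (A.addNoise_answers W ν V ω q le_rfl).symm)

/-- The procedure with one more query. -/
def Algo.addQuery {q : ℕ} (A : Algo d q) (g : A.Ω × (Fin q → ℝ × Eu d) → S)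
    (hg : letI := A.mΩ; Measurable g) (φ : S → Eu d) (hφ : Measurable φ) : Algo d (q + 1) where
  Ω := A.Ω
  mΩ := A.mΩ
  sΩ := A.sΩ
  P := A.P
  prob := A.prob
  query := fun k x => if h : (k : ℕ) < q then A.query ⟨k, h⟩ x
    else φ (g (x.1, fun j => x.2 ⟨j, by omega⟩))
  query_meas := fun k => by
    letI := A.mΩ
    by_cases h : (k : ℕ) < q
    · simp only [h, dite_true]
      exact A.query_meas ⟨k, h⟩
    · simp only [h, dite_false]
      refine hφ.comp (hg.comp (measurable_fst.prodMk ?_))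
      exact measurable_pi_iff.2 fun j => (measurable_pi_apply _).comp measurable_snd
  out := fun _ => 0
  out_meas := by
    letI := A.mΩ
    exact measurable_const

lemma Algo.addQuery_answers {q : ℕ} (A : Algo d q) (g : A.Ω × (Fin q → ℝ × Eu d) → S)
    (hg : letI := A.mΩ; Measurable g) (φ : S → Eu d) (hφ : Measurable φ) (V : Eu d → ℝ)
    (ω : A.Ω) (k : ℕ) (hk : k ≤ q) :
    (A.addQuery g hg φ hφ).answers V ω k (hk.trans (Nat.le_succ q)) = A.answers V ω k hk := by
  induction k with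
  | zero => rfl
  | succ k ih =>
    simp only [Algo.answers]
    rw [ih (Nat.le_of_succ_le hk)]
    congr 2
    simp only [Algo.addQuery]
    rw [dif_pos (show k < q from hk)]

lemma Algo.addQuery_answers_last {q : ℕ} (A : Algo d q) (g : A.Ω × (Fin q → ℝ × Eu d) → S)
    (hg : letI := A.mΩ; Measurable g) (φ : S → Eu d) (hφ : Measurable φ) (V : Eu d → ℝ)
    (ω : A.Ω) :
    (A.addQuery g hg φ hφ).answers V ω (q + 1) le_rfl =
      Fin.snoc (α := fun _ => ℝ × Eu d) (A.answers V ω q le_rfl)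
        (oracle V (φ (g (ω, A.answers V ω q le_rfl)))) := by
  have h1 := A.addQuery_answers g hg φ hφ V ω q le_rfl
  have h2 : (A.addQuery g hg φ hφ).query ⟨q, Nat.lt_succ_self q⟩ (ω, A.answers V ω q le_rfl) =
      φ (g (ω, A.answers V ω q le_rfl)) := by
    simp only [Algo.addQuery]
    rw [dif_neg (lt_irrefl q)]
  show Fin.snoc (α := fun _ => ℝ × Eu d) ((A.addQuery g hg φ hφ).answers V ω q _)
    (oracle V ((A.addQuery g hg φ hφ).query ⟨q, _⟩
      (ω, (A.addQuery g hg φ hφ).answers V ω q _))) = _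
  rw [h1, h2]

lemma Realizes.query {q : ℕ} {Λ : (Eu d → ℝ) → Measure S} (h : Realizes d q Λ) {φ : S → Eu d}
    (hφ : Measurable φ) : Realizes d (q + 1) (fun V => (Λ V).map (fun s => (s, oracle V (φ s)))) := by
  obtain ⟨A, g, hg, hA⟩ := h
  refine ⟨A.addQuery g hg φ hφ, fun x => (g (x.1, Fin.init x.2), x.2 (Fin.last q)), ?_,
    fun V hV => ?_⟩
  · letI := A.mΩ
    refine (hg.comp (measurable_fst.prodMk ?_)).prodMk
      ((measurable_pi_apply _).comp measurable_snd)
    exact measurable_pi_iff.2 fun j => (measurable_pi_apply _).comp measurable_snd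
  · show (Λ V).map (fun s => (s, oracle V (φ s))) = _
    rw [hA V hV]
    letI := A.mΩ
    have hm : Measurable (fun s : S => (s, oracle V (φ s))) :=
      measurable_id.prodMk ((PotClass.measurable_oracle hV).comp hφ)
    rw [Measure.map_map hm (A.measurable_state hg hV)]
    refine congrArg (fun F : A.Ω → S × (ℝ × Eu d) => A.P.map F) (funext fun ω => ?_)
    have h1 := A.addQuery_answers_last g hg φ hφ V ω
    have h2 : (fun a : Fin (q + 1) → ℝ × Eu d => (g (ω, Fin.init a), a (Fin.last q)))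
        ((A.addQuery g hg φ hφ).answers V ω (q + 1) le_rfl) =
        (g (ω, A.answers V ω q le_rfl), oracle V (φ (g (ω, A.answers V ω q le_rfl)))) := by
      rw [h1]
      simp only [Fin.snoc_last, Fin.init_snoc]
    exact h2.symm

/-! ### computations with a fixed number of queries -/

/-- The map `R V` can be computed with `q` queries. -/
def Comp (d q : ℕ) {S S' : Type} [MeasurableSpace S] [MeasurableSpace S']
    (R : (Eu d → ℝ) → S → S') : Prop :=
  (∀ V ∈ PotClass d, Measurable (R V)) ∧ ∀ (q0 : ℕ) (Λ : (Eu d → ℝ) → Measure S),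
    Realizes d q0 Λ → Realizes d (q0 + q) (fun V => (Λ V).map (R V))

lemma comp_zero {f : S → S'} (hf : Measurable f) : Comp d 0 (fun _ => f) :=
  ⟨fun _ _ => hf, fun _ _ h => h.map hf⟩

lemma Comp.trans {q1 q2 : ℕ} {R1 : (Eu d → ℝ) → S → S'} {R2 : (Eu d → ℝ) → S' → S''}
    (h1 : Comp d q1 R1) (h2 : Comp d q2 R2) : Comp d (q1 + q2) (fun V s => R2 V (R1 V s)) := by
  refine ⟨fun V hV => (h2.1 V hV).comp (h1.1 V hV), fun q0 Λ h => ?_⟩
  have h3 := h2.2 (q0 + q1) _ (h1.2 q0 Λ h)
  rw [← Nat.add_assoc]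
  refine h3.congr fun V hV => ?_
  rw [Measure.map_map (h2.1 V hV) (h1.1 V hV)]
  rfl

/-- Apply a measurable map after the computation. -/
lemma Comp.post {q : ℕ} {R : (Eu d → ℝ) → S → S'} (h : Comp d q R) {f : S' → S''}
    (hf : Measurable f) : Comp d q (fun V s => f (R V s)) := h.trans (comp_zero hf)

/-- Apply a measurable map before the computation. -/
lemma Comp.pre {q : ℕ} {R : (Eu d → ℝ) → S' → S''} (h : Comp d q R) {f : S → S'}
    (hf : Measurable f) : Comp d q (fun V s => R V (f s)) := by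
  have h1 := (comp_zero (d := d) hf).trans h
  rwa [Nat.zero_add] at h1

lemma comp_oracle {φ : S → Eu d} (hφ : Measurable φ) :
    Comp d 1 (fun V (s : S) => (s, oracle V (φ s))) :=
  ⟨fun _ hV => measurable_id.prodMk ((PotClass.measurable_oracle hV).comp hφ),
    fun _ _ h => h.query hφ⟩

/-- One gradient query. -/
lemma comp_grad {φ : S → Eu d} (hφ : Measurable φ) :
    Comp d 1 (fun V (s : S) => (s, gradient V (φ s))) :=
  (comp_oracle hφ).post (f := fun x : S × (ℝ × Eu d) => (x.1, x.2.2))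
    (measurable_fst.prodMk (measurable_snd.comp measurable_snd))

/-- The gradient estimator costs two queries. -/
lemma comp_est (s : ℝ) {φ ζ : S → Eu d} (hφ : Measurable φ) (hζ : Measurable ζ) :
    Comp d 2 (fun V (x : S) => (x, gradient V (ev (gradient V) s (φ x) (ζ x)))) := by
  have h1 := comp_grad (d := d) hφ
  have h2 := comp_grad (d := d) (S := S × Eu d)
    (φ := fun x => φ x.1 - s • x.2 + √s • ζ x.1) (by fun_prop)
  exact (h1.trans h2).post (f := fun x : (S × Eu d) × Eu d => (x.1.1, x.2)) (by fun_prop)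

/-! ### Markov steps -/

/-- bounded measurable functions are preserved by transition operators -/
lemma op_bm {W : Type} [MeasurableSpace W] (ν : Measure W) [IsProbabilityMeasure ν]
    {U : S × W → S'} (hU : Measurable U) {f : S' → ℝ} (hf : Measurable f)
    (bf : ∃ C, ∀ x, |f x| ≤ C) :
    Measurable (fun s => ∫ w, f (U (s, w)) ∂ν) ∧ ∃ C, ∀ s, |∫ w, f (U (s, w)) ∂ν| ≤ C := by
  refine ⟨?_, ?_⟩
  · exact ((hf.comp hU).stronglyMeasurable.integral_prod_right').measurable
  · obtain ⟨C, hC⟩ := bf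
    refine ⟨C, fun s => ?_⟩
    have h := norm_integral_le_of_norm_le_const (μ := ν) (f := fun w => f (U (s, w))) (C := C)
      (Filter.Eventually.of_forall fun w => hC _)
    simpa using h

lemma iter_bm {W : Type} [MeasurableSpace W] (ν : Measure W) [IsProbabilityMeasure ν]
    {U : S × W → S} (hU : Measurable U) (N : ℕ) {f : S → ℝ} (hf : Measurable f)
    (bf : ∃ C, ∀ x, |f x| ≤ C) :
    Measurable ((fun F s => ∫ w, F (U (s, w)) ∂ν)^[N] f) ∧
      ∃ C, ∀ s, |(fun F s => ∫ w, F (U (s, w)) ∂ν)^[N] f s| ≤ C := by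
  induction N with
  | zero => exact ⟨hf, bf⟩
  | succ N ih =>
    rw [Function.iterate_succ_apply']
    exact op_bm ν hU ih.1 ih.2

lemma integral_op {W : Type} [MeasurableSpace W] (μ : Measure S) [IsProbabilityMeasure μ]
    (ν : Measure W) [IsProbabilityMeasure ν]
    {U : S × W → S'} (hU : Measurable U) {f : S' → ℝ} (hf : Measurable f)
    (bf : ∃ C, ∀ x, |f x| ≤ C) :
    ∫ x, f x ∂((μ.prod ν).map U) = ∫ s, (∫ w, f (U (s, w)) ∂ν) ∂μ := by
  obtain ⟨C, hC⟩ := bf
  rw [integral_map hU.aemeasurable hf.aestronglyMeasurable, integral_prod]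
  exact Integrable.of_bound (hf.comp hU).aestronglyMeasurable C
    (Filter.Eventually.of_forall fun w => hC _)

/-- `N` Markov steps, each computed with `q'` queries. -/
lemma Realizes.iter {q q' : ℕ} {Λ : (Eu d → ℝ) → Measure S} (h : Realizes d q Λ) {W : Type}
    [MeasurableSpace W] [StandardBorelSpace W] (ν : Measure W) [IsProbabilityMeasure ν]
    {U : (Eu d → ℝ) → S × W → S} (hU : Comp d q' U) (N : ℕ) :
    ∃ Λ' : (Eu d → ℝ) → Measure S, Realizes d (q + q' * N) Λ' ∧ ∀ V ∈ PotClass d,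
      ∀ f : S → ℝ, Measurable f → (∃ C, ∀ x, |f x| ≤ C) →
        ∫ x, f x ∂(Λ' V) = ∫ x, (fun F s => ∫ w, F (U V (s, w)) ∂ν)^[N] f x ∂(Λ V) := by
  induction N with
  | zero => exact ⟨Λ, h, fun V hV f hf bf => rfl⟩
  | succ N ih =>
    obtain ⟨Λ', h1, h2⟩ := ih
    refine ⟨fun V => ((Λ' V).prod ν).map (U V), ?_, fun V hV f hf bf => ?_⟩
    · have h3 := hU.2 _ _ (h1.noise W ν)
      have h4 : q + q' * (N + 1) = q + q' * N + q' := by ring
      rw [h4]
      exact h3
    · haveI := h1.prob hV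
      rw [integral_op (Λ' V) ν (hU.1 V hV) hf bf]
      have h3 := op_bm ν (hU.1 V hV) hf bf
      rw [h2 V hV _ h3.1 h3.2, Function.iterate_succ_apply]

/-- Operator iterates with a frozen first component. -/
lemma iter_frozen {W X : Type} [MeasurableSpace W] (ν : Measure W)
    (T : X → X → W → X) (m : ℕ) (f : X → ℝ) (y x : X) :
    (fun (F : X × X → ℝ) (s : X × X) => ∫ w, F (s.1, T s.1 s.2 w) ∂ν)^[m] (fun s => f s.2) (y, x)
      = (fun (F : X → ℝ) (x : X) => ∫ w, F (T y x w) ∂ν)^[m] f x := by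
  induction m generalizing x with
  | zero => rfl
  | succ m ih =>
    rw [Function.iterate_succ_apply', Function.iterate_succ_apply']
    simp only [ih]

/-- Realisation of a general two-stage scheme: `N` steps of a Markov chain on `(y, p)` started
at `0` (each with `q1` queries), then `m` steps on `x` with frozen `y` (each with `q2` queries),
started at `x = y`. -/
theorem exists_two_stage {W1 W2 : Type} [MeasurableSpace W1] [StandardBorelSpace W1]
    [MeasurableSpace W2] [StandardBorelSpace W2] (ν1 : Measure W1) [IsProbabilityMeasure ν1]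
    (ν2 : Measure W2) [IsProbabilityMeasure ν2] {q1 q2 : ℕ}
    {K : (Eu d → ℝ) → Eu d × Eu d → W1 → Eu d × Eu d}
    (hK : Comp d q1 (fun V (x : (Eu d × Eu d) × W1) => K V x.1 x.2))
    {T : (Eu d → ℝ) → Eu d → Eu d → W2 → Eu d}
    (hT : Comp d q2 (fun V (x : (Eu d × Eu d) × W2) => (x.1.1, T V x.1.1 x.1.2 x.2)))
    (N m : ℕ) :
    ∃ A : Algo d (q1 * N + q2 * m), ∀ V ∈ PotClass d, IsProbabilityMeasure (A.law V) ∧
      ∀ f : Eu d → ℝ, Measurable f → (∃ C, ∀ x, |f x| ≤ C) →
        ∫ x, f x ∂(A.law V) = (fun F z => ∫ w, F (K V z w) ∂ν1)^[N]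
          (fun z => (fun F x => ∫ w, F (T V z.1 x w) ∂ν2)^[m] f z.1) 0 := by
  obtain ⟨Λ1, h1, h1'⟩ := (realizes_start (d := d) (0 : Eu d × Eu d)).iter ν1 hK N
  have hdup : Measurable (fun z : Eu d × Eu d => (z.1, z.1)) := by fun_prop
  obtain ⟨Λ2, h2, h2'⟩ := (h1.map hdup).iter ν2 hT m
  obtain ⟨A, hA⟩ := (h2.map measurable_snd).algo
  have hq : 0 + q1 * N + q2 * m = q1 * N + q2 * m := by ring
  rw [← hq]
  refine ⟨A, fun V hV => ?_⟩
  have hlaw := hA V hV
  haveI := (h2.map measurable_snd).prob hV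
  refine ⟨by rw [hlaw]; infer_instance, fun f hf bf => ?_⟩
  rw [hlaw, integral_map measurable_snd.aemeasurable hf.aestronglyMeasurable]
  have hf2 : Measurable (fun s : Eu d × Eu d => f s.2) := hf.comp measurable_snd
  have bf2 : ∃ C, ∀ s : Eu d × Eu d, |f s.2| ≤ C := by
    obtain ⟨C, hC⟩ := bf
    exact ⟨C, fun s => hC _⟩
  rw [h2' V hV _ hf2 bf2]
  have h3 := iter_bm ν2 (hT.1 V hV) m hf2 bf2
  rw [integral_map hdup.aemeasurable h3.1.aestronglyMeasurable]
  have h4 : ∀ z : Eu d × Eu d,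
      (fun (F : Eu d × Eu d → ℝ) (s : Eu d × Eu d) => ∫ w, F (s.1, T V s.1 s.2 w) ∂ν2)^[m]
        (fun s => f s.2) (z.1, z.1)
      = (fun (F : Eu d → ℝ) (x : Eu d) => ∫ w, F (T V z.1 x w) ∂ν2)^[m] f z.1 :=
    fun z => iter_frozen ν2 (fun y x w => T V y x w) m f z.1 z.1
  simp only [h4]
  have h5 : Measurable (fun z : Eu d × Eu d =>
      (fun (F : Eu d → ℝ) (x : Eu d) => ∫ w, F (T V z.1 x w) ∂ν2)^[m] f z.1) := by
    have h6 := h3.1.comp hdup
    have h7 : (fun z : Eu d × Eu d =>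
        (fun (F : Eu d → ℝ) (x : Eu d) => ∫ w, F (T V z.1 x w) ∂ν2)^[m] f z.1) =
        ((fun (F : Eu d × Eu d → ℝ) (s : Eu d × Eu d) => ∫ w, F (s.1, T V s.1 s.2 w) ∂ν2)^[m]
        (fun s => f s.2)) ∘ (fun z : Eu d × Eu d => (z.1, z.1)) := funext fun z => (h4 z).symm
    rw [h7]
    exact h6
  have h6 : ∃ C, ∀ z : Eu d × Eu d,
      |(fun (F : Eu d → ℝ) (x : Eu d) => ∫ w, F (T V z.1 x w) ∂ν2)^[m] f z.1| ≤ C := by
    obtain ⟨C, hC⟩ := h3.2
    refine ⟨C, fun z => ?_⟩
    rw [← h4 z]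
    exact hC _
  rw [h1' V hV _ h5 h6, integral_dirac]

end Vale.Agent.P347
end

section
attribute [-instance] ProperSMul.toContinuousSMul IsTopologicalTorsor.toContinuousSMul IdemSemiring.toCanonicallyOrderedAdd IdemSemiring.toMulLeftMono IdemSemiring.toMulRightMono AddQuantale.instAddLeftMono AddQuantale.instAddRightMono Quantale.instMulLeftMono Quantale.instMulRightMono FiniteDimensional.rclike_to_real IsScalarTower.complexToReal FiniteDimensional.complexToReal

/-! Task N1 (P347): the class of the problem gives `Pot`, and `target V = gibbs V`. -/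

open MeasureTheory Filter Module Set
open scoped ENNReal NNReal

namespace Vale.Agent.P347

/-- The Riesz isomorphism as a real linear map. -/
noncomputable def rieszL (d : ℕ) : (Eu d →L[ℝ] ℝ) →L[ℝ] Eu d where
  toFun := fun l => (InnerProductSpace.toDual ℝ (Eu d)).symm l
  map_add' := fun a b => by simp
  map_smul' := fun a b => by simp
  cont := (InnerProductSpace.toDual ℝ (Eu d)).symm.continuous

theorem inner_rieszL {d : ℕ} (l : Eu d →L[ℝ] ℝ) (v : Eu d) :
    (inner ℝ (rieszL d l) v : ℝ) = l v :=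
  InnerProductSpace.toDual_symm_apply

theorem inner_fderiv_gradient {d : ℕ} {V : Eu d → ℝ} (hV : ContDiff ℝ 2 V) (x u v : Eu d) :
    inner ℝ (fderiv ℝ (gradient V) x u) v = fderiv ℝ (fderiv ℝ V) x u v := by
  have h1 : ContDiff ℝ 1 (fderiv ℝ V) := hV.fderiv_right (by (clear * -; norm_num))
  have h2 : HasFDerivAt (fderiv ℝ V) (fderiv ℝ (fderiv ℝ V) x) x :=
    (h1.differentiable one_ne_zero x).hasFDerivAt
  have h3 : HasFDerivAt (gradient V) ((rieszL d).comp (fderiv ℝ (fderiv ℝ V) x)) x :=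
    (rieszL d).hasFDerivAt.comp x h2
  rw [h3.fderiv, ContinuousLinearMap.comp_apply, inner_rieszL]

theorem PotClass.pot {d : ℕ} {V : Eu d → ℝ} (hV : V ∈ PotClass d) :
    Pot V (gradient V) (fun x => fderiv ℝ (gradient V) x) := by
  obtain ⟨hC, h0, hg0, hH⟩ := hV
  have h1 : ContDiff ℝ 1 (fderiv ℝ V) := hC.fderiv_right (by norm_num)
  have hgrad : ContDiff ℝ 1 (gradient V) :=
    (rieszL d).contDiff.comp h1
  refine ⟨fun x => ?_, fun x => ?_, ?_, fun x u v => ?_, fun x v => ?_, fun x v => ?_, h0, hg0⟩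
  · exact (hC.differentiable two_ne_zero x).hasGradientAt.hasFDerivAt
  · exact (hgrad.differentiable one_ne_zero x).hasFDerivAt
  · exact hgrad.continuous_fderiv one_ne_zero
  · rw [inner_fderiv_gradient hC, real_inner_comm, inner_fderiv_gradient hC]
    exact (hC.contDiffAt.isSymmSndFDerivAt (by simp)).eq u v
  · rw [inner_fderiv_gradient hC]
    exact (hH x v).1
  · rw [inner_fderiv_gradient hC]
    exact (hH x v).2

theorem target_eq_gibbs {d : ℕ} {V : Eu d → ℝ} (hV : V ∈ PotClass d) :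
    target V = gibbs V := by
  have hp := PotClass.pot hV
  have ha : Adm V := hp.adm
  have hi := ha.integrable_exp
  unfold target gibbsOn gibbs Measure.tilted
  have h1 : ∫⁻ x, ENNReal.ofReal (Real.exp (-V x)) = ENNReal.ofReal (∫ x, Real.exp (-V x)) := by
    rw [ofReal_integral_eq_lintegral_ofReal hi (Eventually.of_forall fun x => (Real.exp_pos _).le)]
  have hpos := ha.integral_exp_pos
  rw [← withDensity_smul' _ _ (by rw [h1]; simp only [ne_eq, ENNReal.inv_eq_top, ENNReal.ofReal_eq_zero, not_le, hpos])]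
  congr 1
  funext x
  simp only [Pi.smul_apply, smul_eq_mul]
  rw [h1, ENNReal.ofReal_div_of_pos hpos, mul_comm, ENNReal.div_eq_inv_mul, mul_comm]

end Vale.Agent.P347
end

section

/-! General-order derivative bounds (P347): calculus of directional derivatives, the class `Tm` of
smooth functions with polynomially bounded derivatives, Hilbert-Schmidt type sums of squares of
iterated derivatives, and the product lemma. -/

open MeasureTheory Filter Module
open scoped ContDiff

namespace Vale.Agent.P347.Gen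

variable {X : Type*} [NormedAddCommGroup X] [NormedSpace ℝ X]

/-! ### Polynomial growth on a general normed space -/

omit [NormedSpace ℝ X] in
theorem pgNonneg {f : X → ℝ} (hf : PG f) :
    ∃ (C : ℝ) (k : ℕ), 0 ≤ C ∧ ∀ x, ‖f x‖ ≤ C * (1 + ‖x‖) ^ k := by
  obtain ⟨C, k, h⟩ := hf
  refine ⟨|C|, k, abs_nonneg _, fun x => (h x).trans ?_⟩
  have : 0 ≤ (1 + ‖x‖) := by positivity
  gcongr
  exact le_abs_self C

omit [NormedSpace ℝ X] in
theorem pgConst (c : ℝ) : PG (fun _ : X => c) := ⟨‖c‖, 0, fun x => by simp⟩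

omit [NormedSpace ℝ X] in
theorem pgAdd {f g : X → ℝ} (hf : PG f) (hg : PG g) : PG (fun x => f x + g x) := by
  obtain ⟨C, k, hC, h⟩ := pgNonneg hf
  obtain ⟨C', k', hC', h'⟩ := pgNonneg hg
  refine ⟨C + C', k + k', fun x => (norm_add_le _ _).trans ?_⟩
  have h1 : (1 : ℝ) ≤ 1 + ‖x‖ := by linarith [norm_nonneg x]
  have h2 : (1 + ‖x‖) ^ k ≤ (1 + ‖x‖) ^ (k + k') := pow_le_pow_right₀ h1 (by omega)
  have h3 : (1 + ‖x‖) ^ k' ≤ (1 + ‖x‖) ^ (k + k') := pow_le_pow_right₀ h1 (by omega)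
  have h4 := mul_le_mul_of_nonneg_left h2 hC
  have h5 := mul_le_mul_of_nonneg_left h3 hC'
  linarith [h x, h' x]

omit [NormedSpace ℝ X] in
theorem pgMul {f g : X → ℝ} (hf : PG f) (hg : PG g) : PG (fun x => f x * g x) := by
  obtain ⟨C, k, hC, h⟩ := pgNonneg hf
  obtain ⟨C', k', hC', h'⟩ := pgNonneg hg
  refine ⟨C * C', k + k', fun x => ?_⟩
  rw [norm_mul, pow_add]
  calc ‖f x‖ * ‖g x‖ ≤ (C * (1 + ‖x‖) ^ k) * (C' * (1 + ‖x‖) ^ k') :=
        mul_le_mul (h x) (h' x) (norm_nonneg _) (by positivity)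
    _ = _ := by ring

/-! ### Directional derivatives -/

/-- Directional derivative. -/
noncomputable def dd (w : X) (u : X → ℝ) : X → ℝ := fun z => fderiv ℝ u z w

theorem dd_apply (w : X) (u : X → ℝ) (z : X) : dd w u z = fderiv ℝ u z w := rfl

theorem smDiff {u : X → ℝ} (hu : ContDiff ℝ ∞ u) : Differentiable ℝ u :=
  hu.differentiable (by simp)

theorem smDd {u : X → ℝ} (hu : ContDiff ℝ ∞ u) (w : X) : ContDiff ℝ ∞ (dd w u) := by
  have h1 : ContDiff ℝ ∞ (fderiv ℝ u) := (contDiff_infty_iff_fderiv.1 hu).2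
  exact h1.clm_apply contDiff_const

theorem dd_add {u v : X → ℝ} (hu : ContDiff ℝ ∞ u) (hv : ContDiff ℝ ∞ v) (w : X) :
    dd w (fun z => u z + v z) = fun z => dd w u z + dd w v z := by
  ext z
  simp only [dd]
  rw [fderiv_fun_add (smDiff hu z) (smDiff hv z)]
  rfl

theorem dd_mul {u v : X → ℝ} (hu : ContDiff ℝ ∞ u) (hv : ContDiff ℝ ∞ v) (w : X) :
    dd w (fun z => u z * v z) = fun z => dd w u z * v z + u z * dd w v z := by
  ext z
  simp only [dd]
  rw [fderiv_fun_mul (smDiff hu z) (smDiff hv z)]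
  simp only [_root_.add_apply, _root_.smul_apply, smul_eq_mul]
  ring

theorem dd_const (c : ℝ) (w : X) : dd w (fun _ : X => c) = fun _ => 0 := by
  ext z
  simp [dd]

theorem dd_cmul {u : X → ℝ} (hu : ContDiff ℝ ∞ u) (c : ℝ) (w : X) :
    dd w (fun z => c * u z) = fun z => c * dd w u z := by
  rw [dd_mul contDiff_const hu, dd_const]
  ext z
  simp

theorem smSum {ι : Type*} (s : Finset ι) {f : ι → X → ℝ} (hf : ∀ i ∈ s, ContDiff ℝ ∞ (f i)) :
    ContDiff ℝ ∞ (fun z => ∑ i ∈ s, f i z) := ContDiff.sum hf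

theorem dd_sum {ι : Type*} (s : Finset ι) {f : ι → X → ℝ} (hf : ∀ i ∈ s, ContDiff ℝ ∞ (f i))
    (w : X) : dd w (fun z => ∑ i ∈ s, f i z) = fun z => ∑ i ∈ s, dd w (f i) z := by
  ext z
  simp only [dd]
  rw [fderiv_fun_sum fun i hi => smDiff (hf i hi) z]
  simp

theorem dd_comm {u : X → ℝ} (hu : ContDiff ℝ ∞ u) (w w' : X) :
    dd w (dd w' u) = dd w' (dd w u) := by
  ext z
  have h1 : ContDiff ℝ ∞ (fderiv ℝ u) := (contDiff_infty_iff_fderiv.1 hu).2
  have h2 : Differentiable ℝ (fderiv ℝ u) := h1.differentiable (by simp)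
  have key : ∀ a b : X, dd a (dd b u) z = fderiv ℝ (fderiv ℝ u) z a b := by
    intro a b
    have := (h2 z).hasFDerivAt.clm_apply (hasFDerivAt_const b z)
    rw [dd_apply]
    have e : dd b u = fun y => (fderiv ℝ u y) b := rfl
    rw [e, this.fderiv]
    simp
  rw [key, key]
  have hs : IsSymmSndFDerivAt ℝ u z := by
    have : ContDiffAt ℝ ∞ u z := hu.contDiffAt
    refine this.isSymmSndFDerivAt ?_
    simp only [minSmoothness_of_isRCLikeNormedField]
    exact WithTop.coe_le_coe.2 le_top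
  exact hs w w'

/-! ### Iterated derivatives and the class `Tm` -/

variable {B : Type} {vec : B → X}

/-- Iterated directional derivatives along a list of indices. -/
noncomputable def dl (vec : B → X) : List B → (X → ℝ) → X → ℝ
  | [], u => u
  | b :: L, u => dl vec L (dd (vec b) u)

theorem dl_nil (u : X → ℝ) : dl vec [] u = u := rfl
theorem dl_cons (b : B) (L : List B) (u : X → ℝ) :
    dl vec (b :: L) u = dl vec L (dd (vec b) u) := rfl

/-- Smooth functions with polynomially bounded derivatives (along the chosen directions). -/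
structure Tm (vec : B → X) (u : X → ℝ) : Prop where
  sm : ContDiff ℝ ∞ u
  pg : ∀ L : List B, PG (dl vec L u)

theorem Tm.dd {u : X → ℝ} (hu : Tm vec u) (b : B) : Tm vec (dd (vec b) u) :=
  ⟨smDd hu.sm _, fun L => hu.pg (b :: L)⟩

theorem Tm.pg0 {u : X → ℝ} (hu : Tm vec u) : PG u := hu.pg []

theorem Tm.cont {u : X → ℝ} (hu : Tm vec u) : Continuous u := hu.sm.continuous

theorem Tm.add {u v : X → ℝ} (hu : Tm vec u) (hv : Tm vec v) : Tm vec (fun z => u z + v z) := by
  refine ⟨hu.sm.add hv.sm, fun L => ?_⟩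
  induction L generalizing u v with
  | nil => exact pgAdd hu.pg0 hv.pg0
  | cons b L ih =>
    rw [dl_cons, dd_add hu.sm hv.sm]
    exact ih (hu.dd b) (hv.dd b)

theorem Tm.const (c : ℝ) : Tm vec (fun _ : X => c) := by
  refine ⟨contDiff_const, fun L => ?_⟩
  induction L generalizing c with
  | nil => exact pgConst c
  | cons b L ih =>
    rw [dl_cons, dd_const]
    exact ih 0

theorem Tm.mul {u v : X → ℝ} (hu : Tm vec u) (hv : Tm vec v) : Tm vec (fun z => u z * v z) := by
  refine ⟨hu.sm.mul hv.sm, fun L => ?_⟩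
  have key : ∀ (n : ℕ) (L : List B), L.length ≤ n → ∀ u v : X → ℝ, Tm vec u → Tm vec v →
      PG (dl vec L (fun z => u z * v z)) := by
    intro n
    induction n with
    | zero =>
      intro L hL u v hu hv
      have : L = [] := List.length_eq_zero_iff.1 (by omega)
      subst this
      exact pgMul hu.pg0 hv.pg0
    | succ n ih =>
      intro L hL u v hu hv
      cases L with
      | nil => exact pgMul hu.pg0 hv.pg0
      | cons b L =>
        rw [dl_cons, dd_mul hu.sm hv.sm]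
        have hL' : L.length ≤ n := by simpa using hL
        -- additivity of `dl`
        have hadd : ∀ (L : List B) (f g : X → ℝ), ContDiff ℝ ∞ f → ContDiff ℝ ∞ g →
            dl vec L (fun z => f z + g z) = fun z => dl vec L f z + dl vec L g z := by
          intro L
          induction L with
          | nil => intro f g _ _; rfl
          | cons c L ih2 =>
            intro f g hf hg
            rw [dl_cons, dd_add hf hg, ih2 _ _ (smDd hf _) (smDd hg _)]
            rfl
        rw [hadd L _ _ ((smDd hu.sm _).mul hv.sm) (hu.sm.mul (smDd hv.sm _))]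
        exact pgAdd (ih L hL' _ _ (hu.dd b) hv) (ih L hL' _ _ hu (hv.dd b))
  exact key L.length L le_rfl u v hu hv

theorem Tm.sum {ι : Type*} (s : Finset ι) {f : ι → X → ℝ} (hf : ∀ i ∈ s, Tm vec (f i)) :
    Tm vec (fun z => ∑ i ∈ s, f i z) := by
  classical
  induction s using Finset.induction_on with
  | empty => simpa using Tm.const (vec := vec) 0
  | insert a s ha ih =>
    simp only [Finset.sum_insert ha]
    exact (hf a (by simp)).add (ih fun i hi => hf i (by simp [hi]))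

theorem Tm.pow2 {u : X → ℝ} (hu : Tm vec u) : Tm vec (fun z => u z ^ 2) := by
  have := hu.mul hu
  simpa only [pow_two] using this

/-! ### Sums of squares of iterated derivatives -/

variable [Fintype B]

/-- `HS vec r u z = ∑_{b₁,…,b_r} (∂_{b₁} ⋯ ∂_{b_r} u (z))²`. -/
noncomputable def HS (vec : B → X) : ℕ → (X → ℝ) → X → ℝ
  | 0, u => fun z => u z ^ 2
  | r + 1, u => fun z => ∑ b, HS vec r (dd (vec b) u) z

theorem HS_zero (u : X → ℝ) (z : X) : HS vec 0 u z = u z ^ 2 := rfl
theorem HS_succ (r : ℕ) (u : X → ℝ) (z : X) :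
    HS vec (r + 1) u z = ∑ b, HS vec r (dd (vec b) u) z := rfl

theorem HS_nonneg (r : ℕ) (u : X → ℝ) (z : X) : 0 ≤ HS vec r u z := by
  induction r generalizing u with
  | zero => rw [HS_zero]; positivity
  | succ r ih => rw [HS_succ]; exact Finset.sum_nonneg fun b _ => ih _

theorem HS_tm (r : ℕ) {u : X → ℝ} (hu : Tm vec u) : Tm vec (HS vec r u) := by
  induction r generalizing u with
  | zero => exact hu.pow2
  | succ r ih => exact Tm.sum _ fun b _ => ih (hu.dd b)

theorem HS_add_le (r : ℕ) {u v : X → ℝ} (hu : ContDiff ℝ ∞ u) (hv : ContDiff ℝ ∞ v) (z : X) :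
    HS vec r (fun z => u z + v z) z ≤ 2 * HS vec r u z + 2 * HS vec r v z := by
  induction r generalizing u v with
  | zero =>
    simp only [HS_zero]
    nlinarith [sq_nonneg (u z - v z)]
  | succ r ih =>
    simp only [HS_succ]
    rw [Finset.mul_sum, Finset.mul_sum, ← Finset.sum_add_distrib]
    refine Finset.sum_le_sum fun b _ => ?_
    rw [dd_add hu hv]
    exact ih (smDd hu _) (smDd hv _)

/-- The product lemma. -/
theorem HS_prod (r : ℕ) : ∀ {β : Type} [Fintype β] (ζ : β → B → X → ℝ) (v : B → X → ℝ) (K : ℝ)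
    (z : X), 0 ≤ K → (∀ i b, ContDiff ℝ ∞ (ζ i b)) → (∀ b, ContDiff ℝ ∞ (v b)) →
    (∀ k ≤ r, ∀ c : B → ℝ, ∑ i, HS vec k (fun z => ∑ b, c b * ζ i b z) z ≤ K * ∑ b, c b ^ 2) →
    ∑ i, HS vec r (fun z => ∑ b, ζ i b z * v b z) z
      ≤ 4 ^ r * K * ∑ b, ∑ k ∈ Finset.range (r + 1), HS vec k (v b) z := by
  induction r with
  | zero =>
    intro β _ ζ v K z hK hζ hv h
    have h0 := h 0 le_rfl (fun b => v b z)
    simp only [HS_zero] at h0 ⊢
    simp only [zero_add, Finset.range_one, Finset.sum_singleton, HS_zero, pow_zero, one_mul]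
    refine le_trans (le_of_eq ?_) h0
    refine Finset.sum_congr rfl fun i _ => ?_
    congr 1
    refine Finset.sum_congr rfl fun b _ => ?_
    ring
  | succ r ih =>
    intro β _ ζ v K z hK hζ hv h
    -- split the first derivative with the Leibniz rule
    have e1 : ∀ (i : β) (c : B), dd (vec c) (fun z => ∑ b, ζ i b z * v b z)
        = fun z => (∑ b, dd (vec c) (ζ i b) z * v b z) + ∑ b, ζ i b z * dd (vec c) (v b) z := by
      intro i c
      rw [dd_sum _ (fun b _ => (hζ i b).mul (hv b))]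
      ext z
      rw [← Finset.sum_add_distrib]
      refine Finset.sum_congr rfl fun b _ => ?_
      rw [dd_mul (hζ i b) (hv b)]
    have s1 : ∀ (i : β) (c : B), ContDiff ℝ ∞ (fun z => ∑ b, dd (vec c) (ζ i b) z * v b z) :=
      fun i c => smSum _ fun b _ => (smDd (hζ i b) _).mul (hv b)
    have s2 : ∀ (i : β) (c : B), ContDiff ℝ ∞ (fun z => ∑ b, ζ i b z * dd (vec c) (v b) z) :=
      fun i c => smSum _ fun b _ => (hζ i b).mul (smDd (hv b) _)
    have step : ∑ i, HS vec (r + 1) (fun z => ∑ b, ζ i b z * v b z) z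
        ≤ 2 * (∑ q : β × B, HS vec r (fun z => ∑ b, dd (vec q.2) (ζ q.1 b) z * v b z) z)
          + 2 * (∑ c, ∑ i, HS vec r (fun z => ∑ b, ζ i b z * dd (vec c) (v b) z) z) := by
      rw [Fintype.sum_prod_type, Finset.sum_comm (γ := B) (α := β), Finset.mul_sum, Finset.mul_sum,
        ← Finset.sum_add_distrib]
      refine Finset.sum_le_sum fun i _ => ?_
      rw [HS_succ, Finset.mul_sum, Finset.mul_sum, ← Finset.sum_add_distrib]
      refine Finset.sum_le_sum fun c _ => ?_
      rw [e1]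
      exact HS_add_le r (s1 i c) (s2 i c) z
    have A := ih (β := β × B) (fun q b => dd (vec q.2) (ζ q.1 b)) v K z hK
      (fun q b => smDd (hζ q.1 b) _) hv (by
        intro k hk c
        rw [Fintype.sum_prod_type]
        have h1 := h (k + 1) (by omega) c
        refine le_trans (le_of_eq ?_) h1
        refine Finset.sum_congr rfl fun i _ => ?_
        rw [HS_succ]
        refine Finset.sum_congr rfl fun a _ => ?_
        congr 1
        rw [dd_sum _ (fun b _ => contDiff_const.mul (hζ i b))]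
        ext z
        refine Finset.sum_congr rfl fun b _ => ?_
        rw [dd_cmul (hζ i b)])
    have D : ∀ c : B, ∑ i, HS vec r (fun z => ∑ b, ζ i b z * dd (vec c) (v b) z) z
        ≤ 4 ^ r * K * ∑ b, ∑ k ∈ Finset.range (r + 1), HS vec k (dd (vec c) (v b)) z := by
      intro c
      exact ih ζ (fun b => dd (vec c) (v b)) K z hK hζ (fun b => smDd (hv b) _)
        (fun k hk => h k (by omega))
    have D' : ∑ c, ∑ i, HS vec r (fun z => ∑ b, ζ i b z * dd (vec c) (v b) z) z
        ≤ 4 ^ r * K * ∑ b, ∑ k ∈ Finset.range (r + 1), HS vec (k + 1) (v b) z := by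
      refine (Finset.sum_le_sum fun c _ => D c).trans (le_of_eq ?_)
      rw [← Finset.mul_sum, Finset.sum_comm]
      congr 1
      refine Finset.sum_congr rfl fun b _ => ?_
      rw [Finset.sum_comm]
      refine Finset.sum_congr rfl fun k _ => ?_
      rw [HS_succ]
    have m1 : ∑ b, ∑ k ∈ Finset.range (r + 1), HS vec k (v b) z
        ≤ ∑ b, ∑ k ∈ Finset.range (r + 1 + 1), HS vec k (v b) z := by
      refine Finset.sum_le_sum fun b _ => ?_
      rw [Finset.sum_range_succ _ (r + 1)]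
      linarith [HS_nonneg (vec := vec) (r + 1) (v b) z]
    have m2 : ∑ b, ∑ k ∈ Finset.range (r + 1), HS vec (k + 1) (v b) z
        ≤ ∑ b, ∑ k ∈ Finset.range (r + 1 + 1), HS vec k (v b) z := by
      refine Finset.sum_le_sum fun b _ => ?_
      rw [Finset.sum_range_succ' _ (r + 1)]
      linarith [HS_nonneg (vec := vec) 0 (v b) z]
    have c0 : 0 ≤ 4 ^ r * K := by positivity
    have t1 := mul_le_mul_of_nonneg_left m1 c0
    have t2 := mul_le_mul_of_nonneg_left m2 c0
    calc _ ≤ _ := step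
      _ ≤ 2 * (4 ^ r * K * ∑ b, ∑ k ∈ Finset.range (r + 1 + 1), HS vec k (v b) z)
          + 2 * (4 ^ r * K * ∑ b, ∑ k ∈ Finset.range (r + 1 + 1), HS vec k (v b) z) := by
        linarith
      _ = _ := by ring

end Vale.Agent.P347.Gen
end

section

/-! Interface between the analytic half and the algorithmic half of the proof of `γ_* = 0` (P347).

Notation: `F_l = Fp V G l` is the posterior mean of the gradient at noise level `l`. -/

open MeasureTheory Filter Module
open scoped ENNReal NNReal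

namespace Vale.Agent.P347.Z

/-- Coefficients of a finite network of virtual nodes. Node `i` is the point
`y + t i • a + cg i • g + cP i • P + ∑ j, w i j • F_{lev j} (x j)`. -/
structure Net (N : ℕ) where
  t : Fin N → ℝ
  cg : Fin N → ℝ
  cP : Fin N → ℝ
  lev : Fin N → ℝ
  w : Fin N → Fin N → ℝ
  q : Fin N → ℝ
  top : Fin N
  root : Fin N

/-- Structural conditions on a network at level `s` with step `θ`: `W` bounds the internal weights,
`Wq` the output weights and `μ` is the margin for the masks. -/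
structure Net.Good {N : ℕ} (net : Net N) (s θ W Wq μ : ℝ) : Prop where
  root_t : net.t net.root = 0
  root_g : net.cg net.root = 0
  root_P : net.cP net.root = 0
  root_w : ∀ j, net.w net.root j = 0
  root_lev : net.lev net.root = s
  top_t : net.t net.top = √(θ * s)
  top_g : net.cg net.top = 0
  top_P : net.cP net.top = 0
  top_lev : net.lev net.top = (1 - θ) * s
  t_nonneg : ∀ i, 0 ≤ net.t i
  t_le : ∀ i, net.t i ≤ √(θ * s)
  margin : ∀ i, i ≠ net.root → (1 - net.t i / √(θ * s)) ^ 2 * s ≤ (1 - μ) * net.lev i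
  lev_lo : ∀ i, (1 - 2 * θ) * s ≤ net.lev i
  lev_hi : ∀ i, net.lev i ≤ s
  w_le : ∀ i j, |net.w i j| ≤ W
  q_le : ∀ j, |net.q j| ≤ Wq

section cert

variable {E : Type*} [NormedAddCommGroup E] [InnerProductSpace ℝ E] [FiniteDimensional ℝ E]
  [MeasurableSpace E] [BorelSpace E]

/-- The law of `(a, g, P)`. -/
noncomputable abbrev gam3 (E : Type*) [NormedAddCommGroup E] [InnerProductSpace ℝ E]
    [FiniteDimensional ℝ E] [MeasurableSpace E] [BorelSpace E] : Measure (E × E × E) :=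
  (gam E).prod ((gam E).prod (gam E))

/-- The certificate: exactly typical nodes `X i`, an exact Gaussian vector `Z` with mean
`- κ F_s (y)`, and a residual `R`. -/
structure Net.Cert {N : ℕ} (net : Net N) (G : E → E) (F : ℝ → E → E) (s θ κ err C : ℝ) (y : E)
    (X : Fin N → E × E × E → E) (Z : E × E × E → E) (R : E × E × E → ℝ) : Prop where
  measX : ∀ i, Measurable (X i)
  measZ : Measurable Z
  measR : Measurable R
  R0 : ∀ ω, 0 ≤ R ω
  root : ∀ ω, X net.root ω = y
  node : ∀ i ω, ‖X i ω - (y + net.t i • ω.1 + net.cg i • ω.2.1 + net.cP i • ω.2.2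
      + ∑ j, net.w i j • F (net.lev j) (X j ω))‖ ≤ R ω
  law : (gam3 E).map (fun ω => Z ω + κ • F s y) = gam E
  out : ∀ ω, ‖ω.2.1 - κ • F ((1 - θ) * s) (X net.top ω)
      + ∑ j, net.q j • F (net.lev j) (X j ω) - Z ω‖ ≤ |κ| * √s * R ω
  intR : Integrable R (gam3 E)
  err : ∫ ω, R ω ∂(gam3 E) ≤ err
  intX : ∀ i, Integrable (fun ω => ‖X i ω‖) (gam3 E)
  momX : ∀ i, ∫ ω, ‖X i ω‖ ∂(gam3 E) ≤ 2 * (‖y‖ + √(finrank ℝ E))
  momTop : ∫ ω, ‖X net.top ω‖ ∂(gam3 E)
      ≤ ‖y‖ + C * √(θ * s) * √(finrank ℝ E) + C * (θ * s) * (‖y‖ + √(finrank ℝ E))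

end cert

/-- NODES: the interface theorem for the masked evaluation gate. -/
def NodesStatement : Prop :=
  ∀ p : ℕ, 2 ≤ p → ∃ (N : ℕ) (C : ℝ), 1 ≤ C ∧
    ∀ s θ b κ : ℝ, 0 < s → s ≤ 1 / 4 → 0 < θ → θ ≤ 1 / (8 * p) → 0 < b → b ≤ 1 / 8 →
      |κ| * √s ≤ 1 →
      ∃ net : Net N,
        net.Good s θ (C * (θ * s + |κ| * √(θ * s) + κ ^ 2 * (θ * s) / b + b))
          (C * (κ ^ 2 * √(θ * s) / b)) (1 / (2 * p)) ∧
        ∀ (d : ℕ) (V : Eu d → ℝ) (G : Eu d → Eu d) (H : Eu d → Eu d →L[ℝ] Eu d), Pot V G H →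
          1 ≤ d → ∀ y : Eu d, ∃ X Z R,
            net.Cert G (Fp V G) s θ κ (C * ((√θ) ^ p / b + b ^ (p - 1)) * √d) C y X Z R

/-- Coefficients of the network of the plain down step. -/
structure DNet (p : ℕ) where
  t : Fin p → ℝ
  lev : Fin p → ℝ
  w : Fin p → Fin p → ℝ
  wo : Fin p → ℝ

structure DNet.Good {p : ℕ} (net : DNet p) (s θ W : ℝ) : Prop where
  t_nonneg : ∀ i, 0 ≤ net.t i
  t_le : ∀ i, net.t i ≤ √(θ * s)
  lev_lo : ∀ i, (1 - 2 * θ) * s ≤ net.lev i
  lev_hi : ∀ i, net.lev i ≤ s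
  w_le : ∀ i j, |net.w i j| ≤ W
  wo_le : ∀ j, |net.wo j| ≤ W

/-- DOWN: the interface theorem for the plain down step. `c y a` has the law of `Y_{(1-θ)s}` given
`Y_s = y` when `a` is standard Gaussian. -/
def DownStatement : Prop :=
  ∀ p : ℕ, 2 ≤ p → ∃ C : ℝ, 1 ≤ C ∧
    ∀ s θ : ℝ, 0 < s → s ≤ 1 / 4 → 0 < θ → θ ≤ 1 / (8 * p) →
      ∃ net : DNet p, net.Good s θ (C * (θ * s)) ∧
        ∀ (d : ℕ) (V : Eu d → ℝ) (G : Eu d → Eu d) (H : Eu d → Eu d →L[ℝ] Eu d), Pot V G H →
          1 ≤ d → ∃ c : Eu d → Eu d → Eu d, Continuous (fun z : Eu d × Eu d => c z.1 z.2) ∧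
            (∀ y y' a, ‖c y a - c y' a‖ ≤ (1 - θ * s / 4) * ‖y - y'‖) ∧
            ((gibbs (Wp V s)).prod (gam (Eu d))).map (fun z => c z.1 z.2)
              = gibbs (Wp V ((1 - θ) * s)) ∧
            ∀ y, ∃ (X : Fin p → Eu d → Eu d) (R : Eu d → ℝ),
              (∀ i, Measurable (X i)) ∧ Measurable R ∧ (∀ a, 0 ≤ R a) ∧
              (∀ i a, ‖X i a - (y + net.t i • a
                + ∑ j, net.w i j • Fp V G (net.lev j) (X j a))‖ ≤ R a) ∧
              (∀ a, ‖c y a - (y + √(θ * s) • a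
                + ∑ j, net.wo j • Fp V G (net.lev j) (X j a))‖ ≤ R a) ∧
              Integrable R (gam (Eu d)) ∧ ∫ a, R a ∂(gam (Eu d)) ≤ C * (√θ) ^ p * √d ∧
              (∀ i, Integrable (fun a => ‖X i a‖) (gam (Eu d))) ∧
              (∀ i, ∫ a, ‖X i a‖ ∂(gam (Eu d)) ≤ 2 * (‖y‖ + √d))

end Vale.Agent.P347.Z
end

section

/-! Definitions for the analytic half of the proof of `γ_* = 0` (P347).

Unit scale: `w (l, y)` is the (normalised) potential of the law at noise level `l`, it solves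
`∂_l w = (1/2) Δ w - (1/2) |∇ w|²` and `0 ≤ D² w ≤ κ`. -/

open MeasureTheory Filter Module Set
open scoped ENNReal NNReal

namespace Vale.Agent.P347.Z

/-! ### The class `CG` of smooth functions of (time, space) with polynomial growth in space -/

section CG

variable {W : Type} [NormedAddCommGroup W] [NormedSpace ℝ W]

/-- Polynomial growth in space, locally uniform in time `t ∈ J`. -/
def PGu (J : Set ℝ) (f : ℝ × W → ℝ) : Prop :=
  ∀ K ⊆ J, IsCompact K → ∃ (C : ℝ) (k : ℕ), ∀ t ∈ K, ∀ x, |f (t, x)| ≤ C * (1 + ‖x‖) ^ k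

/-- `n` times differentiable with all derivatives of polynomial growth. -/
def CGn (J : Set ℝ) : ℕ → (ℝ × W → ℝ) → Prop
  | 0, f => ContinuousOn f (J ×ˢ univ) ∧ PGu J f
  | n + 1, f => (ContinuousOn f (J ×ˢ univ) ∧ PGu J f) ∧ DifferentiableOn ℝ f (J ×ˢ univ) ∧
      ∀ v : ℝ × W, CGn J n (fun p => fderiv ℝ f p v)

/-- Smooth with all derivatives of polynomial growth. -/
def CG (J : Set ℝ) (f : ℝ × W → ℝ) : Prop := ∀ n, CGn J n f

end CG

variable {d : ℕ}

/-- Basis vector. -/
noncomputable abbrev ek (k : Fin d) : Eu d := EuclideanSpace.single k (1 : ℝ)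

/-- Space derivative of a function of `(l, y)`. -/
noncomputable def dy (k : Fin d) (f : ℝ × Eu d → ℝ) : ℝ × Eu d → ℝ :=
  fun p => fderiv ℝ f p (0, ek k)

/-- Level derivative of a function of `(l, y)`. -/
noncomputable def dlev (f : ℝ × Eu d → ℝ) : ℝ × Eu d → ℝ := fun p => fderiv ℝ f p (1, 0)

/-- The potential family at unit scale. -/
structure Heat (κ : ℝ) (w : ℝ × Eu d → ℝ) : Prop where
  cg : CG (Ioi 0) w
  pde : ∀ p : ℝ × Eu d, 0 < p.1 →
    dlev w p = (1 / 2) * ∑ k, dy k (dy k w) p - (1 / 2) * ∑ k, (dy k w p) ^ 2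
  lo : ∀ p : ℝ × Eu d, 0 < p.1 → ∀ x : Fin d → ℝ,
    0 ≤ ∑ i, ∑ j, x i * x j * dy i (dy j w) p
  hi : ∀ p : ℝ × Eu d, 0 < p.1 → ∀ x : Fin d → ℝ,
    ∑ i, ∑ j, x i * x j * dy i (dy j w) p ≤ κ * ∑ i, (x i) ^ 2
  gr : ∀ p : ℝ × Eu d, 0 < p.1 → p.1 ≤ 1 →
    ∑ k, (dy k w p) ^ 2 ≤ κ ^ 2 * (‖p.2‖ + √d) ^ 2

/-- The gradient of `w` as a vector. -/
noncomputable def Fv (w : ℝ × Eu d → ℝ) (p : ℝ × Eu d) : Eu d := WithLp.toLp 2 fun k => dy k w p

/-- Potential of the conditional law `ν_τ` of `a_τ`. -/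
noncomputable def nuU (w : ℝ × Eu d → ℝ) (l0 : ℝ) (Y : Eu d) (τ : ℝ) (a : Eu d) : ℝ :=
  ‖a‖ ^ 2 / 2 + w (l0 - τ ^ 2, Y + τ • a)

/-- The conditional law `ν_τ`. -/
noncomputable def nu (w : ℝ × Eu d → ℝ) (l0 : ℝ) (Y : Eu d) (τ : ℝ) : Measure (Eu d) :=
  gibbs (nuU w l0 Y τ)

/-! ### Multipliers: matrix valued functions of `(l, y)` -/

/-- Matrix valued functions of `(l, y)`: rows (output) `K`, columns (input) `I`. -/
abbrev MF (d : ℕ) (K I : Type) := K → I → ℝ × Eu d → ℝ

section MF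

variable {K I : Type} [Fintype K] [Fintype I]

/-- Operator norm at most `c` for all levels in `S`. -/
def opB (S : Set ℝ) (c : ℝ) (B : MF d K I) : Prop :=
  ∀ l ∈ S, ∀ y, ∀ x : I → ℝ, ∑ k, (∑ i, B k i (l, y) * x i) ^ 2 ≤ c ^ 2 * ∑ i, (x i) ^ 2

omit [Fintype K] [Fintype I] in
/-- Derivative, the new slot is added to the output. -/
noncomputable def Dout (B : MF d K I) : MF d (Fin d × K) I := fun m i => dy m.1 (B m.2 i)

omit [Fintype K] [Fintype I] in
/-- Derivative, the new slot is added to the input. -/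
noncomputable def Din (B : MF d K I) : MF d K (Fin d × I) := fun k m => dy m.1 (B k m.2)

/-- The operator `P = -∂_l + (1/2) Δ - F · ∇`. -/
noncomputable def Pf (w f : ℝ × Eu d → ℝ) : ℝ × Eu d → ℝ :=
  fun p => -dlev f p + (1 / 2) * ∑ k, dy k (dy k f) p - ∑ k, dy k w p * dy k f p

/-- `P` applied to the entries. -/
noncomputable def PM (w : ℝ × Eu d → ℝ) (B : MF d K I) : MF d K I := fun k i => Pf w (B k i)

end MF

/-- All words of length at most `n` in `Dout`, `Din`, `P` applied to `B` have operator norm at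
most `c` for levels in `S`. -/
def MBn (w : ℝ × Eu d → ℝ) (S : Set ℝ) :
    ℕ → ℝ → ∀ {K I : Type} [Fintype K] [Fintype I], MF d K I → Prop
  | 0, c, _, _, _, _, B => opB S c B
  | n + 1, c, _, _, _, _, B => opB S c B ∧ MBn w S n c (Dout B) ∧ MBn w S n c (Din B) ∧
      MBn w S n c (PM w B)

/-- The standard range of levels. -/
def Lev : Set ℝ := Icc (1 / 2) 1

/-- Good multipliers with constants `C`. -/
def MB (w : ℝ × Eu d → ℝ) (C : ℕ → ℝ) {K I : Type} [Fintype K] [Fintype I] (B : MF d K I) :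
    Prop :=
  (∀ k i, CG (Ioi 0) (B k i)) ∧ ∀ n, MBn w Lev n (C n) B

/-- The Hessian of `w`. -/
noncomputable def F1 (w : ℝ × Eu d → ℝ) : MF d (Fin d) (Fin d) := fun i j => dy i (dy j w)

/-- The normalised Hessian. -/
noncomputable def B0 (κ : ℝ) (w : ℝ × Eu d → ℝ) : MF d (Fin d) (Fin d) :=
  fun i j p => κ⁻¹ * F1 w i j p

/-- Product of multipliers. -/
def mulM {K I L : Type} [Fintype L] (B : MF d K L) (B' : MF d L I) : MF d K I :=
  fun k i p => ∑ j, B k j p * B' j i p

/-- Sum of multipliers. -/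
def addM {K I : Type} (B B' : MF d K I) : MF d K I := fun k i p => B k i p + B' k i p

/-- Scalar multiple of a multiplier. -/
def smM {K I : Type} (c : ℝ) (B : MF d K I) : MF d K I := fun k i p => c * B k i p

/-- Reindexing of rows and columns. -/
def rei {K I K' I' : Type} (e : K' → K) (f : I' → I) (B : MF d K I) : MF d K' I' :=
  fun k i => B (e k) (f i)

/-- Ampliation `B ⊗ id`. -/
def amp {K I : Type} (B : MF d K I) (A : Type) [DecidableEq A] : MF d (K × A) (I × A) :=
  fun k i p => if k.2 = i.2 then B k.1 i.1 p else 0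

/-! ### Functions of `(τ, (a, g))` -/

/-- The data of a conditional problem. -/
structure Dat (d : ℕ) where
  w : ℝ × Eu d → ℝ
  κ : ℝ
  l0 : ℝ
  lam : ℝ
  Y : Eu d

/-- Admissible data. -/
structure Dat.Ok (D : Dat d) : Prop where
  heat : Heat D.κ D.w
  κ0 : 0 < D.κ
  κ1 : D.κ ≤ 1
  l0a : 3 / 4 ≤ D.l0
  l0b : D.l0 ≤ 1
  hlam : |D.lam| * D.κ ≤ 2

/-- The time interval on which everything is smooth. -/
def JT : Set ℝ := Ioo (-(3 / 4)) (3 / 4)

/-- The time interval of the estimates. -/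
def IT : Set ℝ := Icc 0 (1 / 2)

/-- Points `(τ, (a, g))`. -/
abbrev ZS (d : ℕ) := ℝ × (Eu d × Eu d)

/-- Tensor fields. -/
abbrev TF (d : ℕ) (I : Type) := I → ZS d → ℝ

/-- Slots: `(false, k)` is the direction `a_k`, `(true, k)` the direction `g_k`. -/
abbrev Sl (d : ℕ) := Bool × Fin d

/-- Derivative in the direction of a slot. -/
noncomputable def dz (m : Sl d) (u : ZS d → ℝ) : ZS d → ℝ :=
  fun p => fderiv ℝ u p (0, if m.1 then (0, ek m.2) else (ek m.2, 0))

/-- Time derivative. -/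
noncomputable def dtau (u : ZS d → ℝ) : ZS d → ℝ := fun p => fderiv ℝ u p (1, 0)

namespace Dat

variable (D : Dat d)

/-- A function of `(l, y)` evaluated at `(l0 - τ², Y + τ a)`. -/
def up (f : ℝ × Eu d → ℝ) : ZS d → ℝ := fun p => f (D.l0 - p.1 ^ 2, D.Y + p.1 • p.2.1)

/-- Derivative of the potential `|a|²/2 + |g|²/2 + w(l0 - τ², Y + τ a)`. -/
noncomputable def bb (m : Sl d) : ZS d → ℝ :=
  fun p => if m.1 then p.2.2 m.2 else p.2.1 m.2 + p.1 * D.up (dy m.2 D.w) p

/-- Adjoint of `dz m`. -/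
noncomputable def ds (m : Sl d) (u : ZS d → ℝ) : ZS d → ℝ := fun p => -dz m u p + D.bb m p * u p

/-- The law `ν_τ ⊗ γ`. -/
noncomputable def mu (τ : ℝ) : Measure (Eu d × Eu d) := (nu D.w D.l0 D.Y τ).prod (gam (Eu d))

/-- Divergence (adjoint of the gradient) over the first slot. -/
noncomputable def divT {I : Type} (u : TF d (Sl d × I)) : TF d I :=
  fun i p => ∑ m, D.ds m (u (m, i)) p

/-- Multiplication by a multiplier. -/
def TB {K I : Type} [Fintype I] (B : MF d K I) (u : TF d I) : TF d K :=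
  fun k p => ∑ i, D.up (B k i) p * u i p

/-- Material derivative of the plain flow `a' = -F`. -/
noncomputable def Dt (u : ZS d → ℝ) : ZS d → ℝ :=
  fun p => dtau u p - ∑ k, D.up (dy k D.w) p * dz (false, k) u p

/-- Material derivative of tensor fields. -/
noncomputable def DtT {I : Type} (u : TF d I) : TF d I := fun i => D.Dt (u i)

/-- The field of the `lam`-flow: `a' = -F + lam F1 g`, `g' = -lam ∇* F1`. -/
noncomputable def Xf (m : Sl d) : ZS d → ℝ :=
  fun p => if m.1 then -D.lam * ∑ j, D.ds (false, j) (D.up (F1 D.w j m.2)) p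
    else -D.up (dy m.2 D.w) p + D.lam * ∑ j, D.up (F1 D.w m.2 j) p * p.2.2 j

/-- Material derivative of the `lam`-flow. -/
noncomputable def Dtot (u : ZS d → ℝ) : ZS d → ℝ := fun p => dtau u p + ∑ m, D.Xf m p * dz m u p

end Dat

/-- Gradient: the new slot is the first one. -/
noncomputable def gradT {I : Type} (u : TF d I) : TF d (Sl d × I) := fun m => dz m.1 (u m.2)

/-- Multiplication by time. -/
def mulT {I : Type} (u : TF d I) : TF d I := fun i p => p.1 * u i p

/-- `L²(μ_τ)` bound. -/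
def L2B (D : Dat d) (τ c : ℝ) {I : Type} [Fintype I] (u : TF d I) : Prop :=
  ∫ z, ∑ i, (u i (τ, z)) ^ 2 ∂(D.mu τ) ≤ c ^ 2

/-- Sobolev bound of order `n` at time `τ`. -/
def HB (D : Dat d) (τ : ℝ) : ℕ → ℝ → ∀ {I : Type} [Fintype I], TF d I → Prop
  | 0, c, _, _, u => L2B D τ c u
  | n + 1, c, _, _, u => L2B D τ c u ∧ HB D τ n c (gradT u)

/-- `m` material derivatives are bounded by `C m n` in the Sobolev norm of order `n`. -/
def Bd (D : Dat d) (C : ℕ → ℕ → ℝ) {I : Type} [Fintype I] (u : TF d I) : Prop :=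
  (∀ i, CG JT (u i)) ∧ ∀ m n, ∀ τ ∈ IT, HB D τ n (C m n) ((D.DtT)^[m] u)

/-- Component of `F` in the direction `e`. -/
noncomputable def fF (D : Dat d) (e : Eu d) : ZS d → ℝ := fun p => ∑ k, e k * D.up (dy k D.w) p

/-- Component of `B0 g` in the direction `e`. -/
noncomputable def fB (D : Dat d) (e : Eu d) : ZS d → ℝ :=
  fun p => ∑ k, ∑ j, e k * D.up (B0 D.κ D.w k j) p * p.2.2 j

/-- Component of `B0² g` in the direction `e`. -/
noncomputable def fBB (D : Dat d) (e : Eu d) : ZS d → ℝ :=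
  fun p => ∑ k, ∑ i, ∑ j, e k * D.up (B0 D.κ D.w k i) p * D.up (B0 D.κ D.w i j) p * p.2.2 j

end Vale.Agent.P347.Z
end

section

/-! P347-Z-A1. Closure properties of the class `CG`.

All by induction on `n` in `CGn` (generalising the function): e.g. product: `fderiv (f g) v = f fderiv g v
+ g fderiv f v` on `J × univ`, and the statement for `n` applied to the four functions (use `CGn` is
decreasing in `n`); congruence because `J × univ` is open (`fderiv` only depends on the germ);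
composition with `(τ, a) ↦ (l0 - τ², Y + τ π a)`: the derivative in direction `(s, h)` is
`(-2 τ s) (∂_l f)∘ + ... = fderiv f (·) (-2 τ s, s • π a + τ • π h)
 = -2 s τ (fderiv f (1,0))∘ + ∑_k (s (π a)_k + τ (π h)_k) (fderiv f (0,e_k))∘` and this is again of
the form sum of (polynomial) * (CG function)∘. -/

open MeasureTheory Filter Module Set
open scoped ENNReal NNReal

set_option linter.unusedSectionVars false
set_option linter.unusedVariables false

namespace Vale.Agent.P347.Z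

section
variable {W W' : Type} [NormedAddCommGroup W] [NormedSpace ℝ W] [NormedAddCommGroup W']
  [NormedSpace ℝ W'] {J J' : Set ℝ} {f g : ℝ × W → ℝ}

theorem CGn.mono_n {n : ℕ} (h : CGn J (n + 1) f) : CGn J n f := by
  induction n generalizing f with
  | zero => exact h.1
  | succ n ih => exact ⟨h.1, h.2.1, fun v => ih (h.2.2 v)⟩

theorem cgl_pgu_congr (h : PGu J f) (hfg : ∀ p ∈ J ×ˢ univ, g p = f p) : PGu J g := by
  intro K hK hKc
  obtain ⟨C, k, hC⟩ := h K hK hKc
  refine ⟨C, k, fun t ht x => ?_⟩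
  rw [hfg (t, x) ⟨hK ht, trivial⟩]
  exact hC t ht x

theorem cgl_pgu_add (hf : PGu J f) (hg : PGu J g) : PGu J (fun p => f p + g p) := by
  intro K hK hKc
  obtain ⟨C, k, hC⟩ := hf K hK hKc
  obtain ⟨C', k', hC'⟩ := hg K hK hKc
  refine ⟨|C| + |C'|, k + k', fun t ht x => ?_⟩
  have h1 : 1 ≤ 1 + ‖x‖ := by linarith only [norm_nonneg x]
  have h2 : (1 + ‖x‖) ^ k ≤ (1 + ‖x‖) ^ (k + k') := pow_le_pow_right₀ h1 (by omega)
  have h3 : (1 + ‖x‖) ^ k' ≤ (1 + ‖x‖) ^ (k + k') := pow_le_pow_right₀ h1 (by omega)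
  have h4 : C * (1 + ‖x‖) ^ k ≤ |C| * (1 + ‖x‖) ^ (k + k') :=
    (mul_le_mul_of_nonneg_right (le_abs_self C) (by (clear * -; positivity))).trans
      (mul_le_mul_of_nonneg_left h2 (abs_nonneg C))
  have h5 : C' * (1 + ‖x‖) ^ k' ≤ |C'| * (1 + ‖x‖) ^ (k + k') :=
    (mul_le_mul_of_nonneg_right (le_abs_self C') (by positivity)).trans
      (mul_le_mul_of_nonneg_left h3 (abs_nonneg C'))
  have h6 := abs_add_le (f (t, x)) (g (t, x))
  have h7 := hC t ht x
  have h8 := hC' t ht x
  rw [add_mul]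
  linarith

theorem cgl_pgu_mul (hf : PGu J f) (hg : PGu J g) : PGu J (fun p => f p * g p) := by
  intro K hK hKc
  obtain ⟨C, k, hC⟩ := hf K hK hKc
  obtain ⟨C', k', hC'⟩ := hg K hK hKc
  refine ⟨C * C', k + k', fun t ht x => ?_⟩
  have h7 := hC t ht x
  have h8 := hC' t ht x
  have h9 := mul_le_mul h7 h8 (abs_nonneg _) ((abs_nonneg _).trans h7)
  rw [← abs_mul] at h9
  refine h9.trans (le_of_eq ?_)
  rw [pow_add]
  ring

theorem cgl_fderiv_congr (hJ : IsOpen J) (hfg : ∀ p ∈ J ×ˢ univ, g p = f p) {p : ℝ × W}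
    (hp : p ∈ J ×ˢ (univ : Set W)) : fderiv ℝ g p = fderiv ℝ f p := by
  apply Filter.EventuallyEq.fderiv_eq
  filter_upwards [(hJ.prod isOpen_univ).mem_nhds hp] with q hq using hfg q hq

theorem cgl_congr {n : ℕ} (hJ : IsOpen J) (h : CGn J n f) (hfg : ∀ p ∈ J ×ˢ univ, g p = f p) :
    CGn J n g := by
  induction n generalizing f g with
  | zero => exact ⟨h.1.congr hfg, cgl_pgu_congr h.2 hfg⟩
  | succ n ih =>
    refine ⟨⟨h.1.1.congr hfg, cgl_pgu_congr h.1.2 hfg⟩, h.2.1.congr hfg, fun v => ?_⟩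
    refine ih (h.2.2 v) (fun p hp => ?_)
    show fderiv ℝ g p v = fderiv ℝ f p v
    rw [cgl_fderiv_congr hJ hfg hp]

theorem cgl_const (n : ℕ) (c : ℝ) : CGn J n (fun _ : ℝ × W => c) := by
  have h0 : ∀ c : ℝ, ContinuousOn (fun _ : ℝ × W => c) (J ×ˢ univ) ∧ PGu J (fun _ : ℝ × W => c) :=
    fun c => ⟨continuousOn_const, fun K _ _ => ⟨|c|, 0, fun _ _ _ => by simp⟩⟩
  induction n generalizing c with
  | zero => exact h0 c
  | succ n ih =>
    refine ⟨h0 c, differentiableOn_const c, fun v => ?_⟩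
    simpa only [fderiv_fun_const, Pi.zero_apply, zero_apply] using ih 0

theorem cgl_add {n : ℕ} (hJ : IsOpen J) (hf : CGn J n f) (hg : CGn J n g) :
    CGn J n (fun p => f p + g p) := by
  induction n generalizing f g with
  | zero => exact ⟨hf.1.add hg.1, cgl_pgu_add hf.2 hg.2⟩
  | succ n ih =>
    refine ⟨⟨hf.1.1.add hg.1.1, cgl_pgu_add hf.1.2 hg.1.2⟩, hf.2.1.add hg.2.1, fun v => ?_⟩
    refine cgl_congr hJ (ih (hf.2.2 v) (hg.2.2 v)) fun p hp => ?_
    have h1 := (hf.2.1 p hp).differentiableAt ((hJ.prod isOpen_univ).mem_nhds hp)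
    have h2 := (hg.2.1 p hp).differentiableAt ((hJ.prod isOpen_univ).mem_nhds hp)
    show fderiv ℝ (fun p => f p + g p) p v = fderiv ℝ f p v + fderiv ℝ g p v
    rw [fderiv_fun_add h1 h2]
    rfl

theorem cgl_mul {n : ℕ} (hJ : IsOpen J) (hf : CGn J n f) (hg : CGn J n g) :
    CGn J n (fun p => f p * g p) := by
  induction n generalizing f g with
  | zero => exact ⟨hf.1.mul hg.1, cgl_pgu_mul hf.2 hg.2⟩
  | succ n ih =>
    refine ⟨⟨hf.1.1.mul hg.1.1, cgl_pgu_mul hf.1.2 hg.1.2⟩, hf.2.1.mul hg.2.1, fun v => ?_⟩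
    refine cgl_congr hJ (cgl_add hJ (ih hf.mono_n (hg.2.2 v)) (ih hg.mono_n (hf.2.2 v)))
      fun p hp => ?_
    have h1 := (hf.2.1 p hp).differentiableAt ((hJ.prod isOpen_univ).mem_nhds hp)
    have h2 := (hg.2.1 p hp).differentiableAt ((hJ.prod isOpen_univ).mem_nhds hp)
    show fderiv ℝ (fun p => f p * g p) p v = f p * fderiv ℝ g p v + g p * fderiv ℝ f p v
    rw [fderiv_fun_mul h1 h2]
    rfl

theorem cgl_sum {n : ℕ} (hJ : IsOpen J) {ι : Type} (s : Finset ι) {F : ι → ℝ × W → ℝ}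
    (hF : ∀ i ∈ s, CGn J n (F i)) : CGn J n (fun p => ∑ i ∈ s, F i p) := by
  classical
  induction s using Finset.induction_on with
  | empty => simpa using cgl_const (J := J) (W := W) n 0
  | insert a s ha ih =>
    simp only [Finset.sum_insert ha]
    exact cgl_add hJ (hF a (Finset.mem_insert_self a s))
      (ih fun i hi => hF i (Finset.mem_insert_of_mem hi))

theorem CG.cont (h : CG J f) : ContinuousOn f (J ×ˢ univ) := (h 0).1

theorem CG.pg (h : CG J f) : PGu J f := (h 0).2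

theorem CG.diff (h : CG J f) : DifferentiableOn ℝ f (J ×ˢ univ) := (h 1).2.1

theorem CG.fd (h : CG J f) (v : ℝ × W) : CG J (fun p => fderiv ℝ f p v) :=
  fun n => (h (n + 1)).2.2 v

theorem CG.congr (hJ : IsOpen J) (h : CG J f) (hfg : ∀ p ∈ J ×ˢ univ, g p = f p) : CG J g :=
  fun n => cgl_congr hJ (h n) hfg

theorem CG.const (hJ : IsOpen J) (c : ℝ) : CG J (fun _ : ℝ × W => c) := fun n => cgl_const n c

theorem CG.add (hJ : IsOpen J) (hf : CG J f) (hg : CG J g) : CG J (fun p => f p + g p) :=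
  fun n => cgl_add hJ (hf n) (hg n)

theorem CG.neg (hJ : IsOpen J) (hf : CG J f) : CG J (fun p => -f p) := by
  refine fun n => cgl_congr hJ (cgl_mul hJ (cgl_const n (-1)) (hf n)) fun p _ => ?_
  ring

theorem CG.sub (hJ : IsOpen J) (hf : CG J f) (hg : CG J g) : CG J (fun p => f p - g p) := by
  refine (CG.add hJ hf (CG.neg hJ hg)).congr hJ fun p _ => ?_
  ring

theorem CG.mul (hJ : IsOpen J) (hf : CG J f) (hg : CG J g) : CG J (fun p => f p * g p) :=
  fun n => cgl_mul hJ (hf n) (hg n)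

theorem CG.sum (hJ : IsOpen J) {ι : Type} (s : Finset ι) {F : ι → ℝ × W → ℝ}
    (hF : ∀ i ∈ s, CG J (F i)) : CG J (fun p => ∑ i ∈ s, F i p) :=
  fun n => cgl_sum hJ s fun i hi => hF i hi n

/-- Continuous linear functionals (coordinates) are in the class. -/
theorem CG.lin (hJ : IsOpen J) (L : ℝ × W →L[ℝ] ℝ) : CG J (fun p => L p) := by
  have hpg : PGu J (fun p : ℝ × W => L p) := by
    intro K hK hKc
    obtain ⟨T, hT⟩ := hKc.isBounded.exists_norm_le
    refine ⟨‖L‖ * (|T| + 1), 1, fun t ht x => ?_⟩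
    have h1 := L.le_opNorm (t, x)
    have h2 : ‖((t, x) : ℝ × W)‖ ≤ (|T| + 1) * (1 + ‖x‖) := by
      rw [Prod.norm_def]
      have h3 := (hT t ht).trans (le_abs_self T)
      have h4 := norm_nonneg x
      have h5 := abs_nonneg T
      have h6 : 0 ≤ |T| * ‖x‖ := mul_nonneg h5 h4
      apply max_le
      · show ‖t‖ ≤ _
        linarith
      · show ‖x‖ ≤ _
        linarith
    rw [pow_one, mul_assoc]
    exact h1.trans (mul_le_mul_of_nonneg_left h2 (norm_nonneg L))
  intro n
  cases n with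
  | zero => exact ⟨L.continuous.continuousOn, hpg⟩
  | succ n =>
    refine ⟨⟨L.continuous.continuousOn, hpg⟩, L.differentiable.differentiableOn, fun v => ?_⟩
    have h1 : (fun p : ℝ × W => fderiv ℝ (fun p => L p) p v) = fun _ => L v := by
      funext p
      have h2 : fderiv ℝ (fun p => L p) p = L := L.fderiv
      rw [h2]
    rw [h1]
    exact cgl_const n (L v)

theorem CG.inv (hJ : IsOpen J) (h0 : (0 : ℝ) ∉ J) : CG J (fun p : ℝ × W => (p.1)⁻¹) := by
  have hne : ∀ p ∈ J ×ˢ (univ : Set W), p.1 ≠ 0 := fun p hp h => h0 (h ▸ hp.1)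
  have hc : ContinuousOn (fun p : ℝ × W => (p.1)⁻¹) (J ×ˢ univ) := continuousOn_fst.inv₀ hne
  have hpg : PGu J (fun p : ℝ × W => (p.1)⁻¹) := by
    intro K hK hKc
    have hcK : ContinuousOn (fun t : ℝ => t⁻¹) K :=
      continuousOn_id.inv₀ (fun t ht h => h0 (by rw [← show t = 0 from h]; exact hK ht))
    obtain ⟨C, hC⟩ := hKc.exists_bound_of_continuousOn hcK
    refine ⟨C, 0, fun t ht x => ?_⟩
    rw [pow_zero, mul_one]
    exact hC t ht
  have hd : ∀ p ∈ J ×ˢ (univ : Set W), HasFDerivAt (fun p : ℝ × W => (p.1)⁻¹)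
      ((-(p.1 ^ 2)⁻¹) • (ContinuousLinearMap.fst ℝ ℝ W)) p := fun p hp =>
    (hasDerivAt_inv (hne p hp)).comp_hasFDerivAt p hasFDerivAt_fst
  intro n
  induction n with
  | zero => exact ⟨hc, hpg⟩
  | succ n ih =>
    refine ⟨⟨hc, hpg⟩, fun p hp => (hd p hp).differentiableAt.differentiableWithinAt,
      fun v => ?_⟩
    refine cgl_congr hJ (cgl_mul hJ (cgl_const n (-v.1)) (cgl_mul hJ ih ih)) fun p hp => ?_
    show fderiv ℝ (fun p : ℝ × W => (p.1)⁻¹) p v = -v.1 * ((p.1)⁻¹ * (p.1)⁻¹)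
    rw [(hd p hp).fderiv]
    show -(p.1 ^ 2)⁻¹ * v.1 = _
    rw [pow_two, mul_inv]
    ring

theorem CG.log (hJ : IsOpen J) (h0 : J ⊆ Ioi 0) : CG J (fun p : ℝ × W => Real.log p.1) := by
  have h0' : (0 : ℝ) ∉ J := fun h => lt_irrefl (0 : ℝ) (h0 h)
  have hne : ∀ p ∈ J ×ˢ (univ : Set W), p.1 ≠ 0 := fun p hp h => h0' (h ▸ hp.1)
  have hc : ContinuousOn (fun p : ℝ × W => Real.log p.1) (J ×ˢ univ) := continuousOn_fst.log hne
  have hpg : PGu J (fun p : ℝ × W => Real.log p.1) := by
    intro K hK hKc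
    have hcK : ContinuousOn (fun t : ℝ => Real.log t) K :=
      continuousOn_id.log (fun t ht h => h0' (by rw [← show t = 0 from h]; exact hK ht))
    obtain ⟨C, hC⟩ := hKc.exists_bound_of_continuousOn hcK
    refine ⟨C, 0, fun t ht x => ?_⟩
    rw [pow_zero, mul_one]
    exact hC t ht
  have hd : ∀ p ∈ J ×ˢ (univ : Set W), HasFDerivAt (fun p : ℝ × W => Real.log p.1)
      ((p.1)⁻¹ • (ContinuousLinearMap.fst ℝ ℝ W)) p := fun p hp =>
    (Real.hasDerivAt_log (hne p hp)).comp_hasFDerivAt p hasFDerivAt_fst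
  intro n
  cases n with
  | zero => exact ⟨hc, hpg⟩
  | succ n =>
    refine ⟨⟨hc, hpg⟩, fun p hp => (hd p hp).differentiableAt.differentiableWithinAt,
      fun v => ?_⟩
    refine cgl_congr hJ (cgl_mul hJ (cgl_const n v.1) (CG.inv hJ h0' n)) fun p hp => ?_
    show fderiv ℝ (fun p : ℝ × W => Real.log p.1) p v = v.1 * (p.1)⁻¹
    rw [(hd p hp).fderiv]
    show (p.1)⁻¹ * v.1 = _
    ring

theorem cgl_pgu_comp {φ : ℝ → ℝ} {Φ : ℝ × W' → W} (hf : PGu J f) (hφ : Continuous φ)
    (hJ : ∀ t ∈ J', φ t ∈ J)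
    (hΦ : ∀ K : Set ℝ, IsCompact K → ∃ A : ℝ, ∀ t ∈ K, ∀ x : W', 1 + ‖Φ (t, x)‖ ≤ A * (1 + ‖x‖)) :
    PGu J' (fun p : ℝ × W' => f (φ p.1, Φ p)) := by
  intro K hK hKc
  obtain ⟨A, hA⟩ := hΦ K hKc
  obtain ⟨C, k, hC⟩ := hf (φ '' K) (by rintro _ ⟨t, ht, rfl⟩; exact hJ t (hK ht))
    (hKc.image hφ)
  refine ⟨|C| * A ^ k, k, fun t ht x => ?_⟩
  have h1 := hC (φ t) ⟨t, ht, rfl⟩ (Φ (t, x))
  have h2 := hA t ht x
  have h3 : 0 ≤ 1 + ‖Φ (t, x)‖ := by (clear * -; positivity)
  have h4 : (1 + ‖Φ (t, x)‖) ^ k ≤ (A * (1 + ‖x‖)) ^ k := pow_le_pow_left₀ h3 h2 k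
  show |f (φ t, Φ (t, x))| ≤ _
  calc |f (φ t, Φ (t, x))| ≤ C * (1 + ‖Φ (t, x)‖) ^ k := h1
    _ ≤ |C| * (1 + ‖Φ (t, x)‖) ^ k := mul_le_mul_of_nonneg_right (le_abs_self C) (by positivity)
    _ ≤ |C| * (A * (1 + ‖x‖)) ^ k := mul_le_mul_of_nonneg_left h4 (abs_nonneg C)
    _ = |C| * A ^ k * (1 + ‖x‖) ^ k := by rw [mul_pow]; ring

theorem cgl_hasFDerivAt_up (π : W' →L[ℝ] W) (l0 : ℝ) (Y : W) (p : ℝ × W') :
    HasFDerivAt (fun p : ℝ × W' => (l0 - p.1 ^ 2, Y + p.1 • π p.2))
      (((-(2 * p.1)) • ContinuousLinearMap.fst ℝ ℝ W').prod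
        (p.1 • (π.comp (ContinuousLinearMap.snd ℝ ℝ W')) +
          (ContinuousLinearMap.fst ℝ ℝ W').smulRight (π p.2))) p := by
  apply HasFDerivAt.prodMk
  · have h1 : HasDerivAt (fun t : ℝ => l0 - t ^ 2) (-(2 * p.1)) p.1 := by
      have h2 := (hasDerivAt_pow 2 p.1).const_sub l0
      simpa only [Nat.cast_ofNat, Nat.add_one_sub_one, pow_one] using h2
    exact h1.comp_hasFDerivAt p hasFDerivAt_fst
  · have h1 : HasFDerivAt (fun p : ℝ × W' => p.1 • π p.2)
        (p.1 • (π.comp (ContinuousLinearMap.snd ℝ ℝ W')) +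
          (ContinuousLinearMap.fst ℝ ℝ W').smulRight (π p.2)) p :=
      HasFDerivAt.smul hasFDerivAt_fst (π.hasFDerivAt.comp p hasFDerivAt_snd)
    exact h1.const_add Y

theorem cgl_fderiv_up (hJ : IsOpen J) (hd : DifferentiableOn ℝ f (J ×ˢ univ))
    (π : W' →L[ℝ] W) (l0 : ℝ) (Y : W) {p : ℝ × W'} (hp : l0 - p.1 ^ 2 ∈ J) (v : ℝ × W') :
    fderiv ℝ (fun p : ℝ × W' => f (l0 - p.1 ^ 2, Y + p.1 • π p.2)) p v =
      fderiv ℝ f (l0 - p.1 ^ 2, Y + p.1 • π p.2)
        (-(2 * p.1) * v.1, p.1 • π v.2 + v.1 • π p.2) := by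
  have h1 : DifferentiableAt ℝ f (l0 - p.1 ^ 2, Y + p.1 • π p.2) :=
    (hd _ ⟨hp, trivial⟩).differentiableAt ((hJ.prod isOpen_univ).mem_nhds ⟨hp, trivial⟩)
  have h2 := h1.hasFDerivAt.comp p (cgl_hasFDerivAt_up π l0 Y p)
  have h3 : HasFDerivAt (fun p : ℝ × W' => f (l0 - p.1 ^ 2, Y + p.1 • π p.2)) _ p := h2
  rw [h3.fderiv]
  rfl

theorem cgl_comp_up [FiniteDimensional ℝ W] {n : ℕ} (hJ' : IsOpen J') (hf : CGn J n f)
    (hJ : IsOpen J) (π : W' →L[ℝ] W) (l0 : ℝ) (Y : W) (hl : ∀ t ∈ J', l0 - t ^ 2 ∈ J) :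
    CGn J' n (fun p : ℝ × W' => f (l0 - p.1 ^ 2, Y + p.1 • π p.2)) := by
  have hmap : MapsTo (fun p : ℝ × W' => (l0 - p.1 ^ 2, Y + p.1 • π p.2)) (J' ×ˢ univ)
      (J ×ˢ (univ : Set W)) := fun p hp => ⟨hl p.1 hp.1, trivial⟩
  have hcont : Continuous (fun p : ℝ × W' => (l0 - p.1 ^ 2, Y + p.1 • π p.2)) := by (clear * -; fun_prop)
  have hdiff : Differentiable ℝ (fun p : ℝ × W' => (l0 - p.1 ^ 2, Y + p.1 • π p.2)) :=
    fun p => (cgl_hasFDerivAt_up π l0 Y p).differentiableAt
  have hbase : ∀ f : ℝ × W → ℝ, ContinuousOn f (J ×ˢ univ) ∧ PGu J f →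
      ContinuousOn (fun p : ℝ × W' => f (l0 - p.1 ^ 2, Y + p.1 • π p.2)) (J' ×ˢ univ) ∧
      PGu J' (fun p : ℝ × W' => f (l0 - p.1 ^ 2, Y + p.1 • π p.2)) := by
    intro f hf
    refine ⟨hf.1.comp hcont.continuousOn hmap, ?_⟩
    refine cgl_pgu_comp (φ := fun t => l0 - t ^ 2) (Φ := fun p : ℝ × W' => Y + p.1 • π p.2) hf.2
      (by fun_prop) hl fun K hKc => ?_
    obtain ⟨T, hT⟩ := hKc.isBounded.exists_norm_le
    refine ⟨1 + ‖Y‖ + |T| * ‖π‖, fun t ht x => ?_⟩
    have h1 : ‖Y + t • π x‖ ≤ ‖Y‖ + |T| * (‖π‖ * ‖x‖) := by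
      refine (norm_add_le _ _).trans (add_le_add le_rfl ?_)
      rw [norm_smul]
      exact mul_le_mul ((hT t ht).trans (le_abs_self T)) (π.le_opNorm x) (norm_nonneg _)
        (abs_nonneg T)
    have h2 : 0 ≤ ‖Y‖ * ‖x‖ := by (clear * -; positivity)
    have h3 : 0 ≤ |T| * ‖π‖ := by (clear * -; positivity)
    have h4 := norm_nonneg x
    show 1 + ‖Y + t • π x‖ ≤ (1 + ‖Y‖ + |T| * ‖π‖) * (1 + ‖x‖)
    linarith
  induction n generalizing f with
  | zero => exact hbase f hf
  | succ n ih =>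
    refine ⟨hbase f hf.1, hf.2.1.comp hdiff.differentiableOn hmap, fun v => ?_⟩
    obtain ⟨b⟩ : Nonempty (Module.Basis (Fin (Module.finrank ℝ W)) ℝ W) :=
      ⟨Module.finBasis ℝ W⟩
    have hfst : CGn J' n (fun p : ℝ × W' => p.1) :=
      CG.lin hJ' (ContinuousLinearMap.fst ℝ ℝ W') n
    have hco : ∀ k, CGn J' n (fun p : ℝ × W' => b.repr (π p.2) k) := fun k =>
      CG.lin hJ' (((LinearMap.toContinuousLinearMap (b.coord k)).comp π).comp
        (ContinuousLinearMap.snd ℝ ℝ W')) n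
    have h1 := cgl_mul hJ' (cgl_mul hJ' (cgl_const n (-(2 * v.1))) hfst) (ih (hf.2.2 (1, 0)))
    have h2 := cgl_mul hJ' hfst (ih (hf.2.2 (0, π v.2)))
    have h3 := cgl_mul hJ' (cgl_const (W := W') n v.1) (cgl_sum hJ' Finset.univ
      fun k (_ : k ∈ Finset.univ) => cgl_mul hJ' (hco k) (ih (hf.2.2 (0, b k))))
    refine cgl_congr hJ' (cgl_add hJ' (cgl_add hJ' h1 h2) h3) fun p hp => ?_
    show fderiv ℝ (fun p : ℝ × W' => f (l0 - p.1 ^ 2, Y + p.1 • π p.2)) p v = _
    rw [cgl_fderiv_up hJ hf.2.1 π l0 Y (hl p.1 hp.1) v]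
    obtain ⟨T, hT⟩ : ∃ T, T = fderiv ℝ f (l0 - p.1 ^ 2, Y + p.1 • π p.2) := ⟨_, rfl⟩
    rw [← hT]
    have e1 : ((-(2 * p.1) * v.1, p.1 • π v.2 + v.1 • π p.2) : ℝ × W) =
        (-(2 * v.1) * p.1) • ((1 : ℝ), (0 : W)) + p.1 • ((0 : ℝ), π v.2) +
          v.1 • ((0 : ℝ), π p.2) := by
      ext
      · simp
        ring
      · simp
    have e2 : T ((0 : ℝ), π p.2) = ∑ k, b.repr (π p.2) k * T (0, b k) := by
      have e3 : ((0 : ℝ), π p.2) = ContinuousLinearMap.inr ℝ ℝ W (π p.2) := rfl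
      have e4 : T ((0 : ℝ), π p.2) =
          (T.comp (ContinuousLinearMap.inr ℝ ℝ W)) (∑ k, b.repr (π p.2) k • b k) := by
        rw [b.sum_repr]
        rfl
      rw [e4, map_sum]
      refine Finset.sum_congr rfl fun k _ => ?_
      rw [map_smul, smul_eq_mul]
      rfl
    rw [e1, map_add, map_add, map_smul, map_smul, map_smul, e2]
    simp only [smul_eq_mul]

/-- Composition with `(τ, a) ↦ (l0 - τ², Y + τ π a)`. -/
theorem CG.comp_up [FiniteDimensional ℝ W] (hJ' : IsOpen J') (hf : CG J f) (hJ : IsOpen J)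
    (π : W' →L[ℝ] W) (l0 : ℝ) (Y : W) (hl : ∀ t ∈ J', l0 - t ^ 2 ∈ J) :
    CG J' (fun p : ℝ × W' => f (l0 - p.1 ^ 2, Y + p.1 • π p.2)) :=
  fun n => cgl_comp_up hJ' (hf n) hJ π l0 Y hl

theorem cgl_pgu_scale (hf : PGu J f) (s c : ℝ) (hl : ∀ t ∈ J', s * t ∈ J) :
    PGu J' (fun p : ℝ × W => f (s * p.1, c • p.2)) := by
  refine cgl_pgu_comp (φ := fun t => s * t) (Φ := fun p : ℝ × W => c • p.2) hf
    (by fun_prop) hl fun K _ => ⟨1 + |c|, fun t _ x => ?_⟩
  show 1 + ‖c • x‖ ≤ (1 + |c|) * (1 + ‖x‖)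
  rw [norm_smul, Real.norm_eq_abs]
  have h1 := norm_nonneg x
  have h2 := abs_nonneg c
  linarith

/-- Composition with `(l, y) ↦ (s l, c y)`. -/
theorem CG.comp_scale [FiniteDimensional ℝ W] (hJ : IsOpen J) (hf : CG J f) (s c : ℝ)
    (hJ' : IsOpen J') (hl : ∀ t ∈ J', s * t ∈ J) :
    CG J' (fun p : ℝ × W => f (s * p.1, c • p.2)) := by
  have hmap : MapsTo (fun p : ℝ × W => (s * p.1, c • p.2)) (J' ×ˢ univ)
      (J ×ˢ (univ : Set W)) := fun p hp => ⟨hl p.1 hp.1, trivial⟩
  have hder : ∀ p : ℝ × W, HasFDerivAt (fun p : ℝ × W => (s * p.1, c • p.2))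
      ((s • ContinuousLinearMap.fst ℝ ℝ W).prod (c • ContinuousLinearMap.snd ℝ ℝ W)) p := by
    intro p
    exact (((s • ContinuousLinearMap.fst ℝ ℝ W).prod
      (c • ContinuousLinearMap.snd ℝ ℝ W))).hasFDerivAt
  have hdiff : Differentiable ℝ (fun p : ℝ × W => (s * p.1, c • p.2)) :=
    fun p => (hder p).differentiableAt
  intro n
  have hfn := hf n
  clear hf
  induction n generalizing f with
  | zero =>
    refine ⟨hfn.1.comp hdiff.continuous.continuousOn hmap, ?_⟩
    exact cgl_pgu_scale hfn.2 s c hl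
  | succ n ih =>
    refine ⟨⟨hfn.1.1.comp hdiff.continuous.continuousOn hmap, cgl_pgu_scale hfn.1.2 s c hl⟩,
      hfn.2.1.comp hdiff.differentiableOn hmap, fun v => ?_⟩
    refine cgl_congr hJ' (ih (hfn.2.2 (s * v.1, c • v.2))) fun p hp => ?_
    have hp' : (s * p.1, c • p.2) ∈ J ×ˢ (univ : Set W) := hmap hp
    have h1 : DifferentiableAt ℝ f (s * p.1, c • p.2) :=
      (hfn.2.1 _ hp').differentiableAt ((hJ.prod isOpen_univ).mem_nhds hp')
    have h2 := h1.hasFDerivAt.comp p (hder p)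
    have h3 : HasFDerivAt (fun p : ℝ × W => f (s * p.1, c • p.2)) _ p := h2
    show fderiv ℝ (fun p : ℝ × W => f (s * p.1, c • p.2)) p v = _
    rw [h3.fderiv]
    rfl

theorem CG.contDiffOn [FiniteDimensional ℝ W] (hJ : IsOpen J) (hf : CG J f) (n : ℕ) :
    ContDiffOn ℝ n f (J ×ˢ univ) := by
  have hfn := hf n
  clear hf
  induction n generalizing f with
  | zero =>
    rw [Nat.cast_zero]
    exact contDiffOn_zero.2 hfn.1
  | succ n ih =>
    rw [Nat.cast_add, Nat.cast_one, contDiffOn_succ_iff_fderiv_of_isOpen (hJ.prod isOpen_univ)]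
    refine ⟨hfn.2.1, fun h => absurd h (by simp), ?_⟩
    rw [contDiffOn_clm_apply]
    exact fun v => ih (hfn.2.2 v)

/-- Mixed derivatives commute. -/
theorem CG.comm [FiniteDimensional ℝ W] (hJ : IsOpen J) (hf : CG J f) (v v' : ℝ × W) {p : ℝ × W}
    (hp : p ∈ J ×ˢ (univ : Set W)) :
    fderiv ℝ (fun q => fderiv ℝ f q v) p v' = fderiv ℝ (fun q => fderiv ℝ f q v') p v := by
  have hn := (hJ.prod isOpen_univ).mem_nhds hp
  have h2 : ContDiffAt ℝ 2 f p := (hf.contDiffOn hJ 2).contDiffAt hn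
  have hsymm : IsSymmSndFDerivAt ℝ f p := h2.isSymmSndFDerivAt (by simp)
  have hd : DifferentiableAt ℝ (fderiv ℝ f) p :=
    (h2.fderiv_right (m := 1) (by norm_num)).differentiableAt (by norm_num)
  have h3 : ∀ v : ℝ × W, fderiv ℝ (fun q => fderiv ℝ f q v) p = (fderiv ℝ (fderiv ℝ f) p).flip v := by
    intro v
    have h4 := hd.hasFDerivAt.clm_apply (hasFDerivAt_const v p)
    rw [h4.fderiv, ContinuousLinearMap.comp_zero, zero_add]
  rw [h3, h3]
  exact hsymm v' v

/-- Growth at a fixed time. -/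
theorem CG.growth (hf : CG J f) {t : ℝ} (ht : t ∈ J) :
    ∃ (C : ℝ) (k : ℕ), ∀ x, |f (t, x)| ≤ C * (1 + ‖x‖) ^ k := by
  obtain ⟨C, k, h⟩ := hf.pg {t} (singleton_subset_iff.2 ht) isCompact_singleton
  exact ⟨C, k, fun x => h t rfl x⟩

end

/-! ### Calculus for `dy`, `dlev`, `dz`, `dtau` -/

variable {d : ℕ}

theorem CG.dy {f : ℝ × Eu d → ℝ} {J : Set ℝ} (hf : CG J f) (k : Fin d) : CG J (dy k f) :=
  hf.fd _

theorem CG.dlev {f : ℝ × Eu d → ℝ} {J : Set ℝ} (hf : CG J f) : CG J (dlev f) := hf.fd _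

theorem CG.dz {u : ZS d → ℝ} {J : Set ℝ} (hu : CG J u) (m : Sl d) : CG J (dz m u) := hu.fd _

theorem CG.dtau {u : ZS d → ℝ} {J : Set ℝ} (hu : CG J u) : CG J (dtau u) := hu.fd _

theorem isOpen_JT : IsOpen JT := isOpen_Ioo

theorem IT_subset_JT : IT ⊆ JT := by
  intro x hx
  obtain ⟨h0, h1⟩ := hx
  constructor <;> norm_num <;> linarith only [h0, h1]

/-- Levels are positive on `JT`. -/
theorem Dat.Ok.lev_pos {D : Dat d} (hD : D.Ok) {t : ℝ} (ht : t ∈ JT) : 0 < D.l0 - t ^ 2 := by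
  obtain ⟨h1, h2⟩ := ht
  have := hD.l0a
  nlinarith only [this, h1, h2]

/-- Levels are in `[1/2,1]` on `IT`. -/
theorem Dat.Ok.lev_mem {D : Dat d} (hD : D.Ok) {t : ℝ} (ht : t ∈ IT) : D.l0 - t ^ 2 ∈ Lev := by
  obtain ⟨h1, h2⟩ := ht
  have := hD.l0a
  have := hD.l0b
  constructor <;> nlinarith

theorem Dat.Ok.up_cg {D : Dat d} (hD : D.Ok) {f : ℝ × Eu d → ℝ} (hf : CG (Ioi 0) f) :
    CG JT (D.up f) :=
  CG.comp_up isOpen_JT hf isOpen_Ioi (ContinuousLinearMap.fst ℝ (Eu d) (Eu d)) D.l0 D.Y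
    (fun _ ht => hD.lev_pos ht)

/-- `∂_{a_k} (f∘) = τ (∂_{y_k} f)∘`, `∂_{g_k} (f∘) = 0`. -/
theorem Dat.Ok.dz_up {D : Dat d} (hD : D.Ok) {f : ℝ × Eu d → ℝ} (hf : CG (Ioi 0) f) (m : Sl d)
    {p : ZS d} (hp : p.1 ∈ JT) :
    Z.dz m (D.up f) p = if m.1 then 0 else p.1 * D.up (Z.dy m.2 f) p := by
  have h1 := cgl_fderiv_up (W := Eu d) (W' := Eu d × Eu d) isOpen_Ioi hf.diff
    (ContinuousLinearMap.fst ℝ (Eu d) (Eu d)) D.l0 D.Y (p := p) (hD.lev_pos hp)
    (0, if m.1 then (0, ek m.2) else (ek m.2, 0))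
  have h2 : Z.dz m (D.up f) p = fderiv ℝ (fun p : ℝ × (Eu d × Eu d) =>
      f (D.l0 - p.1 ^ 2, D.Y + p.1 • (ContinuousLinearMap.fst ℝ (Eu d) (Eu d)) p.2)) p
      (0, if m.1 then (0, ek m.2) else (ek m.2, 0)) := rfl
  rw [h2, h1]
  cases hm : m.1 with
  | true =>
    have h3 : ((-(2 * p.1) * 0, p.1 • (0 : Eu d) + (0 : ℝ) • p.2.1) : ℝ × Eu d) = 0 := by
      ext <;> simp
    simp only [if_true, ContinuousLinearMap.coe_fst']
    rw [h3, map_zero]
  | false =>
    have h3 : ((-(2 * p.1) * 0, p.1 • ek m.2) : ℝ × Eu d) = p.1 • ((0 : ℝ), ek m.2) := by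
      ext <;> simp
    simp only [ContinuousLinearMap.coe_fst', Bool.false_eq_true, if_false, zero_smul, add_zero]
    rw [h3, map_smul]
    rfl

/-- `∂_τ (f∘) = -2 τ (∂_l f)∘ + ∑_k a_k (∂_{y_k} f)∘`. -/
theorem Dat.Ok.dtau_up {D : Dat d} (hD : D.Ok) {f : ℝ × Eu d → ℝ} (hf : CG (Ioi 0) f)
    {p : ZS d} (hp : p.1 ∈ JT) :
    Z.dtau (D.up f) p
      = -2 * p.1 * D.up (Z.dlev f) p + ∑ k, p.2.1 k * D.up (Z.dy k f) p := by
  have h1 := cgl_fderiv_up (W := Eu d) (W' := Eu d × Eu d) isOpen_Ioi hf.diff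
    (ContinuousLinearMap.fst ℝ (Eu d) (Eu d)) D.l0 D.Y (p := p) (hD.lev_pos hp) (1, 0)
  have h2 : Z.dtau (D.up f) p = fderiv ℝ (fun p : ℝ × (Eu d × Eu d) =>
      f (D.l0 - p.1 ^ 2, D.Y + p.1 • (ContinuousLinearMap.fst ℝ (Eu d) (Eu d)) p.2)) p
      (1, 0) := rfl
  rw [h2, h1]
  have h3 : ((-(2 * p.1) * 1, p.1 • (ContinuousLinearMap.fst ℝ (Eu d) (Eu d)) (0 : Eu d × Eu d) +
      (1 : ℝ) • (ContinuousLinearMap.fst ℝ (Eu d) (Eu d)) p.2) : ℝ × Eu d) =
      (-2 * p.1) • ((1 : ℝ), (0 : Eu d)) + ContinuousLinearMap.inr ℝ ℝ (Eu d) p.2.1 := by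
    ext <;> simp
  have h4 : p.2.1 = ∑ k, p.2.1 k • ek k := by
    have h5 := (EuclideanSpace.basisFun (Fin d) ℝ).sum_repr p.2.1
    simpa only [EuclideanSpace.basisFun_repr, EuclideanSpace.basisFun_apply] using h5.symm
  have h6 : (fderiv ℝ f (D.l0 - p.1 ^ 2, D.Y + p.1 • (ContinuousLinearMap.fst ℝ (Eu d) (Eu d)) p.2))
      (ContinuousLinearMap.inr ℝ ℝ (Eu d) p.2.1) = ∑ k, p.2.1 k * D.up (Z.dy k f) p := by
    have h7 : ContinuousLinearMap.inr ℝ ℝ (Eu d) p.2.1 =
        ∑ k, p.2.1 k • ContinuousLinearMap.inr ℝ ℝ (Eu d) (ek k) := by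
      conv_lhs => rw [h4]
      rw [map_sum]
      simp only [map_smul]
    rw [h7, map_sum]
    refine Finset.sum_congr rfl fun k _ => ?_
    rw [map_smul, smul_eq_mul]
    rfl
  show (fderiv ℝ f (D.l0 - p.1 ^ 2, D.Y + p.1 • (ContinuousLinearMap.fst ℝ (Eu d) (Eu d)) p.2)) 
    ((-(2 * p.1) * 1, p.1 • (ContinuousLinearMap.fst ℝ (Eu d) (Eu d)) (0 : Eu d × Eu d) +
      (1 : ℝ) • (ContinuousLinearMap.fst ℝ (Eu d) (Eu d)) p.2) : ℝ × Eu d) = _
  rw [h3, map_add, map_smul, h6]
  rfl

end Vale.Agent.P347.Z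
end

section
attribute [-instance] ProperSMul.toContinuousSMul IsTopologicalTorsor.toContinuousSMul IdemSemiring.toCanonicallyOrderedAdd IdemSemiring.toMulLeftMono IdemSemiring.toMulRightMono AddQuantale.instAddLeftMono AddQuantale.instAddRightMono Quantale.instMulLeftMono Quantale.instMulRightMono FiniteDimensional.rclike_to_real IsScalarTower.complexToReal FiniteDimensional.complexToReal

/-! P347-Z-E1. Global flow of a `C¹` time dependent field of linear growth. -/

open Set Module Metric Topology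
open scoped NNReal

namespace Vale.Agent.P347.Z

section odeflow

variable {W : Type} [NormedAddCommGroup W] [NormedSpace ℝ W]

/-- A field which is `C¹` is Lipschitz on balls, uniformly in time. -/
theorem odeflow_lip [FiniteDimensional ℝ W] {J : Set ℝ} (hJ : IsOpen J) {T : ℝ}
    (hTJ : Icc 0 T ⊆ J) {X : ℝ × W → W} (hX : ContDiffOn ℝ 1 X (J ×ˢ univ)) (M : ℝ) :
    ∃ K : ℝ≥0, ∀ t ∈ Icc 0 T, LipschitzOnWith K (fun z => X (t, z)) (closedBall 0 M) := by
  have hopen : IsOpen (J ×ˢ (univ : Set W)) := hJ.prod isOpen_univ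
  have hfd : ContinuousOn (fderiv ℝ X) (J ×ˢ univ) :=
    hX.continuousOn_fderiv_of_isOpen hopen le_rfl
  have hsub : Icc 0 T ×ˢ closedBall (0 : W) M ⊆ J ×ˢ univ := prod_mono hTJ (subset_univ _)
  obtain ⟨K, hK⟩ := (isCompact_Icc.prod (isCompact_closedBall (0 : W) M)).exists_bound_of_continuousOn
    (hfd.mono hsub)
  refine ⟨K.toNNReal, fun t ht => ?_⟩
  apply (convex_closedBall (0 : W) M).lipschitzOnWith_of_nnnorm_hasFDerivWithin_le
    (f' := fun z => (fderiv ℝ X (t, z)).comp (ContinuousLinearMap.inr ℝ ℝ W))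
  · intro z hz
    have hmem : (t, z) ∈ J ×ˢ (univ : Set W) := ⟨hTJ ht, mem_univ _⟩
    have hd : HasFDerivAt X (fderiv ℝ X (t, z)) (t, z) :=
      ((hX.differentiableOn one_ne_zero (t, z) hmem).differentiableAt
        (hopen.mem_nhds hmem)).hasFDerivAt
    have h2 : HasFDerivAt (fun z : W => (t, z)) (ContinuousLinearMap.inr ℝ ℝ W) z :=
      hasFDerivAt_prodMk_right t z
    exact (hd.comp z h2).hasFDerivWithinAt
  · intro z hz
    have h1 := hK (t, z) ⟨ht, hz⟩
    rw [← NNReal.coe_le_coe, coe_nnnorm]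
    calc ‖(fderiv ℝ X (t, z)).comp (ContinuousLinearMap.inr ℝ ℝ W)‖
        ≤ ‖fderiv ℝ X (t, z)‖ * ‖ContinuousLinearMap.inr ℝ ℝ W‖ :=
          ContinuousLinearMap.opNorm_comp_le _ _
      _ ≤ ‖fderiv ℝ X (t, z)‖ * 1 := by
          gcongr
          exact ContinuousLinearMap.norm_inr_le_one ℝ ℝ W
      _ ≤ K := by rw [mul_one]; exact h1
      _ ≤ K.toNNReal := Real.le_coe_toNNReal K

/-- One sided derivatives from the derivative on the interval. -/
theorem odeflow_ici {T : ℝ} {γ : ℝ → W} {v : W} {t : ℝ} (ht : t ∈ Ico 0 T)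
    (h : HasDerivWithinAt γ v (Icc 0 T) t) : HasDerivWithinAt γ v (Ici t) t :=
  h.mono_of_mem_nhdsWithin (Icc_mem_nhdsGE_of_mem ht)

/-- A priori bound. -/
theorem odeflow_gron (T C R : ℝ) : ∃ M : ℝ, ∀ γ γ' : ℝ → W,
    (∀ t ∈ Icc 0 T, HasDerivWithinAt γ (γ' t) (Icc 0 T) t) →
    (∀ t ∈ Icc 0 T, ‖γ' t‖ ≤ C * (1 + ‖γ t‖)) → ‖γ 0‖ ≤ R → ∀ t ∈ Icc 0 T, ‖γ t‖ ≤ M := by
  have hc : ContinuousOn (gronwallBound R C C) (Icc 0 T) :=
    fun x _ => (hasDerivAt_gronwallBound R C C x).continuousAt.continuousWithinAt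
  obtain ⟨M, hM⟩ := isCompact_Icc.bddAbove_image hc
  refine ⟨M, fun γ γ' hγ hb h0 t ht => ?_⟩
  have h1 := norm_le_gronwallBound_of_norm_deriv_right_le (f := γ) (f' := γ') (δ := R) (K := C)
    (ε := C) (a := 0) (b := T) (fun t ht => (hγ t ht).continuousWithinAt)
    (fun t ht => odeflow_ici ht (hγ t ⟨ht.1, ht.2.le⟩)) h0
    (fun t ht => by linarith [hb t ⟨ht.1, ht.2.le⟩]) t ht
  rw [sub_zero] at h1
  exact h1.trans (hM (mem_image_of_mem _ ht))

variable [FiniteDimensional ℝ W]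

theorem odeflow_exists {J : Set ℝ} (hJ : IsOpen J) {T : ℝ} (hT : 0 ≤ T) (hTJ : Icc 0 T ⊆ J)
    {X : ℝ × W → W} (hX : ContDiffOn ℝ 1 X (J ×ˢ univ)) {C : ℝ}
    (hC : ∀ t ∈ Icc 0 T, ∀ z, ‖X (t, z)‖ ≤ C * (1 + ‖z‖)) (z : W) :
    ∃ γ : ℝ → W, γ 0 = z ∧ ∀ t ∈ Icc 0 T, HasDerivWithinAt γ (X (t, γ t)) (Icc 0 T) t := by
  have hC0 : 0 ≤ C := by
    have h := hC 0 ⟨le_rfl, hT⟩ 0
    rw [norm_zero, add_zero, mul_one] at h
    exact (norm_nonneg _).trans h
  obtain ⟨M, hM⟩ := odeflow_gron (W := W) T C ‖z‖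
  let f : ContDiffBump (0 : W) := ⟨|M| + 1, |M| + 2, by positivity, by linarith⟩
  let Y : ℝ × W → W := fun p => f p.2 • X p
  have hY : ContDiffOn ℝ 1 Y (J ×ˢ univ) :=
    ((f.contDiff (n := 1)).comp contDiff_snd).contDiffOn.smul hX
  have hYX : ∀ p, ‖Y p‖ ≤ ‖X p‖ := by
    intro p
    simp only [Y, norm_smul, Real.norm_eq_abs, abs_of_nonneg (f.nonneg)]
    exact mul_le_of_le_one_left (norm_nonneg _) f.le_one
  have hYC : ∀ t ∈ Icc 0 T, ∀ z, ‖Y (t, z)‖ ≤ C * (1 + ‖z‖) :=
    fun t ht z => (hYX _).trans (hC t ht z)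
  set L : ℝ := C * (1 + (|M| + 2)) with hL
  have hL0 : 0 ≤ L := by positivity
  have hYL : ∀ t ∈ Icc 0 T, ∀ z, ‖Y (t, z)‖ ≤ L := by
    intro t ht z
    by_cases hz : ‖z‖ ≤ |M| + 2
    · refine (hYC t ht z).trans ?_
      rw [hL]
      gcongr
    · have : f z = 0 := by
        apply f.zero_of_le_dist
        rw [dist_zero_right]
        exact (not_le.1 hz).le
      simp only [Y, this, zero_smul, norm_zero]
      exact hL0
  obtain ⟨K, hK⟩ := odeflow_lip hJ hTJ hY (‖z‖ + L * T)
  have hLT : 0 ≤ L * T := mul_nonneg hL0 hT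
  have hpl : IsPicardLindelof (fun t z => Y (t, z)) (tmin := 0) (tmax := T) ⟨0, le_rfl, hT⟩ z
      ⟨L * T, hLT⟩ 0 ⟨L, hL0⟩ K := by
    constructor
    · intro t ht
      refine (hK t ht).mono ?_
      intro y hy
      rw [mem_closedBall] at hy ⊢
      rw [dist_zero_right]
      have : ‖y‖ ≤ ‖z‖ + ‖y - z‖ := by
        have := norm_add_le z (y - z)
        simpa using this
      have hy' : dist y z ≤ L * T := hy
      rw [dist_eq_norm] at hy'
      linarith
    · intro y _
      have : ContinuousOn (fun t : ℝ => Y (t, y)) (Icc 0 T) := by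
        refine hY.continuousOn.comp (f := fun t : ℝ => (t, y))
          (by fun_prop : Continuous fun t : ℝ => (t, y)).continuousOn ?_
        intro t ht
        exact ⟨hTJ ht, mem_univ _⟩
      exact this
    · intro t ht y _
      exact hYL t ht y
    · change L * max (T - 0) (0 - 0) ≤ L * T - 0
      rw [sub_zero, sub_zero, max_eq_left hT, sub_zero]
  obtain ⟨γ, h0, hγ⟩ := hpl.exists_eq_forall_mem_Icc_hasDerivWithinAt₀
  refine ⟨γ, h0, fun t ht => ?_⟩
  have hb := hM γ (fun t => Y (t, γ t)) hγ (fun t ht => hYC t ht _) (by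
    have : γ 0 = z := h0
    rw [this]) t ht
  have h1 : f (γ t) = 1 := by
    apply f.one_of_mem_closedBall
    rw [mem_closedBall, dist_zero_right]
    exact hb.trans ((le_abs_self M).trans (by simp [f]))
  have h2 := hγ t ht
  simp only [Y, h1, one_smul] at h2
  exact h2

theorem odeflow_dep {J : Set ℝ} (hJ : IsOpen J) {T : ℝ} (hTJ : Icc 0 T ⊆ J)
    {X : ℝ × W → W} (hX : ContDiffOn ℝ 1 X (J ×ˢ univ)) {C : ℝ}
    (hC : ∀ t ∈ Icc 0 T, ∀ z, ‖X (t, z)‖ ≤ C * (1 + ‖z‖)) (R : ℝ) :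
    ∃ L : ℝ≥0, ∀ γ₁ γ₂ : ℝ → W, (∀ t ∈ Icc 0 T, HasDerivWithinAt γ₁ (X (t, γ₁ t)) (Icc 0 T) t) →
      (∀ t ∈ Icc 0 T, HasDerivWithinAt γ₂ (X (t, γ₂ t)) (Icc 0 T) t) →
      ‖γ₁ 0‖ ≤ R → ‖γ₂ 0‖ ≤ R → ∀ t ∈ Icc 0 T, dist (γ₁ t) (γ₂ t) ≤ L * dist (γ₁ 0) (γ₂ 0) := by
  obtain ⟨M, hM⟩ := odeflow_gron (W := W) T C R
  obtain ⟨K, hK⟩ := odeflow_lip hJ hTJ hX M
  refine ⟨⟨Real.exp (K * T), (Real.exp_pos _).le⟩, fun γ₁ γ₂ h₁ h₂ hr₁ hr₂ t ht => ?_⟩
  have b₁ := hM γ₁ _ h₁ (fun t ht => hC t ht _) hr₁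
  have b₂ := hM γ₂ _ h₂ (fun t ht => hC t ht _) hr₂
  have h := dist_le_of_trajectories_ODE_of_mem (v := fun t z => X (t, z)) (K := K)
    (s := fun _ => closedBall (0 : W) M) (f := γ₁) (g := γ₂) (a := 0) (b := T)
    (δ := dist (γ₁ 0) (γ₂ 0))
    (fun t ht => hK t ⟨ht.1, ht.2.le⟩) (fun t ht => (h₁ t ht).continuousWithinAt)
    (fun t ht => odeflow_ici ht (h₁ t ⟨ht.1, ht.2.le⟩))
    (fun t ht => by
      rw [mem_closedBall, dist_zero_right]; exact b₁ t ⟨ht.1, ht.2.le⟩)
    (fun t ht => (h₂ t ht).continuousWithinAt)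
    (fun t ht => odeflow_ici ht (h₂ t ⟨ht.1, ht.2.le⟩))
    (fun t ht => by
      rw [mem_closedBall, dist_zero_right]; exact b₂ t ⟨ht.1, ht.2.le⟩) le_rfl t ht
  refine h.trans ?_
  rw [sub_zero, mul_comm]
  apply mul_le_mul_of_nonneg_right _ dist_nonneg
  change _ ≤ Real.exp (K * T)
  apply Real.exp_le_exp.2
  exact mul_le_mul_of_nonneg_left ht.2 K.2

theorem exists_flow {W : Type} [NormedAddCommGroup W] [NormedSpace ℝ W] [FiniteDimensional ℝ W]
    {J : Set ℝ} (hJ : IsOpen J) {T : ℝ} (hT : 0 ≤ T) (hTJ : Icc 0 T ⊆ J) {X : ℝ × W → W}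
    (hX : ContDiffOn ℝ 1 X (J ×ˢ univ)) {C : ℝ}
    (hC : ∀ t ∈ Icc 0 T, ∀ z, ‖X (t, z)‖ ≤ C * (1 + ‖z‖)) :
    ∃ Φ : ℝ → W → W, (∀ z, Φ 0 z = z) ∧
      (∀ z, ∀ t ∈ Icc 0 T,
        HasDerivWithinAt (fun t => Φ t z) (X (t, Φ t z)) (Icc 0 T) t) ∧
      ContinuousOn (fun p : ℝ × W => Φ p.1 p.2) (Icc 0 T ×ˢ univ) ∧
      ∀ γ : ℝ → W, (∀ t ∈ Icc 0 T, HasDerivWithinAt γ (X (t, γ t)) (Icc 0 T) t) →
        ∀ t ∈ Icc 0 T, γ t = Φ t (γ 0) := by
  choose γ h0 hγ using fun z => odeflow_exists hJ hT hTJ hX hC z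
  refine ⟨fun t z => γ z t, h0, hγ, ?_, ?_⟩
  · apply continuousOn_of_locally_continuousOn
    rintro ⟨t₀, z₀⟩ -
    refine ⟨univ ×ˢ ball z₀ 1, isOpen_univ.prod isOpen_ball, ⟨mem_univ _, mem_ball_self one_pos⟩, ?_⟩
    obtain ⟨L, hL⟩ := odeflow_dep hJ hTJ hX hC (‖z₀‖ + 1)
    have hset : Icc 0 T ×ˢ (univ : Set W) ∩ univ ×ˢ ball z₀ 1 = Icc 0 T ×ˢ ball z₀ 1 := by
      rw [prod_inter_prod, inter_univ, univ_inter]
    rw [hset]
    have hb : ∀ z ∈ ball z₀ (1 : ℝ), ‖γ z 0‖ ≤ ‖z₀‖ + 1 := by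
      intro z hz
      rw [h0, ← sub_add_cancel z z₀]
      refine (norm_add_le _ _).trans ?_
      rw [mem_ball, dist_eq_norm] at hz
      linarith
    apply continuousOn_prod_of_continuousOn_lipschitzOnWith' (K := L)
    · intro t ht
      apply LipschitzOnWith.of_dist_le_mul
      intro z₁ hz₁ z₂ hz₂
      have := hL (γ z₁) (γ z₂) (hγ z₁) (hγ z₂) (hb z₁ hz₁) (hb z₂ hz₂) t ht
      rwa [h0, h0] at this
    · intro z _ t ht
      exact (hγ z t ht).continuousWithinAt
  · intro α hα t ht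
    obtain ⟨L, hL⟩ := odeflow_dep hJ hTJ hX hC ‖α 0‖
    have h := hL α (γ (α 0)) hα (hγ (α 0)) le_rfl (by rw [h0]) t ht
    rw [h0, dist_self, mul_zero] at h
    exact dist_le_zero.1 h

end odeflow

end Vale.Agent.P347.Z
end

section

/-! Definitions of the algorithmic half of the proof of `γ_* = 0` (P347). -/

open MeasureTheory Filter Module
open scoped ENNReal NNReal
open Vale.Agent.P347.Z

namespace Vale.Agent.P347.S

section dist

variable {E : Type*} [NormedAddCommGroup E] [InnerProductSpace ℝ E] [FiniteDimensional ℝ E]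
  [MeasurableSpace E] [BorelSpace E]

/-- `WD μ ν c`: the dual Wasserstein distance of `μ` and `ν` (bounded `1`-Lipschitz test
functions) is at most `c`. -/
def WD (μ ν : Measure E) (c : ℝ) : Prop :=
  ∀ f : E → ℝ, (∀ x y, |f x - f y| ≤ ‖x - y‖) → (∃ C, ∀ x, |f x| ≤ C) →
    |∫ x, f x ∂μ - ∫ x, f x ∂ν| ≤ c

/-- The Gaussian law with mean `y` and covariance `σ² I`. -/
noncomputable def gau (y : E) (σ : ℝ) : Measure E := (gam E).map (fun ξ => y + σ • ξ)

/-- The law of the sum of independent vectors. -/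
noncomputable def cnv (μ ν : Measure E) : Measure E := (μ.prod ν).map (fun p => p.1 + p.2)

end dist

/-- A sampler with parameter space `Θ` and output space `X`: from a parameter `θ` and a random
seed `w` it computes `R V (θ, w)` with `cost` queries. -/
structure Samp (d : ℕ) (Θ X : Type) [MeasurableSpace Θ] [MeasurableSpace X] where
  W : Type
  mW : MeasurableSpace W
  sW : StandardBorelSpace W
  ν : Measure W
  pν : IsProbabilityMeasure ν
  R : (Eu d → ℝ) → Θ × W → X
  cost : ℕ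
  comp : ∀ (S : Type) [MeasurableSpace S],
    Comp d cost (fun V (x : S × (Θ × W)) => (x.1, R V x.2))

variable {d : ℕ} {Θ Θ' X Y : Type} [MeasurableSpace Θ] [MeasurableSpace Θ'] [MeasurableSpace X]
  [MeasurableSpace Y]

/-- The law of the output of a sampler. -/
noncomputable def Samp.law (A : Samp d Θ X) (V : Eu d → ℝ) (θ : Θ) : Measure X :=
  letI := A.mW
  A.ν.map (fun w => A.R V (θ, w))

/-- The error exponents: `ϖ ^ min l ⌊m² / 4⌋`. -/
noncomputable def eta (ϖ : ℝ) (l m : ℕ) : ℝ := ϖ ^ (min l (m ^ 2 / 4))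

/-- The evaluation operation of accuracy `l` in the ratio class `m` at the level `s`: from
samplers `h 0, …, h l` of `N(y, v s)` with a hidden centre `y` it makes a sampler of
`N(w F_s(y), σ²)`. -/
def EvalAt (d : ℕ) (v ϖ : ℝ) (D l m : ℕ) (s a Λ : ℝ) (B : ℕ) : Prop :=
  ∀ w σ : ℝ, 0 < σ → |w| * √s ≤ ϖ ^ (2 * m) * σ →
  ∀ (Θ : Type) [MeasurableSpace Θ] (h : ℕ → Samp d Θ (Eu d)),
    ∃ A : Samp d Θ (Eu d),
      (∀ τ : ℕ, 1 ≤ τ → (∀ l' ≤ l, (h l').cost ≤ D ^ l' * τ) → A.cost ≤ B * D ^ l * τ) ∧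
      (∀ V ∈ PotClass d, ∀ (θ₁ θ₂ : Θ) (c : ℝ),
        (∀ l' ≤ l, WD ((h l').law V θ₁) ((h l').law V θ₂) c) →
        WD (A.law V θ₁) (A.law V θ₂) (|w| * Λ * c)) ∧
      (∀ V ∈ PotClass d, ∀ (θ : Θ) (y : Eu d) (e : ℝ), ‖y‖ + √d ≤ e →
        (∀ l' ≤ l, WD ((h l').law V θ) (gau y (√(v * s))) (eta ϖ l' m * e)) →
        WD (A.law V θ) (gau (w • Fp V (gradient V) s y) σ) (|w| * a * eta ϖ l m * e))

/-- The inequalities between the parameters of the evaluation recursion. `N, C, p` come from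
`NodesStatement`, `δ` is the relative step of the levels, `ϖ` the gain, `smax` the top level,
`a, Λ, B, D` bound errors, Lipschitz constants and costs, `ε` is the loss per step. -/
structure GPar (N p : ℕ) (C δ ϖ ε a Λ smax : ℝ) (lmax mmax B D : ℕ) : Prop where
  hN : 1 ≤ N
  hp : 1 ≤ p
  hC : 1 ≤ C
  hδ : 0 < δ
  hδ' : δ ≤ 1 / (8 * p)
  hϖ : 0 < ϖ
  hϖ' : ϖ < 1
  hε : 0 < ε
  hε' : ε ≤ 1
  ha : 2 ≤ a
  hΛ : 2 ≤ Λ
  hs : 0 < smax
  hs' : smax ≤ 1 / 4
  i1 : 2 * ϖ ^ 4 ≤ √δ
  i2 : 8 * ϖ ^ 2 ≤ 1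
  i3 : 8 * C * ϖ ^ 2 * √(16 * p * N / δ) ≤ 1
  i4 : 2 * C * ϖ ^ 2 ≤ √(δ / (4 * N))
  i5 : 512 * N * (N + 1) * C * a * ϖ ≤ ε
  i6 : C * ((√δ) ^ p / ϖ ^ (2 * mmax) + (ϖ ^ 2) ^ (p - 1)) ≤ ε / 64 * ϖ ^ lmax
  i7 : C * √(δ * smax) + C * (δ * smax) ≤ ε / 8
  i8 : 64 * N * C * Λ * ϖ ≤ ε
  i9 : smax ≤ ϖ ^ (2 * mmax)
  i10 : 2 * N * B ≤ D

end Vale.Agent.P347.S
end

section
attribute [-instance] ProperSMul.toContinuousSMul IsTopologicalTorsor.toContinuousSMul IdemSemiring.toCanonicallyOrderedAdd IdemSemiring.toMulLeftMono IdemSemiring.toMulRightMono AddQuantale.instAddLeftMono AddQuantale.instAddRightMono Quantale.instMulLeftMono Quantale.instMulRightMono FiniteDimensional.rclike_to_real IsScalarTower.complexToReal FiniteDimensional.complexToReal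

/-! Module M1 (P347, S): operations on samplers. -/

set_option linter.style.haveILetI false

open MeasureTheory Filter Module
open scoped ENNReal NNReal
open Vale.Agent.P347.Z

namespace Vale.Agent.P347.S

variable {d : ℕ} {Θ Θ' X Y : Type} [MeasurableSpace Θ] [MeasurableSpace Θ'] [MeasurableSpace X]
  [MeasurableSpace Y]

/-- The law of a finite sum of independent vectors. -/
noncomputable def cnvSum {n : ℕ} (μ : Fin n → Measure (Eu d)) : Measure (Eu d) :=
  (Measure.pi μ).map (fun x => ∑ i, x i)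

lemma Samp.meas_R (A : Samp d Θ X) {V : Eu d → ℝ} (hV : V ∈ PotClass d) :
    letI := A.mW
    Measurable (A.R V) := by
  letI := A.mW
  have h : Measurable (fun x : Unit × (Θ × A.W) => (x.1, A.R V x.2)) := (A.comp Unit).1 V hV
  exact (measurable_snd.comp h).comp (measurable_prodMk_left (x := ()))

lemma Samp.meas_R' (A : Samp d Θ X) {V : Eu d → ℝ} (hV : V ∈ PotClass d) (θ : Θ) :
    letI := A.mW
    Measurable (fun w => A.R V (θ, w)) := by
  letI := A.mW
  exact (A.meas_R hV).comp (measurable_const.prodMk measurable_id)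

theorem Samp.isProb (A : Samp d Θ X) {V : Eu d → ℝ} (hV : V ∈ PotClass d) (θ : Θ) :
    IsProbabilityMeasure (A.law V θ) := by
  letI := A.mW
  haveI := A.pν
  exact Measure.isProbabilityMeasure_map (A.meas_R' hV θ).aemeasurable

lemma Samp.integral_law (A : Samp d Θ X) {V : Eu d → ℝ} (hV : V ∈ PotClass d) (θ : Θ) {f : X → ℝ}
    (hf : Measurable f) :
    ∫ x, f x ∂(A.law V θ) = (letI := A.mW; ∫ w, f (A.R V (θ, w)) ∂A.ν) := by
  letI := A.mW
  exact integral_map (A.meas_R' hV θ).aemeasurable hf.aestronglyMeasurable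

/-- Measurability of expectations in the parameter. -/
theorem Samp.meas_int (A : Samp d Θ X) {V : Eu d → ℝ} (hV : V ∈ PotClass d) {f : X → ℝ}
    (hf : Measurable f) (bf : ∃ C, ∀ x, |f x| ≤ C) :
    Measurable (fun θ => ∫ x, f x ∂(A.law V θ)) := by
  letI := A.mW
  haveI := A.pν
  have h := (op_bm A.ν (A.meas_R hV) hf bf).1
  have h2 : (fun θ => ∫ x, f x ∂(A.law V θ)) = fun θ => ∫ w, f (A.R V (θ, w)) ∂A.ν :=
    funext fun θ => A.integral_law hV θ hf
  rw [h2]
  exact h

theorem exists_pure (f : Θ → X) (hf : Measurable f) : ∃ A : Samp d Θ X, A.cost = 0 ∧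
    ∀ V ∈ PotClass d, ∀ θ, A.law V θ = Measure.dirac (f θ) := by
  refine ⟨⟨Unit, inferInstance, inferInstance, Measure.dirac (), inferInstance,
    fun _ p => f p.1, 0, fun S _ => comp_zero (by fun_prop)⟩, rfl, fun V _ θ => ?_⟩
  show (Measure.dirac ()).map (fun _ => f θ) = _
  simp

theorem exists_noise [StandardBorelSpace X] (ν : Measure X) [IsProbabilityMeasure ν] :
    ∃ A : Samp d Θ X, A.cost = 0 ∧ ∀ V ∈ PotClass d, ∀ θ, A.law V θ = ν := by
  refine ⟨⟨X, inferInstance, inferInstance, ν, inferInstance,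
    fun _ p => p.2, 0, fun S _ => comp_zero (by fun_prop)⟩, rfl, fun V _ θ => ?_⟩
  show ν.map (fun w => w) = _
  exact Measure.map_id'

theorem exists_comap (A : Samp d Θ X) (f : Θ' → Θ) (hf : Measurable f) :
    ∃ A' : Samp d Θ' X, A'.cost = A.cost ∧ ∀ V ∈ PotClass d, ∀ θ, A'.law V θ = A.law V (f θ) := by
  letI := A.mW
  refine ⟨⟨A.W, A.mW, A.sW, A.ν, A.pν, fun V p => A.R V (f p.1, p.2), A.cost,
    fun S _ => ?_⟩, rfl, fun V _ θ => rfl⟩
  exact (A.comp S).pre (f := fun x : S × (Θ' × A.W) => (x.1, (f x.2.1, x.2.2))) (by fun_prop)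

theorem exists_map (A : Samp d Θ X) (f : X → Y) (hf : Measurable f) :
    ∃ A' : Samp d Θ Y, A'.cost = A.cost ∧ ∀ V ∈ PotClass d, ∀ θ,
      A'.law V θ = (A.law V θ).map f := by
  letI := A.mW
  refine ⟨⟨A.W, A.mW, A.sW, A.ν, A.pν, fun V p => f (A.R V p), A.cost,
    fun S _ => ?_⟩, rfl, fun V hV θ => ?_⟩
  · exact (A.comp S).post (f := fun x : S × X => (x.1, f x.2)) (by fun_prop)
  · show A.ν.map (fun w => f (A.R V (θ, w))) = (A.ν.map (fun w => A.R V (θ, w))).map f
    rw [Measure.map_map hf (A.meas_R' hV θ)]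
    rfl

theorem exists_grad (φ : Θ → Eu d) (hφ : Measurable φ) : ∃ A : Samp d Θ (Eu d), A.cost = 1 ∧
    ∀ V ∈ PotClass d, ∀ θ, A.law V θ = Measure.dirac (gradient V (φ θ)) := by
  refine ⟨⟨Unit, inferInstance, inferInstance, Measure.dirac (), inferInstance,
    fun V p => gradient V (φ p.1), 1, fun S _ => ?_⟩, rfl, fun V _ θ => ?_⟩
  · have h := comp_grad (d := d) (S := S × (Θ × Unit)) (φ := fun x => φ x.2.1) (by fun_prop)
    exact h.post (f := fun y : (S × (Θ × Unit)) × Eu d => (y.1.1, y.2)) (by fun_prop)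
  · show (Measure.dirac ()).map (fun _ => gradient V (φ θ)) = _
    simp

/-- Sequential composition: draw `x` with `A`, then `y` with `B` from the parameter `(θ, x)`. -/
theorem exists_bind (A : Samp d Θ X) (B : Samp d (Θ × X) Y) :
    ∃ A' : Samp d Θ Y, A'.cost = A.cost + B.cost ∧ ∀ V ∈ PotClass d, ∀ θ, ∀ f : Y → ℝ,
      Measurable f → (∃ C, ∀ x, |f x| ≤ C) →
        ∫ y, f y ∂(A'.law V θ) = ∫ x, (∫ y, f y ∂(B.law V (θ, x))) ∂(A.law V θ) := by
  letI := A.mW
  letI := B.mW
  haveI := A.sW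
  haveI := B.sW
  haveI := A.pν
  haveI := B.pν
  refine ⟨⟨A.W × B.W, inferInstance, inferInstance, A.ν.prod B.ν, inferInstance,
    fun V p => B.R V ((p.1, A.R V (p.1, p.2.1)), p.2.2), A.cost + B.cost, fun S _ => ?_⟩, rfl,
    fun V hV θ f hf bf => ?_⟩
  · have h1 := (A.comp (S × (Θ × B.W))).pre
      (f := fun x : S × (Θ × (A.W × B.W)) => ((x.1, (x.2.1, x.2.2.2)), (x.2.1, x.2.2.1)))
      (by fun_prop)
    have h2 := (B.comp S).pre
      (f := fun x : (S × (Θ × B.W)) × X => (x.1.1, ((x.1.2.1, x.2), x.1.2.2))) (by fun_prop)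
    exact h1.trans h2
  · have hm1 : Measurable (fun w : A.W × B.W => B.R V ((θ, A.R V (θ, w.1)), w.2)) :=
      (B.meas_R hV).comp ((measurable_const.prodMk ((A.meas_R' hV θ).comp measurable_fst)).prodMk
        measurable_snd)
    have hm2 : Measurable (fun x => ∫ y, f y ∂(B.law V (θ, x))) :=
      (B.meas_int hV hf bf).comp (measurable_const.prodMk measurable_id)
    rw [A.integral_law hV θ hm2]
    show ∫ y, f y ∂((A.ν.prod B.ν).map
      (fun w : A.W × B.W => B.R V ((θ, A.R V (θ, w.1)), w.2))) = _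
    rw [integral_map hm1.aemeasurable hf.aestronglyMeasurable, integral_prod]
    · refine integral_congr_ae (Eventually.of_forall fun w => ?_)
      exact (B.integral_law hV (θ, A.R V (θ, w)) hf).symm
    · obtain ⟨C, hC⟩ := bf
      exact Integrable.of_bound (hf.comp hm1).aestronglyMeasurable C
        (Filter.Eventually.of_forall fun w => hC _)

theorem exists_add (A B : Samp d Θ (Eu d)) : ∃ A' : Samp d Θ (Eu d),
    A'.cost = A.cost + B.cost ∧ ∀ V ∈ PotClass d, ∀ θ,
      A'.law V θ = cnv (A.law V θ) (B.law V θ) := by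
  letI := A.mW
  letI := B.mW
  haveI := A.sW
  haveI := B.sW
  haveI := A.pν
  haveI := B.pν
  refine ⟨⟨A.W × B.W, inferInstance, inferInstance, A.ν.prod B.ν, inferInstance,
    fun V p => A.R V (p.1, p.2.1) + B.R V (p.1, p.2.2), A.cost + B.cost, fun S _ => ?_⟩, rfl,
    fun V hV θ => ?_⟩
  · have h1 := (A.comp (S × (Θ × B.W))).pre
      (f := fun x : S × (Θ × (A.W × B.W)) => ((x.1, (x.2.1, x.2.2.2)), (x.2.1, x.2.2.1)))
      (by fun_prop)
    have h2 := (B.comp (S × Eu d)).pre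
      (f := fun x : (S × (Θ × B.W)) × Eu d => ((x.1.1, x.2), (x.1.2.1, x.1.2.2))) (by fun_prop)
    exact (h1.trans h2).post (f := fun x : (S × Eu d) × Eu d => (x.1.1, x.1.2 + x.2))
      (by fun_prop)
  · have ha := A.meas_R' hV θ
    have hb := B.meas_R' hV θ
    show (A.ν.prod B.ν).map (fun w : A.W × B.W => A.R V (θ, w.1) + B.R V (θ, w.2)) =
      ((A.ν.map (fun w => A.R V (θ, w))).prod (B.ν.map (fun w => B.R V (θ, w)))).map
        (fun p => p.1 + p.2)
    rw [Measure.map_prod_map A.ν B.ν ha hb, Measure.map_map (by fun_prop) (ha.prodMap hb)]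
    rfl

lemma cnvSum_zero (μ : Fin 0 → Measure (Eu d)) : cnvSum μ = Measure.dirac 0 := by
  haveI : ∀ i, IsProbabilityMeasure (μ i) := fun i => i.elim0
  have h : (fun x : Fin 0 → Eu d => ∑ i, x i) = fun _ => 0 := by
    funext x
    simp
  rw [cnvSum, h, Measure.map_const]
  simp

lemma cnvSum_succ {n : ℕ} (μ : Fin (n + 1) → Measure (Eu d)) [∀ i, IsProbabilityMeasure (μ i)] :
    cnvSum μ = cnv (μ 0) (cnvSum (fun i => μ i.succ)) := by
  have h := measurePreserving_piFinSuccAbove μ 0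
  have h0 : (fun x : Fin (n + 1) → Eu d => ∑ i, x i) =
      (fun p : Eu d × (Fin n → Eu d) => p.1 + ∑ i, p.2 i) ∘
        (MeasurableEquiv.piFinSuccAbove (fun _ => Eu d) 0) := by
    funext x
    rw [Fin.sum_univ_succ]
    rfl
  have hm : Measurable (fun p : Eu d × (Fin n → Eu d) => p.1 + ∑ i, p.2 i) := by fun_prop
  rw [cnvSum, h0, ← Measure.map_map hm (MeasurableEquiv.measurable _), h.map_eq]
  have h2 := Measure.map_prod_map (μ 0) (Measure.pi fun j : Fin n => μ j.succ)
    (measurable_id (α := Eu d)) (g := fun x : Fin n → Eu d => ∑ i, x i) (by fun_prop)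
  rw [Measure.map_id] at h2
  rw [cnv, cnvSum, h2, Measure.map_map (by fun_prop) (by fun_prop)]
  rfl

theorem exists_sum {n : ℕ} (A : Fin n → Samp d Θ (Eu d)) : ∃ A' : Samp d Θ (Eu d),
    A'.cost = ∑ i, (A i).cost ∧ ∀ V ∈ PotClass d, ∀ θ,
      A'.law V θ = cnvSum (fun i => (A i).law V θ) := by
  induction n with
  | zero =>
    obtain ⟨A', h1, h2⟩ := exists_pure (d := d) (fun _ : Θ => (0 : Eu d)) measurable_const
    refine ⟨A', by simp [h1], fun V hV θ => ?_⟩
    rw [h2 V hV θ, cnvSum_zero]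
  | succ n ih =>
    obtain ⟨B, h1, h2⟩ := ih (fun i => A i.succ)
    obtain ⟨A', h3, h4⟩ := exists_add (A 0) B
    refine ⟨A', by rw [h3, h1, Fin.sum_univ_succ], fun V hV θ => ?_⟩
    haveI : ∀ i, IsProbabilityMeasure ((A i).law V θ) := fun i => (A i).isProb hV θ
    rw [h4 V hV θ, h2 V hV θ, cnvSum_succ]

/-- A sampler with trivial parameter gives an algorithm. -/
theorem exists_algo_of_samp (A : Samp d Unit (Eu d)) :
    ∃ A' : Algo d A.cost, ∀ V ∈ PotClass d, A'.law V = A.law V () := by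
  letI := A.mW
  haveI := A.sW
  haveI := A.pν
  have h1 := (realizes_start (d := d) ()).noise A.W A.ν
  have h2 := h1.map (f := fun p : Unit × A.W => (p.1, (p.1, p.2))) (by fun_prop)
  have h3 := (A.comp Unit).2 _ _ h2
  have h4 := h3.map (f := fun x : Unit × Eu d => x.2) (by fun_prop)
  rw [Nat.zero_add] at h4
  obtain ⟨A', hA'⟩ := h4.algo
  refine ⟨A', fun V hV => ?_⟩
  have hc : Measurable (fun x : Unit × (Unit × A.W) => (x.1, A.R V x.2)) := (A.comp Unit).1 V hV
  have h5 : A'.law V = (((((Measure.dirac ()).prod A.ν)).map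
      (fun p : Unit × A.W => (p.1, (p.1, p.2)))).map
      (fun x : Unit × (Unit × A.W) => (x.1, A.R V x.2))).map (fun x : Unit × Eu d => x.2) :=
    hA' V hV
  have hc2 : Measurable ((fun x : Unit × Eu d => x.2) ∘
      (fun x : Unit × (Unit × A.W) => (x.1, A.R V x.2))) := measurable_snd.comp hc
  have hc3 : Measurable (fun p : Unit × A.W => (p.1, (p.1, p.2))) := by fun_prop
  have hc4 : Measurable (Prod.mk () : A.W → Unit × A.W) := by fun_prop
  rw [h5, Measure.dirac_prod, Measure.map_map measurable_snd hc, Measure.map_map hc2 hc3,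
    Measure.map_map (hc2.comp hc3) hc4]
  rfl

end Vale.Agent.P347.S
end

section

/-! Module M2a (P347, S): calculus of the dual Wasserstein distance. -/

set_option linter.unusedSectionVars false

open MeasureTheory Filter Module
open scoped ENNReal NNReal
open Vale.Agent.P347.Z

namespace Vale.Agent.P347.S

section general

variable {E : Type*} [NormedAddCommGroup E] [InnerProductSpace ℝ E] [FiniteDimensional ℝ E]
  [MeasurableSpace E] [BorelSpace E] {μ ν ρ μ' ν' : Measure E} {c c' : ℝ}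

theorem WD.refl (μ : Measure E) : WD μ μ 0 := by
  intro f _ _
  rw [sub_self, abs_zero]

theorem WD.mono (h : WD μ ν c) (hc : c ≤ c') : WD μ ν c' := fun f hf bf => (h f hf bf).trans hc

theorem WD.trans (h : WD μ ν c) (h' : WD ν ρ c') : WD μ ρ (c + c') := by
  intro f hf bf
  exact (abs_sub_le _ (∫ x, f x ∂ν) _).trans (add_le_add (h f hf bf) (h' f hf bf))

theorem WD.nonneg (h : WD μ ν c) : 0 ≤ c := by
  have h1 := h (fun _ => 0) (fun x y => by simp) ⟨0, fun x => by simp⟩
  exact (abs_nonneg _).trans h1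

/-- Integrals of bounded `L`-Lipschitz functions. -/
theorem WD.lip (h : WD μ ν c) {L : ℝ} (hL : 0 ≤ L) {f : E → ℝ}
    (hf : ∀ x y, |f x - f y| ≤ L * ‖x - y‖) (bf : ∃ C, ∀ x, |f x| ≤ C) :
    |∫ x, f x ∂μ - ∫ x, f x ∂ν| ≤ L * c := by
  obtain ⟨C, hC⟩ := bf
  have key : ∀ t : ℝ, 0 ≤ t → t * L ≤ 1 → t * |∫ x, f x ∂μ - ∫ x, f x ∂ν| ≤ c := by
    intro t ht htL
    have h1 := h (fun x => t * f x) (fun x y => by
      rw [← mul_sub, abs_mul, abs_of_nonneg ht]
      calc t * |f x - f y| ≤ t * (L * ‖x - y‖) := mul_le_mul_of_nonneg_left (hf x y) ht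
        _ = (t * L) * ‖x - y‖ := by ring
        _ ≤ 1 * ‖x - y‖ := mul_le_mul_of_nonneg_right htL (norm_nonneg _)
        _ = ‖x - y‖ := one_mul _) ⟨t * C, fun x => by
          rw [abs_mul, abs_of_nonneg ht]
          exact mul_le_mul_of_nonneg_left (hC x) ht⟩
    rw [integral_const_mul, integral_const_mul, ← mul_sub, abs_mul, abs_of_nonneg ht] at h1
    exact h1
  rcases hL.eq_or_lt with h0 | h0
  · rw [← h0, zero_mul]
    by_contra hne
    rw [not_le] at hne
    obtain ⟨D, hD⟩ : ∃ D, D = |∫ x, f x ∂μ - ∫ x, f x ∂ν| := ⟨_, rfl⟩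
    rw [← hD] at hne key
    have hc := h.nonneg
    have h2 := key ((c + 1) / D) (by positivity) (by rw [← h0, mul_zero]; exact zero_le_one)
    rw [div_mul_cancel₀ _ hne.ne'] at h2
    linarith
  · have h2 := key (1 / L) (by positivity) (by rw [one_div, inv_mul_cancel₀ h0.ne'])
    rw [one_div, inv_mul_le_iff₀ h0] at h2
    exact h2

lemma wda_cont {f : E → ℝ} (hf : ∀ x y, |f x - f y| ≤ ‖x - y‖) : Continuous f := by
  have h1 : LipschitzWith 1 f := LipschitzWith.of_dist_le_mul fun x y => by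
    rw [Real.dist_eq, dist_eq_norm, NNReal.coe_one, one_mul]
    exact hf x y
  exact h1.continuous

lemma wda_integrable {X : Type*} [MeasurableSpace X] {P : Measure X} [IsFiniteMeasure P]
    {g : X → ℝ} (hg : Measurable g) {C : ℝ} (hC : ∀ x, |g x| ≤ C) : Integrable g P :=
  Integrable.of_bound hg.aestronglyMeasurable C (Eventually.of_forall fun x => by
    rw [Real.norm_eq_abs]; exact hC x)

/-- Images under Lipschitz maps. -/
theorem WD.map {E' : Type*} [NormedAddCommGroup E'] [InnerProductSpace ℝ E']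
    [FiniteDimensional ℝ E'] [MeasurableSpace E'] [BorelSpace E'] (h : WD μ ν c) {L : ℝ}
    (hL : 0 ≤ L) {T : E → E'} (hT : ∀ x y, ‖T x - T y‖ ≤ L * ‖x - y‖) :
    WD (μ.map T) (ν.map T) (L * c) := by
  intro f hf bf
  have hTc : Continuous T := by
    have h1 : LipschitzWith L.toNNReal T := LipschitzWith.of_dist_le_mul fun x y => by
      rw [dist_eq_norm, dist_eq_norm, Real.coe_toNNReal L hL]
      exact hT x y
    exact h1.continuous
  have hfc := wda_cont hf
  rw [integral_map hTc.measurable.aemeasurable hfc.measurable.aestronglyMeasurable,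
    integral_map hTc.measurable.aemeasurable hfc.measurable.aestronglyMeasurable]
  obtain ⟨C, hC⟩ := bf
  exact h.lip hL (f := fun x => f (T x)) (fun x y => (hf _ _).trans (hT x y)) ⟨C, fun x => hC _⟩

theorem wd_dirac (x y : E) : WD (Measure.dirac x) (Measure.dirac y) ‖x - y‖ := by
  intro f hf _
  rw [integral_dirac, integral_dirac]
  exact hf x y

lemma wda_add : Measurable fun p : E × E => p.1 + p.2 := (continuous_fst.add continuous_snd).measurable

instance cnv_prob [IsProbabilityMeasure μ] [IsProbabilityMeasure ν] :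
    IsProbabilityMeasure (S.cnv μ ν) := by
  unfold S.cnv
  exact Measure.isProbabilityMeasure_map wda_add.aemeasurable

lemma wda_int [IsProbabilityMeasure μ] [IsProbabilityMeasure ν] {f : E → ℝ} (hf : Continuous f)
    {C : ℝ} (hC : ∀ x, |f x| ≤ C) :
    ∫ x, f x ∂(S.cnv μ ν) = ∫ x, ∫ y, f (x + y) ∂ν ∂μ := by
  unfold S.cnv
  rw [integral_map wda_add.aemeasurable hf.measurable.aestronglyMeasurable, integral_prod]
  exact wda_integrable (hf.measurable.comp wda_add) fun p => hC _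

lemma wda_int' [IsProbabilityMeasure μ] [IsProbabilityMeasure ν] {f : E → ℝ} (hf : Continuous f)
    {C : ℝ} (hC : ∀ x, |f x| ≤ C) :
    ∫ x, f x ∂(S.cnv μ ν) = ∫ y, ∫ x, f (x + y) ∂μ ∂ν := by
  rw [wda_int hf hC, integral_integral_swap]
  exact wda_integrable (hf.measurable.comp wda_add) fun p => hC _

lemma wda_bound [IsProbabilityMeasure μ] {g : E → ℝ} {C : ℝ} (hC : ∀ x, |g x| ≤ C) :
    |∫ x, g x ∂μ| ≤ C := by
  have h1 := norm_integral_le_of_norm_le_const (μ := μ) (f := g) (C := C)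
    (Eventually.of_forall fun x => by rw [Real.norm_eq_abs]; exact hC x)
  rw [Real.norm_eq_abs, probReal_univ, mul_one] at h1
  exact h1

lemma wda_cnv_left [IsProbabilityMeasure μ] [IsProbabilityMeasure ν] [IsProbabilityMeasure μ']
    (h : WD μ ν c) : WD (S.cnv μ μ') (S.cnv ν μ') c := by
  intro f hf bf
  obtain ⟨C, hC⟩ := bf
  have hfc := wda_cont hf
  rw [wda_int hfc hC, wda_int hfc hC]
  refine h (fun x => ∫ y, f (x + y) ∂μ') (fun x x' => ?_) ⟨C, fun x => wda_bound fun y => hC _⟩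
  have hi : ∀ z : E, Integrable (fun y => f (z + y)) μ' := fun z =>
    wda_integrable (hfc.comp (continuous_const.add continuous_id)).measurable fun y => hC _
  rw [← integral_sub (hi x) (hi x')]
  refine wda_bound fun y => ?_
  refine (hf _ _).trans (le_of_eq ?_)
  congr 1
  abel

lemma wda_cnv_right [IsProbabilityMeasure μ] [IsProbabilityMeasure μ'] [IsProbabilityMeasure ν']
    (h : WD μ' ν' c) : WD (S.cnv μ μ') (S.cnv μ ν') c := by
  intro f hf bf
  obtain ⟨C, hC⟩ := bf
  have hfc := wda_cont hf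
  rw [wda_int' hfc hC, wda_int' hfc hC]
  refine h (fun y => ∫ x, f (x + y) ∂μ) (fun y y' => ?_) ⟨C, fun x => wda_bound fun y => hC _⟩
  have hi : ∀ z : E, Integrable (fun x => f (x + z)) μ := fun z =>
    wda_integrable (hfc.comp (continuous_id.add continuous_const)).measurable fun y => hC _
  rw [← integral_sub (hi y) (hi y')]
  refine wda_bound fun x => ?_
  refine (hf _ _).trans (le_of_eq ?_)
  congr 1
  abel

theorem WD.cnv [IsProbabilityMeasure μ] [IsProbabilityMeasure ν] [IsProbabilityMeasure μ']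
    [IsProbabilityMeasure ν'] (h : WD μ ν c) (h' : WD μ' ν' c') :
    WD (cnv μ μ') (cnv ν ν') (c + c') :=
  WD.trans (wda_cnv_left h) (wda_cnv_right h')

theorem cnv_dirac (x : E) [IsProbabilityMeasure μ] :
    S.cnv (Measure.dirac x) μ = μ.map (fun z => x + z) := by
  unfold S.cnv
  rw [Measure.dirac_prod, Measure.map_map wda_add measurable_prodMk_left]
  rfl

/-- Coupling bound. -/
theorem wd_coupling {Ω : Type*} [MeasurableSpace Ω] {P : Measure Ω} [IsProbabilityMeasure P]
    {X Y : Ω → E} (hX : Measurable X) (hY : Measurable Y) {R : Ω → ℝ} (hR : Integrable R P)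
    (h : ∀ ω, ‖X ω - Y ω‖ ≤ R ω) : WD (P.map X) (P.map Y) (∫ ω, R ω ∂P) := by
  intro f hf bf
  obtain ⟨C, hC⟩ := bf
  have hfc := wda_cont hf
  have i1 : Integrable (fun ω => f (X ω)) P :=
    wda_integrable (hfc.measurable.comp hX) fun p => hC _
  have i2 : Integrable (fun ω => f (Y ω)) P :=
    wda_integrable (hfc.measurable.comp hY) fun p => hC _
  rw [integral_map hX.aemeasurable hfc.measurable.aestronglyMeasurable,
    integral_map hY.aemeasurable hfc.measurable.aestronglyMeasurable, ← integral_sub i1 i2]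
  refine (abs_integral_le_integral_abs).trans ?_
  refine integral_mono_of_nonneg (Eventually.of_forall fun ω => abs_nonneg _) hR
    (Eventually.of_forall fun ω => (hf _ _).trans (h ω))

/-- Mixtures: if `μ` and `ν` are mixtures over `P` of laws at distance `≤ R ω`. -/
theorem wd_mix {Ω : Type*} [MeasurableSpace Ω] {P : Measure Ω} [IsProbabilityMeasure P]
    {k k' : Ω → Measure E} {R : Ω → ℝ} (hR : Integrable R P) (h : ∀ ω, WD (k ω) (k' ω) (R ω))
    (hμ : ∀ f : E → ℝ, (∀ x y, |f x - f y| ≤ ‖x - y‖) → (∃ C, ∀ x, |f x| ≤ C) →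
      Integrable (fun ω => ∫ x, f x ∂(k ω)) P ∧ ∫ x, f x ∂μ = ∫ ω, (∫ x, f x ∂(k ω)) ∂P)
    (hν : ∀ f : E → ℝ, (∀ x y, |f x - f y| ≤ ‖x - y‖) → (∃ C, ∀ x, |f x| ≤ C) →
      Integrable (fun ω => ∫ x, f x ∂(k' ω)) P ∧ ∫ x, f x ∂ν = ∫ ω, (∫ x, f x ∂(k' ω)) ∂P) :
    WD μ ν (∫ ω, R ω ∂P) := by
  intro f hf bf
  obtain ⟨i1, e1⟩ := hμ f hf bf
  obtain ⟨i2, e2⟩ := hν f hf bf
  rw [e1, e2, ← integral_sub i1 i2]
  refine (abs_integral_le_integral_abs).trans ?_
  exact integral_mono_of_nonneg (Eventually.of_forall fun ω => abs_nonneg _) hR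
    (Eventually.of_forall fun ω => h ω f hf bf)

end general

variable {d : ℕ}

lemma wda_sum {n : ℕ} : Measurable fun x : Fin n → Eu d => ∑ i, x i :=
  (continuous_finsetSum _ fun i _ => continuous_apply i).measurable

instance cnvSum_prob_inst {n : ℕ} (μ : Fin n → Measure (Eu d)) [∀ i, IsProbabilityMeasure (μ i)] :
    IsProbabilityMeasure (cnvSum μ) := by
  unfold cnvSum
  exact Measure.isProbabilityMeasure_map wda_sum.aemeasurable

lemma wda_succ {n : ℕ} (μ : Fin (n + 1) → Measure (Eu d)) [∀ i, IsProbabilityMeasure (μ i)] :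
    cnvSum μ = S.cnv (μ 0) (cnvSum fun i : Fin n => μ i.succ) := by
  have hp := measurePreserving_piFinSuccAbove μ 0
  have h1 : (fun x : Fin (n + 1) → Eu d => ∑ i, x i) =
      (fun p : Eu d × (Fin n → Eu d) => p.1 + ∑ i, p.2 i) ∘
        (MeasurableEquiv.piFinSuccAbove (fun _ => Eu d) 0) := by
    funext x
    simp only [Function.comp_apply]
    rw [Fin.sum_univ_succ]
    rfl
  have h2 : Measurable fun p : Eu d × (Fin n → Eu d) => p.1 + ∑ i, p.2 i :=
    measurable_fst.add (wda_sum.comp measurable_snd)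
  have h3 : cnvSum μ = ((μ 0).prod (Measure.pi fun i : Fin n => μ i.succ)).map
      (fun p : Eu d × (Fin n → Eu d) => p.1 + ∑ i, p.2 i) := by
    unfold cnvSum
    rw [h1, ← Measure.map_map h2 (MeasurableEquiv.measurable _), hp.map_eq]
    rfl
  rw [h3]
  unfold S.cnv cnvSum
  have h4 := Measure.map_prod_map (μ 0) (Measure.pi fun i : Fin n => μ i.succ)
    measurable_id (wda_sum (d := d) (n := n))
  rw [Measure.map_id] at h4
  rw [h4, Measure.map_map wda_add (measurable_id.prodMap wda_sum)]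
  rfl

theorem WD.cnvSum {n : ℕ} {μ ν : Fin n → Measure (Eu d)} [∀ i, IsProbabilityMeasure (μ i)]
    [∀ i, IsProbabilityMeasure (ν i)] {c : Fin n → ℝ} (h : ∀ i, WD (μ i) (ν i) (c i)) :
    WD (cnvSum μ) (cnvSum ν) (∑ i, c i) := by
  induction n with
  | zero =>
    have h1 : μ = ν := Subsingleton.elim _ _
    subst h1
    rw [Finset.univ_eq_empty, Finset.sum_empty]
    exact WD.refl _
  | succ n ih =>
    rw [wda_succ μ, wda_succ ν, Fin.sum_univ_succ]
    exact WD.cnv (h 0) (ih fun i => h i.succ)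

end Vale.Agent.P347.S
end

section

/-! Module M2b (P347, S): Gaussian laws. -/

open MeasureTheory Filter Module
open scoped ENNReal NNReal
open Vale.Agent.P347.Z

namespace Vale.Agent.P347.S

section general

variable {E : Type*} [NormedAddCommGroup E] [InnerProductSpace ℝ E] [FiniteDimensional ℝ E]
  [MeasurableSpace E] [BorelSpace E]

omit [FiniteDimensional ℝ E] in
lemma wdb_meas (y : E) (σ : ℝ) : Measurable fun ξ : E => y + σ • ξ :=
  (continuous_const.add (continuous_const.smul continuous_id)).measurable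

instance gau_prob (y : E) (σ : ℝ) : IsProbabilityMeasure (gau y σ) := by
  unfold gau
  exact Measure.isProbabilityMeasure_map (wdb_meas y σ).aemeasurable

/-- Two probability measures with the same integrals of bounded measurable functions agree. -/
lemma wdb_ext {X : Type*} [MeasurableSpace X] {μ ν : Measure X} [IsProbabilityMeasure μ]
    [IsProbabilityMeasure ν]
    (h : ∀ f : X → ℝ, Measurable f → (∃ C, ∀ x, |f x| ≤ C) → ∫ x, f x ∂μ = ∫ x, f x ∂ν) :
    μ = ν := by
  refine Measure.ext fun A hA => ?_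
  have h1 := h (A.indicator fun _ => (1 : ℝ)) (measurable_const.indicator hA) ⟨1, fun x => by
    by_cases hx : x ∈ A
    · rw [Set.indicator_of_mem hx, abs_one]
    · rw [Set.indicator_of_notMem hx, abs_zero]
      exact zero_le_one⟩
  rw [integral_indicator_const _ hA, integral_indicator_const _ hA, smul_eq_mul, smul_eq_mul,
    mul_one, mul_one] at h1
  rw [← ofReal_measureReal (μ := μ) (s := A), ← ofReal_measureReal (μ := ν) (s := A), h1]

lemma wdb_int (y : E) (σ : ℝ) {f : E → ℝ} (hf : Measurable f) :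
    ∫ x, f x ∂(gau y σ) = ∫ ξ, f (y + σ • ξ) ∂(gam E) := by
  unfold gau
  rw [integral_map (wdb_meas y σ).aemeasurable hf.aestronglyMeasurable]

theorem wd_gau (x y : E) (σ : ℝ) : WD (gau x σ) (gau y σ) ‖x - y‖ := by
  have h := wd_coupling (P := gam E) (wdb_meas x σ) (wdb_meas y σ)
    (R := fun _ => ‖x - y‖) (integrable_const _) (fun ω => le_of_eq (by
      congr 1
      abel))
  have e : ∫ _ω, ‖x - y‖ ∂(gam E) = ‖x - y‖ := by simp
  rw [e] at h
  exact h

theorem gau_zero (y : E) : gau y 0 = Measure.dirac y := by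
  unfold gau
  have e : (fun ξ : E => y + (0 : ℝ) • ξ) = fun _ => y := by
    funext ξ
    rw [zero_smul, add_zero]
  rw [e, Measure.map_const, measure_univ, one_smul]

/-- Affine images of Gaussian laws. -/
theorem gau_map (x u : E) (c σ : ℝ) :
    (gau x σ).map (fun z => c • z + u) = gau (c • x + u) (c * σ) := by
  have hm : Measurable fun z : E => c • z + u :=
    ((continuous_const.smul continuous_id).add continuous_const).measurable
  unfold gau
  rw [Measure.map_map hm (wdb_meas x σ)]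
  congr 1
  funext ξ
  simp only [Function.comp_apply]
  module

theorem gau_cnv (x y : E) (σ τ : ℝ) :
    S.cnv (gau x σ) (gau y τ) = gau (x + y) (√(σ ^ 2 + τ ^ 2)) := by
  have hadd : Measurable fun p : E × E => p.1 + p.2 := wda_add
  refine wdb_ext fun f hf bf => ?_
  obtain ⟨C, hC⟩ := bf
  have h1 : ∫ z, f z ∂(S.cnv (gau x σ) (gau y τ)) =
      ∫ ξ, ∫ η, f ((x + σ • ξ) + (y + τ • η)) ∂(gam E) ∂(gam E) := by
    unfold S.cnv
    rw [integral_map hadd.aemeasurable hf.aestronglyMeasurable, integral_prod]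
    · have h2 : Measurable fun z : E => ∫ w, f (z + w) ∂(gau y τ) := by
        have h3 : StronglyMeasurable fun z : E => ∫ w, (fun p : E × E => f (p.1 + p.2)) (z, w)
            ∂(gau y τ) :=
          (hf.comp hadd).stronglyMeasurable.integral_prod_right'
        exact h3.measurable
      rw [wdb_int x σ h2]
      refine integral_congr_ae (Eventually.of_forall fun ξ => ?_)
      simp only
      rw [wdb_int y τ (f := fun w => f (x + σ • ξ + w))
        (hf.comp (continuous_const.add continuous_id).measurable)]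
    · exact wda_integrable (hf.comp hadd) fun p => hC _
  rw [h1, wdb_int _ _ hf]
  by_cases h0 : σ ^ 2 + τ ^ 2 = 0
  · have hσ : σ = 0 := by nlinarith only [h0]
    have hτ : τ = 0 := by nlinarith only [h0]
    subst hσ
    subst hτ
    simp
  · have hp : 0 < σ ^ 2 + τ ^ 2 := lt_of_le_of_ne (by (clear * - h0; positivity)) (Ne.symm h0)
    have hr : 0 < √(σ ^ 2 + τ ^ 2) := Real.sqrt_pos.2 hp
    have hr2 : √(σ ^ 2 + τ ^ 2) ^ 2 = σ ^ 2 + τ ^ 2 := Real.sq_sqrt hp.le
    obtain ⟨ρ, hρ⟩ : ∃ ρ, ρ = √(σ ^ 2 + τ ^ 2) := ⟨_, rfl⟩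
    rw [← hρ] at hr hr2 ⊢
    have hab : (σ / ρ) ^ 2 + (τ / ρ) ^ 2 = 1 := by
      rw [div_pow, div_pow, ← add_div, hr2, div_self h0]
    have h := gam_add_bdd (E := E) hab
      (f := fun ξ => f (x + y + ρ • ξ)) (hf.comp (wdb_meas (x + y) ρ)) ⟨C, fun x => hC _⟩
    rw [← h]
    refine integral_congr_ae (Eventually.of_forall fun ξ => ?_)
    refine integral_congr_ae (Eventually.of_forall fun η => ?_)
    have e : x + y + ρ • ((σ / ρ) • ξ + (τ / ρ) • η) = x + σ • ξ + (y + τ • η) := by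
      rw [smul_add, smul_smul, smul_smul, mul_div_cancel₀ _ hr.ne', mul_div_cancel₀ _ hr.ne']
      abel
    simp only [e]

lemma wdb_norm : Integrable (fun ξ : E => ‖ξ‖) (gam E) ∧
    ∫ ξ, ‖ξ‖ ∂(gam E) ≤ √(finrank ℝ E) := by
  have i1 : Integrable (fun ξ : E => ‖ξ‖) (gam E) :=
    (gam_integrable (E := E) PG.id continuous_id.aestronglyMeasurable).norm
  have i2 : Integrable (fun ξ : E => ‖ξ‖ ^ 2) (gam E) :=
    gam_integrable (E := E) (PG.id.norm.pow 2)
      (continuous_norm.pow 2).aestronglyMeasurable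
  refine ⟨i1, Real.le_sqrt_of_sq_le ?_⟩
  obtain ⟨m, hm⟩ : ∃ m, m = ∫ ξ, ‖ξ‖ ∂(gam E) := ⟨_, rfl⟩
  have h1 : 0 ≤ ∫ ξ, (‖ξ‖ - m) ^ 2 ∂(gam E) := integral_nonneg fun ξ => sq_nonneg _
  have h2 : ∫ ξ, (‖ξ‖ - m) ^ 2 ∂(gam E) = (finrank ℝ E : ℝ) - m ^ 2 := by
    have e : ∀ ξ : E, (‖ξ‖ - m) ^ 2 = ‖ξ‖ ^ 2 - (2 * m * ‖ξ‖ - m ^ 2) := fun ξ => by ring
    simp_rw [e]
    have i3 : Integrable (fun ξ : E => 2 * m * ‖ξ‖ - m ^ 2) (gam E) :=
      (i1.const_mul (2 * m)).sub (integrable_const (m ^ 2))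
    rw [integral_sub i2 i3,
      integral_sub (i1.const_mul (2 * m)) (integrable_const (m ^ 2)), integral_const_mul, ← hm,
      gam_sq]
    simp only [integral_const, probReal_univ, one_smul]
    ring
  rw [← hm]
  linarith

theorem gau_mom (y : E) (σ : ℝ) : Integrable (fun x => ‖x‖) (gau y σ) ∧
    ∫ x, ‖x‖ ∂(gau y σ) ≤ ‖y‖ + |σ| * √(finrank ℝ E) := by
  obtain ⟨i1, h1⟩ := wdb_norm (E := E)
  have hb : ∀ ξ : E, ‖y + σ • ξ‖ ≤ ‖y‖ + |σ| * ‖ξ‖ := fun ξ => by
    refine (norm_add_le _ _).trans ?_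
    rw [norm_smul, Real.norm_eq_abs]
  have i2 : Integrable (fun ξ : E => ‖y‖ + |σ| * ‖ξ‖) (gam E) :=
    (integrable_const _).add (i1.const_mul _)
  have i3 : Integrable (fun ξ : E => ‖y + σ • ξ‖) (gam E) := by
    refine i2.mono' (wdb_meas y σ).norm.aestronglyMeasurable (Eventually.of_forall fun ξ => ?_)
    rw [norm_norm]
    exact hb ξ
  constructor
  · unfold gau
    rw [integrable_map_measure measurable_norm.aestronglyMeasurable (wdb_meas y σ).aemeasurable]
    exact i3
  · rw [wdb_int y σ measurable_norm]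
    refine (integral_mono i3 i2 hb).trans ?_
    rw [integral_add (integrable_const _) (i1.const_mul _), integral_const_mul]
    simp only [integral_const, probReal_univ, one_smul]
    have := mul_le_mul_of_nonneg_left h1 (abs_nonneg σ)
    linarith

end general

variable {d : ℕ}

theorem cnvSum_gau {n : ℕ} (x : Fin n → Eu d) (σ : Fin n → ℝ) :
    cnvSum (fun i => gau (x i) (σ i)) = gau (∑ i, x i) (√(∑ i, σ i ^ 2)) := by
  induction n with
  | zero =>
    rw [Finset.univ_eq_empty, Finset.sum_empty, Finset.sum_empty, Real.sqrt_zero, gau_zero]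
    unfold cnvSum
    have e : (fun x : Fin 0 → Eu d => ∑ i, x i) = fun _ => 0 := by
      funext x
      rw [Finset.univ_eq_empty, Finset.sum_empty]
    rw [e, Measure.map_const, measure_univ, one_smul]
  | succ n ih =>
    rw [wda_succ, ih, gau_cnv, Fin.sum_univ_succ, Fin.sum_univ_succ, Real.sq_sqrt]
    exact Finset.sum_nonneg fun i _ => sq_nonneg _

end Vale.Agent.P347.S
end

section

/-! Module M3 (P347, S): elementary bounds of the smoothed force. -/

open MeasureTheory Filter Module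
open scoped ENNReal NNReal
open Vale.Agent.P347.Z

namespace Vale.Agent.P347.S

section general

variable {E : Type*} [NormedAddCommGroup E] [InnerProductSpace ℝ E] [FiniteDimensional ℝ E]
  [MeasurableSpace E] [BorelSpace E]

/-- Integration by parts for the posterior law, centred at the observation. -/
theorem fb_ibp {V : E → ℝ} {G : E → E} {H : E → E →L[ℝ] E} (hV : Pot V G H) {s : ℝ}
    (hs : 0 < s) (y : E) :
    ∫ x, (inner ℝ (x - y) (G x + s⁻¹ • (x - y)) : ℝ) ∂(gibbs (post V s y)) =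
      (finrank ℝ E : ℝ) := by
  have hA := hV.cpot.post_adm hs y
  have := hA.isProb
  have cG := hV.cpot.contF
  have pG := hV.cpot.pgF
  set b := stdOrthonormalBasis ℝ E
  have cg : Continuous (fun x => G x + s⁻¹ • (x - y)) := by fun_prop
  have pg : PG (fun x => G x + s⁻¹ • (x - y)) :=
    pG.add ((PG.const s⁻¹).smul (PG.id.sub (PG.const y)))
  have h1 : ∀ i, ∫ x, (inner ℝ (x - y) (b i) : ℝ) * inner ℝ (b i) (G x + s⁻¹ • (x - y))
      ∂(gibbs (post V s y)) = 1 := fun i => by
    have h2 := gibbs_ibp hA (post_grad hV.grad s y) cg pg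
      (f := fun x => (inner ℝ (x - y) (b i) : ℝ))
      (f' := fun _ => b i) (fun x => by
        have h2 : (fun x : E => (inner ℝ (x - y) (b i) : ℝ)) =
            fun x => innerSL ℝ (b i) x - innerSL ℝ (b i) y := by
          funext x
          rw [innerSL_apply_apply, innerSL_apply_apply, ← inner_sub_right, real_inner_comm]
        rw [h2]
        exact ((innerSL ℝ (b i)).hasFDerivAt).sub_const _) continuous_const
      ((PG.id.sub (PG.const y)).inner (PG.const _)) (PG.const _) (b i)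
    rw [integral_const, probReal_univ, one_smul, real_inner_self_eq_norm_sq,
      b.orthonormal.1 i, one_pow] at h2
    rw [h2]
    refine integral_congr_ae (Eventually.of_forall fun x => ?_)
    simp only
    rw [real_inner_comm (G x + s⁻¹ • (x - y)) (b i)]
  have h4 : ∀ x, (inner ℝ (x - y) (G x + s⁻¹ • (x - y)) : ℝ) =
      ∑ i, (inner ℝ (x - y) (b i) : ℝ) * inner ℝ (b i) (G x + s⁻¹ • (x - y)) :=
    fun x => (b.sum_inner_mul_inner (x - y) _).symm
  simp_rw [h4]
  rw [integral_finsetSum]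
  · simp_rw [h1]
    simp only [Finset.sum_const, Finset.card_univ, Fintype.card_fin, nsmul_eq_mul, mul_one]
  · intro i _
    exact hA.integrable (((PG.id.sub (PG.const y)).inner (PG.const _)).mul
      ((PG.const _).inner pg)) (by (clear pG cg pg h1 h4; fun_prop))

omit [NormedAddCommGroup E] [InnerProductSpace ℝ E] [FiniteDimensional ℝ E] [BorelSpace E] in
theorem fb_first_le {μ : Measure E} [IsProbabilityMeasure μ] {f : E → ℝ}
    (hf : Integrable f μ) (hf2 : Integrable (fun x => f x ^ 2) μ) :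
    (∫ x, f x ∂μ) ^ 2 ≤ ∫ x, f x ^ 2 ∂μ := by
  have h := var_nonneg hf hf2
  linarith only [h]

/-- First moment of the posterior law about the observation. -/
theorem fb_moment {V : E → ℝ} {G : E → E} {H : E → E →L[ℝ] E} (hV : Pot V G H) {s : ℝ}
    (hs : 0 < s) (y : E) :
    ∫ x, ‖x - y‖ ∂(gibbs (post V s y)) ≤ √(s * finrank ℝ E) + 2 * s * ‖y‖ := by
  have hA := hV.cpot.post_adm hs y
  have := hA.isProb
  have cG := hV.cpot.contF
  have pG := hV.cpot.pgF
  have p1 : PG (fun x : E => x - y) := PG.id.sub (PG.const y)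
  have i1 : Integrable (fun x => ‖x - y‖) (gibbs (post V s y)) :=
    hA.integrable p1.norm (by (clear cG pG p1; fun_prop))
  have i2 : Integrable (fun x => ‖x - y‖ ^ 2) (gibbs (post V s y)) :=
    hA.integrable (p1.norm.pow 2) (by (clear cG pG p1 i1; fun_prop))
  have i3 : Integrable (fun x => (inner ℝ (x - y) (G x + s⁻¹ • (x - y)) : ℝ))
      (gibbs (post V s y)) :=
    hA.integrable (p1.inner (pG.add ((PG.const s⁻¹).smul p1))) (by (clear pG p1 i1 i2; fun_prop))
  set r := ∫ x, ‖x - y‖ ∂(gibbs (post V s y)) with hr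
  have hr0 : 0 ≤ r := integral_nonneg fun x => norm_nonneg _
  have h1 := fb_first_le i1 i2
  have h2 : ∀ x, s⁻¹ * ‖x - y‖ ^ 2 - ‖G y‖ * ‖x - y‖ ≤
      (inner ℝ (x - y) (G x + s⁻¹ • (x - y)) : ℝ) := by
    intro x
    rw [inner_add_right, real_inner_smul_right, real_inner_self_eq_norm_sq]
    have h3 := hV.monoG x y
    rw [inner_sub_left] at h3
    have h4 := (abs_le.1 (abs_real_inner_le_norm (G y) (x - y))).1
    have h5 := sq_nonneg ‖x - y‖
    rw [real_inner_comm (G x) (x - y)]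
    rw [real_inner_comm (x - y) (G x)]
    have h6 : inner ℝ (x - y) (G x) = inner ℝ (G x) (x - y) := real_inner_comm _ _
    linarith
  have h3 : ∫ x, (s⁻¹ * ‖x - y‖ ^ 2 - ‖G y‖ * ‖x - y‖) ∂(gibbs (post V s y)) ≤
      (finrank ℝ E : ℝ) := by
    rw [← fb_ibp hV hs y]
    exact integral_mono ((i2.const_mul _).sub (i1.const_mul _)) i3 h2
  rw [integral_sub (i2.const_mul _) (i1.const_mul _), integral_const_mul, integral_const_mul]
    at h3
  have h4 : ‖G y‖ ≤ 2 * ‖y‖ := by
    have := hV.lipG y 0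
    rwa [hV.gzero, sub_zero, sub_zero] at this
  have h5 : s⁻¹ * r ^ 2 ≤ (finrank ℝ E : ℝ) + 2 * ‖y‖ * r := by
    have h6 := mul_le_mul_of_nonneg_left h1 (inv_pos.2 hs).le
    have h7 := mul_le_mul_of_nonneg_right h4 hr0
    linarith
  have h6 : r ^ 2 ≤ s * (finrank ℝ E : ℝ) + 2 * s * ‖y‖ * r := by
    have h7 := mul_le_mul_of_nonneg_left h5 hs.le
    rw [← mul_assoc, mul_inv_cancel₀ hs.ne', one_mul] at h7
    linarith only [h7]
  by_contra hcon
  rw [not_le] at hcon
  have ha : 0 ≤ √(s * finrank ℝ E) := Real.sqrt_nonneg _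
  have ha2 : √(s * finrank ℝ E) ^ 2 = s * finrank ℝ E := Real.sq_sqrt (by (clear * - hs; positivity))
  have hc : 0 ≤ 2 * s * ‖y‖ := by (clear * - hs; positivity)
  nlinarith only [h6, ha2, hcon, ha, hc]

theorem fb_Fp_sub {V : E → ℝ} {G : E → E} {H : E → E →L[ℝ] E} (hV : Pot V G H) {s : ℝ}
    (hs : 0 < s) (y : E) :
    ‖G y - Fp V G s y‖ ≤ 2 * (√(s * finrank ℝ E) + 2 * s * ‖y‖) := by
  have hA := hV.cpot.post_adm hs y
  have := hA.isProb
  have cG := hV.cpot.contF
  have pG := hV.cpot.pgF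
  have i1 : Integrable (fun x => ‖x - y‖) (gibbs (post V s y)) :=
    hA.integrable (PG.id.sub (PG.const y)).norm (by (clear cG pG; fun_prop))
  have i2 : Integrable G (gibbs (post V s y)) := hA.integrable pG cG.aestronglyMeasurable
  have h1 : G y - Fp V G s y = ∫ x, (G y - G x) ∂(gibbs (post V s y)) := by
    rw [integral_sub (integrable_const _) i2, integral_const, probReal_univ, one_smul]
    rfl
  rw [h1]
  refine (norm_integral_le_of_norm_le (i1.const_mul 2) (Eventually.of_forall fun x => ?_)).trans ?_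
  · rw [norm_sub_rev]
    exact hV.lipG x y
  · rw [integral_const_mul]
    exact mul_le_mul_of_nonneg_left (fb_moment hV hs y) (by norm_num)

theorem fb_gam_first : ∫ z, ‖z‖ ∂(gam E) ≤ √(finrank ℝ E) := by
  have : IsProbabilityMeasure (gam E) := adm_gam.isProb
  have h1 := fb_first_le (μ := gam E) (f := fun z => ‖z‖)
    (gam_integrable PG.id.norm (by fun_prop)) (gam_integrable (PG.id.norm.pow 2) (by fun_prop))
  rw [gam_sq] at h1
  exact Real.le_sqrt_of_sq_le h1

end general

variable {d : ℕ} {V : Eu d → ℝ}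

theorem Fp_lip (hV : V ∈ PotClass d) {s : ℝ} (hs : 0 < s) (x y : Eu d) :
    ‖Fp V (gradient V) s x - Fp V (gradient V) s y‖ ≤ 2 * ‖x - y‖ :=
  (Wp_cpot (PotClass.pot hV) hs).lip x y

theorem Fp_norm (hV : V ∈ PotClass d) {s : ℝ} (hs : 0 < s) (hs1 : s ≤ 1) (y : Eu d) :
    ‖Fp V (gradient V) s y‖ ≤ 2 * (‖y‖ + √d) := by
  have hp := PotClass.pot hV
  have h1 := Fp_lip hV hs y 0
  have h2 := fb_Fp_sub hp hs (0 : Eu d)
  rw [hp.gzero, zero_sub, norm_neg, norm_zero, mul_zero, add_zero,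
    finrank_euclideanSpace_fin] at h2
  have h3 : √(s * d) ≤ √d := Real.sqrt_le_sqrt (by
    have : (0 : ℝ) ≤ d := Nat.cast_nonneg d
    nlinarith only [hs1])
  have h4 : ‖Fp V (gradient V) s y‖ ≤ ‖Fp V (gradient V) s y - Fp V (gradient V) s 0‖ +
      ‖Fp V (gradient V) s 0‖ := by
    have := norm_add_le (Fp V (gradient V) s y - Fp V (gradient V) s 0)
      (Fp V (gradient V) s 0)
    rwa [sub_add_cancel] at this
  rw [sub_zero] at h1
  linarith only [h1, h2, h3, h4]

theorem grad_lip (hV : V ∈ PotClass d) (x y : Eu d) :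
    ‖gradient V x - gradient V y‖ ≤ 2 * ‖x - y‖ :=
  (PotClass.pot hV).lipG x y

/-- The naive estimate of the smoothed force. -/
theorem naive_bound (hV : V ∈ PotClass d) {s : ℝ} (hs : 0 < s) (hs1 : s ≤ 1) {v : ℝ} (hv : 0 ≤ v)
    (hv1 : v ≤ 1) (y : Eu d) :
    Integrable (fun x => ‖gradient V x - Fp V (gradient V) s y‖) (gau y (√(v * s))) ∧
    ∫ x, ‖gradient V x - Fp V (gradient V) s y‖ ∂(gau y (√(v * s))) ≤ 8 * √s * (‖y‖ + √d) := by
  have hp := PotClass.pot hV
  have : IsProbabilityMeasure (gam (Eu d)) := adm_gam.isProb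
  have cG := hp.cpot.contF
  have pG := hp.cpot.pgF
  set σ := √(v * s) with hσ
  have hσ0 : 0 ≤ σ := Real.sqrt_nonneg _
  have hmap : AEMeasurable (fun ξ : Eu d => y + σ • ξ) (gam (Eu d)) :=
    (by fun_prop : Measurable (fun ξ : Eu d => y + σ • ξ)).aemeasurable
  have hcont : Continuous (fun x => ‖gradient V x - Fp V (gradient V) s y‖) := by fun_prop
  have hlip : ∀ ξ ζ : Eu d, ‖gradient V (y + σ • ξ) - gradient V (y + σ • ζ)‖ ≤
      (2 * σ) * ‖ξ - ζ‖ := by
    intro ξ ζ
    refine (hp.lipG _ _).trans (le_of_eq ?_)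
    have e : y + σ • ξ - (y + σ • ζ) = σ • (ξ - ζ) := by
      rw [smul_sub]
      abel
    rw [e, norm_smul, Real.norm_eq_abs, abs_of_nonneg hσ0]
    ring
  have hpg : PG (fun ξ : Eu d => gradient V (y + σ • ξ)) := PG.of_lip hlip
  have hi : Integrable (fun ξ : Eu d => ‖gradient V (y + σ • ξ) - Fp V (gradient V) s y‖)
      (gam (Eu d)) :=
    gam_integrable (hpg.sub (PG.const _)).norm (by fun_prop)
  refine ⟨?_, ?_⟩
  · unfold gau
    rw [integrable_map_measure hcont.aestronglyMeasurable hmap]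
    exact hi
  · unfold gau
    rw [integral_map hmap hcont.aestronglyMeasurable]
    have hn : Integrable (fun ξ : Eu d => ‖ξ‖) (gam (Eu d)) :=
      gam_integrable PG.id.norm (by fun_prop)
    have h1 : ∫ ξ, ‖gradient V (y + σ • ξ) - Fp V (gradient V) s y‖ ∂(gam (Eu d)) ≤
        ∫ ξ, (2 * σ * ‖ξ‖ + 2 * (√(s * d) + 2 * s * ‖y‖)) ∂(gam (Eu d)) := by
      refine integral_mono hi ((hn.const_mul _).add (integrable_const _)) fun ξ => ?_
      have h2 := hlip ξ 0
      rw [smul_zero, add_zero, sub_zero] at h2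
      have h3 := fb_Fp_sub hp hs y
      rw [finrank_euclideanSpace_fin] at h3
      have h4 := norm_add_le (gradient V (y + σ • ξ) - gradient V y)
        (gradient V y - Fp V (gradient V) s y)
      rw [sub_add_sub_cancel] at h4
      exact h4.trans (add_le_add h2 h3)
    rw [integral_add (hn.const_mul _) (integrable_const _), integral_const_mul, integral_const,
      probReal_univ, one_smul] at h1
    refine h1.trans ?_
    have h5 := fb_gam_first (E := Eu d)
    rw [finrank_euclideanSpace_fin] at h5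
    have h6 : σ ≤ √s := Real.sqrt_le_sqrt (by nlinarith only [hs, hv1])
    have h7 : √(s * d) = √s * √d := Real.sqrt_mul hs.le _
    have hs0 : 0 ≤ √s := Real.sqrt_nonneg _
    have hd0 : 0 ≤ √(d : ℝ) := Real.sqrt_nonneg _
    have h8 : s ≤ √s := by
      have h9 : √s ≤ 1 := Real.sqrt_le_one.2 hs1
      have h10 : √s * √s = s := Real.mul_self_sqrt hs.le
      nlinarith only [h10, hσ0, h9, h6]
    have h9 : 2 * σ * ∫ ξ, ‖ξ‖ ∂(gam (Eu d)) ≤ 2 * √s * √d :=
      mul_le_mul (by linarith only [h6]) h5 (integral_nonneg fun _ => norm_nonneg _) (by positivity)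
    have h10 : s * ‖y‖ ≤ √s * ‖y‖ := mul_le_mul_of_nonneg_right h8 (norm_nonneg y)
    have h11 : 0 ≤ √s * ‖y‖ := by (clear * - hs; positivity)
    have h12 : 0 ≤ √s * √(d : ℝ) := by (clear * - hs; positivity)
    rw [h7]
    linarith

end Vale.Agent.P347.S
end

section

/-! Module M3b (P347, S): the noisy Gibbs measures. -/

open MeasureTheory Filter Module
open scoped ENNReal NNReal
open Vale.Agent.P347.Z

namespace Vale.Agent.P347.S

section gw

variable {E : Type*} [NormedAddCommGroup E] [InnerProductSpace ℝ E] [FiniteDimensional ℝ E]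
  [MeasurableSpace E] [BorelSpace E]

/-- Associativity of the convolution. -/
theorem gw_cnv_assoc (μ ν ρ : Measure E) [IsProbabilityMeasure μ] [IsProbabilityMeasure ν]
    [IsProbabilityMeasure ρ] : cnv (cnv μ ν) ρ = cnv μ (cnv ν ρ) := by
  have hadd : Measurable (fun p : E × E => p.1 + p.2) := measurable_fst.add measurable_snd
  have h1 : (cnv μ ν).prod ρ =
      ((μ.prod ν).prod ρ).map (Prod.map (fun p : E × E => p.1 + p.2) id) := by
    unfold cnv
    rw [← Measure.map_prod_map _ _ hadd measurable_id, Measure.map_id]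
  have h2 : μ.prod (cnv ν ρ) =
      (μ.prod (ν.prod ρ)).map (Prod.map id (fun p : E × E => p.1 + p.2)) := by
    unfold cnv
    rw [← Measure.map_prod_map _ _ measurable_id hadd, Measure.map_id]
  have h3 : μ.prod (ν.prod ρ) = ((μ.prod ν).prod ρ).map MeasurableEquiv.prodAssoc :=
    (measurePreserving_prodAssoc μ ν ρ).map_eq.symm
  have e1 : cnv (cnv μ ν) ρ = ((cnv μ ν).prod ρ).map (fun p => p.1 + p.2) := rfl
  have e2 : cnv μ (cnv ν ρ) = (μ.prod (cnv ν ρ)).map (fun p => p.1 + p.2) := rfl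
  rw [e1, e2, h1, h2, h3, Measure.map_map hadd (hadd.prodMap measurable_id),
    Measure.map_map (measurable_id.prodMap hadd) MeasurableEquiv.prodAssoc.measurable,
    Measure.map_map hadd ((measurable_id.prodMap hadd).comp
      MeasurableEquiv.prodAssoc.measurable)]
  congr 1
  funext p
  simp only [Function.comp_apply, Prod.map_fst, Prod.map_snd, id_eq, add_assoc, MeasurableEquiv.prodAssoc, MeasurableEquiv.coe_mk, Equiv.prodAssoc_apply, Prod.map_apply]

/-- Jensen for the norm. -/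
theorem gw_norm_le {μ : Measure E} [IsProbabilityMeasure μ] (h1 : Integrable (fun x => ‖x‖) μ)
    (h2 : Integrable (fun x => ‖x‖ ^ 2) μ) {c : ℝ} (hc : 0 ≤ c)
    (h : ∫ x, ‖x‖ ^ 2 ∂μ ≤ c ^ 2) : ∫ x, ‖x‖ ∂μ ≤ c := by
  have h3 := var_nonneg (μ := μ) h1 h2
  exact le_of_sq_le_sq (by linarith only [h, h3]) hc

end gw

variable {d : ℕ}

/-- `Y ∼ gibbs (Wp V s)` is `X + √s ξ` with `X ∼ gibbs V`. -/
theorem gibbs_Wp_eq {V : Eu d → ℝ} (hV : V ∈ PotClass d) {s : ℝ} (hs : 0 < s) :
    gibbs (Wp V s) = cnv (gibbs V) (gau 0 (√s)) := by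
  have hP := PotClass.pot hV
  have i1 : IsProbabilityMeasure (gibbs V) := hP.adm.isProb
  have i2 : IsProbabilityMeasure (gibbs (Wp V s)) := (Wp_adm hP hs).isProb
  refine ext_of_forall_integral_eq_of_IsFiniteMeasure fun f => ?_
  have hadd : Measurable (fun p : Eu d × Eu d => p.1 + p.2) := measurable_fst.add measurable_snd
  have h1 := joint_law hP hs (f := fun q => f q.2) (f.continuous.comp continuous_snd).measurable
    ⟨‖f‖, 0, fun q => by
      rw [pow_zero, mul_one]
      exact f.norm_coe_le_norm _⟩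
  have h2 : ∫ y, ∫ x, (fun q : Eu d × Eu d => f q.2) (x, y) ∂(gibbs (post V s y))
      ∂(gibbs (Wp V s)) = ∫ y, f y ∂(gibbs (Wp V s)) := by
    refine integral_congr_ae (Eventually.of_forall fun y => ?_)
    have := (hP.cpot.post_adm hs y).isProb
    simp only
    rw [integral_const, probReal_univ, one_smul]
  rw [← h2, h1]
  unfold cnv
  rw [integral_map hadd.aemeasurable f.continuous.aestronglyMeasurable]
  have hint : Integrable (fun p : Eu d × Eu d => f (p.1 + p.2))
      ((gibbs V).prod (gau 0 (√s))) := by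
    refine Integrable.of_bound
      (f.continuous.comp (continuous_fst.add continuous_snd)).aestronglyMeasurable ‖f‖
      (Eventually.of_forall fun p => f.norm_coe_le_norm _)
  rw [integral_prod _ hint]
  refine integral_congr_ae (Eventually.of_forall fun x => ?_)
  simp only
  unfold gau
  have hf' : Continuous fun y : Eu d => f (x + y) :=
    f.continuous.comp (continuous_const.add continuous_id)
  rw [integral_map (φ := fun ξ : Eu d => 0 + √s • ξ) (f := fun y : Eu d => f (x + y))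
    (by fun_prop) hf'.aestronglyMeasurable]
  simp only [zero_add]

theorem gibbs_prob {V : Eu d → ℝ} (hV : V ∈ PotClass d) : IsProbabilityMeasure (gibbs V) :=
  (PotClass.pot hV).adm.isProb

theorem gibbs_Wp_prob {V : Eu d → ℝ} (hV : V ∈ PotClass d) {s : ℝ} (hs : 0 < s) :
    IsProbabilityMeasure (gibbs (Wp V s)) :=
  (Wp_adm (PotClass.pot hV) hs).isProb

/-- The noisy measures at two levels. -/
theorem gibbs_Wp_add {V : Eu d → ℝ} (hV : V ∈ PotClass d) {s ς : ℝ} (hs : 0 < s) :
    cnv (gibbs (Wp V s)) (gau 0 ς) = gibbs (Wp V (s + ς ^ 2)) := by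
  have i1 := gibbs_prob hV
  rw [gibbs_Wp_eq hV hs, gw_cnv_assoc, gau_cnv, add_zero, Real.sq_sqrt hs.le,
    gibbs_Wp_eq hV (by (clear * - hs; positivity))]

theorem gibbs_Wp_mom {V : Eu d → ℝ} (hV : V ∈ PotClass d) {s : ℝ} (hs : 0 < s) (hs1 : s ≤ 1) :
    Integrable (fun x => ‖x‖) (gibbs (Wp V s)) ∧ ∫ x, ‖x‖ ∂(gibbs (Wp V s)) ≤ 2 * √d := by
  have hP := PotClass.pot hV
  have hA := Wp_adm hP hs
  have i1 := gibbs_Wp_prob hV hs
  have h1 : Integrable (fun x : Eu d => ‖x‖) (gibbs (Wp V s)) :=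
    hA.integrable PG.id.norm (by fun_prop)
  have h2 : Integrable (fun x : Eu d => ‖x‖ ^ 2) (gibbs (Wp V s)) :=
    hA.integrable (PG.id.norm.pow 2) (by fun_prop)
  refine ⟨h1, gw_norm_le h1 h2 (by (clear * -; positivity)) ?_⟩
  have h3 := moment_W hP hs hs1
  rw [finrank_euclideanSpace_fin] at h3
  have h4 : (0 : ℝ) ≤ d := Nat.cast_nonneg d
  rw [mul_pow, Real.sq_sqrt h4]
  linarith

/-- The mean square of the gradient. -/
theorem gibbs_grad_sq {V : Eu d → ℝ} (hV : V ∈ PotClass d) :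
    Integrable (fun x => ‖gradient V x‖ ^ 2) (gibbs V) ∧
      ∫ x, ‖gradient V x‖ ^ 2 ∂(gibbs V) ≤ 2 * d := by
  have hP := PotClass.pot hV
  have hA := hP.adm
  have i1 := gibbs_prob hV
  have cG := hP.cpot.contF
  have pG := hP.cpot.pgF
  refine ⟨hA.integrable (pG.norm.pow 2) (by (clear * - cG; fun_prop)), ?_⟩
  set b := stdOrthonormalBasis ℝ (Eu d) with hb
  have hPb : ∀ v : Eu d, PG (fun x => fderiv ℝ (gradient V) x v) := fun v => by
    refine ⟨2 * ‖v‖, 0, fun x => ?_⟩
    have hL : LipschitzWith 2 (gradient V) := LipschitzWith.of_dist_le_mul fun x y => by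
      rw [dist_eq_norm, dist_eq_norm]
      exact_mod_cast hP.lipG x y
    have h0 : ‖fderiv ℝ (gradient V) x‖ ≤ 2 := by
      exact_mod_cast (hP.hess x).le_of_lipschitz hL
    rw [pow_zero, mul_one]
    exact ((fderiv ℝ (gradient V) x).le_opNorm v).trans
      (mul_le_mul_of_nonneg_right h0 (norm_nonneg v))
  have h1 : ∀ i, ∫ x, (inner ℝ (gradient V x) (b i) : ℝ) ^ 2 ∂(gibbs V) ≤ 2 := fun i => by
    have h2 := gibbs_ibp hA hP.grad cG pG (f := fun x => (inner ℝ (gradient V x) (b i) : ℝ))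
      (f' := fun x => fderiv ℝ (gradient V) x (b i)) (fun x => by
        have h3 : HasFDerivAt (fun x => innerSL ℝ (b i) (gradient V x))
            ((innerSL ℝ (b i)).comp (fderiv ℝ (gradient V) x)) x :=
          (innerSL ℝ (b i)).hasFDerivAt.comp x (hP.hess x)
        have h4 : (fun x => (inner ℝ (gradient V x) (b i) : ℝ)) =
            fun x => innerSL ℝ (b i) (gradient V x) := by
          funext x; rw [innerSL_apply_apply, real_inner_comm]
        have h6 : innerSL ℝ (fderiv ℝ (gradient V) x (b i)) =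
            (innerSL ℝ (b i)).comp (fderiv ℝ (gradient V) x) :=
          ContinuousLinearMap.ext fun u => by
            rw [innerSL_apply_apply, ContinuousLinearMap.comp_apply, innerSL_apply_apply]
            exact hP.symm x (b i) u
        rw [h4, h6]
        exact h3) (hP.contH.clm_apply continuous_const) (pG.inner (PG.const _)) (hPb _) (b i)
    have h3 : ∫ x, (inner ℝ (gradient V x) (b i) : ℝ) ^ 2 ∂(gibbs V) =
        ∫ x, (inner ℝ (fderiv ℝ (gradient V) x (b i)) (b i) : ℝ) ∂(gibbs V) := by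
      rw [h2]
      refine integral_congr_ae (Eventually.of_forall fun x => ?_)
      simp only
      ring
    rw [h3]
    have h4 : ∫ x, (inner ℝ (fderiv ℝ (gradient V) x (b i)) (b i) : ℝ) ∂(gibbs V) ≤
        ∫ x : Eu d, (2 : ℝ) ∂(gibbs V) := by
      refine integral_mono (hA.integrable ((hPb _).inner (PG.const _))
        ((hP.contH.clm_apply continuous_const).inner continuous_const).aestronglyMeasurable)
        (integrable_const _) fun x => ?_
      have := hP.hi x (b i)
      rw [b.orthonormal.1 i] at this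
      simpa only [ge_iff_le, one_pow, mul_one] using this
    refine h4.trans ?_
    rw [integral_const, probReal_univ, one_smul]
  have h5 : ∀ x, ‖gradient V x‖ ^ 2 = ∑ i, (inner ℝ (gradient V x) (b i) : ℝ) ^ 2 := by
    intro x
    rw [← b.sum_sq_norm_inner_left (gradient V x)]
    simp only [Real.norm_eq_abs, sq_abs]
  simp_rw [h5]
  rw [integral_finsetSum]
  · refine (Finset.sum_le_sum fun i _ => h1 i).trans ?_
    simp only [Finset.sum_const, Finset.card_univ, finrank_euclideanSpace, Fintype.card_fin, nsmul_eq_mul, mul_comm, Std.le_refl]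
  · intro i _
    exact hA.integrable ((pG.inner (PG.const _)).pow 2) (by fun_prop)

end Vale.Agent.P347.S
end
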