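import Vale.Agent.P347.MathlibUsed

set_option linter.all false

section

/-! Task E (P347): Simpson type quadrature estimates with three derivatives. -/

open MeasureTheory Filter Set intervalIntegral

namespace Vale.Agent.P347

variable {E : Type*} [NormedAddCommGroup E] [NormedSpace ℝ E] [CompleteSpace E]

end Vale.Agent.P347
end

section

/-! Iteration of the dual entropy inequality (P347, tasks I3 and L). -/

open MeasureTheory Filter Set
open scoped ENNReal NNReal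

namespace Vale.Agent.P347

variable {S : Type*} [MeasurableSpace S]

/-- Bounded measurable functions (same as `BM`). -/
def BMf (f : S → ℝ) : Prop := Measurable f ∧ ∃ C, ∀ x, |f x| ≤ C

theorem BMf.const (c : ℝ) : BMf (fun _ : S => c) := ⟨measurable_const, |c|, fun _ => le_rfl⟩

theorem BMf.integrable {μ : Measure S} [IsFiniteMeasure μ] {f : S → ℝ} (hf : BMf f) :
    Integrable f μ := by
  obtain ⟨hm, C, hC⟩ := hf
  exact Integrable.of_bound hm.aestronglyMeasurable C (Eventually.of_forall hC)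

theorem BMf.exp {f : S → ℝ} (hf : BMf f) : BMf (fun x => Real.exp (f x)) := by
  obtain ⟨hm, C, hC⟩ := hf
  refine ⟨Real.measurable_exp.comp hm, Real.exp C, fun x => ?_⟩
  rw [abs_of_pos (Real.exp_pos _)]
  exact Real.exp_le_exp.2 ((le_abs_self _).trans (hC x))

theorem BMf.const_mul {f : S → ℝ} (hf : BMf f) (c : ℝ) : BMf (fun x => c * f x) := by
  obtain ⟨hm, C, hC⟩ := hf
  refine ⟨hm.const_mul c, |c| * C, fun x => ?_⟩
  rw [abs_mul]
  exact mul_le_mul_of_nonneg_left (hC x) (abs_nonneg c)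

theorem BMf.add {f g : S → ℝ} (hf : BMf f) (hg : BMf g) : BMf (fun x => f x + g x) := by
  obtain ⟨hm, C, hC⟩ := hf
  obtain ⟨hm', C', hC'⟩ := hg
  exact ⟨hm.add hm', C + C', fun x => (abs_add_le _ _).trans (add_le_add (hC x) (hC' x))⟩

/-- A Markov operator acting on bounded measurable functions. -/
structure MarkovOp (K : (S → ℝ) → (S → ℝ)) : Prop where
  bm : ∀ f, BMf f → BMf (K f)
  lin : ∀ f g, BMf f → BMf g → ∀ a b : ℝ, ∀ x, K (fun x => a * f x + b * g x) x = a * K f x + b * K g x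
  mono : ∀ f g, BMf f → BMf g → (∀ x, f x ≤ g x) → ∀ x, K f x ≤ K g x
  one : ∀ x, K (fun _ => 1) x = 1

variable {K : (S → ℝ) → (S → ℝ)}

theorem MarkovOp.const (h : MarkovOp K) (c : ℝ) (x : S) : K (fun _ => c) x = c := by
  have h1 := h.lin (fun _ => 1) (fun _ => 1) (BMf.const 1) (BMf.const 1) c 0 x
  have h2 : (fun _ : S => c * 1 + 0 * (1 : ℝ)) = fun _ => c := by funext; ring
  rw [h2, h.one] at h1
  rw [h1]; ring

theorem MarkovOp.iterate_bm (h : MarkovOp K) (N : ℕ) : ∀ f, BMf f → BMf (K^[N] f) := by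
  induction N with
  | zero => intro f hf; exact hf
  | succ N ih =>
    intro f hf
    rw [Function.iterate_succ_apply]
    exact ih _ (h.bm f hf)

theorem MarkovOp.iterate (h : MarkovOp K) (N : ℕ) : MarkovOp (K^[N]) := by
  induction N with
  | zero =>
    exact ⟨fun f hf => hf, fun f g _ _ a b x => rfl, fun f g _ _ hfg x => hfg x, fun x => rfl⟩
  | succ N ih =>
    refine ⟨fun f hf => h.iterate_bm (N + 1) f hf, fun f g hf hg a b x => ?_,
      fun f g hf hg hfg x => ?_, fun x => ?_⟩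
    · rw [Function.iterate_succ_apply, Function.iterate_succ_apply, Function.iterate_succ_apply]
      have : K (fun x => a * f x + b * g x) = fun x => a * K f x + b * K g x := by
        funext y; exact h.lin f g hf hg a b y
      rw [this]
      exact ih.lin _ _ (h.bm f hf) (h.bm g hg) a b x
    · rw [Function.iterate_succ_apply, Function.iterate_succ_apply]
      exact ih.mono _ _ (h.bm f hf) (h.bm g hg) (fun y => h.mono f g hf hg hfg y) x
    · rw [Function.iterate_succ_apply]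
      have : K (fun _ => 1) = fun _ => 1 := by funext y; exact h.one y
      rw [this]
      exact ih.one x

/-- The logarithm of `K e^f`. -/
theorem MarkovOp.log_bm (h : MarkovOp K) {f : S → ℝ} (hf : BMf f) :
    (∀ x, 0 < K (fun x => Real.exp (f x)) x) ∧
      BMf (fun x => Real.log (K (fun x => Real.exp (f x)) x)) := by
  obtain ⟨hm, C, hC⟩ := id hf
  have hlo : ∀ x, Real.exp (-C) ≤ K (fun x => Real.exp (f x)) x := by
    intro x
    rw [← h.const (Real.exp (-C)) x]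
    refine h.mono _ _ (BMf.const _) hf.exp (fun y => ?_) x
    exact Real.exp_le_exp.2 (abs_le.1 (hC y)).1
  have hhi : ∀ x, K (fun x => Real.exp (f x)) x ≤ Real.exp C := by
    intro x
    rw [← h.const (Real.exp C) x]
    refine h.mono _ _ hf.exp (BMf.const _) (fun y => ?_) x
    exact Real.exp_le_exp.2 (abs_le.1 (hC y)).2
  have hpos : ∀ x, 0 < K (fun x => Real.exp (f x)) x := fun x => (Real.exp_pos _).trans_le (hlo x)
  refine ⟨hpos, Real.measurable_log.comp (h.bm _ hf.exp).1, C, fun x => ?_⟩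
  rw [abs_le]
  constructor
  · rw [Real.le_log_iff_exp_le (hpos x)]
    exact hlo x
  · rw [Real.log_le_iff_le_exp (hpos x)]
    exact hhi x

variable {μ : Measure S} [IsProbabilityMeasure μ]

/-- Jensen's inequality for the exponential. -/
theorem integral_le_log_exp {f : S → ℝ} (hf : BMf f) :
    ∫ x, f x ∂μ ≤ Real.log (∫ x, Real.exp (f x) ∂μ) := by
  have hj : Real.exp (∫ x, f x ∂μ) ≤ ∫ x, Real.exp (f x) ∂μ :=
    convexOn_exp.map_integral_le Real.continuous_exp.continuousOn isClosed_univ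
      (Eventually.of_forall fun _ => mem_univ _) hf.integrable hf.exp.integrable
  rw [Real.le_log_iff_exp_le ((Real.exp_pos _).trans_le hj)]
  exact hj

theorem dv_iterate {P : (S → ℝ) → (S → ℝ)} (hK : MarkovOp K)
    (hP : ∀ f, BMf f → BMf (P f) ∧ ∫ x, P f x ∂μ = ∫ x, f x ∂μ)
    {k : S → ℝ} (hk : Integrable k μ)
    (hdv : ∀ f, BMf f → ∀ x, P f x ≤ k x + Real.log (K (fun x => Real.exp (f x)) x))
    (N : ℕ) : ∀ f, BMf f →
      ∫ x, f x ∂μ ≤ N * ∫ x, k x ∂μ + Real.log (∫ x, K^[N] (fun x => Real.exp (f x)) x ∂μ) := by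
  induction N with
  | zero =>
    intro f hf
    simpa only [CharP.cast_eq_zero, zero_mul, Function.iterate_zero, id_eq, zero_add] using     integral_le_log_exp (μ := μ) hf
  | succ N ih =>
    intro f hf
    obtain ⟨hpos, hlog⟩ := hK.log_bm hf
    have h1 := ih _ hlog
    have h2 : (fun x => Real.exp (Real.log (K (fun x => Real.exp (f x)) x))) =
        K (fun x => Real.exp (f x)) := by
      funext x; exact Real.exp_log (hpos x)
    rw [h2, ← Function.iterate_succ_apply] at h1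
    have h3 : ∫ x, P f x ∂μ ≤
        ∫ x, (k x + Real.log (K (fun x => Real.exp (f x)) x)) ∂μ :=
      integral_mono (hP f hf).1.integrable (hk.add hlog.integrable) fun x => hdv f hf x
    rw [(hP f hf).2, integral_add hk hlog.integrable] at h3
    push_cast
    linarith only [h1, h3]

/-- Total variation form. -/
theorem dv_tv {P : (S → ℝ) → (S → ℝ)} (hK : MarkovOp K)
    (hP : ∀ f, BMf f → BMf (P f) ∧ ∫ x, P f x ∂μ = ∫ x, f x ∂μ)
    {k : S → ℝ} (hk : Integrable k μ)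
    (hdv : ∀ f, BMf f → ∀ x, P f x ≤ k x + Real.log (K (fun x => Real.exp (f x)) x))
    (N : ℕ) {g : S → ℝ} (hg : Measurable g) (bg : ∀ x, 0 ≤ g x ∧ g x ≤ 1) :
    |(∫ x, g x ∂μ) - ∫ x, K^[N] g x ∂μ| ≤ 2 * √(N * ∫ x, k x ∂μ) := by
  set a : ℝ := N * ∫ x, k x ∂μ with ha
  have hKN := hK.iterate N
  have key := dv_iterate hK hP hk hdv N
  -- nonnegativity of `a`
  have ha0 : 0 ≤ a := by
    have h1 := key (fun _ => 0) (BMf.const 0)
    simp only [integral_zero, Real.exp_zero] at h1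
    have h2 : ∫ x, K^[N] (fun _ => 1) x ∂μ = 1 := by
      simp_rw [hKN.one]
      simp
    rw [h2, Real.log_one, add_zero] at h1
    exact h1
  -- one-sided estimate
  have one : ∀ g : S → ℝ, Measurable g → (∀ x, 0 ≤ g x ∧ g x ≤ 1) → ∀ lam : ℝ, 0 < lam → lam ≤ 1 →
      (∫ x, g x ∂μ) - ∫ x, K^[N] g x ∂μ ≤ a / lam + lam := by
    intro g hg bg lam hl0 hl1
    have hgb : BMf g := ⟨hg, 1, fun x => by rw [abs_of_nonneg (bg x).1]; exact (bg x).2⟩
    have h1 := key (fun x => lam * g x) (hgb.const_mul lam)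
    rw [integral_const_mul] at h1
    set q := ∫ x, K^[N] g x ∂μ with hq
    have hq0 : 0 ≤ q := integral_nonneg fun x => by
      have := hKN.mono (fun _ => 0) g (BMf.const 0) hgb (fun y => (bg y).1) x
      rwa [hKN.const 0 x] at this
    have hq1 : q ≤ 1 := by
      have : q ≤ ∫ _x : S, (1 : ℝ) ∂μ :=
        integral_mono (hKN.bm g hgb).integrable (integrable_const _) fun x => by
          have := hKN.mono g (fun _ => 1) hgb (BMf.const 1) (fun y => (bg y).2) x
          rwa [hKN.const 1 x] at this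
      simpa only [ge_iff_le, integral_const, probReal_univ, smul_eq_mul, mul_one] using this
    have h2 : ∀ x, K^[N] (fun x => Real.exp (lam * g x)) x ≤
        1 + (Real.exp lam - 1) * K^[N] g x := by
      intro x
      have h3 := hKN.mono (fun x => Real.exp (lam * g x))
        (fun x => 1 * 1 + (Real.exp lam - 1) * g x) (hgb.const_mul lam).exp
        ((BMf.const (1 * 1)).add (hgb.const_mul _)) (fun y => ?_) x
      · rw [hKN.lin (fun _ => 1) g (BMf.const 1) hgb 1 (Real.exp lam - 1) x, hKN.one] at h3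
        linarith only [h3]
      · -- convexity of the exponential
        have h4 := convexOn_exp.2 (mem_univ (0 : ℝ)) (mem_univ lam) (sub_nonneg.2 (bg y).2)
          (bg y).1 (by ring)
        simp only [smul_eq_mul, mul_zero, zero_add, Real.exp_zero, mul_one] at h4
        rw [mul_comm lam]
        linarith only [h4]
    have hpos : 0 < ∫ x, K^[N] (fun x => Real.exp (lam * g x)) x ∂μ := by
      obtain ⟨hp, -⟩ := hKN.log_bm (hgb.const_mul lam)
      have hlow : ∀ x, 1 ≤ K^[N] (fun x => Real.exp (lam * g x)) x := by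
        intro x
        rw [← hKN.one x]
        refine hKN.mono _ _ (BMf.const 1) (hgb.const_mul lam).exp (fun y => ?_) x
        exact Real.one_le_exp (mul_nonneg hl0.le (bg y).1)
      have : ∫ _x : S, (1 : ℝ) ∂μ ≤ ∫ x, K^[N] (fun x => Real.exp (lam * g x)) x ∂μ :=
        integral_mono (integrable_const _) (hKN.bm _ (hgb.const_mul lam).exp).integrable hlow
      simp only [integral_const, probReal_univ, smul_eq_mul, mul_one] at this
      linarith only [this]
    have h5 : ∫ x, K^[N] (fun x => Real.exp (lam * g x)) x ∂μ ≤ 1 + (Real.exp lam - 1) * q := by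
      have h6 : ∫ x, K^[N] (fun x => Real.exp (lam * g x)) x ∂μ ≤
          ∫ x, (1 + (Real.exp lam - 1) * K^[N] g x) ∂μ :=
        integral_mono (hKN.bm _ (hgb.const_mul lam).exp).integrable
          ((integrable_const _).add ((hKN.bm g hgb).integrable.const_mul _)) h2
      rw [integral_add (integrable_const _) ((hKN.bm g hgb).integrable.const_mul _),
        integral_const_mul] at h6
      simpa only [ge_iff_le, integral_const, probReal_univ, smul_eq_mul, mul_one] using h6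
    have h7 : Real.log (∫ x, K^[N] (fun x => Real.exp (lam * g x)) x ∂μ) ≤
        (Real.exp lam - 1) * q := by
      have := Real.log_le_sub_one_of_pos hpos
      linarith only [h5, this]
    have h8 : Real.exp lam - 1 ≤ lam + lam ^ 2 := by
      have := (abs_le.1 (Real.abs_exp_sub_one_sub_id_le (x := lam) (by
        rw [abs_of_pos hl0]; exact hl1))).2
      linarith only [this]
    have h9 : (Real.exp lam - 1) * q ≤ (lam + lam ^ 2) * q := mul_le_mul_of_nonneg_right h8 hq0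
    have h10 : lam * (∫ x, g x ∂μ) ≤ a + (lam + lam ^ 2) * q := by linarith only [h1, h7, h9]
    have h11 : lam * ((∫ x, g x ∂μ) - q) ≤ lam * (a / lam + lam) := by
      have e : lam * (a / lam + lam) = a + lam ^ 2 := by (clear * - hl0 ha0; field_simp)
      rw [e]
      nlinarith only [h1, h7, h9, hq1]
    exact le_of_mul_le_mul_left h11 hl0
  -- optimisation
  have opt : ∀ g : S → ℝ, Measurable g → (∀ x, 0 ≤ g x ∧ g x ≤ 1) →
      (∫ x, g x ∂μ) - ∫ x, K^[N] g x ∂μ ≤ 2 * √a := by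
    intro g hg bg
    have hgb : BMf g := ⟨hg, 1, fun x => by rw [abs_of_nonneg (bg x).1]; exact (bg x).2⟩
    rcases ha0.eq_or_lt with h0 | h0
    · rw [← h0, Real.sqrt_zero, mul_zero]
      refine le_of_forall_pos_le_add fun e he => ?_
      have h1 := one g hg bg (min e 1) (lt_min he one_pos) (min_le_right _ _)
      rw [← h0, zero_div, zero_add] at h1
      rw [zero_add]
      exact h1.trans (min_le_left _ _)
    · rcases le_or_gt a 1 with h1 | h1
      · have hs0 : 0 < √a := Real.sqrt_pos.2 h0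
        have hs1 : √a ≤ 1 := by rw [Real.sqrt_le_one]; exact h1
        have h2 := one g hg bg (√a) hs0 hs1
        have e : a / √a = √a := Real.div_sqrt
        rw [e] at h2
        linarith only [h2]
      · have hs : 1 ≤ √a := by
          rw [← Real.sqrt_one]
          exact Real.sqrt_le_sqrt h1.le
        have h2 : ∫ x, g x ∂μ ≤ 1 := by
          have : ∫ x, g x ∂μ ≤ ∫ _x : S, (1 : ℝ) ∂μ :=
            integral_mono hgb.integrable (integrable_const _) fun x => (bg x).2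
          simpa only [ge_iff_le, integral_const, probReal_univ, smul_eq_mul, mul_one] using this
        have h3 : 0 ≤ ∫ x, K^[N] g x ∂μ := integral_nonneg fun x => by
          have := hKN.mono (fun _ => 0) g (BMf.const 0) hgb (fun y => (bg y).1) x
          rwa [hKN.const 0 x] at this
        linarith only [hs, h2, h3]
  have hgb : BMf g := ⟨hg, 1, fun x => by rw [abs_of_nonneg (bg x).1]; exact (bg x).2⟩
  have hA := opt g hg bg
  have hB := opt (fun x => 1 * 1 + (-1) * g x) (by fun_prop) (fun x => by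
    constructor <;> linarith [(bg x).1, (bg x).2])
  have e1 : ∫ x, (1 * 1 + (-1) * g x) ∂μ = 1 - ∫ x, g x ∂μ := by
    rw [integral_add (integrable_const _) (hgb.integrable.const_mul _),
      integral_const_mul (-1 : ℝ)]
    simp only [integral_const, probReal_univ, smul_eq_mul]
    ring
  have e2 : ∫ x, K^[N] (fun x => 1 * 1 + (-1) * g x) x ∂μ = 1 - ∫ x, K^[N] g x ∂μ := by
    have h3 : ∀ x, K^[N] (fun x => 1 * 1 + (-1) * g x) x = 1 * 1 + (-1) * K^[N] g x := by
      intro x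
      rw [hKN.lin (fun _ => 1) g (BMf.const 1) hgb 1 (-1) x, hKN.one]
    simp_rw [h3]
    rw [integral_add (integrable_const _) ((hKN.bm g hgb).integrable.const_mul _),
      integral_const_mul (-1 : ℝ)]
    simp only [integral_const, probReal_univ, smul_eq_mul]
    ring
  rw [e1, e2] at hB
  rw [abs_le]
  constructor <;> linarith only [hA, hB]

/-- Jensen's inequality for the square root. -/
theorem integral_sqrt_le {g : S → ℝ} (hg : Integrable g μ) (h0 : ∀ x, 0 ≤ g x) :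
    Integrable (fun x => √(g x)) μ ∧ ∫ x, √(g x) ∂μ ≤ √(∫ x, g x ∂μ) := by
  have hint : Integrable (fun x => √(g x)) μ := by
    refine (hg.add (integrable_const 1)).mono'
      (Real.continuous_sqrt.comp_aestronglyMeasurable hg.aestronglyMeasurable)
      (Eventually.of_forall fun x => ?_)
    rw [Real.norm_eq_abs, abs_of_nonneg (Real.sqrt_nonneg _), Pi.add_apply]
    have h1 := Real.sq_sqrt (h0 x)
    nlinarith only [h1]
  refine ⟨hint, ?_⟩
  exact Real.strictConcaveOn_sqrt.concaveOn.le_map_integral Real.continuous_sqrt.continuousOn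
    isClosed_Ici (Eventually.of_forall fun x => h0 x) hg hint

end Vale.Agent.P347
end

section

/-! Task O (P347): choice of the parameters, elementary estimates. -/

open Filter Topology

namespace Vale.Agent.P347

/-- The smallness parameter. -/
noncomputable def etaP (b L : ℝ) : ℝ := (1 + L) * Real.exp (-b * L)

theorem etaP_tendsto {b : ℝ} (hb : 0 < b) :
    Tendsto (fun n : ℕ => etaP b (Real.log n)) atTop (𝓝 0) := by
  have h1 : Tendsto (fun x : ℝ => (1 + Real.log x) / x ^ b) atTop (𝓝 0) := by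
    have h2 : Tendsto (fun x : ℝ => Real.log x / x ^ b) atTop (𝓝 0) :=
      (isLittleO_log_rpow_atTop hb).tendsto_div_nhds_zero
    have h3 : Tendsto (fun x : ℝ => x ^ (-b)) atTop (𝓝 0) := tendsto_rpow_neg_atTop hb
    have h4 := h3.add h2
    rw [add_zero] at h4
    refine h4.congr' ?_
    filter_upwards [eventually_gt_atTop 0] with x hx
    rw [Real.rpow_neg hx.le, add_div, one_div]
  have h5 := h1.comp tendsto_natCast_atTop_atTop
  refine h5.congr' ?_
  filter_upwards [eventually_gt_atTop 0] with n hn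
  have hn' : (0 : ℝ) < n := by exact_mod_cast hn
  simp only [Function.comp, etaP]
  rw [Real.rpow_def_of_pos hn', div_eq_mul_inv, ← Real.exp_neg]
  congr 2
  ring

section Fixed

variable {a b L : ℝ}

theorem exp_le_etaP {c : ℝ} (hL : 0 ≤ L) (hc : c ≤ -b) : Real.exp (c * L) ≤ etaP b L := by
  have h1 : Real.exp (c * L) ≤ Real.exp (-b * L) :=
    Real.exp_le_exp.2 (mul_le_mul_of_nonneg_right hc hL)
  have h2 : 0 < Real.exp (-b * L) := Real.exp_pos _
  unfold etaP
  nlinarith only [h1, hL, h2]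

theorem mul_exp_le_etaP {c : ℝ} (hL : 0 ≤ L) (hc : c ≤ -b) :
    (1 + L) * Real.exp (c * L) ≤ etaP b L := by
  have h1 : Real.exp (c * L) ≤ Real.exp (-b * L) :=
    Real.exp_le_exp.2 (mul_le_mul_of_nonneg_right hc hL)
  exact mul_le_mul_of_nonneg_left h1 (by linarith)

theorem exp_mul_exp' (c d : ℝ) : Real.exp (c * L) * Real.exp (d * L) = Real.exp ((c + d) * L) := by
  rw [← Real.exp_add]; congr 1; ring

theorem exp_pow' (c : ℝ) (k : ℕ) : Real.exp (c * L) ^ k = Real.exp ((k * c) * L) := by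
  rw [← Real.exp_nat_mul]; congr 1; ring

end Fixed

section Par

variable {a L : ℝ}

variable (ha : 0 < a) (hL : 0 ≤ L)

theorem exp_le_one' {c : ℝ} (hL : 0 ≤ L) (hc : c ≤ 0) : Real.exp (c * L) ≤ 1 :=
  Real.exp_le_one_iff.2 (mul_nonpos_of_nonpos_of_nonneg hc hL)

end Par

end Vale.Agent.P347
end

section

/-! Task G5-O (P347): choice of the parameters for the exponent 1/5. -/

open Filter Topology

namespace Vale.Agent.P347

theorem sqrt_le_hundredth {x : ℝ} (hx : x ≤ (1 / 100) ^ 2) : √x ≤ 1 / 100 :=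
  (Real.sqrt_le_sqrt hx).trans (le_of_eq (Real.sqrt_sq (by norm_num)))

section Par5

variable {a b L s h τ η : ℝ} {N M : ℕ}

theorem p5_queries {J : ℕ} (ha : 0 < a) (hL : 0 ≤ L) (hη0 : 0 < η)
    (hexp' : ∀ c : ℝ, c ≤ -b → (1 + L) * Real.exp (c * L) ≤ η) (hba : b ≤ a)
    (hηJ : 10 ^ 20 * ((2 * (J : ℝ) + 5) * η) ≤ 1)
    (hs : s = Real.exp ((-(2 / 5)) * L) / 10 ^ 4)
    (hh : h = Real.exp ((-(1 / 5 + a)) * L) / 10 ^ 4)
    (hτ : τ = Real.exp ((-(3 / 5 + a)) * L))
    (hN2 : (N : ℝ) ≤ 500 * (1 + L) / h + 1) (hM4 : (M : ℝ) ≤ 7 * (1 + L) * (s / τ)) :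
    (((2 * J + 4) * N + M : ℕ) : ℝ) ≤ Real.exp ((1 / 5 + 2 * a) * L) := by
  have hh0 : 0 < h := by rw [hh]; positivity
  have hτ0 : 0 < τ := by rw [hτ]; positivity
  have hJ0 : (0 : ℝ) ≤ J := Nat.cast_nonneg J
  have e1 : s / τ = Real.exp ((1 / 5 + a) * L) / 10 ^ 4 := by
    rw [div_eq_iff hτ0.ne', hs, hτ]
    rw [div_mul_eq_mul_div, exp_mul_exp']
    congr 2
    ring
  have e2 : 500 * (1 + L) / h = 5 * 10 ^ 6 * ((1 + L) * Real.exp ((1 / 5 + a) * L)) := by
    rw [div_eq_iff hh0.ne', hh]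
    have : Real.exp ((1 / 5 + a) * L) * Real.exp ((-(1 / 5 + a)) * L) = 1 := by
      rw [exp_mul_exp']; simp
    calc 500 * (1 + L) = 500 * (1 + L) * (Real.exp ((1 / 5 + a) * L) *
          Real.exp ((-(1 / 5 + a)) * L)) := by rw [this, mul_one]
      _ = _ := by ring
  have h2 : Real.exp ((1 / 5 + 2 * a) * L) =
      Real.exp ((1 / 5 + a) * L) * Real.exp (a * L) := by
    rw [exp_mul_exp']; congr 1; ring
  have h4 : Real.exp ((-a) * L) * Real.exp (a * L) = 1 := by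
    rw [exp_mul_exp']; simp
  have h5 := hexp' (-a) (by linarith only [hba])
  rw [e2] at hN2
  rw [e1] at hM4
  rw [h2]
  have hZ1 : 1 ≤ Real.exp ((1 / 5 + a) * L) := Real.one_le_exp (by (clear * - ha hL; positivity))
  generalize Real.exp ((1 / 5 + a) * L) = Z at *
  have hA : 0 < Real.exp (a * L) := Real.exp_pos _
  generalize Real.exp (a * L) = A at *
  generalize Real.exp ((-a) * L) = B at *
  have h6 : 1 ≤ (1 + L) * Z := by nlinarith only [hL, hZ1]
  push_cast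
  have h7 : (2 * (J : ℝ) + 4) * N + M ≤ (2 * J + 5) * (10 ^ 7 * ((1 + L) * Z)) := by
    have h8 : (N : ℝ) ≤ 10 ^ 7 * ((1 + L) * Z) := by linarith only [hN2, h6]
    have h9 : (M : ℝ) ≤ 10 ^ 7 * ((1 + L) * Z) := by
      have : 7 * (1 + L) * (Z / 10 ^ 4) = 7 / 10 ^ 4 * ((1 + L) * Z) := by ring
      rw [this] at hM4
      linarith only [hM4]
    have h10 := mul_le_mul_of_nonneg_left h8 (show (0 : ℝ) ≤ 2 * J + 4 by linarith only [])
    linarith only [hM4, h10]
  refine h7.trans ?_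
  have h11 : (2 * (J : ℝ) + 5) * (10 ^ 7 * ((1 + L) * Z)) =
      (10 ^ 7 * ((2 * J + 5) * ((1 + L) * B))) * (Z * A) := by
    calc (2 * (J : ℝ) + 5) * (10 ^ 7 * ((1 + L) * Z)) =
        (2 * (J : ℝ) + 5) * (10 ^ 7 * ((1 + L) * Z)) * (B * A) := by rw [h4, mul_one]
      _ = _ := by ring
  rw [h11]
  have h12 : 10 ^ 7 * ((2 * (J : ℝ) + 5) * ((1 + L) * B)) ≤ 1 := by
    have h13 : (2 * (J : ℝ) + 5) * ((1 + L) * B) ≤ (2 * J + 5) * η :=
      mul_le_mul_of_nonneg_left h5 (by linarith only [])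
    have h14 : 0 ≤ (2 * (J : ℝ) + 5) * η := by (clear * - hη0; positivity)
    linarith only [hηJ, h13]
  have h15 : 0 ≤ Z * A := by (clear * - hZ1 hA; positivity)
  nlinarith only [hη0, hηJ, h4, h6, h11, h5, h15]

theorem p5_t1 (_hL : 0 ≤ L) (ha1 : a ≤ 1 / 2) (hexp : ∀ c : ℝ, c ≤ -b → Real.exp (c * L) ≤ η)
    (hb5 : b ≤ 1 / 5) (hη1 : 10 ^ 20 * η ≤ 1) (hh0 : 0 < h) (hh1 : h ≤ 1 / 10000)
    (hq : 1 / (s * τ / (s + τ)) ≤ 2 * Real.exp ((3 / 5 + a) * L))
    (hq0 : 0 < s * τ / (s + τ)) (hNh1 : 500 * (1 + L) ≤ N * h) :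
    2 / √(s * τ / (s + τ)) * √(12 * (1 - h / 100) ^ N * Real.exp (1 * L)) ≤ 1 / 50 := by
  have h1 : (1 - h / 100) ^ N ≤ Real.exp ((-5) * L) := by
    have h2 : 1 - h / 100 ≤ Real.exp (-(h / 100)) := Real.one_sub_le_exp_neg _
    have h3 : 0 ≤ 1 - h / 100 := by linarith only [hh1]
    refine (pow_le_pow_left₀ h3 h2 N).trans ?_
    rw [← Real.exp_nat_mul]
    refine Real.exp_le_exp.2 ?_
    linarith only [hNh1]
  have hb' : 0 ≤ 1 - h / 100 := by linarith only [hh1]
  have hX0 : 0 ≤ 12 * (1 - h / 100) ^ N * Real.exp (1 * L) := by (clear * - hb'; positivity)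
  have h2 : 2 / √(s * τ / (s + τ)) * √(12 * (1 - h / 100) ^ N * Real.exp (1 * L)) =
      2 * √(12 * (1 - h / 100) ^ N * Real.exp (1 * L) * (1 / (s * τ / (s + τ)))) := by
    rw [Real.sqrt_mul hX0, Real.sqrt_div zero_le_one, Real.sqrt_one]
    ring
  rw [h2]
  have h3 : 12 * (1 - h / 100) ^ N * Real.exp (1 * L) * (1 / (s * τ / (s + τ))) ≤
      (1 / 100) ^ 2 := by
    calc 12 * (1 - h / 100) ^ N * Real.exp (1 * L) * (1 / (s * τ / (s + τ)))
        ≤ 12 * Real.exp ((-5) * L) * Real.exp (1 * L) * (2 * Real.exp ((3 / 5 + a) * L)) := by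
          refine mul_le_mul ?_ hq (by (clear * - hq0; positivity)) (by positivity)
          exact mul_le_mul_of_nonneg_right (by linarith only [h1]) (Real.exp_pos _).le
      _ = 24 * Real.exp ((-(17 / 5) + a) * L) := by
          rw [mul_assoc 12, exp_mul_exp', mul_mul_mul_comm, exp_mul_exp']
          norm_num
          left
          ring
      _ ≤ (1 / 100) ^ 2 := by
          have := hexp (-(17 / 5) + a) (by linarith only [ha1, hb5])
          linarith only [hη1, this]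
  have h4 := sqrt_le_hundredth h3
  linarith only [h4]

theorem p5_t2 (_hL : 0 ≤ L) (hexp' : ∀ c : ℝ, c ≤ -b → (1 + L) * Real.exp (c * L) ≤ η)
    (hba : b ≤ a) (hη1 : 10 ^ 20 * η ≤ 1)
    (hs : s = Real.exp ((-(2 / 5)) * L) / 10 ^ 4)
    (hh : h = Real.exp ((-(1 / 5 + a)) * L) / 10 ^ 4) (hNh2 : (N : ℝ) * h ≤ 501 * (1 + L)) :
    √(Real.exp (N * (10000 * s ^ 2 * h ^ 2 * Real.exp (1 * L))) *
      (Real.exp (N * (10000 * s ^ 2 * h ^ 2 * Real.exp (1 * L))) - 1)) ≤ 1 / 50 := by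
  have hs0 : 0 < s := by rw [hs]; positivity
  have hh0 : 0 < h := by rw [hh]; positivity
  set u := (N : ℝ) * (10000 * s ^ 2 * h ^ 2 * Real.exp (1 * L)) with hu
  have hu0 : 0 ≤ u := by rw [hu]; (clear * - hs0 hh0; positivity)
  have e1 : s ^ 2 * h * Real.exp (1 * L) = Real.exp ((-a) * L) / 10 ^ 12 := by
    rw [hs, hh, div_pow, exp_pow']
    have h5 : Real.exp ((-a) * L) = Real.exp ((((2 : ℕ) : ℝ) * (-(2 / 5))) * L) *
        Real.exp ((-(1 / 5 + a)) * L) * Real.exp (1 * L) := by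
      rw [exp_mul_exp', exp_mul_exp']; congr 1; push_cast; ring
    rw [h5]; ring
  have hu1 : u ≤ 1 / 10 ^ 5 := by
    have e2 : u = 10000 * (N * h) * (s ^ 2 * h * Real.exp (1 * L)) := by rw [hu]; ring
    rw [e2, e1]
    have h5 := hexp' (-a) (by linarith only [hba])
    have h6 : 10000 * (N * h) * (Real.exp ((-a) * L) / 10 ^ 12) ≤
        10000 * (501 * (1 + L)) * (Real.exp ((-a) * L) / 10 ^ 12) := by (clear * - hNh2; gcongr)
    refine h6.trans ?_
    have h7 : 10000 * (501 * (1 + L)) * (Real.exp ((-a) * L) / 10 ^ 12) =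
        501 / 10 ^ 8 * ((1 + L) * Real.exp ((-a) * L)) := by ring
    rw [h7]
    linarith only [hη1, h5]
  have h2 : Real.exp u ≤ 1 + 2 * u := by
    have := Real.exp_bound_div_one_sub_of_interval hu0 (by linarith only [hu1])
    refine this.trans ?_
    rw [div_le_iff₀ (by linarith only [hu1])]
    nlinarith only [hu0, hu1]
  have h3 : 1 ≤ Real.exp u := Real.one_le_exp hu0
  have h4 : Real.exp u * (Real.exp u - 1) ≤ (1 / 100) ^ 2 := by
    have h5 : Real.exp u ≤ 2 := by linarith only [hu1, h2]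
    have h6 : Real.exp u - 1 ≤ 2 * u := by linarith only [h2]
    have h7 : 0 ≤ Real.exp u - 1 := by linarith only [h3]
    nlinarith only [hu1, h2, h3]
  have := sqrt_le_hundredth h4
  linarith only [this]

theorem p5_t3 {m : ℕ} {C : ℝ} (ha : 0 < a) (hL : 0 ≤ L) (hη0 : 0 < η)
    (hexp' : ∀ c : ℝ, c ≤ -b → (1 + L) * Real.exp (c * L) ≤ η)
    (hba : b ≤ a) (hb5 : b ≤ 1 / 5) (hm : 1 ≤ a * m) (hη1 : 10 ^ 20 * η ≤ 1)
    (hηC : 10 ^ 20 * (|C| * η) ≤ 1)
    (hs : s = Real.exp ((-(2 / 5)) * L) / 10 ^ 4)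
    (hh : h = Real.exp ((-(1 / 5 + a)) * L) / 10 ^ 4) (hNh2 : (N : ℝ) * h ≤ 501 * (1 + L)) :
    2 * √(N * (10000000 * h * (h ^ (2 * (m + 1)) * (C * Real.exp (1 * L) / s ^ m) +
        Real.exp (1 * L) * (s ^ 3 + h ^ 5)))) ≤ 1 / 50 := by
  have hs0 : 0 < s := by rw [hs]; positivity
  have hh0 : 0 < h := by rw [hh]; positivity
  have hC0 : 0 ≤ |C| := abs_nonneg C
  set Ln := Real.exp (1 * L) with hLn
  have hLn0 : 0 < Ln := Real.exp_pos _
  have e5 : h ^ (2 * (m + 1)) * (Ln / s ^ m) ≤ Real.exp ((-a) * L) := by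
    rw [← mul_div_assoc, div_le_iff₀ (by positivity)]
    have h1 : h ^ (2 * (m + 1)) ≤ Real.exp ((((2 * (m + 1) : ℕ) : ℝ) * (-(1 / 5 + a))) * L) /
        (10 ^ 4) ^ m := by
      rw [hh, div_pow, exp_pow']
      refine div_le_div_of_nonneg_left (Real.exp_pos _).le (by positivity) ?_
      exact pow_le_pow_right₀ (by norm_num) (by omega)
    have h2 : s ^ m = Real.exp (((m : ℝ) * (-(2 / 5))) * L) / (10 ^ 4) ^ m := by
      rw [hs, div_pow, exp_pow']
    rw [h2]
    calc h ^ (2 * (m + 1)) * Ln ≤ Real.exp ((((2 * (m + 1) : ℕ) : ℝ) * (-(1 / 5 + a))) * L) /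
        (10 ^ 4) ^ m * Ln := mul_le_mul_of_nonneg_right h1 hLn0.le
      _ = Real.exp ((((2 * (m + 1) : ℕ) : ℝ) * (-(1 / 5 + a)) + 1) * L) / (10 ^ 4) ^ m := by
          rw [hLn, div_mul_eq_mul_div, exp_mul_exp']
      _ ≤ Real.exp ((-a + (m : ℝ) * (-(2 / 5))) * L) / (10 ^ 4) ^ m := by
          refine div_le_div_of_nonneg_right (Real.exp_le_exp.2
            (mul_le_mul_of_nonneg_right ?_ hL)) (by positivity)
          push_cast
          nlinarith only [hm]
      _ = Real.exp ((-a) * L) * (Real.exp (((m : ℝ) * (-(2 / 5))) * L) / (10 ^ 4) ^ m) := by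
          rw [← mul_div_assoc, exp_mul_exp']
  have hea := hexp' (-a) (by linarith only [hba])
  have hea0 : 0 < Real.exp ((-a) * L) := Real.exp_pos _
  have e6 : h ^ (2 * (m + 1)) * (C * Ln / s ^ m) ≤ |C| * Real.exp ((-a) * L) := by
    have h1 : h ^ (2 * (m + 1)) * (C * Ln / s ^ m) =
        C * (h ^ (2 * (m + 1)) * (Ln / s ^ m)) := by ring
    rw [h1]
    have h2 : 0 ≤ h ^ (2 * (m + 1)) * (Ln / s ^ m) := by (clear * - hh0 hs0; positivity)
    calc C * (h ^ (2 * (m + 1)) * (Ln / s ^ m)) ≤ |C| * (h ^ (2 * (m + 1)) * (Ln / s ^ m)) :=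
          mul_le_mul_of_nonneg_right (le_abs_self C) h2
      _ ≤ |C| * Real.exp ((-a) * L) := mul_le_mul_of_nonneg_left e5 hC0
  -- everything together, with the factor `1 + L`
  have k1 : (1 + L) * (Ln * s ^ 3) ≤ η := by
    have e2 : Ln * s ^ 3 = Real.exp ((-(1 / 5)) * L) / 10 ^ 12 := by
      rw [hLn, hs, div_pow, exp_pow', ← mul_div_assoc, exp_mul_exp']
      congr 1
      · congr 1; push_cast; ring
      · norm_num
    rw [e2]
    have h1 := hexp' (-(1 / 5)) (by linarith only [hb5])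
    have h2 : (1 + L) * (Real.exp ((-(1 / 5)) * L) / 10 ^ 12) =
      ((1 + L) * Real.exp ((-(1 / 5)) * L)) / 10 ^ 12 := by ring
    rw [h2]
    have h3 : ((1 + L) * Real.exp ((-(1 / 5)) * L)) / 10 ^ 12 ≤
        (1 + L) * Real.exp ((-(1 / 5)) * L) := div_le_self (by (clear * - hL; positivity)) (by norm_num)
    linarith only [hη0, h1]
  have k2 : (1 + L) * (Ln * h ^ 5) ≤ η := by
    have e4 : Ln * h ^ 5 = Real.exp ((-(5 * a)) * L) / 10 ^ 20 := by
      rw [hLn, hh, div_pow, exp_pow', ← mul_div_assoc, exp_mul_exp']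
      congr 1
      · congr 1; push_cast; ring
      · norm_num
    rw [e4]
    have h1 := hexp' (-(5 * a)) (by linarith only [ha, hba])
    have h2 : (1 + L) * (Real.exp ((-(5 * a)) * L) / 10 ^ 20) =
      ((1 + L) * Real.exp ((-(5 * a)) * L)) / 10 ^ 20 := by ring
    rw [h2]
    have h3 : ((1 + L) * Real.exp ((-(5 * a)) * L)) / 10 ^ 20 ≤
        (1 + L) * Real.exp ((-(5 * a)) * L) := div_le_self (by (clear * - hL; positivity)) (by norm_num)
    linarith only [hη0, h1]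
  have hsum : (N : ℝ) * (10000000 * h * (h ^ (2 * (m + 1)) * (C * Ln / s ^ m) +
      Ln * (s ^ 3 + h ^ 5))) ≤ (1 / 100) ^ 2 := by
    have h1 : (N : ℝ) * (10000000 * h * (h ^ (2 * (m + 1)) * (C * Ln / s ^ m) +
        Ln * (s ^ 3 + h ^ 5))) = 10000000 * (N * h) * (h ^ (2 * (m + 1)) * (C * Ln / s ^ m) +
        Ln * (s ^ 3 + h ^ 5)) := by ring
    have h2 : h ^ (2 * (m + 1)) * (C * Ln / s ^ m) + Ln * (s ^ 3 + h ^ 5) ≤
        |C| * Real.exp ((-a) * L) + (Ln * s ^ 3 + Ln * h ^ 5) := by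
      rw [mul_add Ln]
      linarith only [e6]
    have h3 : 0 ≤ |C| * Real.exp ((-a) * L) + (Ln * s ^ 3 + Ln * h ^ 5) := by (clear * - hs0 hh0; positivity)
    rw [h1]
    calc 10000000 * (N * h) * (h ^ (2 * (m + 1)) * (C * Ln / s ^ m) + Ln * (s ^ 3 + h ^ 5))
        ≤ 10000000 * (N * h) * (|C| * Real.exp ((-a) * L) + (Ln * s ^ 3 + Ln * h ^ 5)) :=
          mul_le_mul_of_nonneg_left h2 (by (clear * - hh0; positivity))
      _ ≤ 10000000 * (501 * (1 + L)) *
          (|C| * Real.exp ((-a) * L) + (Ln * s ^ 3 + Ln * h ^ 5)) := by (clear * - hNh2 hs0 hh0; gcongr)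
      _ = 5010000000 * (|C| * ((1 + L) * Real.exp ((-a) * L)) + ((1 + L) * (Ln * s ^ 3) +
          (1 + L) * (Ln * h ^ 5))) := by ring
      _ ≤ 5010000000 * (|C| * η + (η + η)) := by (clear * - hea k1 k2; gcongr)
      _ ≤ (1 / 100) ^ 2 := by
          have : 0 ≤ |C| * η := by (clear * - hη0; positivity)
          linarith only [hη1, hηC]
  have h4 := sqrt_le_hundredth hsum
  linarith only [h4]

theorem p5_t4 (hL : 0 ≤ L) (hexp' : ∀ c : ℝ, c ≤ -b → (1 + L) * Real.exp (c * L) ≤ η)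
    (hba : b ≤ a) (hη1 : 10 ^ 20 * η ≤ 1)
    (hs : s = Real.exp ((-(2 / 5)) * L) / 10 ^ 4)
    (hτ : τ = Real.exp ((-(3 / 5 + a)) * L)) (hM4 : (M : ℝ) ≤ 7 * (1 + L) * (s / τ)) :
    2 * √(M * (500 * τ ^ 2 * Real.exp (1 * L))) ≤ 1 / 50 := by
  have hτ0 : 0 < τ := by rw [hτ]; positivity
  have e1 : (1 + L) * (s / τ) * τ ^ 2 * Real.exp (1 * L) =
      (1 + L) * Real.exp ((-a) * L) / 10 ^ 4 := by
    have h1 : (1 + L) * (s / τ) * τ ^ 2 * Real.exp (1 * L) =
        (1 + L) * (s * τ * Real.exp (1 * L)) := by field_simp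
    rw [h1, hs, hτ]
    have h5 : Real.exp ((-a) * L) = Real.exp ((-(2 / 5)) * L) *
        Real.exp ((-(3 / 5 + a)) * L) * Real.exp (1 * L) := by
      rw [exp_mul_exp', exp_mul_exp']; congr 1; ring
    rw [h5]; ring
  have h1 : (M : ℝ) * (500 * τ ^ 2 * Real.exp (1 * L)) ≤ (1 / 100) ^ 2 := by
    calc (M : ℝ) * (500 * τ ^ 2 * Real.exp (1 * L))
        ≤ 7 * (1 + L) * (s / τ) * (500 * τ ^ 2 * Real.exp (1 * L)) :=
          mul_le_mul_of_nonneg_right hM4 (by positivity)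
      _ = 3500 * ((1 + L) * (s / τ) * τ ^ 2 * Real.exp (1 * L)) := by ring
      _ = 3500 / 10 ^ 4 * ((1 + L) * Real.exp ((-a) * L)) := by rw [e1]; ring
      _ ≤ (1 / 100) ^ 2 := by
          have := hexp' (-a) (by linarith only [hba])
          linarith only [hη1, this]
  have h4 := sqrt_le_hundredth h1
  linarith only [h4]

theorem p5_t5 (hL : 0 ≤ L) (ha1 : a ≤ 1 / 2) (hexp : ∀ c : ℝ, c ≤ -b → Real.exp (c * L) ≤ η)
    (hb5 : b ≤ 1 / 5) (hη1 : 10 ^ 20 * η ≤ 1) (hs0 : 0 < s) (hτ0 : 0 < τ)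
    (hq : 1 / (s * τ / (s + τ)) ≤ 2 * Real.exp ((3 / 5 + a) * L))
    (hMτ : 3 * (1 + L) ≤ M * (τ / (s + τ))) :
    2 * (s / (s + τ)) ^ M * √(Real.exp (1 * L)) / √(s * τ / (s + τ)) ≤ 1 / 50 := by
  have h1 : (s / (s + τ)) ^ M ≤ Real.exp ((-3) * L) := by
    have h2 : s / (s + τ) = 1 - τ / (s + τ) := by field_simp; ring
    have h3 : 1 - τ / (s + τ) ≤ Real.exp (-(τ / (s + τ))) := Real.one_sub_le_exp_neg _
    have h4 : 0 ≤ s / (s + τ) := by positivity
    rw [← h2] at h3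
    refine (pow_le_pow_left₀ h4 h3 M).trans ?_
    rw [← Real.exp_nat_mul]
    refine Real.exp_le_exp.2 ?_
    linarith only [hMτ]
  have h2 : 2 * (s / (s + τ)) ^ M * √(Real.exp (1 * L)) / √(s * τ / (s + τ)) =
      2 * (s / (s + τ)) ^ M * √(Real.exp (1 * L) * (1 / (s * τ / (s + τ)))) := by
    rw [Real.sqrt_mul (Real.exp_pos _).le, Real.sqrt_div zero_le_one, Real.sqrt_one]
    ring
  rw [h2]
  have h3 : √(Real.exp (1 * L) * (1 / (s * τ / (s + τ)))) ≤ 2 * Real.exp (2 * L) := by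
    have h4 : Real.exp (1 * L) * (1 / (s * τ / (s + τ))) ≤ (2 * Real.exp (2 * L)) ^ 2 := by
      calc Real.exp (1 * L) * (1 / (s * τ / (s + τ)))
          ≤ Real.exp (1 * L) * (2 * Real.exp ((3 / 5 + a) * L)) :=
            mul_le_mul_of_nonneg_left hq (Real.exp_pos _).le
        _ = 2 * Real.exp ((1 + (3 / 5 + a)) * L) := by
            rw [mul_left_comm, exp_mul_exp']
        _ ≤ 4 * Real.exp (4 * L) := by
            have : Real.exp ((1 + (3 / 5 + a)) * L) ≤ Real.exp (4 * L) :=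
              Real.exp_le_exp.2 (mul_le_mul_of_nonneg_right (by linarith only [ha1]) hL)
            have h5 : 0 < Real.exp (4 * L) := Real.exp_pos _
            linarith only [this, h5]
        _ = (2 * Real.exp (2 * L)) ^ 2 := by
            rw [mul_pow, exp_pow']; norm_num
    exact (Real.sqrt_le_sqrt h4).trans (le_of_eq (Real.sqrt_sq (by positivity)))
  calc 2 * (s / (s + τ)) ^ M * √(Real.exp (1 * L) * (1 / (s * τ / (s + τ))))
      ≤ 2 * Real.exp ((-3) * L) * (2 * Real.exp (2 * L)) :=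
        mul_le_mul (by linarith only [h1]) h3 (by positivity) (by positivity)
    _ = 4 * Real.exp ((-1) * L) := by
        rw [mul_mul_mul_comm, exp_mul_exp']
        norm_num
    _ ≤ 1 / 50 := by
        have := hexp (-1) (by linarith only [hb5])
        linarith only [hη1, this]

end Par5

/-- The five error terms are small as soon as `K * (1 + L) * exp (-b L) ≤ 1`. -/
theorem params5_fixed {a b L C K : ℝ} (J m : ℕ) (ha : 0 < a) (ha1 : a ≤ 1 / 2)
    (hb : b = min a (1 / 5)) (hm : 1 ≤ a * m) (hL : 0 ≤ L)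
    (hK : K = 10 ^ 20 * (2 * J + 5 + |C|)) (hη : K * etaP b L ≤ 1) :
    ∃ (s h τ : ℝ) (N M : ℕ), 0 < s ∧ s ≤ 1 / 10000 ∧ 0 < h ∧ h ≤ 1 / 10000 ∧
      0 < τ ∧ τ ≤ 1 / 8 ∧ 0 < M ∧
      (((2 * J + 4) * N + M : ℕ) : ℝ) ≤ Real.exp ((1 / 5 + 2 * a) * L) ∧
      2 / √(s * τ / (s + τ)) * √(12 * (1 - h / 100) ^ N * Real.exp (1 * L)) ≤ 1 / 50 ∧
      √(Real.exp (N * (10000 * s ^ 2 * h ^ 2 * Real.exp (1 * L))) *
        (Real.exp (N * (10000 * s ^ 2 * h ^ 2 * Real.exp (1 * L))) - 1)) ≤ 1 / 50 ∧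
      2 * √(N * (10000000 * h * (h ^ (2 * (m + 1)) * (C * Real.exp (1 * L) / s ^ m) +
        Real.exp (1 * L) * (s ^ 3 + h ^ 5)))) ≤ 1 / 50 ∧
      2 * √(M * (500 * τ ^ 2 * Real.exp (1 * L))) ≤ 1 / 50 ∧
      2 * (s / (s + τ)) ^ M * √(Real.exp (1 * L)) / √(s * τ / (s + τ)) ≤ 1 / 50 := by
  have hb0 : 0 < b := by rw [hb]; exact lt_min ha (by norm_num)
  have hba : b ≤ a := by rw [hb]; exact min_le_left _ _
  have hb5 : b ≤ 1 / 5 := by rw [hb]; exact min_le_right _ _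
  set η := etaP b L with hηd
  have hη0 : 0 < η := by rw [hηd]; unfold etaP; positivity
  have hexp : ∀ c : ℝ, c ≤ -b → Real.exp (c * L) ≤ η := fun c hc => exp_le_etaP hL hc
  have hexp' : ∀ c : ℝ, c ≤ -b → (1 + L) * Real.exp (c * L) ≤ η := fun c hc =>
    mul_exp_le_etaP hL hc
  have hJ0 : (0 : ℝ) ≤ J := Nat.cast_nonneg J
  have hC0 : 0 ≤ |C| := abs_nonneg C
  have hη1 : 10 ^ 20 * η ≤ 1 := by
    refine le_trans ?_ hη
    rw [hK]
    have : (1 : ℝ) ≤ 2 * J + 5 + |C| := by linarith only [hC0]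
    nlinarith only [hη0, hC0]
  have hηC : 10 ^ 20 * (|C| * η) ≤ 1 := by
    refine le_trans ?_ hη
    rw [hK]
    nlinarith only [hη0]
  have hηJ : 10 ^ 20 * ((2 * J + 5) * η) ≤ 1 := by
    refine le_trans ?_ hη
    rw [hK]
    nlinarith only [hη0, hC0]
  -- the parameters
  set s : ℝ := Real.exp ((-(2 / 5)) * L) / 10 ^ 4 with hs
  set h : ℝ := Real.exp ((-(1 / 5 + a)) * L) / 10 ^ 4 with hh
  set τ : ℝ := Real.exp ((-(3 / 5 + a)) * L) with hτ
  have hs0 : 0 < s := by rw [hs]; positivity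
  have hh0 : 0 < h := by rw [hh]; positivity
  have hτ0 : 0 < τ := by rw [hτ]; positivity
  have hs1 : s ≤ 1 / 10000 := by
    rw [hs]; have := exp_le_one' (c := -(2 / 5)) hL (by norm_num); linarith only [this]
  have hh1 : h ≤ 1 / 10000 := by
    rw [hh]; have := exp_le_one' (c := -(1 / 5 + a)) hL (by linarith only [ha]); linarith only [this]
  have hτ1 : τ ≤ 1 / 8 := by
    have := hexp (-(3 / 5 + a)) (by linarith only [ha, hb5])
    linarith only [hη1, this]
  have hτs : τ ≤ s := by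
    have e : τ = Real.exp ((-(1 / 5 + a)) * L) * Real.exp ((-(2 / 5)) * L) := by
      rw [hτ, exp_mul_exp']; congr 1; ring
    have h1 := hexp (-(1 / 5 + a)) (by linarith only [ha, hb5])
    have h2 : 0 < Real.exp ((-(2 / 5)) * L) := Real.exp_pos _
    rw [e, hs]
    have h3 : Real.exp ((-(1 / 5 + a)) * L) ≤ 1 / 10 ^ 4 := by linarith only [hη1, h1]
    calc Real.exp ((-(1 / 5 + a)) * L) * Real.exp ((-(2 / 5)) * L)
        ≤ 1 / 10 ^ 4 * Real.exp ((-(2 / 5)) * L) := mul_le_mul_of_nonneg_right h3 h2.le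
      _ = _ := by ring
  -- the numbers of steps
  have hN1 : 500 * (1 + L) / h ≤ (⌈500 * (1 + L) / h⌉₊ : ℕ) := Nat.le_ceil _
  have hN2 : ((⌈500 * (1 + L) / h⌉₊ : ℕ) : ℝ) ≤ 500 * (1 + L) / h + 1 :=
    (Nat.ceil_lt_add_one (by (clear * - hL; positivity))).le
  generalize (⌈500 * (1 + L) / h⌉₊ : ℕ) = N at hN1 hN2
  have hM1 : 3 * (1 + L) * ((s + τ) / τ) ≤ (⌈3 * (1 + L) * ((s + τ) / τ)⌉₊ : ℕ) := Nat.le_ceil _
  have hM2 : ((⌈3 * (1 + L) * ((s + τ) / τ)⌉₊ : ℕ) : ℝ) ≤ 3 * (1 + L) * ((s + τ) / τ) + 1 :=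
    (Nat.ceil_lt_add_one (by positivity)).le
  have hM3 : 0 < (⌈3 * (1 + L) * ((s + τ) / τ)⌉₊ : ℕ) := Nat.ceil_pos.2 (by positivity)
  generalize (⌈3 * (1 + L) * ((s + τ) / τ)⌉₊ : ℕ) = M at hM1 hM2 hM3
  have hNh1 : 500 * (1 + L) ≤ N * h := by rwa [div_le_iff₀ hh0] at hN1
  have hNh2 : (N : ℝ) * h ≤ 501 * (1 + L) := by
    have h1 : (N : ℝ) * h ≤ (500 * (1 + L) / h + 1) * h := mul_le_mul_of_nonneg_right hN2 hh0.le
    have h2 : (500 * (1 + L) / h + 1) * h = 500 * (1 + L) + h := by (clear * - hh0 hL; field_simp)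
    rw [h2] at h1
    linarith only [hL, hh1, h1]
  have hMτ : 3 * (1 + L) ≤ M * (τ / (s + τ)) := by
    have h1 := mul_le_mul_of_nonneg_right hM1 (show 0 ≤ τ / (s + τ) by positivity)
    have h2 : 3 * (1 + L) * ((s + τ) / τ) * (τ / (s + τ)) = 3 * (1 + L) := by (clear * - hτ0 hs0 hL; field_simp)
    rwa [h2] at h1
  have hM4 : (M : ℝ) ≤ 7 * (1 + L) * (s / τ) := by
    have h1 : (s + τ) / τ ≤ 2 * (s / τ) := by
      rw [← mul_div_assoc]
      exact div_le_div_of_nonneg_right (by linarith only [hτs]) hτ0.le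
    have h2 : 1 ≤ s / τ := (one_le_div hτ0).2 hτs
    have h3 : 3 * (1 + L) * ((s + τ) / τ) ≤ 3 * (1 + L) * (2 * (s / τ)) :=
      mul_le_mul_of_nonneg_left h1 (by (clear * - hL; positivity))
    have h4 : 1 ≤ (1 + L) * (s / τ) := by nlinarith only [hL, h2]
    linarith only [hM2, h3, h4]
  -- the inverse variance of the last step
  have hq : 1 / (s * τ / (s + τ)) ≤ 2 * Real.exp ((3 / 5 + a) * L) := by
    have h1 : 1 / (s * τ / (s + τ)) = 1 / τ + 1 / s := by (clear * - hs0 hτ0; field_simp)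
    have h2 : 1 / s ≤ 1 / τ := one_div_le_one_div_of_le hτ0 hτs
    have h3 : 1 / τ = Real.exp ((3 / 5 + a) * L) := by
      rw [hτ, one_div, ← Real.exp_neg]; congr 1; ring
    rw [h1]
    linarith only [h2, h3]
  have hq0 : 0 < s * τ / (s + τ) := by positivity
  exact ⟨s, h, τ, N, M, hs0, hs1, hh0, hh1, hτ0, hτ1, hM3,
    p5_queries ha hL hη0 hexp' hba hηJ hs hh hτ hN2 hM4,
    p5_t1 hL ha1 hexp hb5 hη1 hh0 hh1 hq hq0 hNh1,
    p5_t2 hL hexp' hba hη1 hs hh hNh2,
    p5_t3 ha hL hη0 hexp' hba hb5 hm hη1 hηC hs hh hNh2,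
    p5_t4 hL hexp' hba hη1 hs hτ hM4,
    p5_t5 hL ha1 hexp hb5 hη1 hs0 hτ0 hq hMτ⟩

end Vale.Agent.P347
end

section

/-! P347-Z-F1. Interpolation constants. Nodes `x_i = (i+1)/p` (`i : Fin p`) and `e/p` (`e : Fin (p+1)`).

PROOF. Exactness on polynomials: let `ℓ_j` be the Lagrange basis of the nodes (Mathlib
`Lagrange.basis`), `A i j = ∫_0^{x_i} ℓ_j`, `α f = ℓ'_f(0)`, `β e = ℓ''_e(0)`; they are exact for polynomials
of degree `< p`, `≤ p`, `≤ p`. Error: Taylor with integral remainder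
`f(t) = ∑_{j<m} t^j/j! h_j(0) + ∫_0^t (t-r)^{m-1}/(m-1)! h_m(r) dr` (or only the bound
`‖f(t) - Taylor‖ ≤ T^{m-1} ∫_0^T ‖h_m‖`, by induction on `m`), where `f = h 0`; apply the exact rule to the
Taylor polynomial (vector valued coefficients: factor out), bound the remainder terms with
`K = 1 + ∑ |A| + ∑ |α| + ∑ |β|`. -/

open Set MeasureTheory intervalIntegral

set_option linter.all false

namespace Vale.Agent.P347.Z

/-- `h j` are the successive derivatives of `h 0` on `[0,T]` up to order `m`, `h m` continuous. -/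
structure Tower {E : Type} [NormedAddCommGroup E] [NormedSpace ℝ E] (T : ℝ) (m : ℕ)
    (h : ℕ → ℝ → E) : Prop where
  deriv : ∀ j < m, ∀ t ∈ Icc 0 T, HasDerivWithinAt (h j) (h (j + 1) t) (Icc 0 T) t
  cont : ContinuousOn (h m) (Icc 0 T)

lemma itp_weights {n : ℕ} (x : Fin n → ℝ) (hx : Function.Injective x) (c : ℕ → ℝ) :
    ∃ a : Fin n → ℝ, ∀ k < n, ∑ j, a j * x j ^ k = c k := by
  have hdet : (Matrix.vandermonde x).det ≠ 0 := Matrix.det_vandermonde_ne_zero_iff.2 hx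
  have hu : IsUnit (Matrix.vandermonde x).det := isUnit_iff_ne_zero.2 hdet
  refine ⟨Matrix.vecMul (fun k : Fin n => c k) (Matrix.vandermonde x)⁻¹, fun k hk => ?_⟩
  have h1 : Matrix.vecMul (Matrix.vecMul (fun k : Fin n => c k) (Matrix.vandermonde x)⁻¹)
      (Matrix.vandermonde x) = fun k : Fin n => c k := by
    rw [Matrix.vecMul_vecMul, Matrix.nonsing_inv_mul _ hu, Matrix.vecMul_one]
  have h2 := congrFun h1 ⟨k, hk⟩
  simp only [Matrix.vecMul, dotProduct, Matrix.vandermonde_apply] at h2 ⊢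
  exact h2

variable {E : Type} [NormedAddCommGroup E] [NormedSpace ℝ E]

lemma itp_cont {T : ℝ} {m : ℕ} {h : ℕ → ℝ → E} (hT : Tower T m h) {j : ℕ} (hj : j ≤ m) :
    ContinuousOn (h j) (Icc 0 T) := by
  rcases hj.lt_or_eq with hj | rfl
  · exact fun t ht => (hT.deriv j hj t ht).continuousWithinAt
  · exact hT.cont

lemma itp_taylor [CompleteSpace E] {T : ℝ} (hT : 0 < T) (m : ℕ) : ∀ (h : ℕ → ℝ → E),
    Tower T (m + 1) h → ∀ t ∈ Icc 0 T,
      ‖h 0 t - ∑ j ∈ Finset.range (m + 1), (t ^ j / (j.factorial : ℝ)) • h j 0‖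
        ≤ T ^ m * ∫ s in (0 : ℝ)..T, ‖h (m + 1) s‖ := by
  induction m with
  | zero =>
    intro h hh t ht
    simp only [zero_add, Finset.range_one, Finset.sum_singleton, pow_zero, Nat.factorial_zero, Nat.cast_one, div_one, one_smul]
    have hc1 : ContinuousOn (h 1) (Icc 0 T) := hh.cont
    have hsub : Icc 0 t ⊆ Icc 0 T := Icc_subset_Icc_right ht.2
    have hi : IntervalIntegrable (h 1) volume 0 t := by
      apply ContinuousOn.intervalIntegrable
      rw [uIcc_of_le ht.1]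
      exact hc1.mono hsub
    have h1 : ∫ s in (0 : ℝ)..t, h 1 s = h 0 t - h 0 0 := by
      apply integral_eq_sub_of_hasDerivAt_of_le ht.1
      · exact (itp_cont hh (Nat.zero_le _)).mono hsub
      · intro x hx
        exact (hh.deriv 0 (by norm_num) x ⟨hx.1.le, hx.2.le.trans ht.2⟩).hasDerivAt
          (Icc_mem_nhds hx.1 (hx.2.trans_le ht.2))
      · exact hi
    rw [← h1]
    refine (intervalIntegral.norm_integral_le_integral_norm ht.1).trans ?_
    rw [one_mul]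
    apply intervalIntegral.integral_mono_interval (le_refl 0) ht.1 ht.2
    · exact Filter.Eventually.of_forall fun s => norm_nonneg _
    · apply ContinuousOn.intervalIntegrable
      rw [uIcc_of_le hT.le]
      exact hc1.norm
  | succ m ih =>
    intro h hh t ht
    have hh' : Tower T (m + 1) (fun j => h (j + 1)) :=
      ⟨fun j hj s hs => hh.deriv (j + 1) (by omega) s hs, hh.cont⟩
    have ih' := ih _ hh'
    simp only [zero_add] at ih'
    set I : ℝ := ∫ s in (0 : ℝ)..T, ‖h (m + 1 + 1) s‖ with hI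
    have hI0 : 0 ≤ I := integral_nonneg hT.le fun s _ => norm_nonneg _
    set g : ℝ → E := fun s => h 0 s
      - ∑ j ∈ Finset.range (m + 1 + 1), (s ^ j / (j.factorial : ℝ)) • h j 0 with hg
    have hg0 : g 0 = 0 := by
      rw [hg]
      simp only
      rw [Finset.sum_range_succ']
      simp only [ne_eq, Nat.add_eq_zero_iff, one_ne_zero, and_false, not_false_eq_true, zero_pow, zero_div, zero_smul, Finset.sum_const_zero, pow_zero, Nat.factorial_zero, Nat.cast_one, div_self, one_smul, zero_add, sub_self]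
    have hgd : ∀ s ∈ Icc 0 T, HasDerivWithinAt g
        (h 1 s - ∑ j ∈ Finset.range (m + 1), (s ^ j / (j.factorial : ℝ)) • h (j + 1) 0)
        (Icc 0 T) s := by
      intro s hs
      apply (hh.deriv 0 (by omega) s hs).sub
      have h2 : (fun s : ℝ => ∑ j ∈ Finset.range (m + 1 + 1), (s ^ j / (j.factorial : ℝ)) • h j 0)
          = fun s => ∑ j ∈ Finset.range (m + 1), (s ^ (j + 1) / ((j + 1).factorial : ℝ)) • h (j + 1) 0
            + h 0 0 := by
        funext s
        rw [Finset.sum_range_succ']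
        simp only [pow_zero, Nat.factorial_zero, Nat.cast_one, ne_eq, one_ne_zero, not_false_eq_true, div_self, one_smul]
      rw [h2]
      apply HasDerivWithinAt.add_const
      apply HasDerivWithinAt.fun_sum
      intro j _
      apply HasDerivWithinAt.smul_const
      have h3 : HasDerivAt (fun s : ℝ => s ^ (j + 1) / ((j + 1).factorial : ℝ))
          (((j + 1 : ℕ) : ℝ) * s ^ j / ((j + 1).factorial : ℝ)) s := by
        have := (hasDerivAt_pow (j + 1) s).div_const ((j + 1).factorial : ℝ)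
        simpa only [Nat.cast_add, Nat.cast_one, add_tsub_cancel_right] using this
      have h6 : ((j + 1 : ℕ) : ℝ) * s ^ j / ((j + 1).factorial : ℝ)
          = s ^ j / (j.factorial : ℝ) := by
        rw [Nat.factorial_succ]
        push_cast
        have h4 : (j.factorial : ℝ) ≠ 0 := by positivity
        have h5 : (j : ℝ) + 1 ≠ 0 := by (clear * -; (clear * -; positivity))
        (clear * - h5 h4; field_simp)
      rw [h6] at h3
      exact h3.hasDerivWithinAt
    have h6 := (convex_Icc (0 : ℝ) T).norm_image_sub_le_of_norm_hasDerivWithin_le hgd ih'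
      ⟨le_refl 0, hT.le⟩ ht
    rw [hg0, sub_zero, sub_zero, Real.norm_of_nonneg ht.1] at h6
    refine h6.trans ?_
    calc T ^ m * I * t ≤ T ^ m * I * T := by
          apply mul_le_mul_of_nonneg_left ht.2; (clear * - hT hI0; positivity)
      _ = T ^ (m + 1) * I := by ring

/-- Derivatives at `0` from point values. -/
lemma itp_deriv [CompleteSpace E] {p m : ℕ} (hp : 1 ≤ p) (hm : m ≤ p) (α : Fin (p + 1) → ℝ)
    (hα : ∀ k < p + 1, ∑ e, α e * ((e : ℝ) / p) ^ k = if k = m then (m.factorial : ℝ) else 0)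
    {T : ℝ} (hT : 0 < T) {h : ℕ → ℝ → E} (hh : Tower T (p + 1) h) :
    ‖h m 0 - (T⁻¹) ^ m • ∑ e : Fin (p + 1), α e • h 0 ((e : ℝ) / p * T)‖
      ≤ (∑ e, |α e|) * ((T⁻¹) ^ m * T ^ p) * ∫ t in (0 : ℝ)..T, ‖h (p + 1) t‖ := by
  set I : ℝ := ∫ s in (0 : ℝ)..T, ‖h (p + 1) s‖ with hI
  have hI0 : 0 ≤ I := integral_nonneg hT.le fun s _ => norm_nonneg _
  have hp0 : (0 : ℝ) < p := by exact_mod_cast hp
  have hnode : ∀ e : Fin (p + 1), (e : ℝ) / p * T ∈ Icc 0 T := by
    intro e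
    have h1 : (e : ℝ) ≤ p := by exact_mod_cast Nat.lt_succ_iff.1 e.2
    refine ⟨by (clear * - hp hT; (clear * - hp hT; positivity)), ?_⟩
    calc (e : ℝ) / p * T ≤ 1 * T := by
          apply mul_le_mul_of_nonneg_right _ hT.le
          rw [div_le_one hp0]; exact h1
      _ = T := one_mul T
  set P : ℝ → E := fun t => ∑ j ∈ Finset.range (p + 1), (t ^ j / (j.factorial : ℝ)) • h j 0 with hP
  have htay : ∀ t ∈ Icc 0 T, ‖h 0 t - P t‖ ≤ T ^ p * I := itp_taylor hT p h hh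
  have hexact : (T⁻¹) ^ m • ∑ e : Fin (p + 1), α e • P ((e : ℝ) / p * T) = h m 0 := by
    have h1 : ∑ e : Fin (p + 1), α e • P ((e : ℝ) / p * T)
        = ∑ j ∈ Finset.range (p + 1), (T ^ j / (j.factorial : ℝ)
            * (∑ e : Fin (p + 1), α e * ((e : ℝ) / p) ^ j)) • h j 0 := by
      simp only [hP, Finset.smul_sum]
      rw [Finset.sum_comm]
      apply Finset.sum_congr rfl
      intro j _
      rw [Finset.mul_sum, Finset.sum_smul]
      apply Finset.sum_congr rfl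
      intro e _
      rw [smul_smul]
      congr 1
      rw [mul_pow]
      ring
    rw [h1, Finset.sum_eq_single m]
    · rw [hα m (by omega), if_pos rfl, smul_smul]
      have h4 : (m.factorial : ℝ) ≠ 0 := by positivity
      have h5 : (T⁻¹) ^ m * (T ^ m / (m.factorial : ℝ) * (m.factorial : ℝ)) = 1 := by
        rw [div_mul_cancel₀ _ h4, ← mul_pow, inv_mul_cancel₀ hT.ne', one_pow]
      rw [h5, one_smul]
    · intro j hj hne
      rw [hα j (Finset.mem_range.1 hj), if_neg hne, mul_zero, zero_smul]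
    · intro hn
      exact absurd (Finset.mem_range.2 (by omega)) hn
  have h7 : h m 0 - (T⁻¹) ^ m • ∑ e : Fin (p + 1), α e • h 0 ((e : ℝ) / p * T)
      = - ((T⁻¹) ^ m • ∑ e : Fin (p + 1), α e • (h 0 ((e : ℝ) / p * T) - P ((e : ℝ) / p * T))) := by
    conv_lhs => rw [← hexact]
    simp only [smul_sub, Finset.sum_sub_distrib]
    abel
  rw [h7, norm_neg, norm_smul, Real.norm_of_nonneg (by positivity)]
  have h8 : ‖∑ e : Fin (p + 1), α e • (h 0 ((e : ℝ) / p * T) - P ((e : ℝ) / p * T))‖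
      ≤ (∑ e, |α e|) * (T ^ p * I) := by
    rw [Finset.sum_mul]
    refine (norm_sum_le _ _).trans (Finset.sum_le_sum fun e _ => ?_)
    rw [norm_smul, Real.norm_eq_abs]
    exact mul_le_mul_of_nonneg_left (htay _ (hnode e)) (abs_nonneg _)
  calc (T⁻¹) ^ m * ‖∑ e : Fin (p + 1), α e • (h 0 ((e : ℝ) / p * T) - P ((e : ℝ) / p * T))‖
      ≤ (T⁻¹) ^ m * ((∑ e, |α e|) * (T ^ p * I)) := by (clear * - h8 hT; gcongr)
    _ = _ := by ring

/-- Integrals from point values. -/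
lemma itp_int [CompleteSpace E] {p : ℕ} (hp : 1 ≤ p) (i : Fin p) (a : Fin p → ℝ)
    (ha : ∀ k < p, ∑ j : Fin p, a j * (((j : ℝ) + 1) / p) ^ k
      = (((i : ℝ) + 1) / p) ^ (k + 1) / ((k : ℝ) + 1))
    {T : ℝ} (hT : 0 < T) {h : ℕ → ℝ → E} (hh : Tower T p h) :
    ‖(∫ t in (0 : ℝ)..(((i : ℝ) + 1) / p * T), h 0 t)
            - T • ∑ j : Fin p, a j • h 0 (((j : ℝ) + 1) / p * T)‖
      ≤ (1 + ∑ j, |a j|) * T ^ p * ∫ t in (0 : ℝ)..T, ‖h p t‖ := by
  obtain ⟨m, rfl⟩ : ∃ m, p = m + 1 := ⟨p - 1, by omega⟩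
  set I : ℝ := ∫ s in (0 : ℝ)..T, ‖h (m + 1) s‖ with hI
  have hI0 : 0 ≤ I := integral_nonneg hT.le fun s _ => norm_nonneg _
  have hp0 : (0 : ℝ) < ((m + 1 : ℕ) : ℝ) := by (clear * -; (clear * -; positivity))
  have hnode : ∀ j : Fin (m + 1), ((j : ℝ) + 1) / ((m + 1 : ℕ) : ℝ) * T ∈ Icc 0 T := by
    intro j
    have h1 : (j : ℝ) + 1 ≤ ((m + 1 : ℕ) : ℝ) := by exact_mod_cast j.2
    refine ⟨by (clear * - hT; (clear * - hT; positivity)), ?_⟩
    calc ((j : ℝ) + 1) / ((m + 1 : ℕ) : ℝ) * T ≤ 1 * T := by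
          apply mul_le_mul_of_nonneg_right _ hT.le
          rw [div_le_one hp0]; exact h1
      _ = T := one_mul T
  set P : ℝ → E := fun t => ∑ j ∈ Finset.range (m + 1), (t ^ j / (j.factorial : ℝ)) • h j 0 with hP
  have hPc : Continuous P := by
    rw [hP]
    (clear * -; fun_prop)
  have htay : ∀ t ∈ Icc 0 T, ‖h 0 t - P t‖ ≤ T ^ m * I := itp_taylor hT m h hh
  set x : ℝ := ((i : ℝ) + 1) / ((m + 1 : ℕ) : ℝ) with hx
  have hxT := hnode i
  rw [← hx] at hxT
  have hexact : T • ∑ j : Fin (m + 1), a j • P (((j : ℝ) + 1) / ((m + 1 : ℕ) : ℝ) * T)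
      = ∫ t in (0 : ℝ)..(x * T), P t := by
    have h1 : ∑ j : Fin (m + 1), a j • P (((j : ℝ) + 1) / ((m + 1 : ℕ) : ℝ) * T)
        = ∑ k ∈ Finset.range (m + 1), (T ^ k / (k.factorial : ℝ)
            * (∑ j : Fin (m + 1), a j * (((j : ℝ) + 1) / ((m + 1 : ℕ) : ℝ)) ^ k)) • h k 0 := by
      simp only [hP, Finset.smul_sum]
      rw [Finset.sum_comm]
      apply Finset.sum_congr rfl
      intro k _
      rw [Finset.mul_sum, Finset.sum_smul]
      apply Finset.sum_congr rfl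
      intro e _
      rw [smul_smul]
      congr 1
      rw [mul_pow]
      ring
    rw [h1, Finset.smul_sum]
    have h2 : ∫ t in (0 : ℝ)..(x * T), P t = ∑ k ∈ Finset.range (m + 1),
        (((x * T) ^ (k + 1) / ((k : ℝ) + 1)) / (k.factorial : ℝ)) • h k 0 := by
      rw [hP]
      rw [intervalIntegral.integral_finsetSum]
      · apply Finset.sum_congr rfl
        intro k _
        rw [intervalIntegral.integral_smul_const, intervalIntegral.integral_div, integral_pow]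
        simp only [ne_eq, Nat.add_eq_zero_iff, one_ne_zero, and_false, not_false_eq_true, zero_pow, sub_zero]
      · intro k _
        apply Continuous.intervalIntegrable
        (clear * -; fun_prop)
    rw [h2]
    apply Finset.sum_congr rfl
    intro k hk
    rw [ha k (Finset.mem_range.1 hk), smul_smul]
    congr 1
    rw [mul_pow]
    ring
  have hic : IntervalIntegrable (h 0) volume 0 (x * T) := by
    apply ContinuousOn.intervalIntegrable
    rw [uIcc_of_le hxT.1]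
    exact (itp_cont hh (Nat.zero_le _)).mono (Icc_subset_Icc_right hxT.2)
  have h7 : (∫ t in (0 : ℝ)..(x * T), h 0 t)
        - T • ∑ j : Fin (m + 1), a j • h 0 (((j : ℝ) + 1) / ((m + 1 : ℕ) : ℝ) * T)
      = (∫ t in (0 : ℝ)..(x * T), (h 0 t - P t))
        - T • ∑ j : Fin (m + 1), a j • (h 0 (((j : ℝ) + 1) / ((m + 1 : ℕ) : ℝ) * T)
          - P (((j : ℝ) + 1) / ((m + 1 : ℕ) : ℝ) * T)) := by
    rw [intervalIntegral.integral_sub hic (hPc.intervalIntegrable _ _), ← hexact]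
    simp only [smul_sub, Finset.sum_sub_distrib]
    abel
  rw [h7]
  have h8 : ‖∑ j : Fin (m + 1), a j • (h 0 (((j : ℝ) + 1) / ((m + 1 : ℕ) : ℝ) * T)
          - P (((j : ℝ) + 1) / ((m + 1 : ℕ) : ℝ) * T))‖
      ≤ (∑ e, |a e|) * (T ^ m * I) := by
    rw [Finset.sum_mul]
    refine (norm_sum_le _ _).trans (Finset.sum_le_sum fun e _ => ?_)
    rw [norm_smul, Real.norm_eq_abs]
    exact mul_le_mul_of_nonneg_left (htay _ (hnode e)) (abs_nonneg _)
  have h9 : ‖∫ t in (0 : ℝ)..(x * T), (h 0 t - P t)‖ ≤ (T ^ m * I) * |x * T - 0| := by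
    apply intervalIntegral.norm_integral_le_of_norm_le_const
    intro t ht
    rw [uIoc_of_le hxT.1] at ht
    exact htay t ⟨ht.1.le, ht.2.trans hxT.2⟩
  rw [sub_zero, abs_of_nonneg hxT.1] at h9
  have h10 : (T ^ m * I) * (x * T) ≤ (T ^ m * I) * T :=
    mul_le_mul_of_nonneg_left hxT.2 (by (clear * - hT hI0; positivity))
  calc ‖(∫ t in (0 : ℝ)..(x * T), (h 0 t - P t))
        - T • ∑ j : Fin (m + 1), a j • (h 0 (((j : ℝ) + 1) / ((m + 1 : ℕ) : ℝ) * T)
          - P (((j : ℝ) + 1) / ((m + 1 : ℕ) : ℝ) * T))‖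
      ≤ (T ^ m * I) * T + T * ((∑ e, |a e|) * (T ^ m * I)) := by
        refine (norm_sub_le _ _).trans (add_le_add (h9.trans h10) ?_)
        rw [norm_smul, Real.norm_of_nonneg hT.le]
        exact mul_le_mul_of_nonneg_left h8 hT.le
    _ = _ := by ring

theorem exists_interp (p : ℕ) (hp : 2 ≤ p) :
    ∃ (A : Fin p → Fin p → ℝ) (α β : Fin (p + 1) → ℝ) (K : ℝ), 0 ≤ K ∧
      (∀ i j, |A i j| ≤ K) ∧ (∀ e, |α e| ≤ K) ∧ (∀ e, |β e| ≤ K) ∧
      ∑ e, α e = 0 ∧ ∑ e, β e = 0 ∧ (∀ i, ∑ j, A i j = ((i : ℝ) + 1) / p) ∧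
      ∀ (E : Type) [NormedAddCommGroup E] [NormedSpace ℝ E] [CompleteSpace E] (T : ℝ), 0 < T →
        ∀ h : ℕ → ℝ → E,
        (Tower T p h → ∀ i : Fin p,
          ‖(∫ t in (0 : ℝ)..(((i : ℝ) + 1) / p * T), h 0 t)
            - T • ∑ j : Fin p, A i j • h 0 (((j : ℝ) + 1) / p * T)‖
            ≤ K * T ^ p * ∫ t in (0 : ℝ)..T, ‖h p t‖) ∧
        (Tower T (p + 1) h →
          ‖h 1 0 - T⁻¹ • ∑ e : Fin (p + 1), α e • h 0 ((e : ℝ) / p * T)‖
            ≤ K * T ^ (p - 1) * ∫ t in (0 : ℝ)..T, ‖h (p + 1) t‖) ∧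
        (Tower T (p + 1) h →
          ‖h 2 0 - (T⁻¹) ^ 2 • ∑ e : Fin (p + 1), β e • h 0 ((e : ℝ) / p * T)‖
            ≤ K * T ^ (p - 2) * ∫ t in (0 : ℝ)..T, ‖h (p + 1) t‖) := by
  have hp0 : (0 : ℝ) < p := by exact_mod_cast (by omega : 0 < p)
  have hx1 : Function.Injective (fun j : Fin p => ((j : ℝ) + 1) / (p : ℝ)) := by
    intro i j hij
    have h1 : ((i : ℝ) + 1) = (j : ℝ) + 1 := by
      have h2 : ((i : ℝ) + 1) / (p : ℝ) = ((j : ℝ) + 1) / (p : ℝ) := hij
      rwa [div_left_inj' hp0.ne'] at h2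
    apply Fin.ext
    exact_mod_cast (add_right_cancel h1)
  have hx2 : Function.Injective (fun e : Fin (p + 1) => (e : ℝ) / (p : ℝ)) := by
    intro i j hij
    have h2 : (i : ℝ) / (p : ℝ) = (j : ℝ) / (p : ℝ) := hij
    rw [div_left_inj' hp0.ne'] at h2
    apply Fin.ext
    exact_mod_cast h2
  choose A hA using fun i : Fin p => itp_weights _ hx1
    (fun k => (((i : ℝ) + 1) / p) ^ (k + 1) / ((k : ℝ) + 1))
  obtain ⟨α, hα⟩ := itp_weights _ hx2 (fun k => if k = 1 then ((1 : ℕ).factorial : ℝ) else 0)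
  obtain ⟨β, hβ⟩ := itp_weights _ hx2 (fun k => if k = 2 then ((2 : ℕ).factorial : ℝ) else 0)
  set K : ℝ := 1 + ∑ i, ∑ j, |A i j| + ∑ e, |α e| + ∑ e, |β e| with hK
  have hKA : ∀ i, 1 + ∑ j, |A i j| ≤ K := by
    intro i
    have h1 : ∑ j, |A i j| ≤ ∑ i, ∑ j, |A i j| :=
      Finset.single_le_sum (f := fun i => ∑ j, |A i j|)
        (fun i _ => Finset.sum_nonneg fun j _ => abs_nonneg _) (Finset.mem_univ i)
    have h2 : 0 ≤ ∑ e, |α e| := Finset.sum_nonneg fun j _ => abs_nonneg _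
    have h3 : 0 ≤ ∑ e, |β e| := Finset.sum_nonneg fun j _ => abs_nonneg _
    linarith only [h1, h2, h3]
  have hA0 : 0 ≤ ∑ i, ∑ j, |A i j| :=
    Finset.sum_nonneg fun i _ => Finset.sum_nonneg fun j _ => abs_nonneg _
  have hα0 : 0 ≤ ∑ e, |α e| := Finset.sum_nonneg fun j _ => abs_nonneg _
  have hβ0 : 0 ≤ ∑ e, |β e| := Finset.sum_nonneg fun j _ => abs_nonneg _
  have hKα : ∑ e, |α e| ≤ K := by linarith only [hA0, hβ0]
  have hKβ : ∑ e, |β e| ≤ K := by linarith only [hA0, hα0]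
  refine ⟨A, α, β, K, by (clear * -; (clear * -; positivity)), ?_, ?_, ?_, ?_, ?_, ?_, ?_⟩
  · intro i j
    have h1 : |A i j| ≤ ∑ j, |A i j| :=
      Finset.single_le_sum (f := fun j => |A i j|) (fun i _ => abs_nonneg _) (Finset.mem_univ j)
    have := hKA i
    linarith only [h1, this]
  · intro e
    exact (Finset.single_le_sum (f := fun e => |α e|) (fun i _ => abs_nonneg _)
      (Finset.mem_univ e)).trans hKα
  · intro e
    exact (Finset.single_le_sum (f := fun e => |β e|) (fun i _ => abs_nonneg _)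
      (Finset.mem_univ e)).trans hKβ
  · simpa only [pow_zero, mul_one, zero_ne_one, ↓reduceIte] using hα 0 (by omega)
  · simpa only [pow_zero, mul_one, OfNat.zero_ne_ofNat, ↓reduceIte] using hβ 0 (by omega)
  · intro i
    simpa only [pow_zero, mul_one, zero_add, pow_one, CharP.cast_eq_zero, div_one] using hA i 0 (by omega)
  · intro E _ _ _ T hT h
    refine ⟨fun hh i => ?_, fun hh => ?_, fun hh => ?_⟩
    · have hI0 : 0 ≤ ∫ t in (0 : ℝ)..T, ‖h p t‖ := integral_nonneg hT.le fun s _ => norm_nonneg _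
      refine (itp_int (by omega) i (A i) (hA i) hT hh).trans ?_
      gcongr
      exact hKA i
    · have hI0 : 0 ≤ ∫ t in (0 : ℝ)..T, ‖h (p + 1) t‖ :=
        integral_nonneg hT.le fun s _ => norm_nonneg _
      have h1 := itp_deriv (m := 1) (by omega) (by omega) α hα hT hh
      rw [pow_one] at h1
      refine h1.trans ?_
      have h2 : T⁻¹ * T ^ p = T ^ (p - 1) := by
        obtain ⟨q, rfl⟩ : ∃ q, p = q + 1 := ⟨p - 1, by omega⟩
        rw [pow_succ, Nat.add_sub_cancel]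
        field_simp
      rw [h2]
      (clear * - hKα hT hI0; gcongr)
    · have hI0 : 0 ≤ ∫ t in (0 : ℝ)..T, ‖h (p + 1) t‖ :=
        integral_nonneg hT.le fun s _ => norm_nonneg _
      have h1 := itp_deriv (m := 2) (by omega) hp β hβ hT hh
      refine h1.trans ?_
      have h2 : (T⁻¹) ^ 2 * T ^ p = T ^ (p - 2) := by
        obtain ⟨q, rfl⟩ : ∃ q, p = q + 2 := ⟨p - 2, by omega⟩
        rw [pow_add, Nat.add_sub_cancel, inv_pow]
        (clear * - hT; field_simp)
      rw [h2]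
      (clear * - hKβ hT hI0; gcongr)

end Vale.Agent.P347.Z
end

section

/-! Auxiliary results for the transport theorem (task E2). -/

open Set Module MeasureTheory Metric Filter Topology
open scoped ENNReal NNReal

namespace Vale.Agent.P347.Z

namespace Tr

variable {W : Type} [NormedAddCommGroup W] [NormedSpace ℝ W] [FiniteDimensional ℝ W]

theorem contDiff_det {n : WithTop ℕ∞} : ContDiff ℝ n (fun A : W →L[ℝ] W => A.det) := by
  classical
  let b := Module.finBasis ℝ W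
  have h : (fun A : W →L[ℝ] W => A.det) = fun A : W →L[ℝ] W =>
      ∑ σ : Equiv.Perm (Fin (finrank ℝ W)),
        (Equiv.Perm.sign σ : ℤ) • ∏ i, b.coord (σ i) (A (b i)) := by
    ext A
    change LinearMap.det (A : W →ₗ[ℝ] W) = _
    rw [← LinearMap.det_toMatrix b, Matrix.det_apply]
    apply Finset.sum_congr rfl
    intro σ _
    simp only [LinearMap.toMatrix_apply, ContinuousLinearMap.coe_coe, Units.smul_def, zsmul_eq_mul, Basis.coord_apply]
  rw [h]
  apply ContDiff.sum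
  intro σ _
  apply ContDiff.const_smul
  apply contDiff_prod
  intro i _
  have h2 : (fun A : W →L[ℝ] W => b.coord (σ i) (A (b i))) = fun A : W →L[ℝ] W =>
      (LinearMap.toContinuousLinearMap (b.coord (σ i))) (A (b i)) := rfl
  rw [h2]
  exact (ContinuousLinearMap.contDiff _).comp (contDiff_id.clm_apply contDiff_const)

/-- first order expansion of the determinant at the identity -/
lemma det_near {ι : Type} [Fintype ι] (b : Basis ι ℝ W) (ε : ℝ) (hε : 0 < ε) :
    ∃ δ > 0, ∀ B : W →L[ℝ] W, ‖B‖ ≤ δ →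
      |(ContinuousLinearMap.id ℝ W + B).det - 1 - ∑ i, b.repr (B (b i)) i| ≤ ε * ‖B‖ := by
  classical
  have hd : HasFDerivAt (fun A : W →L[ℝ] W => A.det)
      (fderiv ℝ (fun A : W →L[ℝ] W => A.det) (ContinuousLinearMap.id ℝ W))
      (ContinuousLinearMap.id ℝ W) :=
    ((contDiff_det (n := 1)).differentiable one_ne_zero _).hasFDerivAt
  set D := fderiv ℝ (fun A : W →L[ℝ] W => A.det) (ContinuousLinearMap.id ℝ W) with hD
  -- the derivative is the trace
  have htr : ∀ B : W →L[ℝ] W, D B = ∑ i, b.repr (B (b i)) i := by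
    intro B
    have h1 : HasDerivAt (fun t : ℝ => (ContinuousLinearMap.id ℝ W + t • B).det) (D B) 0 := by
      have hl : HasDerivAt (fun t : ℝ => ContinuousLinearMap.id ℝ W + t • B) B 0 := by
        simpa using ((hasDerivAt_id (0 : ℝ)).smul_const B).const_add (ContinuousLinearMap.id ℝ W)
      have hd' : HasFDerivAt (fun A : W →L[ℝ] W => A.det) D
          (ContinuousLinearMap.id ℝ W + (0 : ℝ) • B) := by
        simpa using hd
      exact hd'.comp_hasDerivAt (0 : ℝ) hl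
    set M : Matrix ι ι ℝ := LinearMap.toMatrix b b (B : W →ₗ[ℝ] W) with hM
    obtain ⟨q, hq⟩ : ∃ q : Polynomial ℝ, ∀ t : ℝ,
        (1 + t • M).det = 1 + M.trace * t + q.eval t * t ^ 2 :=
      ⟨_, fun t => Matrix.det_one_add_smul t M⟩
    have hdet : ∀ t : ℝ, (ContinuousLinearMap.id ℝ W + t • B).det = (1 + t • M).det := by
      intro t
      change LinearMap.det ((ContinuousLinearMap.id ℝ W + t • B : W →L[ℝ] W) : W →ₗ[ℝ] W) = _
      rw [← LinearMap.det_toMatrix b]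
      congr 1
      rw [hM]
      have : ((ContinuousLinearMap.id ℝ W + t • B : W →L[ℝ] W) : W →ₗ[ℝ] W) =
          LinearMap.id + t • (B : W →ₗ[ℝ] W) := by
        ext x; simp only [ContinuousLinearMap.toLinearMap_add, ContinuousLinearMap.coe_id, ContinuousLinearMap.toLinearMap_smul, LinearMap.add_apply, LinearMap.id_coe, id_eq, LinearMap.smul_apply, ContinuousLinearMap.coe_coe]
      rw [this, map_add, map_smul, LinearMap.toMatrix_id]
    have h2 : HasDerivAt (fun t : ℝ => (ContinuousLinearMap.id ℝ W + t • B).det) M.trace 0 := by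
      have heq : (fun t : ℝ => (ContinuousLinearMap.id ℝ W + t • B).det) =
          fun t => 1 + M.trace * t + q.eval t * t ^ 2 := by
        funext t
        rw [hdet, hq]
      rw [heq]
      have e1 : HasDerivAt (fun t : ℝ => M.trace * t) M.trace 0 := by
        simpa only [id_eq, mul_one] using (hasDerivAt_id (0 : ℝ)).const_mul M.trace
      have e2 : HasDerivAt (fun t : ℝ => q.eval t * t ^ 2) 0 0 := by
        have e3 : HasDerivAt (fun t : ℝ => t ^ 2) 0 0 := by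
          simpa only [Nat.cast_ofNat, Nat.add_one_sub_one, pow_one, mul_zero] using hasDerivAt_pow 2 (0 : ℝ)
        have := (q.hasDerivAt (0 : ℝ)).fun_mul e3
        simpa only [ne_eq, OfNat.ofNat_ne_zero, not_false_eq_true, zero_pow, mul_zero, add_zero] using this
      simpa only [add_zero] using (e1.const_add 1).fun_add e2
    rw [h1.unique h2, hM, Matrix.trace]
    apply Finset.sum_congr rfl
    intro i _
    simp [LinearMap.toMatrix_apply]
  have hone : (ContinuousLinearMap.id ℝ W).det = 1 := by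
    change LinearMap.det ((ContinuousLinearMap.id ℝ W : W →L[ℝ] W) : W →ₗ[ℝ] W) = 1
    rw [ContinuousLinearMap.coe_id, LinearMap.det_id]
  have hlo := hasFDerivAt_iff_isLittleO_nhds_zero.1 hd
  have hev := (Asymptotics.isLittleO_iff.1 hlo) hε
  rw [Metric.eventually_nhds_iff] at hev
  obtain ⟨δ, hδ, H⟩ := hev
  refine ⟨δ / 2, by (clear * - hδ; positivity), fun B hB => ?_⟩
  have := H (y := B) (by rw [dist_zero_right]; linarith only [hδ, hB])
  rw [hone, htr] at this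
  simpa only [ge_iff_le, Real.norm_eq_abs] using this

variable {E : Type} [NormedAddCommGroup E] [NormedSpace ℝ E]
  {F : Type} [NormedAddCommGroup F] [NormedSpace ℝ F]

/-- `C¹` functions on compact convex sets: bound of the derivative. -/
lemma c1_bound {G : E → F} {O K : Set E} (hO : IsOpen O) (hG : ContDiffOn ℝ 1 G O)
    (hK : IsCompact K) (hKO : K ⊆ O) : ∃ L, 0 ≤ L ∧ ∀ p ∈ K, ‖fderiv ℝ G p‖ ≤ L := by
  have hc : ContinuousOn (fderiv ℝ G) K :=
    (hG.continuousOn_fderiv_of_isOpen hO le_rfl).mono hKO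
  obtain ⟨L, hL⟩ := hK.exists_bound_of_continuousOn hc
  exact ⟨max L 0, le_max_right _ _, fun p hp => (hL p hp).trans (le_max_left _ _)⟩

/-- `C¹` functions on compact convex sets: Lipschitz. -/
lemma c1_lip {G : E → F} {O K : Set E} (hO : IsOpen O) (hG : ContDiffOn ℝ 1 G O)
    (hK : IsCompact K) (hKc : Convex ℝ K) (hKO : K ⊆ O) :
    ∃ L, 0 ≤ L ∧ ∀ p ∈ K, ∀ q ∈ K, ‖G q - G p‖ ≤ L * ‖q - p‖ := by
  obtain ⟨L, hL0, hL⟩ := c1_bound hO hG hK hKO
  refine ⟨L, hL0, fun p hp q hq => ?_⟩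
  apply hKc.norm_image_sub_le_of_norm_hasFDerivWithin_le (f' := fun x => fderiv ℝ G x) _ hL hp hq
  intro x hx
  exact ((hG.differentiableOn one_ne_zero x (hKO hx)).differentiableAt
    (hO.mem_nhds (hKO hx))).hasFDerivAt.hasFDerivWithinAt

/-- `C¹` functions on compact convex sets: uniform first order expansion. -/
lemma c1_unif {G : E → F} {O K : Set E} (hO : IsOpen O) (hG : ContDiffOn ℝ 1 G O)
    (hK : IsCompact K) (hKc : Convex ℝ K) (hKO : K ⊆ O) (ε : ℝ) (hε : 0 < ε) :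
    ∃ δ > 0, ∀ p ∈ K, ∀ q ∈ K, ‖q - p‖ ≤ δ →
      ‖G q - G p - fderiv ℝ G p (q - p)‖ ≤ ε * ‖q - p‖ := by
  have hc : ContinuousOn (fderiv ℝ G) K :=
    (hG.continuousOn_fderiv_of_isOpen hO le_rfl).mono hKO
  have hu := hK.uniformContinuousOn_of_continuous hc
  rw [Metric.uniformContinuousOn_iff] at hu
  obtain ⟨δ, hδ, H⟩ := hu ε hε
  refine ⟨δ / 2, by (clear * - hδ; positivity), fun p hp q hq hpq => ?_⟩
  have hseg : segment ℝ p q ⊆ K := hKc.segment_subset hp hq
  apply (convex_segment p q).norm_image_sub_le_of_norm_hasFDerivWithin_le'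
    (f' := fun x => fderiv ℝ G x) (φ := fderiv ℝ G p) _ _ (left_mem_segment ℝ p q)
      (right_mem_segment ℝ p q)
  · intro x hx
    exact ((hG.differentiableOn one_ne_zero x (hKO (hseg hx))).differentiableAt
      (hO.mem_nhds (hKO (hseg hx)))).hasFDerivAt.hasFDerivWithinAt
  · intro x hx
    have hxp : dist x p < δ := by
      have h1 : dist x p ≤ dist p q := by
        rw [dist_comm p q]
        have := (convex_closedBall p (dist q p)).segment_subset
          (mem_closedBall_self dist_nonneg) (mem_closedBall.2 le_rfl)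
        exact mem_closedBall.1 (this hx)
      rw [dist_eq_norm p q, norm_sub_rev] at h1
      linarith only [hδ, hpq, h1]
    have := H x (hseg hx) p hp hxp
    rw [dist_eq_norm] at this
    exact this.le

end Tr

end Vale.Agent.P347.Z
end

section

/-! One Euler step in the transport theorem (task E2). -/

open Set Module MeasureTheory Metric Filter Topology
open scoped ENNReal NNReal

namespace Vale.Agent.P347.Z

namespace Tr

variable {W : Type} [NormedAddCommGroup W] [NormedSpace ℝ W] [FiniteDimensional ℝ W]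

/-- space derivative of the field -/
noncomputable def spD (X : ℝ × W → W) (p : ℝ × W) : W →L[ℝ] W :=
  (fderiv ℝ X p).comp (ContinuousLinearMap.inr ℝ ℝ W)

/-- the trace as a continuous linear functional -/
noncomputable def trC {ι : Type} [Fintype ι] (b : Basis ι ℝ W) : (W →L[ℝ] W) →L[ℝ] ℝ :=
  ∑ i, (LinearMap.toContinuousLinearMap (b.coord i)).comp (ContinuousLinearMap.apply ℝ W (b i))

lemma trC_apply {ι : Type} [Fintype ι] (b : Basis ι ℝ W) (B : W →L[ℝ] W) :
    trC b B = ∑ i, b.repr (B (b i)) i := by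
  simp only [trC, sum_apply, ContinuousLinearMap.comp_apply, ContinuousLinearMap.apply_apply, LinearMap.coe_toContinuousLinearMap', Basis.coord_apply]

/-- the algebra of one step -/
lemma alg_core {h ε C₂ LA tb sb Mr ρp ρq σ τ d : ℝ} (hh : 0 < h) (hε : 0 < ε) (hC₂ : 0 < C₂)
    (hLA : 0 ≤ LA) (htb : 0 ≤ tb) (hMr : 0 ≤ Mr)
    (e1 : |ρq - ρp - h * σ| ≤ ε / (4 * (1 + tb) * C₂) * (h * C₂))
    (e2 : |d - 1 - h * τ| ≤ ε / (4 * (LA + 1) * (Mr + 1)) * (h * LA))
    (hce : σ + ρp * τ = 0) (hσ : |σ| ≤ sb) (hτ : |τ| ≤ tb) (hρq : |ρq| ≤ Mr)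
    (b5 : h * (4 * (tb * sb + 1)) ≤ ε) (b1 : h ≤ 1) : |d * ρq - ρp| ≤ ε * h := by
  obtain ⟨u₁, hu₁⟩ : ∃ u, u = ρq - ρp - h * σ := ⟨_, rfl⟩
  obtain ⟨u₂, hu₂⟩ : ∃ u, u = d - 1 - h * τ := ⟨_, rfl⟩
  rw [← hu₁] at e1
  rw [← hu₂] at e2
  have halg : d * ρq - ρp = h * h * (τ * σ) + (1 + h * τ) * u₁ + u₂ * ρq := by
    have hσ2 : σ = - (ρp * τ) := by linarith only [hce]
    rw [hu₁, hu₂, hσ2]; ring
  rw [halg]
  have t1 : |h * h * (τ * σ)| ≤ h * (ε / 4) := by
    rw [abs_mul, abs_mul, abs_mul, abs_of_pos hh]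
    have h1 : |τ| * |σ| ≤ tb * sb := mul_le_mul hτ hσ (abs_nonneg _) htb
    have h2 : h * (tb * sb) ≤ ε / 4 := by linarith only [b5, hh]
    calc h * h * (|τ| * |σ|) ≤ h * h * (tb * sb) := by (clear * - h1 hh; gcongr)
      _ = h * (h * (tb * sb)) := by ring
      _ ≤ h * (ε / 4) := by (clear * - h2 hh; gcongr)
  have t2 : |(1 + h * τ) * u₁| ≤ h * (ε / 4) := by
    rw [abs_mul]
    have h1 : |1 + h * τ| ≤ 1 + tb := by
      calc |1 + h * τ| ≤ |(1 : ℝ)| + |h * τ| := abs_add_le _ _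
        _ ≤ 1 + 1 * tb := by
          rw [abs_one, abs_mul, abs_of_pos hh]; (clear * - b1 hτ; gcongr)
        _ = 1 + tb := by ring
    calc |1 + h * τ| * |u₁| ≤ (1 + tb) * (ε / (4 * (1 + tb) * C₂) * (h * C₂)) := by (clear * - h1 e1 htb; gcongr)
      _ = h * (ε / 4) := by field_simp
  have t3 : |u₂ * ρq| ≤ h * (ε / 4) := by
    rw [abs_mul]
    calc |u₂| * |ρq| ≤ (ε / (4 * (LA + 1) * (Mr + 1)) * (h * LA)) * Mr := by (clear * - e2 hρq hε hLA hMr hh; gcongr)
      _ ≤ (ε / (4 * (LA + 1) * (Mr + 1)) * (h * (LA + 1))) * (Mr + 1) := by gcongr <;> linarith only []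
      _ = h * (ε / 4) := by (clear * - hLA hMr hh hε; field_simp)
  calc |h * h * (τ * σ) + (1 + h * τ) * u₁ + u₂ * ρq|
      ≤ |h * h * (τ * σ) + (1 + h * τ) * u₁| + |u₂ * ρq| := abs_add_le _ _
    _ ≤ |h * h * (τ * σ)| + |(1 + h * τ) * u₁| + |u₂ * ρq| := by
        gcongr; exact abs_add_le _ _
    _ ≤ h * (ε / 4) + h * (ε / 4) + h * (ε / 4) := by (clear * - t1 t2 t3; gcongr)
    _ ≤ ε * h := by (refine le_of_not_gt fun hng_ => ?_; linarith only [mul_pos (sub_pos.2 hng_) (mul_pos hh hε), mul_pos (mul_pos hh hε) (mul_pos hh hε)])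

omit [FiniteDimensional ℝ W] in
/-- Bounds on compact sets. -/
lemma bounds [FiniteDimensional ℝ W] {X : ℝ × W → W} {ρ : ℝ × W → ℝ} {O K : Set (ℝ × W)}
    (hO : IsOpen O) (hX : ContDiffOn ℝ 1 X O) (hρ : ContDiffOn ℝ 1 ρ O) (hK : IsCompact K)
    (hKO : K ⊆ O) : ∃ M, 0 ≤ M ∧ ∀ p ∈ K, ‖X p‖ ≤ M ∧ |ρ p| ≤ M ∧ ‖spD X p‖ ≤ M ∧
      ‖fderiv ℝ ρ p‖ ≤ M := by
  obtain ⟨M1, h1⟩ := hK.exists_bound_of_continuousOn (hX.continuousOn.mono hKO)
  obtain ⟨M2, h2⟩ := hK.exists_bound_of_continuousOn (hρ.continuousOn.mono hKO)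
  obtain ⟨M3, hM3, h3⟩ := c1_bound hO hX hK hKO
  obtain ⟨M4, hM4, h4⟩ := c1_bound hO hρ hK hKO
  have hA : ∀ p ∈ K, ‖spD X p‖ ≤ M3 * ‖ContinuousLinearMap.inr ℝ ℝ W‖ := fun p hp =>
    ((fderiv ℝ X p).opNorm_comp_le _).trans (by gcongr; exact h3 p hp)
  refine ⟨max (max M1 M2) (max (M3 * ‖ContinuousLinearMap.inr ℝ ℝ W‖) M4),
    hM4.trans ((le_max_right _ _).trans (le_max_right _ _)), fun p hp => ⟨?_, ?_, ?_, ?_⟩⟩
  · exact (h1 p hp).trans ((le_max_left _ _).trans (le_max_left _ _))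
  · exact (h2 p hp).trans ((le_max_right _ _).trans (le_max_left _ _))
  · exact (hA p hp).trans ((le_max_left _ _).trans (le_max_right _ _))
  · exact (h4 p hp).trans ((le_max_right _ _).trans (le_max_right _ _))

omit [FiniteDimensional ℝ W] in
/-- the Euler step stays in the compact set -/
lemma step_mem {T r h M t : ℝ} {z v : W} (hh : 0 < h) (ht : 0 ≤ t) (htT : t + h ≤ T)
    (hz : ‖z‖ ≤ r) (hv : ‖v‖ ≤ M) (hhM : h * (M + 1) ≤ 1) :
    (t + h, z + h • v) ∈ Icc 0 T ×ˢ closedBall (0 : W) (r + 1) := by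
  refine ⟨⟨by linarith only [ht, hh], htT⟩, ?_⟩
  rw [mem_closedBall_zero_iff]
  calc ‖z + h • v‖ ≤ ‖z‖ + ‖h • v‖ := norm_add_le _ _
    _ ≤ r + h * M := by
      rw [norm_smul, Real.norm_eq_abs, abs_of_pos hh]; gcongr
    _ ≤ r + 1 := by (refine le_of_not_gt fun hng_ => ?_; linarith only [mul_pos (sub_pos.2 hng_) (sub_pos.2 hng_), mul_pos hh (sub_pos.2 hng_), mul_nonneg (sub_nonneg.2 hhM) (le_of_lt (sub_pos.2 hng_))])

/-- pointwise one step estimate, at a single point -/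
lemma pointwise_at {ι : Type} [Fintype ι] (b : Basis ι ℝ W) {X : ℝ × W → W} {ρ : ℝ × W → ℝ}
    {M ε h t : ℝ} {z : W} (hM : 0 ≤ M) (hε : 0 < ε) (hh : 0 < h)
    (hb : ‖X (t, z)‖ ≤ M ∧ |ρ (t, z)| ≤ M ∧ ‖spD X (t, z)‖ ≤ M ∧ ‖fderiv ℝ ρ (t, z)‖ ≤ M)
    (hq : |ρ (t + h, z + h • X (t, z))| ≤ M)
    (hce : fderiv ℝ ρ (t, z) (1, 0) + fderiv ℝ ρ (t, z) (0, X (t, z))
      + ρ (t, z) * ∑ i, b.repr (fderiv ℝ X (t, z) (0, b i)) i = 0)
    (H1 : |ρ (t + h, z + h • X (t, z)) - ρ (t, z) -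
      fderiv ℝ ρ (t, z) ((t + h, z + h • X (t, z)) - (t, z))| ≤
        ε / (4 * (1 + ‖trC b‖ * M) * (1 + M)) * ‖(t + h, z + h • X (t, z)) - (t, z)‖)
    (H2 : |(ContinuousLinearMap.id ℝ W + h • spD X (t, z)).det - 1 -
      ∑ i, b.repr ((h • spD X (t, z)) (b i)) i| ≤
        ε / (4 * (M + 1) * (M + 1)) * ‖h • spD X (t, z)‖)
    (b1 : h ≤ 1) (b5 : h * (4 * (‖trC b‖ * M * (M * (1 + M)) + 1)) ≤ ε)
    (b6 : h * (2 * (‖trC b‖ * M + ε / (4 * (M + 1) * (M + 1)) * M + 1)) ≤ 1) :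
    |(|(ContinuousLinearMap.id ℝ W + h • spD X (t, z)).det|) * ρ (t + h, z + h • X (t, z))
        - ρ (t, z)| ≤ ε * h := by
  have htc0 := norm_nonneg (trC b)
  have hτb : |trC b (spD X (t, z))| ≤ ‖trC b‖ * M :=
    ((trC b).le_opNorm _).trans (by gcongr; exact hb.2.2.1)
  have hqp : (t + h, z + h • X (t, z)) - (t, z) = h • ((1 : ℝ), X (t, z)) := by simp
  have hvn : ‖((1 : ℝ), X (t, z))‖ ≤ 1 + M := by
    rw [Prod.norm_def]
    simp only [norm_one]
    exact max_le (by linarith only [hM]) (by linarith only [hb.1])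
  have hqpn : ‖(t + h, z + h • X (t, z)) - (t, z)‖ ≤ h * (1 + M) := by
    rw [hqp, norm_smul, Real.norm_eq_abs, abs_of_pos hh]; (clear * - hvn hh; gcongr)
  have e1 : |ρ (t + h, z + h • X (t, z)) - ρ (t, z) -
      h * fderiv ℝ ρ (t, z) ((1 : ℝ), X (t, z))| ≤
        ε / (4 * (1 + ‖trC b‖ * M) * (1 + M)) * (h * (1 + M)) := by
    have h1 : fderiv ℝ ρ (t, z) ((t + h, z + h • X (t, z)) - (t, z)) =
        h * fderiv ℝ ρ (t, z) ((1 : ℝ), X (t, z)) := by
      rw [hqp, map_smul, smul_eq_mul]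
    rw [← h1]
    exact H1.trans (by gcongr)
  have hAn : ‖h • spD X (t, z)‖ ≤ h * M := by
    rw [norm_smul, Real.norm_eq_abs, abs_of_pos hh]; gcongr; exact hb.2.2.1
  have e2 : |(ContinuousLinearMap.id ℝ W + h • spD X (t, z)).det - 1 -
      h * trC b (spD X (t, z))| ≤ ε / (4 * (M + 1) * (M + 1)) * (h * M) := by
    have htr : ∑ i, b.repr ((h • spD X (t, z)) (b i)) i = h * trC b (spD X (t, z)) := by
      rw [← trC_apply, map_smul, smul_eq_mul]
    rw [← htr]
    exact H2.trans (by (clear * - hAn hε hM; gcongr))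
  have hσsplit : fderiv ℝ ρ (t, z) ((1 : ℝ), X (t, z)) =
      fderiv ℝ ρ (t, z) (1, 0) + fderiv ℝ ρ (t, z) (0, X (t, z)) := by
    rw [← map_add]; simp
  have hτeq : trC b (spD X (t, z)) = ∑ i, b.repr (fderiv ℝ X (t, z) (0, b i)) i := by
    rw [trC_apply]; rfl
  have hce' : fderiv ℝ ρ (t, z) ((1 : ℝ), X (t, z)) + ρ (t, z) * trC b (spD X (t, z)) = 0 := by
    rw [hσsplit, hτeq]
    exact hce
  have hσb : |fderiv ℝ ρ (t, z) ((1 : ℝ), X (t, z))| ≤ M * (1 + M) := by
    rw [← Real.norm_eq_abs]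
    exact ((fderiv ℝ ρ (t, z)).le_opNorm _).trans (by gcongr; exact hb.2.2.2)
  generalize (ContinuousLinearMap.id ℝ W + h • spD X (t, z)).det = d at *
  generalize ρ (t + h, z + h • X (t, z)) = ρq at *
  generalize fderiv ℝ ρ (t, z) ((1 : ℝ), X (t, z)) = σ at *
  generalize trC b (spD X (t, z)) = τ at *
  generalize ‖trC b‖ = c at *
  have hε₂ : 0 < ε / (4 * (M + 1) * (M + 1)) := by (clear * - hε hM; positivity)
  have hdpos : 0 < d := by
    have h1 := (abs_le.1 e2).1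
    have h2 := (abs_le.1 hτb).1
    have h3 : h * τ ≥ -(h * (c * M)) := by (refine le_of_not_gt fun hng_ => ?_; linarith only [mul_nonneg (sub_nonneg.2 b1) (le_of_lt (sub_pos.2 hng_)), mul_pos hh (sub_pos.2 hng_), mul_nonneg (le_of_lt hh) (sub_nonneg.2 h2)])
    have h4 : ε / (4 * (M + 1) * (M + 1)) * (h * M) + h * (c * M) ≤ 1 / 2 := by (refine le_of_not_gt fun hng_ => ?_; linarith only [mul_pos (sub_pos.2 hng_) (sub_pos.2 hng_), mul_pos hh (sub_pos.2 hng_), mul_nonneg (sub_nonneg.2 b6) (le_of_lt (sub_pos.2 hng_))])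
    linarith only [h3, h1, h4]
  rw [abs_of_pos hdpos]
  exact alg_core hh hε (by linarith only [hM]) hM (by (clear * - htc0 hM; positivity)) hM e1 e2 hce' hσb hτb hq b5 b1

section

variable {ι : Type} [Fintype ι] (b : Basis ι ℝ W)
    {J : Set ℝ} (hJ : IsOpen J) {T : ℝ} (hTJ : Icc 0 T ⊆ J) {X : ℝ × W → W}
    (hX : ContDiffOn ℝ 1 X (J ×ˢ univ))
    {ρ : ℝ × W → ℝ} (hρ : ContDiffOn ℝ 1 ρ (J ×ˢ univ))

include hJ hTJ hX hρ

/-- pointwise one step estimate -/
lemma pointwise (hce : ∀ t ∈ Icc 0 T, ∀ z, fderiv ℝ ρ (t, z) (1, 0) + fderiv ℝ ρ (t, z) (0, X (t, z))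
      + ρ (t, z) * ∑ i, b.repr (fderiv ℝ X (t, z) (0, b i)) i = 0)
    (r : ℝ) (ε : ℝ) (hε : 0 < ε) :
    ∃ h₀ > 0, ∀ h, 0 < h → h ≤ h₀ → ∀ t, 0 ≤ t → t + h ≤ T → ∀ z ∈ closedBall (0 : W) r,
      |(|(ContinuousLinearMap.id ℝ W + h • spD X (t, z)).det|) * ρ (t + h, z + h • X (t, z))
        - ρ (t, z)| ≤ ε * h := by
  have hOo : IsOpen (J ×ˢ (univ : Set W)) := hJ.prod isOpen_univ
  have hK : IsCompact (Icc 0 T ×ˢ closedBall (0 : W) (r + 1)) :=
    isCompact_Icc.prod (isCompact_closedBall _ _)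
  have hKc : Convex ℝ (Icc 0 T ×ˢ closedBall (0 : W) (r + 1)) :=
    (convex_Icc _ _).prod (convex_closedBall _ _)
  have hKO : Icc 0 T ×ˢ closedBall (0 : W) (r + 1) ⊆ J ×ˢ (univ : Set W) :=
    prod_mono hTJ (subset_univ _)
  obtain ⟨M, hM, hb⟩ := bounds hOo hX hρ hK hKO
  have htc0 := norm_nonneg (trC b)
  have hε₁0 : 0 < ε / (4 * (1 + ‖trC b‖ * M) * (1 + M)) := by positivity
  have hε₂0 : 0 < ε / (4 * (M + 1) * (M + 1)) := by (clear * - hε hM; positivity)
  obtain ⟨δ₁, hδ₁, H1⟩ := c1_unif hOo hρ hK hKc hKO _ hε₁0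
  obtain ⟨δ₂, hδ₂, H2⟩ := det_near b _ hε₂0
  refine ⟨min (min (min 1 (1 / (M + 1))) (min (δ₁ / (1 + M)) (δ₂ / (M + 1))))
    (min (ε / (4 * (‖trC b‖ * M * (M * (1 + M)) + 1)))
      (1 / (2 * (‖trC b‖ * M + ε / (4 * (M + 1) * (M + 1)) * M + 1)))),
    lt_min (lt_min (lt_min one_pos (by positivity)) (lt_min (by (clear * - hδ₁ hM; positivity)) (by (clear * - hδ₂ hM; positivity))))
      (lt_min (by positivity) (by positivity)), fun h hh hhh₀ t ht htT z hz => ?_⟩
  have b1 : h ≤ 1 := hhh₀.trans ((min_le_left _ _).trans ((min_le_left _ _).trans (min_le_left _ _)))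
  have b2 : h ≤ 1 / (M + 1) :=
    hhh₀.trans ((min_le_left _ _).trans ((min_le_left _ _).trans (min_le_right _ _)))
  have b3 : h ≤ δ₁ / (1 + M) :=
    hhh₀.trans ((min_le_left _ _).trans ((min_le_right _ _).trans (min_le_left _ _)))
  have b4 : h ≤ δ₂ / (M + 1) :=
    hhh₀.trans ((min_le_left _ _).trans ((min_le_right _ _).trans (min_le_right _ _)))
  have b5 : h ≤ ε / (4 * (‖trC b‖ * M * (M * (1 + M)) + 1)) :=
    hhh₀.trans ((min_le_right _ _).trans (min_le_left _ _))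
  have b6 : h ≤ 1 / (2 * (‖trC b‖ * M + ε / (4 * (M + 1) * (M + 1)) * M + 1)) :=
    hhh₀.trans ((min_le_right _ _).trans (min_le_right _ _))
  rw [le_div_iff₀ (by positivity)] at b2 b3 b4 b5 b6
  have hzn : ‖z‖ ≤ r := by simpa only [mem_closedBall, dist_zero_right] using hz
  have hp : (t, z) ∈ Icc 0 T ×ˢ closedBall (0 : W) (r + 1) :=
    ⟨⟨ht, by linarith only [htT, hh]⟩, by rw [mem_closedBall_zero_iff]; linarith only [hzn]⟩
  have hbp := hb _ hp
  have hq : (t + h, z + h • X (t, z)) ∈ Icc 0 T ×ˢ closedBall (0 : W) (r + 1) :=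
    step_mem hh ht htT hzn hbp.1 b2
  have hqpn : ‖(t + h, z + h • X (t, z)) - (t, z)‖ ≤ δ₁ := by
    have hqp : (t + h, z + h • X (t, z)) - (t, z) = h • ((1 : ℝ), X (t, z)) := by simp only [Prod.mk_sub_mk, add_sub_cancel_left, Prod.smul_mk, smul_eq_mul, mul_one]
    have hvn : ‖((1 : ℝ), X (t, z))‖ ≤ 1 + M := by
      rw [Prod.norm_def]
      simp only [norm_one]
      exact max_le (by linarith only [hM]) (by linarith only [hbp.1])
    rw [hqp, norm_smul, Real.norm_eq_abs, abs_of_pos hh]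
    calc h * ‖((1 : ℝ), X (t, z))‖ ≤ h * (1 + M) := by (clear * - hvn hh; gcongr)
      _ ≤ δ₁ := b3
  have hAn : ‖h • spD X (t, z)‖ ≤ δ₂ := by
    rw [norm_smul, Real.norm_eq_abs, abs_of_pos hh]
    have := hbp.2.2.1
    (refine le_of_not_gt fun hng_ => ?_; linarith only [mul_pos hh (sub_pos.2 hng_), mul_nonneg (sub_nonneg.2 b1) (le_of_lt (sub_pos.2 hng_)), mul_pos hh hh, mul_nonneg (le_of_lt hh) (sub_nonneg.2 b4), mul_nonneg (le_of_lt hh) (sub_nonneg.2 this), mul_nonneg (le_of_lt hh) (sub_nonneg.2 b1), mul_nonneg (sub_nonneg.2 b1) (sub_nonneg.2 b4)])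
  exact pointwise_at b hM hε hh hbp (hb _ hq).2.1 (hce t ⟨ht, by linarith only [htT, hh]⟩ z)
    (H1 _ hp _ hq hqpn) (H2 _ hAn) b1 b5 b6

end

end Tr

end Vale.Agent.P347.Z
end

section

/-! One Euler step in the transport theorem (task E2): integral form. -/

open Set Module MeasureTheory Metric Filter Topology
open scoped ENNReal NNReal

namespace Vale.Agent.P347.Z

namespace Tr

variable {W : Type} [NormedAddCommGroup W] [NormedSpace ℝ W] [FiniteDimensional ℝ W]

omit [NormedSpace ℝ W] [FiniteDimensional ℝ W] in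
lemma cont_slice {F : Type} [TopologicalSpace F] {J : Set ℝ} {G : ℝ × W → F}
    (hG : ContinuousOn G (J ×ˢ univ)) {t : ℝ} (ht : t ∈ J) : Continuous fun z => G (t, z) :=
  hG.comp_continuous (by fun_prop) (fun z => ⟨ht, mem_univ _⟩)

omit [FiniteDimensional ℝ W] in
lemma hasFDerivAt_step {J : Set ℝ} (hJ : IsOpen J) {X : ℝ × W → W}
    (hX : ContDiffOn ℝ 1 X (J ×ˢ univ)) {t : ℝ} (ht : t ∈ J) (h : ℝ) (z : W) :
    HasFDerivAt (fun z => z + h • X (t, z)) (ContinuousLinearMap.id ℝ W + h • spD X (t, z)) z := by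
  have hO : IsOpen (J ×ˢ (univ : Set W)) := hJ.prod isOpen_univ
  have hm : (t, z) ∈ J ×ˢ (univ : Set W) := ⟨ht, mem_univ _⟩
  have h1 : HasFDerivAt X (fderiv ℝ X (t, z)) (t, z) :=
    ((hX.differentiableOn one_ne_zero _ hm).differentiableAt (hO.mem_nhds hm)).hasFDerivAt
  have h2 : HasFDerivAt (fun z : W => (t, z)) (ContinuousLinearMap.inr ℝ ℝ W) z :=
    hasFDerivAt_prodMk_right t z
  exact (hasFDerivAt_id z).add ((h1.comp z h2).const_smul h)

omit [FiniteDimensional ℝ W] in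
/-- the Euler step maps a slightly larger ball onto the ball -/
lemma step_surj [CompleteSpace W] {v : W → W} {h L C B : ℝ} (hh : 0 < h) (hL : 0 ≤ L) (hC : 0 ≤ C)
    (hB : 0 ≤ B) (hlip : ∀ x ∈ closedBall (0 : W) (B + 1), ∀ y ∈ closedBall (0 : W) (B + 1),
      ‖v x - v y‖ ≤ L * ‖x - y‖) (hv : ‖v 0‖ ≤ C)
    (hsm : h * (2 * ((C + 1) * (L + 1) * (B + 2))) ≤ 1) :
    closedBall (0 : W) B ⊆ (fun z => z + h • v z) '' closedBall (0 : W) (B + 1) := by
  obtain ⟨c, hc⟩ : ∃ c : ℝ≥0, (c : ℝ) = h * L :=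
    ⟨(h * L).toNNReal, Real.coe_toNNReal _ (by positivity)⟩
  have happ : ApproximatesLinearOn (fun z => z + h • v z) (ContinuousLinearMap.id ℝ W)
      (closedBall (0 : W) (B + 1)) c := by
    intro x hx y hy
    have : (x + h • v x) - (y + h • v y) - (ContinuousLinearMap.id ℝ W) (x - y) =
        h • (v x - v y) := by
      simp only [ContinuousLinearMap.id_apply, smul_sub]; abel
    rw [this, norm_smul, Real.norm_eq_abs, abs_of_pos hh]
    have := hlip x hx y hy
    calc h * ‖v x - v y‖ ≤ h * (L * ‖x - y‖) := by (clear * - this hh; gcongr)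
      _ = (c : ℝ) * ‖x - y‖ := by
        rw [hc]; ring
  let inv : (ContinuousLinearMap.id ℝ W).NonlinearRightInverse :=
    { toFun := id
      nnnorm := 1
      bound' := by intro y; simp
      right_inv' := by intro y; simp }
  have hs := happ.surjOn_closedBall_of_nonlinearRightInverse inv (ε := B + 1) (b := 0)
    (by linarith only [hB]) (Subset.refl _)
  intro y hy
  apply hs
  rw [mem_closedBall, dist_eq_norm]
  have hy' : ‖y‖ ≤ B := by simpa only [mem_closedBall, dist_zero_right] using hy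
  have e1 : ((inv.nnnorm : ℝ)⁻¹ - (c : ℝ)) * (B + 1) = (1 - h * L) * (B + 1) := by
    rw [hc]
    congr 2
    simp [inv]
  rw [e1]
  have e2 : ‖y - (0 + h • v 0)‖ ≤ B + h * C := by
    calc ‖y - (0 + h • v 0)‖ ≤ ‖y‖ + ‖0 + h • v 0‖ := norm_sub_le _ _
      _ = ‖y‖ + h * ‖v 0‖ := by
        rw [zero_add, norm_smul, Real.norm_eq_abs, abs_of_pos hh]
      _ ≤ B + h * C := by (clear * - hy' hv hh; gcongr)
  have e3 : h * (C + L * (B + 1)) ≤ 1 := by
    have : C + L * (B + 1) ≤ 2 * ((C + 1) * (L + 1) * (B + 2)) := by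
      (refine le_of_not_gt fun hng_ => ?_; linarith only [mul_nonneg (mul_self_nonneg (1)) (le_of_lt (sub_pos.2 hng_)), mul_nonneg (le_of_lt (sub_pos.2 hng_)) (mul_nonneg (mul_nonneg hC hL) hB), mul_nonneg hL (le_of_lt (sub_pos.2 hng_)), mul_nonneg hC (le_of_lt (sub_pos.2 hng_)), mul_nonneg hB (le_of_lt (sub_pos.2 hng_)), mul_pos (sub_pos.2 hng_) (sub_pos.2 hng_), mul_nonneg (le_of_lt (sub_pos.2 hng_)) (mul_nonneg hC hL), mul_nonneg (le_of_lt (sub_pos.2 hng_)) (mul_nonneg hC hB), mul_nonneg (le_of_lt (sub_pos.2 hng_)) (mul_nonneg hL hB)])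
    calc h * (C + L * (B + 1)) ≤ h * (2 * ((C + 1) * (L + 1) * (B + 2))) := by gcongr
      _ ≤ 1 := hsm
  calc ‖y - (0 + h • v 0)‖ ≤ B + h * C := e2
    _ ≤ (1 - h * L) * (B + 1) := by (refine le_of_not_gt fun hng_ => ?_; linarith only [mul_pos (sub_pos.2 hng_) (sub_pos.2 hng_), mul_nonneg (sub_nonneg.2 e3) (le_of_lt (sub_pos.2 hng_))])

omit [FiniteDimensional ℝ W] in
lemma step_inj {v : W → W} {h L r : ℝ} (hh : 0 < h)
    (hlip : ∀ x ∈ closedBall (0 : W) r, ∀ y ∈ closedBall (0 : W) r,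
      ‖v x - v y‖ ≤ L * ‖x - y‖) (hsm : h * L ≤ 1 / 2) :
    InjOn (fun z => z + h • v z) (closedBall (0 : W) r) := by
  intro x hx y hy hxy
  have h1 : x - y = -(h • (v x - v y)) := by
    have h0 : x + h • v x = y + h • v y := hxy
    have h2 : (x - y) + h • (v x - v y) = 0 := by
      have : (x - y) + h • (v x - v y) = (x + h • v x) - (y + h • v y) := by
        rw [smul_sub]; abel
      rw [this, h0, sub_self]
    exact eq_neg_of_add_eq_zero_left h2
  have h2 : ‖x - y‖ ≤ (1 / 2) * ‖x - y‖ := by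
    calc ‖x - y‖ = h * ‖v x - v y‖ := by
          conv_lhs => rw [h1, norm_neg, norm_smul, Real.norm_eq_abs, abs_of_pos hh]
      _ ≤ h * (L * ‖x - y‖) := by gcongr; exact hlip x hx y hy
      _ = (h * L) * ‖x - y‖ := by ring
      _ ≤ (1 / 2) * ‖x - y‖ := by gcongr
  have h3 : ‖x - y‖ = 0 := by
    have := norm_nonneg (x - y)
    linarith only [this, h2]
  exact sub_eq_zero.1 (norm_eq_zero.1 h3)

omit [FiniteDimensional ℝ W] in
lemma step_pre {v : W → W} {h C B : ℝ} (hh : 0 < h) (hC : 0 ≤ C) (hB : 0 ≤ B)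
    (hv : ∀ z, ‖v z‖ ≤ C * (1 + ‖z‖)) (hsm : h * (C * (B + 2)) ≤ 1 / 2) (z : W)
    (hz : ‖z + h • v z‖ ≤ B) : ‖z‖ ≤ B + 1 := by
  by_contra hcon
  push Not at hcon
  have h1 : ‖z‖ ≤ ‖z + h • v z‖ + h * ‖v z‖ := by
    calc ‖z‖ = ‖(z + h • v z) - h • v z‖ := by congr 1; abel
      _ ≤ ‖z + h • v z‖ + ‖h • v z‖ := norm_sub_le _ _
      _ = ‖z + h • v z‖ + h * ‖v z‖ := by rw [norm_smul, Real.norm_eq_abs, abs_of_pos hh]
  have h2 := hv z
  have h3 : h * ‖v z‖ ≤ h * (C * (1 + ‖z‖)) := by gcongr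
  have h4 : h * C ≤ 1 / 4 := by (refine le_of_not_gt fun hng_ => ?_; linarith only [mul_nonneg (le_of_lt (sub_pos.2 hng_)) (mul_nonneg (mul_nonneg hh.le hC) hB), mul_nonneg (sub_nonneg.2 hsm) (le_of_lt (sub_pos.2 hng_)), mul_pos (sub_pos.2 hng_) (sub_pos.2 hng_)])
  linarith only [mul_nonneg (sub_nonneg.2 h3) (mul_nonneg hh.le hC), mul_nonneg (sub_nonneg.2 hsm) (sub_nonneg.2 h4), mul_nonneg (sub_nonneg.2 hsm) (mul_nonneg hh.le hC), mul_nonneg (sub_nonneg.2 hz) (sub_nonneg.2 h4), mul_nonneg (sub_nonneg.2 hz) (mul_nonneg hh.le hC), mul_nonneg (le_of_lt (sub_pos.2 hcon)) (sub_nonneg.2 h4), mul_nonneg (le_of_lt (sub_pos.2 hcon)) (mul_nonneg hh.le hC), mul_nonneg (sub_nonneg.2 h1) (sub_nonneg.2 h4), mul_nonneg (sub_nonneg.2 h1) (mul_nonneg hh.le hC), mul_nonneg (sub_nonneg.2 h3) (sub_nonneg.2 h4)]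

variable [MeasurableSpace W] [BorelSpace W] (μ : Measure W) [μ.IsAddHaarMeasure]

/-- change of variables in one Euler step with a pointwise bound -/
lemma step_int {v : W → W} {v' : W → W →L[ℝ] W} {ρ₀ ρ₁ : W → ℝ} {h B M κ : ℝ}
    (hvc : Continuous v) (hv' : ∀ z, HasFDerivAt (fun z => z + h • v z) (v' z) z)
    (hvc' : Continuous v') (hρ₀ : Continuous ρ₀) (hρ₁ : Continuous ρ₁)
    (hinj : InjOn (fun z => z + h • v z) (closedBall (0 : W) (B + 1)))
    (hsurj : closedBall (0 : W) B ⊆ (fun z => z + h • v z) '' closedBall (0 : W) (B + 1))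
    (hpre : ∀ z, ‖z + h • v z‖ ≤ B → ‖z‖ ≤ B + 1)
    (hpw : ∀ z ∈ closedBall (0 : W) (B + 1), |(|(v' z).det|) * ρ₁ (z + h • v z) - ρ₀ z| ≤ κ)
    (hκ : 0 ≤ κ) {f : W → ℝ} (hf : Measurable f) (hM : ∀ z, |f z| ≤ M)
    (hf0 : ∀ z, B < ‖z‖ → f z = 0) :
    |∫ z, f (z + h • v z) * ρ₀ z ∂μ - ∫ y, f y * ρ₁ y ∂μ| ≤
      M * κ * μ.real (closedBall (0 : W) (B + 1)) := by
  set E : W → W := fun z => z + h • v z with hE
  have hEc : Continuous E := by rw [hE]; (clear * - hvc; fun_prop)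
  have hM0 : 0 ≤ M := (abs_nonneg _).trans (hM 0)
  set S : Set W := closedBall (0 : W) (B + 1) ∩ E ⁻¹' closedBall (0 : W) B with hS
  have hSm : MeasurableSet S :=
    (isClosed_closedBall.inter (isClosed_closedBall.preimage hEc)).measurableSet
  have hSsub : S ⊆ closedBall (0 : W) (B + 1) := inter_subset_left
  have hfin : μ (closedBall (0 : W) (B + 1)) < ∞ := (isCompact_closedBall _ _).measure_lt_top
  have hSfin : μ S < ∞ := (measure_mono hSsub).trans_lt hfin
  have himg : E '' S = closedBall (0 : W) B := by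
    apply Subset.antisymm
    · rintro _ ⟨z, hz, rfl⟩
      exact hz.2
    · intro y hy
      obtain ⟨z, hz, hzy⟩ := hsurj hy
      refine ⟨z, ⟨hz, ?_⟩, hzy⟩
      have h1 : E z = y := hzy
      show E z ∈ closedBall (0 : W) B
      rw [h1]; exact hy
  have e1 : ∫ z, f (E z) * ρ₀ z ∂μ = ∫ z in S, f (E z) * ρ₀ z ∂μ := by
    symm
    apply setIntegral_eq_integral_of_forall_compl_eq_zero
    intro z hz
    by_cases hb : ‖E z‖ ≤ B
    · exfalso
      apply hz
      exact ⟨by rw [mem_closedBall_zero_iff]; exact hpre z hb, by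
        rw [mem_preimage, mem_closedBall_zero_iff]; exact hb⟩
    · rw [hf0 _ (not_le.1 hb), zero_mul]
  have e2 : ∫ y, f y * ρ₁ y ∂μ = ∫ z in S, |(v' z).det| * (f (E z) * ρ₁ (E z)) ∂μ := by
    have h1 : ∫ y, f y * ρ₁ y ∂μ = ∫ y in closedBall (0 : W) B, f y * ρ₁ y ∂μ := by
      symm
      apply setIntegral_eq_integral_of_forall_compl_eq_zero
      intro y hy
      rw [mem_closedBall_zero_iff, not_le] at hy
      rw [hf0 _ hy, zero_mul]
    rw [h1, ← himg, integral_image_eq_integral_abs_det_fderiv_smul μ hSm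
      (fun z _ => (hv' z).hasFDerivWithinAt) (hinj.mono hSsub)]
    rfl
  obtain ⟨M0, hM0b⟩ := (isCompact_closedBall (0 : W) (B + 1)).exists_bound_of_continuousOn
    hρ₀.continuousOn
  have hcont2 : Continuous fun z => |(v' z).det| * ρ₁ (E z) := by
    have : Continuous fun z => (v' z).det :=
      (contDiff_det (n := 0)).continuous.comp hvc'
    fun_prop
  obtain ⟨M1, hM1b⟩ := (isCompact_closedBall (0 : W) (B + 1)).exists_bound_of_continuousOn
    hcont2.continuousOn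
  have hfE : Measurable fun z => f (E z) := hf.comp hEc.measurable
  have i1 : IntegrableOn (fun z => f (E z) * ρ₀ z) S μ := by
    apply Measure.integrableOn_of_bounded hSfin.ne
      ((hfE.mul hρ₀.measurable).aestronglyMeasurable) (M := M * M0)
    rw [ae_restrict_iff' hSm]
    refine Eventually.of_forall fun z hz => ?_
    rw [Pi.mul_apply, norm_mul]
    have := hM0b z (hSsub hz)
    exact mul_le_mul (hM _) this (norm_nonneg _) hM0
  have i2 : IntegrableOn (fun z => |(v' z).det| * (f (E z) * ρ₁ (E z))) S μ := by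
    have heq : (fun z => |(v' z).det| * (f (E z) * ρ₁ (E z))) =
        fun z => f (E z) * (|(v' z).det| * ρ₁ (E z)) := by
      funext z; ring
    rw [heq]
    apply Measure.integrableOn_of_bounded hSfin.ne
      ((hfE.mul hcont2.measurable).aestronglyMeasurable) (M := M * M1)
    rw [ae_restrict_iff' hSm]
    refine Eventually.of_forall fun z hz => ?_
    rw [Pi.mul_apply, norm_mul]
    have := hM1b z (hSsub hz)
    exact mul_le_mul (hM _) this (norm_nonneg _) hM0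
  rw [e1, e2, ← integral_sub i1 i2]
  have hle : ∀ z ∈ S, ‖f (E z) * ρ₀ z - |(v' z).det| * (f (E z) * ρ₁ (E z))‖ ≤ M * κ := by
    intro z hz
    have h1 : f (E z) * ρ₀ z - |(v' z).det| * (f (E z) * ρ₁ (E z)) =
        f (E z) * (-(|(v' z).det| * ρ₁ (E z) - ρ₀ z)) := by ring
    rw [h1, norm_mul, norm_neg]
    exact mul_le_mul (hM _) (hpw z (hSsub hz)) (norm_nonneg _) hM0
  have := norm_setIntegral_le_of_norm_le_const hSfin hle
  rw [Real.norm_eq_abs] at this
  refine this.trans ?_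
  have hmono : μ.real S ≤ μ.real (closedBall (0 : W) (B + 1)) := measureReal_mono hSsub hfin.ne
  (clear * - hmono hM0 hκ; gcongr)

section

variable {ι : Type} [Fintype ι] (b : Basis ι ℝ W)
    {J : Set ℝ} (hJ : IsOpen J) {T : ℝ} (hT : 0 ≤ T) (hTJ : Icc 0 T ⊆ J) {X : ℝ × W → W}
    (hX : ContDiffOn ℝ 1 X (J ×ˢ univ)) {C : ℝ}
    (hC : ∀ t ∈ Icc 0 T, ∀ z, ‖X (t, z)‖ ≤ C * (1 + ‖z‖))
    {ρ : ℝ × W → ℝ} (hρ : ContDiffOn ℝ 1 ρ (J ×ˢ univ))

include hJ hT hTJ hX hC hρ

/-- integral one step estimate -/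
lemma one_step (hce : ∀ t ∈ Icc 0 T, ∀ z, fderiv ℝ ρ (t, z) (1, 0) + fderiv ℝ ρ (t, z) (0, X (t, z))
      + ρ (t, z) * ∑ i, b.repr (fderiv ℝ X (t, z) (0, b i)) i = 0)
    (B : ℝ) (hB : 0 ≤ B) (ε : ℝ) (hε : 0 < ε) :
    ∃ h₀ > 0, ∀ h, 0 < h → h ≤ h₀ → ∀ t, 0 ≤ t → t + h ≤ T → ∀ f : W → ℝ, Measurable f →
      ∀ M, (∀ z, |f z| ≤ M) → (∀ z, B < ‖z‖ → f z = 0) →
      |∫ z, f (z + h • X (t, z)) * ρ (t, z) ∂μ - ∫ y, f y * ρ (t + h, y) ∂μ| ≤ M * (ε * h) := by
  have hOo : IsOpen (J ×ˢ (univ : Set W)) := hJ.prod isOpen_univ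
  have hK : IsCompact (Icc 0 T ×ˢ closedBall (0 : W) (B + 1)) :=
    isCompact_Icc.prod (isCompact_closedBall _ _)
  have hKc : Convex ℝ (Icc 0 T ×ˢ closedBall (0 : W) (B + 1)) :=
    (convex_Icc _ _).prod (convex_closedBall _ _)
  have hKO : Icc 0 T ×ˢ closedBall (0 : W) (B + 1) ⊆ J ×ˢ (univ : Set W) :=
    prod_mono hTJ (subset_univ _)
  obtain ⟨L, hL, hLip⟩ := c1_lip hOo hX hK hKc hKO
  have hC0 : 0 ≤ C := by
    have := (norm_nonneg _).trans (hC 0 ⟨le_rfl, hT⟩ 0)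
    simpa only [ge_iff_le, norm_zero, add_zero, mul_one] using this
  set V := μ.real (closedBall (0 : W) (B + 1)) with hV
  have hV0 : 0 ≤ V := measureReal_nonneg
  obtain ⟨h₁, hh₁, H⟩ := pointwise b hJ hTJ hX hρ hce (B + 1) (ε / (V + 1)) (by (clear * - hε; positivity))
  have hden : 0 < 2 * ((C + 1) * (L + 1) * (B + 2)) := by (clear * - hC0 hL hB; positivity)
  refine ⟨min h₁ (1 / (2 * ((C + 1) * (L + 1) * (B + 2)))), lt_min hh₁ (by (clear * - hC0 hL hB; positivity)),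
    fun h hh hhh t ht htT f hf M hM hf0 => ?_⟩
  have b1 : h ≤ h₁ := hhh.trans (min_le_left _ _)
  have b2 : h * (2 * ((C + 1) * (L + 1) * (B + 2))) ≤ 1 := by
    have := hhh.trans (min_le_right _ _)
    rwa [le_div_iff₀ hden] at this
  have htI : t ∈ Icc 0 T := ⟨ht, by linarith only [htT, hh]⟩
  have htJ : t ∈ J := hTJ htI
  have hthJ : t + h ∈ J := hTJ ⟨by linarith only [ht, hh], htT⟩
  have hlip : ∀ x ∈ closedBall (0 : W) (B + 1), ∀ y ∈ closedBall (0 : W) (B + 1),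
      ‖X (t, x) - X (t, y)‖ ≤ L * ‖x - y‖ := by
    intro x hx y hy
    have := hLip (t, y) ⟨htI, hy⟩ (t, x) ⟨htI, hx⟩
    have e : ‖(t, x) - (t, y)‖ = ‖x - y‖ := by
      rw [Prod.mk_sub_mk, sub_self, Prod.norm_def]
      simp only [norm_zero, norm_nonneg, sup_of_le_right]
    rwa [e] at this
  have hX0 : ‖X (t, 0)‖ ≤ C := by simpa only [norm_zero, add_zero, mul_one] using hC t htI 0
  have b3 : h * L ≤ 1 / 2 := by
    have : L ≤ (C + 1) * (L + 1) * (B + 2) := by
      (refine le_of_not_gt fun hng_ => ?_; linarith only [mul_nonneg (le_of_lt (sub_pos.2 hng_)) (mul_nonneg (mul_nonneg hC0 hL) hB), mul_pos (sub_pos.2 hng_) (sub_pos.2 hng_), mul_nonneg hB (le_of_lt (sub_pos.2 hng_)), mul_nonneg hC0 (le_of_lt (sub_pos.2 hng_)), mul_pos hden (sub_pos.2 hng_), mul_nonneg (le_of_lt (sub_pos.2 hng_)) (mul_nonneg hC0 hB), mul_nonneg (le_of_lt (sub_pos.2 hng_)) (mul_nonneg hC0 hL), mul_nonneg (le_of_lt (sub_pos.2 hng_)) (mul_nonneg hL hB),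 hng_])
    (refine le_of_not_gt fun hng_ => ?_; linarith only [mul_pos hden (sub_pos.2 hng_), mul_nonneg (mul_self_nonneg (1)) (sub_nonneg.2 this), mul_nonneg hL (sub_nonneg.2 b2)])
  have b4 : h * (C * (B + 2)) ≤ 1 / 2 := by
    have : C * (B + 2) ≤ (C + 1) * (L + 1) * (B + 2) := by
      (refine le_of_not_gt fun hng_ => ?_; linarith only [mul_pos (sub_pos.2 hng_) (sub_pos.2 hng_), mul_nonneg hL (le_of_lt (sub_pos.2 hng_)), mul_pos hden (sub_pos.2 hng_), mul_nonneg (sub_nonneg.2 b3) (le_of_lt (sub_pos.2 hng_)), mul_nonneg (le_of_lt (sub_pos.2 hng_)) (mul_nonneg hC0 hL), mul_nonneg (le_of_lt (sub_pos.2 hng_)) (mul_nonneg hL hB), mul_nonneg (mul_nonneg hC0 hB) (mul_nonneg (mul_nonneg hC0 hL) hB), mul_nonneg (le_of_lt hden) (mul_nonneg hL hB), mul_nonneg (le_of_lt hh) (mul_nonneg hC0 hL), mul_nonneg (le_of_lt hh) (mul_nonneg (mul_nonneg hC0 hL) hB), mul_nonneg hB (mul_nonneg hC0 hB), mul_nonneg (sub_nonneg.2 b3) (mul_nonneg hC0 hB),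 mul_nonneg (le_of_lt hden) (sub_nonneg.2 b3), mul_nonneg hL (le_of_lt hden), mul_nonneg (le_of_lt hden) (mul_nonneg hC0 hL), mul_nonneg (mul_nonneg hC0 hL) (mul_nonneg hC0 hB)])
    linarith only [mul_nonneg (mul_self_nonneg (2)) (sub_nonneg.2 b2), mul_nonneg (le_of_lt hh) (sub_nonneg.2 this)]
  have hAc : Continuous fun z => ContinuousLinearMap.id ℝ W + h • spD X (t, z) := by
    have h1 : ContinuousOn (fderiv ℝ X) (J ×ˢ univ) := hX.continuousOn_fderiv_of_isOpen hOo le_rfl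
    have h2 : Continuous fun z => fderiv ℝ X (t, z) := cont_slice h1 htJ
    have h3 : Continuous fun z => spD X (t, z) := by
      unfold spD
      exact h2.clm_comp continuous_const
    (clear * - h3; fun_prop)
  have hres := step_int μ (v := fun z => X (t, z))
    (v' := fun z => ContinuousLinearMap.id ℝ W + h • spD X (t, z))
    (ρ₀ := fun z => ρ (t, z)) (ρ₁ := fun z => ρ (t + h, z)) (h := h) (B := B) (M := M)
    (κ := ε / (V + 1) * h) (cont_slice hX.continuousOn htJ)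
    (fun z => hasFDerivAt_step hJ hX htJ h z) hAc (cont_slice hρ.continuousOn htJ)
    (cont_slice hρ.continuousOn hthJ) (step_inj hh hlip b3)
    (step_surj hh hL hC0 hB hlip hX0 b2) (step_pre hh hC0 hB (hC t htI) b4)
    (fun z hz => H h hh b1 t ht htT z hz) (by (clear * - hε hh; positivity)) hf hM hf0
  refine hres.trans ?_
  have hM0 : 0 ≤ M := (abs_nonneg _).trans (hM 0)
  rw [mul_assoc]
  apply mul_le_mul_of_nonneg_left _ hM0
  rw [← hV]
  calc ε / (V + 1) * h * V ≤ ε / (V + 1) * h * (V + 1) := by gcongr; linarith only []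
    _ = ε * h := by (clear * - hV0 hh hε; field_simp)

end

end Tr

end Vale.Agent.P347.Z
end
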