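import Vale.Agent.P347.MathlibUsed
import Vale.Agent.P347.Bdl.B1
import Vale.Agent.P347.Bdl.B2

set_option linter.all false

section

/-! Auxiliary file for task H (P347): interpolation between a Gaussian and `gibbs (post W ε u)`. -/

open MeasureTheory Filter Module Set
open scoped ENNReal NNReal

namespace Vale.Agent.P347

variable {E : Type*} [NormedAddCommGroup E] [InnerProductSpace ℝ E] [FiniteDimensional ℝ E]
  [MeasurableSpace E] [BorelSpace E]

omit [FiniteDimensional ℝ E] [MeasurableSpace E] [BorelSpace E] in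
theorem CPot.rgoContF {W : E → ℝ} {F : E → E} (hW : CPot W F) : Continuous F := by
  have : LipschitzWith 2 F := LipschitzWith.of_dist_le_mul fun x y => by
    rw [dist_eq_norm, dist_eq_norm]; exact hW.lip x y
  exact this.continuous

omit [FiniteDimensional ℝ E] [MeasurableSpace E] [BorelSpace E] in
theorem CPot.rgoContW {W : E → ℝ} {F : E → E} (hW : CPot W F) : Continuous W :=
  continuous_iff_continuousAt.2 fun x => (hW.grad x).continuousAt

omit [FiniteDimensional ℝ E] [MeasurableSpace E] [BorelSpace E] in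
theorem CPot.rgoPgF {W : E → ℝ} {F : E → E} (hW : CPot W F) : PG F := PG.of_lip hW.lip

omit [FiniteDimensional ℝ E] [MeasurableSpace E] [BorelSpace E] in
theorem CPot.rgoTaylor {W : E → ℝ} {F : E → E} (hW : CPot W F) (x u : E) :
    |W x - W u - inner ℝ (F u) (x - u)| ≤ 2 * ‖x - u‖ ^ 2 := by
  have h := Convex.norm_image_sub_le_of_norm_hasFDerivWithin_le' (𝕜 := ℝ) (f := W)
    (f' := fun x => innerSL ℝ (F x)) (φ := innerSL ℝ (F u)) (C := 2 * ‖x - u‖)
    (s := Metric.closedBall u ‖x - u‖) (x := u) (y := x)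
    (fun y _ => (hW.grad y).hasFDerivWithinAt) (fun y hy => ?_) (convex_closedBall _ _)
    (Metric.mem_closedBall_self (norm_nonneg _)) (by
      rw [Metric.mem_closedBall, dist_eq_norm])
  · rw [Real.norm_eq_abs, innerSL_apply_apply] at h
    calc _ ≤ _ := h
      _ = _ := by ring
  · rw [← map_sub, innerSL_apply_norm]
    refine (hW.lip y u).trans ?_
    rw [Metric.mem_closedBall, dist_eq_norm] at hy
    linarith

omit [FiniteDimensional ℝ E] [MeasurableSpace E] [BorelSpace E] in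
theorem CPot.rgoPgW {W : E → ℝ} {F : E → E} (hW : CPot W F) : PG W := by
  refine ⟨|W 0| + ‖F 0‖ + 2, 2, fun x => ?_⟩
  have h := hW.rgoTaylor x 0
  rw [sub_zero] at h
  have h1 : |(inner ℝ (F 0) x : ℝ)| ≤ ‖F 0‖ * ‖x‖ := abs_real_inner_le_norm _ _
  have h2 : |W x| ≤ |W 0| + ‖F 0‖ * ‖x‖ + 2 * ‖x‖ ^ 2 := by
    have : W x = (W x - W 0 - inner ℝ (F 0) x) + W 0 + inner ℝ (F 0) x := by ring
    rw [this]
    refine (abs_add_three _ _ _).trans ?_
    (clear * - h h1; linarith)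
  rw [Real.norm_eq_abs]
  refine h2.trans ?_
  have h3 := norm_nonneg x
  have h4 := abs_nonneg (W 0)
  have h5 := norm_nonneg (F 0)
  nlinarith only [h3, h5, h4]

/-- Interpolated potential. -/
noncomputable def Wt (W : E → ℝ) (g : E) (t : ℝ) (x : E) : ℝ := t * W x + (1 - t) * inner ℝ g x

/-- Interpolated gradient. -/
noncomputable def Ft (F : E → E) (g : E) (t : ℝ) (x : E) : E := t • F x + (1 - t) • g

omit [FiniteDimensional ℝ E] [MeasurableSpace E] [BorelSpace E] in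
theorem CPot.rgoInterp {W : E → ℝ} {F : E → E} (hW : CPot W F) (g : E) {t : ℝ} (h0 : 0 ≤ t)
    (h1 : t ≤ 1) : CPot (Wt W g t) (Ft F g t) where
  grad x := by
    have h2 : HasFDerivAt (fun x : E => (inner ℝ g x : ℝ)) (innerSL ℝ g) x :=
      (innerSL ℝ g).hasFDerivAt
    have h3 := ((hW.grad x).const_mul t).add (h2.const_mul (1 - t))
    have h4 : innerSL ℝ (Ft F g t x) = t • innerSL ℝ (F x) + (1 - t) • innerSL ℝ g := by
      unfold Ft
      rw [map_add, map_smul, map_smul]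
    rw [h4]
    exact h3
  mono x y := by
    have : Ft F g t x - Ft F g t y = t • (F x - F y) := by
      unfold Ft; rw [smul_sub]; abel
    rw [this, real_inner_smul_left]
    exact mul_nonneg h0 (hW.mono x y)
  lip x y := by
    have : Ft F g t x - Ft F g t y = t • (F x - F y) := by
      unfold Ft; rw [smul_sub]; abel
    rw [this, norm_smul, Real.norm_eq_abs, abs_of_nonneg h0]
    have h2 := hW.lip x y
    have h3 := norm_nonneg (F x - F y)
    nlinarith

omit [FiniteDimensional ℝ E] [MeasurableSpace E] [BorelSpace E] in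
/-- Uniform lower bound for the interpolated posterior potentials. -/
theorem rgo_interp_low {W : E → ℝ} {F : E → E} (hW : CPot W F) {ε : ℝ} (h0 : 0 < ε) (h1 : ε ≤ 1 / 8)
    (u g : E) : ∃ b, ∀ t, |t| ≤ 3 / 2 → |1 - t| ≤ 3 / 2 → ∀ x,
      1 / 4 * ‖x‖ ^ 2 - b ≤ post (Wt W g t) ε u x := by
  refine ⟨2 * |W u| + 2 * (‖g‖ * ‖u‖) + 2 * (‖F u‖ + ‖g‖) ^ 2 + ‖u‖ ^ 2, fun t ht ht' x => ?_⟩
  have hT := hW.rgoTaylor x u
  have hA : ‖x‖ ^ 2 ≤ 2 * ‖x - u‖ ^ 2 + 2 * ‖u‖ ^ 2 := by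
    have h := norm_add_le (x - u) u
    rw [sub_add_cancel] at h
    nlinarith only [h, sq_nonneg (‖x - u‖ - ‖u‖), norm_nonneg x]
  have hB : 4 * ‖x - u‖ ^ 2 ≤ ‖x - u‖ ^ 2 / (2 * ε) := by
    rw [le_div_iff₀ (by positivity)]
    nlinarith only [h1]
  -- decomposition
  have hD : Wt W g t x = t * (W x - W u - inner ℝ (F u) (x - u)) + t * W u
      + (t * inner ℝ (F u) (x - u) + (1 - t) * inner ℝ g (x - u)) + (1 - t) * inner ℝ g u := by
    unfold Wt
    rw [inner_sub_right g x u]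
    ring
  have e1 : |t * (W x - W u - inner ℝ (F u) (x - u))| ≤ 3 / 2 * (2 * ‖x - u‖ ^ 2) := by
    rw [abs_mul]
    exact mul_le_mul ht hT (abs_nonneg _) (by norm_num)
  have e2 : |t * W u| ≤ 3 / 2 * |W u| := by
    rw [abs_mul]
    exact mul_le_mul_of_nonneg_right ht (abs_nonneg _)
  have e3 : |t * inner ℝ (F u) (x - u)| ≤ 3 / 2 * (‖F u‖ * ‖x - u‖) := by
    rw [abs_mul]
    exact mul_le_mul ht (abs_real_inner_le_norm _ _) (abs_nonneg _) (by norm_num)
  have e4 : |(1 - t) * inner ℝ g (x - u)| ≤ 3 / 2 * (‖g‖ * ‖x - u‖) := by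
    rw [abs_mul]
    exact mul_le_mul ht' (abs_real_inner_le_norm _ _) (abs_nonneg _) (by norm_num)
  have e5 : |(1 - t) * inner ℝ g u| ≤ 3 / 2 * (‖g‖ * ‖u‖) := by
    rw [abs_mul]
    exact mul_le_mul ht' (abs_real_inner_le_norm _ _) (abs_nonneg _) (by norm_num)
  have f1 := neg_abs_le (t * (W x - W u - inner ℝ (F u) (x - u)))
  have f2 := neg_abs_le (t * W u)
  have f3 := neg_abs_le (t * (inner ℝ (F u) (x - u) : ℝ))
  have f4 := neg_abs_le ((1 - t) * (inner ℝ g (x - u) : ℝ))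
  have f5 := neg_abs_le ((1 - t) * (inner ℝ g u : ℝ))
  have g1 := abs_nonneg (W u)
  have g2 := mul_nonneg (norm_nonneg g) (norm_nonneg u)
  have key : 3 / 2 * ((‖F u‖ + ‖g‖) * ‖x - u‖) ≤ 1 / 2 * ‖x - u‖ ^ 2 + 9 / 8 * (‖F u‖ + ‖g‖) ^ 2 := by
    nlinarith only [sq_nonneg (‖x - u‖ - 3 / 2 * (‖F u‖ + ‖g‖))]
  unfold post
  rw [hD]
  nlinarith only [hA, hB, e1, e2, e3, e4, e5, f1, f2, f3, f4, f5, g1, g2, key]

omit [FiniteDimensional ℝ E] [MeasurableSpace E] [BorelSpace E] in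
theorem rgo_Wt_pg {W : E → ℝ} {F : E → E} (hW : CPot W F) (g : E) :
    PG (fun x => W x - inner ℝ g x) :=
  hW.rgoPgW.sub ((PG.const g).inner PG.id)

/-- Derivative of expectations along the interpolation. -/
theorem rgo_interp_deriv {W : E → ℝ} {F : E → E} (hW : CPot W F) {ε : ℝ} (h0 : 0 < ε)
    (h1 : ε ≤ 1 / 8) (u g : E) {h : E → ℝ} (ch : Continuous h) (ph : PG h) {t0 : ℝ}
    (ht : t0 ∈ Icc (0 : ℝ) 1) :
    HasDerivAt (fun t => ∫ x, h x ∂(gibbs (post (Wt W g t) ε u)))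
      (-((∫ x, (W x - inner ℝ g x) * h x ∂(gibbs (post (Wt W g t0) ε u)))
        - (∫ x, (W x - inner ℝ g x) ∂(gibbs (post (Wt W g t0) ε u)))
          * ∫ x, h x ∂(gibbs (post (Wt W g t0) ε u)))) t0 := by
  obtain ⟨b, hb⟩ := rgo_interp_low hW h0 h1 u g
  obtain ⟨C1, k1, hC1, hk1⟩ := (rgo_Wt_pg hW g).nonneg_bound
  obtain ⟨C2, k2, hC2, hk2⟩ := ph.nonneg_bound
  have cW := hW.rgoContW
  have hrange : ∀ t, |t - t0| < 1 / 2 → |t| ≤ 3 / 2 ∧ |1 - t| ≤ 3 / 2 := by
    intro t h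
    rw [abs_lt] at h
    obtain ⟨ha, hb⟩ := ht
    constructor
    · rw [abs_le]; constructor <;> linarith
    · rw [abs_le]; constructor <;> linarith only [h, ha, hb]
  have key := gibbs_hasDerivAt (U := fun t => post (Wt W g t) ε u)
    (U' := fun _ x => W x - inner ℝ g x) (h := fun _ => h) (h' := fun _ _ => 0)
    (t0 := t0) (r := 1 / 2) (a := 1 / 4) (b := b) (C := C1 + C2) (k := k1 + k2)
    (by norm_num) (by norm_num) ?_ (fun t _ x => hasDerivAt_const _ _) ?_ ?_ (fun _ _ => ch)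
    (fun _ _ => continuous_const) ?_ ?_ ?_ ?_
  · refine key.congr_deriv ?_
    simp only [integral_zero, smul_eq_mul, zero_sub]
  · intro t _ x
    have e1 : HasDerivAt (fun t : ℝ => t * W x + (1 - t) * inner ℝ g x)
        (1 * W x + (-1) * inner ℝ g x) t :=
      ((hasDerivAt_id t).mul_const (W x)).add
        (((hasDerivAt_id t).const_sub 1).mul_const (inner ℝ g x))
    have e2 := e1.add_const (‖x - u‖ ^ 2 / (2 * ε))
    exact e2.congr_deriv (by ring)
  · intro t _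
    unfold post Wt
    fun_prop
  · intro t _
    (clear * - cW; fun_prop)
  · intro t ht' x
    exact hb t (hrange t ht').1 (hrange t ht').2 x
  · intro t _ x
    refine (hk1 x).trans ?_
    have hx := one_le_one_add_norm x
    exact mul_le_mul (by linarith only [hC2]) (pow_le_pow_right₀ hx (by (clear * -; omega))) (by (clear * -; positivity)) (by (clear * - hC1 hC2; positivity))
  · intro t _ x
    refine (hk2 x).trans ?_
    have hx := one_le_one_add_norm x
    exact mul_le_mul (by linarith only [hC1]) (pow_le_pow_right₀ hx (by omega)) (by (clear * -; positivity)) (by (clear * - hC1 hC2; positivity))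
  · intro t _ x
    rw [norm_zero]
    (clear * - hC1 hC2; positivity)

/-- Integration by parts against the vector field `x - u`. -/
theorem rgo_ibp_div {U : E → ℝ} (hU : Adm U) {g : E → E}
    (hg : ∀ x, HasFDerivAt U (innerSL ℝ (g x)) x) (hgc : Continuous g) (hgp : PG g) (u : E) :
    ∫ x, (inner ℝ (x - u) (g x) : ℝ) ∂(gibbs U) = (finrank ℝ E : ℝ) := by
  have hp := hU.isProb
  set b := stdOrthonormalBasis ℝ E
  have h1 : ∀ i, ∫ x, (inner ℝ (b i) (x - u) : ℝ) * inner ℝ (g x) (b i) ∂(gibbs U) = 1 := by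
    intro i
    have h2 := gibbs_ibp hU hg hgc hgp (f := fun x => (inner ℝ (b i) (x - u) : ℝ))
      (f' := fun _ => b i) (fun x => by
        have h3 : HasFDerivAt (fun x : E => x - u) (ContinuousLinearMap.id ℝ E) x :=
          (hasFDerivAt_id x).sub_const u
        exact (innerSL ℝ (b i)).hasFDerivAt.comp x h3) continuous_const
      ((PG.const (b i)).inner (PG.id.sub (PG.const u))) (PG.const (b i)) (b i)
    rw [← h2]
    simp only [inner_self_eq_norm_sq_to_K, OrthonormalBasis.norm_eq_one, Real.ringHom_apply, one_pow, integral_const, probReal_univ, smul_eq_mul, mul_one]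
  have hcont : ∀ i, Continuous fun x : E => (inner ℝ (b i) (x - u) : ℝ) * inner ℝ (g x) (b i) :=
    fun i => (continuous_const.inner (continuous_id.sub continuous_const)).mul
      (hgc.inner continuous_const)
  have h4 : ∀ x : E, (inner ℝ (x - u) (g x) : ℝ)
      = ∑ i, (inner ℝ (b i) (x - u) : ℝ) * inner ℝ (g x) (b i) := by
    intro x
    rw [← b.sum_inner_mul_inner (x - u) (g x)]
    refine Finset.sum_congr rfl fun i _ => ?_
    rw [real_inner_comm (b i) (x - u), real_inner_comm (g x) (b i)]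
  simp_rw [h4]
  rw [integral_finsetSum _ fun i _ => hU.integrable
    (((PG.const (b i)).inner (PG.id.sub (PG.const u))).mul (hgp.inner (PG.const (b i))))
    (hcont i).aestronglyMeasurable]
  simp_rw [h1]
  simp only [Finset.sum_const, Finset.card_univ, Fintype.card_fin, nsmul_eq_mul, mul_one]

omit [FiniteDimensional ℝ E] [MeasurableSpace E] [BorelSpace E] in
theorem rgo_post_grad {W : E → ℝ} {F : E → E} (hW : CPot W F) (ε : ℝ) (u x : E) :
    HasFDerivAt (post W ε u) (innerSL ℝ (F x + (1 / ε) • (x - u))) x := by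
  have h3 : HasFDerivAt (fun x : E => x - u) (ContinuousLinearMap.id ℝ E) x :=
    (hasFDerivAt_id x).sub_const u
  have h4 := h3.norm_sq.const_mul (1 / (2 * ε))
  have h5 := (hW.grad x).add h4
  have hfun : post W ε u = fun x => W x + 1 / (2 * ε) * ‖x - u‖ ^ 2 := by
    funext x; unfold post; ring
  rw [hfun]
  refine h5.congr_fderiv ?_
  ext v
  simp only [add_apply, innerSL_apply_apply, smul_apply,
    inner_add_left, real_inner_smul_left, smul_eq_mul, ContinuousLinearMap.comp_apply,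
    ContinuousLinearMap.id_apply, nsmul_eq_mul]
  push_cast
  rw [show (1 / (2 * ε)) * (2 * (inner ℝ (x - u) v : ℝ)) = (1 / ε) * inner ℝ (x - u) v by
    (clear * -; field_simp)]

/-- Second moment bound around the centre. -/
theorem rgo_post_moment {W : E → ℝ} {F : E → E} (hW : CPot W F) {ε : ℝ} (h0 : 0 < ε) (u : E) :
    ∫ x, ‖x - u‖ ^ 2 ∂(gibbs (post W ε u)) ≤ 2 * ε * (finrank ℝ E : ℝ) + ε ^ 2 * ‖F u‖ ^ 2 := by
  have hadm := hW.post_adm h0 u
  have hp := hadm.isProb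
  have cF := hW.rgoContF
  have pF := hW.rgoPgF
  have hpg : PG (fun x : E => x - u) := PG.id.sub (PG.const u)
  have h1 := rgo_ibp_div hadm (rgo_post_grad hW ε u)
    (cF.add ((continuous_id.sub continuous_const).const_smul (1 / ε)))
    (pF.add ((PG.const (1 / ε)).smul hpg)) u
  have hi1 : Integrable (fun x => ‖x - u‖ ^ 2) (gibbs (post W ε u)) :=
    hadm.integrable (hpg.norm.pow 2) (by (clear cF pF hpg h1; fun_prop))
  have hi2 : Integrable (fun x => (inner ℝ (x - u) (F x + (1 / ε) • (x - u)) : ℝ))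
      (gibbs (post W ε u)) :=
    hadm.integrable (hpg.inner (pF.add ((PG.const (1 / ε)).smul hpg)))
      ((continuous_id.sub continuous_const).inner
        (cF.add ((continuous_id.sub continuous_const).const_smul (1 / ε)))).aestronglyMeasurable
  have h2 : ∀ x, 1 / (2 * ε) * ‖x - u‖ ^ 2 - ε / 2 * ‖F u‖ ^ 2
      ≤ (inner ℝ (x - u) (F x + (1 / ε) • (x - u)) : ℝ) := by
    intro x
    rw [inner_add_right, real_inner_smul_right, real_inner_self_eq_norm_sq]
    have e1 := hW.mono x u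
    rw [inner_sub_left, real_inner_comm (x - u) (F x), real_inner_comm (x - u) (F u)] at e1
    have e2 := abs_real_inner_le_norm (x - u) (F u)
    have e3 := neg_abs_le (inner ℝ (x - u) (F u) : ℝ)
    have e4 : ‖x - u‖ * ‖F u‖ ≤ 1 / (2 * ε) * ‖x - u‖ ^ 2 + ε / 2 * ‖F u‖ ^ 2 := by
      have : 0 ≤ (‖x - u‖ - ε * ‖F u‖) ^ 2 / (2 * ε) := by (clear * - h0; positivity)
      have h5 : (‖x - u‖ - ε * ‖F u‖) ^ 2 / (2 * ε)
        = 1 / (2 * ε) * ‖x - u‖ ^ 2 + ε / 2 * ‖F u‖ ^ 2 - ‖x - u‖ * ‖F u‖ := by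
        field_simp
        ring
      linarith only [this, h5]
    have e5 : 1 / ε * ‖x - u‖ ^ 2 = 1 / (2 * ε) * ‖x - u‖ ^ 2 + 1 / (2 * ε) * ‖x - u‖ ^ 2 := by
      field_simp
      ring
    linarith
  have h3 : ∫ x, (1 / (2 * ε) * ‖x - u‖ ^ 2 - ε / 2 * ‖F u‖ ^ 2) ∂(gibbs (post W ε u))
      ≤ ∫ x, (inner ℝ (x - u) (F x + (1 / ε) • (x - u)) : ℝ) ∂(gibbs (post W ε u)) :=
    integral_mono ((hi1.const_mul _).sub (integrable_const _)) hi2 h2
  rw [h1, integral_sub (hi1.const_mul _) (integrable_const _), integral_const_mul,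
    integral_const] at h3
  simp only [probReal_univ, one_smul] at h3
  have h4 : 2 * ε * (1 / (2 * ε) * ∫ x, ‖x - u‖ ^ 2 ∂(gibbs (post W ε u)))
      = ∫ x, ‖x - u‖ ^ 2 ∂(gibbs (post W ε u)) := by
    (clear cF pF hpg h1 hi1 hi2 h2 h3; field_simp)
  have h5 := mul_le_mul_of_nonneg_left h3 (by positivity : (0 : ℝ) ≤ 2 * ε)
  rw [mul_sub, h4] at h5
  (clear cF pF hpg h1 hi1 hi2 h2 h3 h4; linarith)

/-- Variance bound along the interpolation. -/
theorem rgo_interp_var {W : E → ℝ} {F : E → E} (hW : CPot W F) {ε : ℝ} (h0 : 0 < ε)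
    (u g : E) {t : ℝ} (ht : t ∈ Icc (0 : ℝ) 1) :
    (∫ x, (W x - inner ℝ g x) ^ 2 ∂(gibbs (post (Wt W g t) ε u)))
        - (∫ x, (W x - inner ℝ g x) ∂(gibbs (post (Wt W g t) ε u))) ^ 2
      ≤ ε * (2 * ‖F u - g‖ ^ 2 + 16 * ε * (finrank ℝ E : ℝ)
          + 8 * ε ^ 2 * (‖F u‖ ^ 2 + ‖g‖ ^ 2)) := by
  have hI := hW.rgoInterp g ht.1 ht.2
  have hadm := hI.post_adm h0 u
  have hp := hadm.isProb
  have hm := hI.post_midSC h0 u
  have cF := hW.rgoContF
  have pF := hW.rgoPgF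
  have hpg : PG (fun x : E => x - u) := PG.id.sub (PG.const u)
  have h1 := poincare (by (clear * - h0; positivity) : 0 < 1 / ε) hadm hm (f := fun x => W x - inner ℝ g x)
    (g := fun x => F x - g) (fun x => by
      have h2 : HasFDerivAt (fun x : E => (inner ℝ g x : ℝ)) (innerSL ℝ g) x :=
        (innerSL ℝ g).hasFDerivAt
      rw [map_sub]
      exact (hW.grad x).sub h2) (cF.sub continuous_const) (rgo_Wt_pg hW g) (pF.sub (PG.const g))
  rw [one_div_one_div] at h1
  refine h1.trans (mul_le_mul_of_nonneg_left ?_ h0.le)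
  have hi1 : Integrable (fun x => ‖x - u‖ ^ 2) (gibbs (post (Wt W g t) ε u)) :=
    hadm.integrable (hpg.norm.pow 2) (by (clear hm cF pF hpg h1; fun_prop))
  have hi2 : Integrable (fun x => ‖F x - g‖ ^ 2) (gibbs (post (Wt W g t) ε u)) :=
    hadm.integrable ((pF.sub (PG.const g)).norm.pow 2) (by (clear hm pF hpg h1 hi1; fun_prop))
  have h3 : ∫ x, ‖F x - g‖ ^ 2 ∂(gibbs (post (Wt W g t) ε u))
      ≤ ∫ x, (2 * ‖F u - g‖ ^ 2 + 8 * ‖x - u‖ ^ 2) ∂(gibbs (post (Wt W g t) ε u)) := by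
    refine integral_mono hi2 ((integrable_const _).add (hi1.const_mul _)) fun x => ?_
    have e1 := norm_add_le (F x - F u) (F u - g)
    rw [sub_add_sub_cancel] at e1
    have e2 := hW.lip x u
    have e3 := norm_nonneg (F x - g)
    have e4 := norm_nonneg (x - u)
    have e5 := norm_nonneg (F u - g)
    have e6 : ‖F x - g‖ ≤ 2 * ‖x - u‖ + ‖F u - g‖ := by linarith only [e1, e2]
    simp only
    nlinarith only [e1, e2, e3, sq_nonneg (2 * ‖x - u‖ - ‖F u - g‖)]
  refine h3.trans ?_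
  rw [integral_add (integrable_const _) (hi1.const_mul _), integral_const, integral_const_mul]
  simp only [probReal_univ, one_smul]
  have h4 := rgo_post_moment hI h0 u
  have h5 : ‖Ft F g t u‖ ^ 2 ≤ ‖F u‖ ^ 2 + ‖g‖ ^ 2 := by
    have e1 : ‖Ft F g t u‖ ≤ t * ‖F u‖ + (1 - t) * ‖g‖ := by
      unfold Ft
      refine (norm_add_le _ _).trans ?_
      rw [norm_smul, norm_smul, Real.norm_eq_abs, Real.norm_eq_abs, abs_of_nonneg ht.1,
        abs_of_nonneg (sub_nonneg.2 ht.2)]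
    have e2 := norm_nonneg (Ft F g t u)
    have e3 : (t * ‖F u‖ + (1 - t) * ‖g‖) ^ 2 ≤ t * ‖F u‖ ^ 2 + (1 - t) * ‖g‖ ^ 2 := by
      nlinarith only [mul_nonneg (mul_nonneg ht.1 (sub_nonneg.2 ht.2)) (sq_nonneg (‖F u‖ - ‖g‖))]
    have e4 : ‖Ft F g t u‖ ^ 2 ≤ (t * ‖F u‖ + (1 - t) * ‖g‖) ^ 2 := by
      exact pow_le_pow_left₀ e2 e1 2
    have e5 := mul_nonneg (sub_nonneg.2 ht.2) (sq_nonneg ‖F u‖)
    have e6 := mul_nonneg ht.1 (sq_nonneg ‖g‖)
    linarith
  have h6 := mul_le_mul_of_nonneg_left h5 (by positivity : (0 : ℝ) ≤ ε ^ 2)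
  (clear hm cF pF hpg h1 hi1 hi2 h3; linarith)

end Vale.Agent.P347
end

section

/-! Task H (P347): Gaussian approximation of `gibbs (post W ε u)` in dual relative entropy, and the
bias of the gradient estimator. -/

open MeasureTheory Filter Module Set
open scoped ENNReal NNReal

namespace Vale.Agent.P347

variable {E : Type*} [NormedAddCommGroup E] [InnerProductSpace ℝ E] [FiniteDimensional ℝ E]
  [MeasurableSpace E] [BorelSpace E]

theorem rgo_jensen_log {α : Type*} {mα : MeasurableSpace α} {μ : Measure α}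
    [IsProbabilityMeasure μ] {φ : α → ℝ} (h1 : Integrable φ μ)
    (h2 : Integrable (fun x => Real.exp (φ x)) μ) :
    ∫ x, φ x ∂μ ≤ Real.log (∫ x, Real.exp (φ x) ∂μ) := by
  have h3 := convexOn_exp.map_integral_le (μ := μ) (f := φ) Real.continuous_exp.continuousOn
    isClosed_univ (Eventually.of_forall fun _ => mem_univ _) h1 h2
  rw [Real.le_log_iff_exp_le (integral_exp_pos h2)]
  exact h3

theorem rgo_interp_zero (W : E → ℝ) {ε : ℝ} (h0 : 0 < ε) (u g : E) :
    gibbs (post (Wt W g 0) ε u) = gibbs (fun x : E => ‖x - (u - ε • g)‖ ^ 2 / (2 * ε)) := by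
  have h : post (Wt W g 0) ε u
      = fun x => ‖x - (u - ε • g)‖ ^ 2 / (2 * ε) + (inner ℝ g u - ε / 2 * ‖g‖ ^ 2) := by
    funext x
    unfold post Wt
    have h1 : x - (u - ε • g) = (x - u) + ε • g := by abel
    rw [h1, norm_add_sq_real, norm_smul, real_inner_smul_right, Real.norm_eq_abs, mul_pow,
      sq_abs, inner_sub_left, real_inner_comm g x, real_inner_comm g u]
    field_simp
    ring
  rw [h]
  exact gibbs_add_const _ _

omit [FiniteDimensional ℝ E] [MeasurableSpace E] [BorelSpace E] in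
theorem rgo_interp_one (W : E → ℝ) (ε : ℝ) (u g : E) :
    post (Wt W g 1) ε u = post W ε u := by
  funext x
  unfold post Wt
  ring

theorem rgo_dv {W : E → ℝ} {F : E → E} (hW : CPot W F) {ε : ℝ} (h0 : 0 < ε) (h1 : ε ≤ 1 / 8)
    (u g : E) {f : E → ℝ} (hf : Measurable f) (bf : ∃ C, ∀ x, |f x| ≤ C) :
    ∫ x, f x ∂(gibbs (post W ε u))
      ≤ 100 * (ε ^ 2 * (finrank ℝ E : ℝ) + ε ^ 3 * (‖F u‖ ^ 2 + ‖g‖ ^ 2) + ε * ‖F u - g‖ ^ 2)
        + Real.log (∫ z, Real.exp (f (u - ε • g + √ε • z)) ∂(gam E)) := by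
  obtain ⟨C, hC⟩ := bf
  set R : E → ℝ := fun x => W x - inner ℝ g x with hR
  have cR : Continuous R := hW.rgoContW.sub (continuous_const.inner continuous_id)
  have pR : PG R := rgo_Wt_pg hW g
  set U0 := post (Wt W g 0) ε u with hU0
  set U1 := post W ε u with hU1
  have hU01 : ∀ x, U0 x = U1 x - R x := fun x => by
    simp only [hU0, post, Wt, hU1, hR]; ring
  have hI0 := hW.rgoInterp g (le_refl (0 : ℝ)) zero_le_one
  have a0 : Adm U0 := hI0.post_adm h0 u
  have a1 : Adm U1 := hW.post_adm h0 u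
  have p0 := a0.isProb
  have p1 := a1.isProb
  -- step 1 : the entropy bound by the mean value theorem
  have key : (∫ x, R x ∂(gibbs U0)) - ∫ x, R x ∂(gibbs U1)
      ≤ ε * (2 * ‖F u - g‖ ^ 2 + 16 * ε * (finrank ℝ E : ℝ)
          + 8 * ε ^ 2 * (‖F u‖ ^ 2 + ‖g‖ ^ 2)) := by
    have hd := fun t (ht : t ∈ Icc (0 : ℝ) 1) => rgo_interp_deriv hW h0 h1 u g cR pR ht
    obtain ⟨c, hc, hc'⟩ := exists_hasDerivAt_eq_slope _ _ zero_lt_one
      (fun t ht => (hd t ht).continuousAt.continuousWithinAt)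
      (fun t ht => hd t (Ioo_subset_Icc_self ht))
    rw [rgo_interp_one, sub_zero, div_one] at hc'
    have hv := rgo_interp_var hW h0 u g (Ioo_subset_Icc_self hc)
    have e1 : (∫ x, R x ∂(gibbs U0)) - ∫ x, R x ∂(gibbs U1)
      = (∫ x, (W x - inner ℝ g x) ^ 2 ∂(gibbs (post (Wt W g c) ε u)))
        - (∫ x, (W x - inner ℝ g x) ∂(gibbs (post (Wt W g c) ε u))) ^ 2 := by
      have e2 : ∀ x, (W x - inner ℝ g x) * R x = (W x - inner ℝ g x) ^ 2 := fun x => by
        simp only [hR]; ring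
      simp_rw [e2] at hc'
      simp only [hU0, hU1]
      (clear h1 f hf C hC hR cR pR hU0 hU1 hU01 hd hc hv e2; linarith)
    rw [e1]
    exact hv
  -- step 2 : Donsker-Varadhan
  have bexp : ∀ x, Real.exp (f x) ≤ Real.exp C := fun x =>
    Real.exp_le_exp.2 ((le_abs_self _).trans (hC x))
  have mexp : Measurable fun x => Real.exp (f x) := Real.measurable_exp.comp hf
  have hif1 : Integrable f (gibbs U1) :=
    (integrable_const C).mono' hf.aestronglyMeasurable (Eventually.of_forall fun x => by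
      rw [Real.norm_eq_abs]; exact hC x)
  have hiR0 : Integrable R (gibbs U0) := a0.integrable pR cR.aestronglyMeasurable
  have hiR1 : Integrable R (gibbs U1) := a1.integrable pR cR.aestronglyMeasurable
  have hie0 : Integrable (fun x => Real.exp (-R x)) (gibbs U0) := by
    unfold gibbs
    rw [integrable_tilted_iff a0.integrable_exp]
    refine a1.integrable_exp.congr (Eventually.of_forall fun x => ?_)
    simp only [smul_eq_mul]
    rw [← Real.exp_add, hU01 x]
    congr 1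
    ring
  have hief : Integrable (fun x => Real.exp (f x + R x)) (gibbs U1) := by
    unfold gibbs
    rw [integrable_tilted_iff a1.integrable_exp]
    have h2 : Integrable (fun x => Real.exp (-U0 x) * Real.exp (f x)) := by
      refine (a0.integrable_exp.mul_const (Real.exp C)).mono'
        ((Real.continuous_exp.comp a0.cont.neg).aestronglyMeasurable.mul
          mexp.aestronglyMeasurable) (Eventually.of_forall fun x => ?_)
      rw [Real.norm_eq_abs, abs_of_pos (by positivity)]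
      exact mul_le_mul_of_nonneg_left (bexp x) (Real.exp_pos _).le
    refine h2.congr (Eventually.of_forall fun x => ?_)
    simp only [smul_eq_mul]
    rw [← Real.exp_add, ← Real.exp_add, hU01 x]
    congr 1
    ring
  have j1 := rgo_jensen_log (hif1.add hiR1) hief
  have j0 := rgo_jensen_log hiR0.neg hie0
  simp only [Pi.add_apply, Pi.neg_apply] at j0 j1
  rw [integral_add hif1 hiR1] at j1
  rw [integral_neg] at j0
  have e0 : ∫ x, Real.exp (-R x) ∂(gibbs U0)
      = (∫ x, Real.exp (-U0 x))⁻¹ * ∫ x, Real.exp (-U1 x) := by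
    rw [gibbs_integral, smul_eq_mul]
    congr 1
    refine integral_congr_ae (Eventually.of_forall fun x => ?_)
    simp only [smul_eq_mul]
    rw [← Real.exp_add, hU01 x]
    congr 1
    ring
  have e1 : ∫ x, Real.exp (f x + R x) ∂(gibbs U1)
      = (∫ x, Real.exp (-U1 x))⁻¹ * ∫ x, Real.exp (-U0 x) * Real.exp (f x) := by
    rw [gibbs_integral, smul_eq_mul]
    congr 1
    refine integral_congr_ae (Eventually.of_forall fun x => ?_)
    simp only [smul_eq_mul]
    rw [← Real.exp_add, ← Real.exp_add, hU01 x]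
    congr 1
    ring
  have e2 : ∫ x, Real.exp (f x) ∂(gibbs U0)
      = (∫ x, Real.exp (-U0 x))⁻¹ * ∫ x, Real.exp (-U0 x) * Real.exp (f x) := by
    rw [gibbs_integral, smul_eq_mul]
    rfl
  have z0 := a0.integral_exp_pos
  have z1 := a1.integral_exp_pos
  have hprod : (∫ x, Real.exp (f x + R x) ∂(gibbs U1)) * ∫ x, Real.exp (-R x) ∂(gibbs U0)
      = ∫ x, Real.exp (f x) ∂(gibbs U0) := by
    rw [e0, e1, e2]
    (clear h1 hf C hC R hR cR pR hU0 hU1 hU01 key bexp mexp hif1 hiR0 hiR1 hie0 hief j1 j0 e0 e1 e2; field_simp)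
  have hlog : Real.log (∫ x, Real.exp (f x) ∂(gibbs U0))
      = Real.log (∫ x, Real.exp (f x + R x) ∂(gibbs U1))
        + Real.log (∫ x, Real.exp (-R x) ∂(gibbs U0)) := by
    rw [← hprod, Real.log_mul (integral_exp_pos hief).ne' (integral_exp_pos hie0).ne']
  have hgam : ∫ z, Real.exp (f (u - ε • g + √ε • z)) ∂(gam E)
      = ∫ x, Real.exp (f x) ∂(gibbs U0) := by
    rw [hU0, rgo_interp_zero W h0 u g]
    exact gam_affine h0 (u - ε • g) (fun x => Real.exp (f x))
  rw [hgam, hlog]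
  have hn : (0 : ℝ) ≤ (finrank ℝ E : ℝ) := Nat.cast_nonneg _
  have q1 : 0 ≤ ε * ‖F u - g‖ ^ 2 := by (clear * - h0; positivity)
  have q2 : 0 ≤ ε ^ 2 * (finrank ℝ E : ℝ) := by (clear * - h0; positivity)
  have q3 : 0 ≤ ε ^ 3 * (‖F u‖ ^ 2 + ‖g‖ ^ 2) := by (clear * - h0; positivity)
  have q4 : ε * (2 * ‖F u - g‖ ^ 2 + 16 * ε * (finrank ℝ E : ℝ)
          + 8 * ε ^ 2 * (‖F u‖ ^ 2 + ‖g‖ ^ 2))
      = 2 * (ε * ‖F u - g‖ ^ 2) + 16 * (ε ^ 2 * (finrank ℝ E : ℝ))
        + 8 * (ε ^ 3 * (‖F u‖ ^ 2 + ‖g‖ ^ 2)) := by ring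
  rw [q4] at key
  (clear h1 hf C hC hR cR pR hU0 hU1 hU01 bexp mexp hif1 hiR0 hiR1 hie0 hief e0 e1 e2 z0 z1 hprod hlog hgam hn q4; linarith)

theorem rgo_norm_hess_le {V : E → ℝ} {G : E → E} {H : E → E →L[ℝ] E} (hV : Pot V G H) (x : E) :
    ‖H x‖ ≤ 2 := by
  have hl : LipschitzWith 2 G := LipschitzWith.of_dist_le_mul fun x y => by
    rw [dist_eq_norm, dist_eq_norm]; exact hV.lipG x y
  have := (hV.hess x).le_of_lipschitz hl
  simpa only [ge_iff_le, NNReal.coe_ofNat] using this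

theorem bias_le {V : E → ℝ} {G : E → E} {H : E → E →L[ℝ] E} (hV : Pot V G H) {s : ℝ}
    (hs : 0 < s) (hs1 : s ≤ 1 / 8) (y : E) :
    ‖Gb G s y - Fp V G s y‖ ^ 2 ≤ 2048 * s ^ 3 * ((finrank ℝ E : ℝ) + ‖y‖ ^ 2) := by
  have hW : CPot V G := hV.cpot
  have cG := hW.rgoContF
  have pG := hW.rgoPgF
  set g := G y with hg
  set e := Gb G s y - Fp V G s y with he
  set φ : E → ℝ := fun x => inner ℝ e (G x) with hφ
  have cφ : Continuous φ := continuous_const.inner cG
  have pφ : PG φ := (PG.const e).inner pG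
  set R : E → ℝ := fun x => V x - inner ℝ g x with hR
  have cR : Continuous R := hW.rgoContW.sub (continuous_const.inner continuous_id)
  have pR : PG R := rgo_Wt_pg hW g
  have hd := fun t (ht : t ∈ Icc (0 : ℝ) 1) => rgo_interp_deriv hW hs hs1 y g cφ pφ ht
  obtain ⟨c, hc, hc'⟩ := exists_hasDerivAt_eq_slope _ _ zero_lt_one
    (fun t ht => (hd t ht).continuousAt.continuousWithinAt)
    (fun t ht => hd t (Ioo_subset_Icc_self ht))
  rw [rgo_interp_one, sub_zero, div_one, rgo_interp_zero V hs y g, ← gam_affine hs] at hc'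
  have hct := Ioo_subset_Icc_self hc
  have hI := hW.rgoInterp g hct.1 hct.2
  have hadm := hI.post_adm hs y
  have hp := hadm.isProb
  have hm := hI.post_midSC hs y
  set ρ := gibbs (post (Wt V g c) s y) with hρ
  -- left and right end values
  have hL : ∫ z, φ (y - s • g + √s • z) ∂(gam E) = inner ℝ e (Gb G s y) := by
    simp only [hφ]
    rw [integral_inner]
    · rfl
    · have h3 : PG fun z : E => G (y - s • g + √s • z) := by
        have h4 : ∀ a b : E, ‖G (y - s • g + √s • a) - G (y - s • g + √s • b)‖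
            ≤ (2 * √s) * ‖a - b‖ := fun a b => by
          refine (hW.lip _ _).trans ?_
          rw [add_sub_add_left_eq_sub, ← smul_sub, norm_smul, Real.norm_eq_abs,
            abs_of_nonneg (Real.sqrt_nonneg _), mul_assoc]
        exact PG.of_lip h4
      exact gam_integrable h3 (cG.comp (by fun_prop)).aestronglyMeasurable
  have hRt : ∫ x, φ x ∂(gibbs (post V s y)) = inner ℝ e (Fp V G s y) := by
    simp only [hφ]
    rw [integral_inner]
    · rfl
    · exact (hW.post_adm hs y).integrable pG cG.aestronglyMeasurable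
  rw [hL, hRt] at hc'
  have hD : ‖e‖ ^ 2 = (∫ x, (V x - inner ℝ g x) * φ x ∂ρ)
      - (∫ x, (V x - inner ℝ g x) ∂ρ) * ∫ x, φ x ∂ρ := by
    rw [← real_inner_self_eq_norm_sq]
    nth_rw 2 [he]
    rw [inner_sub_right]
    (clear H hV hs hs1 hW cG pG hg he hφ cφ pφ R hR cR pR hd hc hct hI hadm hm hρ hL hRt; linarith)
  -- variances
  have v1 : (∫ x, φ x ^ 2 ∂ρ) - (∫ x, φ x ∂ρ) ^ 2 ≤ s * (4 * ‖e‖ ^ 2) := by
    have h1 := poincare (by positivity : 0 < 1 / s) hadm hm (f := φ) (g := fun x => H x e)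
      (fun x => by
        have h2 : HasFDerivAt φ ((innerSL ℝ e).comp (H x)) x :=
          (innerSL ℝ e).hasFDerivAt.comp x (hV.hess x)
        refine h2.congr_fderiv ?_
        ext v
        simp only [ContinuousLinearMap.comp_apply, innerSL_apply_apply]
        rw [real_inner_comm, hV.symm x v e, real_inner_comm])
      (hV.contH.clm_apply continuous_const) pφ
      ⟨2 * ‖e‖, 0, fun x => by
        rw [pow_zero, mul_one]
        exact ((H x).le_opNorm e).trans (mul_le_mul_of_nonneg_right (rgo_norm_hess_le hV x)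
          (norm_nonneg _))⟩
    rw [one_div_one_div] at h1
    refine h1.trans (mul_le_mul_of_nonneg_left ?_ hs.le)
    have h3 : ∫ x, ‖H x e‖ ^ 2 ∂ρ ≤ ∫ _x, 4 * ‖e‖ ^ 2 ∂ρ := by
      refine integral_mono (hadm.integrable (f := fun x => ‖H x e‖ ^ 2) ?_ ?_)
        (integrable_const _) fun x => ?_
      · refine PG.pow ⟨2 * ‖e‖, 0, fun x => ?_⟩ 2
        rw [pow_zero, mul_one, norm_norm]
        exact ((H x).le_opNorm e).trans (mul_le_mul_of_nonneg_right (rgo_norm_hess_le hV x)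
          (norm_nonneg _))
      · exact ((hV.contH.clm_apply continuous_const).norm.pow 2).aestronglyMeasurable
      · have h5 : ‖H x e‖ ≤ 2 * ‖e‖ := ((H x).le_opNorm e).trans
          (mul_le_mul_of_nonneg_right (rgo_norm_hess_le hV x) (norm_nonneg _))
        have h6 := pow_le_pow_left₀ (norm_nonneg _) h5 2
        simp only
        linarith only [h6]
    rw [integral_const] at h3
    simpa only [ge_iff_le, probReal_univ, smul_eq_mul, one_mul] using h3
  have v2 := rgo_interp_var hW hs y g hct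
  rw [← hg, sub_self, norm_zero] at v2
  have hgn : ‖g‖ ^ 2 ≤ 4 * ‖y‖ ^ 2 := by
    have h1 := hV.lipG y 0
    rw [hV.gzero, sub_zero, sub_zero, ← hg] at h1
    have := pow_le_pow_left₀ (norm_nonneg _) h1 2
    linarith only [this]
  -- combine
  have i1 : Integrable (fun x => φ x ^ 2) ρ :=
    hadm.integrable (pφ.pow 2) (cφ.pow 2).aestronglyMeasurable
  have i2 : Integrable (fun x => R x ^ 2) ρ :=
    hadm.integrable (pR.pow 2) (cR.pow 2).aestronglyMeasurable
  have i3 : Integrable (fun x => R x * φ x) ρ :=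
    hadm.integrable (pR.mul pφ) (cR.mul cφ).aestronglyMeasurable
  have i4 : Integrable φ ρ := hadm.integrable pφ cφ.aestronglyMeasurable
  have i5 : Integrable R ρ := hadm.integrable pR cR.aestronglyMeasurable
  set l : ℝ := 1 / (4 * s) with hl
  set a := ∫ x, φ x ∂ρ with ha
  set r := ∫ x, R x ∂ρ with hr
  have hsq : 0 ≤ ∫ x, (l * (φ x - a) - (R x - r)) ^ 2 ∂ρ := integral_nonneg fun x => sq_nonneg _
  have hexp : ∫ x, (l * (φ x - a) - (R x - r)) ^ 2 ∂ρ
      = l ^ 2 * ((∫ x, φ x ^ 2 ∂ρ) - a ^ 2) - 2 * l * ((∫ x, R x * φ x ∂ρ) - r * a)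
        + ((∫ x, R x ^ 2 ∂ρ) - r ^ 2) := by
    have e1 : ∀ x, (l * (φ x - a) - (R x - r)) ^ 2
        = l ^ 2 * φ x ^ 2 - 2 * l * (R x * φ x) + R x ^ 2
          + (-2 * l ^ 2 * a + 2 * l * r) * φ x + (2 * l * a - 2 * r) * R x
          + (l * a - r) ^ 2 := fun x => by ring
    simp_rw [e1]
    rw [integral_add, integral_add, integral_add, integral_add, integral_sub,
      integral_const_mul, integral_const_mul, integral_const_mul, integral_const_mul,
      integral_const]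
    · simp only [probReal_univ, one_smul]
      rw [← ha, ← hr]
      ring
    · exact i1.const_mul _
    · exact i3.const_mul _
    · exact (i1.const_mul _).sub (i3.const_mul _)
    · exact i2
    · exact ((i1.const_mul _).sub (i3.const_mul _)).add i2
    · exact i4.const_mul _
    · exact (((i1.const_mul _).sub (i3.const_mul _)).add i2).add (i4.const_mul _)
    · exact i5.const_mul _
    · exact ((((i1.const_mul _).sub (i3.const_mul _)).add i2).add (i4.const_mul _)).add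
        (i5.const_mul _)
    · exact integrable_const _
  rw [hexp] at hsq
  have hn : (0 : ℝ) ≤ (finrank ℝ E : ℝ) := Nat.cast_nonneg _
  have w1 : l ^ 2 * ((∫ x, φ x ^ 2 ∂ρ) - a ^ 2) ≤ 1 / (4 * s) * ‖e‖ ^ 2 := by
    have := mul_le_mul_of_nonneg_left v1 (sq_nonneg l)
    refine this.trans (le_of_eq ?_)
    rw [hl]
    (clear * - hs; field_simp)
  have w2 : 2 * l * ((∫ x, R x * φ x ∂ρ) - r * a) = 1 / (2 * s) * ‖e‖ ^ 2 := by
    rw [hD, hl]
    field_simp
    ring
  have w3 : (∫ x, R x ^ 2 ∂ρ) - r ^ 2 ≤ 16 * s ^ 2 * (finrank ℝ E : ℝ) + 64 * s ^ 3 * ‖y‖ ^ 2 := by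
    refine v2.trans ?_
    have q := mul_le_mul_of_nonneg_left hgn (by positivity : (0 : ℝ) ≤ 16 * s ^ 3)
    nlinarith only [q]
  have w4 : 1 / (4 * s) * ‖e‖ ^ 2 ≤ 16 * s ^ 2 * (finrank ℝ E : ℝ) + 64 * s ^ 3 * ‖y‖ ^ 2 := by
    have e1 : 1 / (2 * s) * ‖e‖ ^ 2 = 1 / (4 * s) * ‖e‖ ^ 2 + 1 / (4 * s) * ‖e‖ ^ 2 := by
      field_simp
      ring
    rw [w2, e1] at hsq
    linarith only [hsq, w1, w3]
  have w5 : ‖e‖ ^ 2 = 4 * s * (1 / (4 * s) * ‖e‖ ^ 2) := by (clear * - hs; field_simp)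
  have w6 := mul_le_mul_of_nonneg_left w4 (by positivity : (0 : ℝ) ≤ 4 * s)
  rw [← w5] at w6
  refine w6.trans ?_
  have q5 : 0 ≤ s ^ 3 * (finrank ℝ E : ℝ) := by (clear * - hs; positivity)
  have q6 : 0 ≤ s ^ 3 * ‖y‖ ^ 2 := by (clear * - hs; positivity)
  have q7 : s * (s ^ 3 * ‖y‖ ^ 2) ≤ 1 / 8 * (s ^ 3 * ‖y‖ ^ 2) :=
    mul_le_mul_of_nonneg_right hs1 q6
  nlinarith only [q5, q6, q7]

omit [FiniteDimensional ℝ E] [MeasurableSpace E] [BorelSpace E] in
theorem rgo_cont_ev (G : E → E) (s : ℝ) (y : E) : Continuous fun z : E => ev G s y z := by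
  unfold ev
  fun_prop

theorem rgo_integrable_G_ev {V : E → ℝ} {G : E → E} {H : E → E →L[ℝ] E} (hV : Pot V G H) (s : ℝ)
    (y : E) : Integrable (fun z : E => G (ev G s y z)) (gam E) := by
  have hW : CPot V G := hV.cpot
  have h3 : PG fun z : E => G (ev G s y z) := by
    have h4 : ∀ a b : E, ‖G (ev G s y a) - G (ev G s y b)‖ ≤ (2 * √s) * ‖a - b‖ := fun a b => by
      refine (hW.lip _ _).trans ?_
      unfold ev
      rw [add_sub_add_left_eq_sub, ← smul_sub, norm_smul, Real.norm_eq_abs,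
        abs_of_nonneg (Real.sqrt_nonneg _), mul_assoc]
    exact PG.of_lip h4
  exact gam_integrable h3 (hW.rgoContF.comp (rgo_cont_ev G s y)).aestronglyMeasurable

theorem Gb_lip {V : E → ℝ} {G : E → E} {H : E → E →L[ℝ] E} (hV : Pot V G H) {s : ℝ}
    (hs : 0 < s) (hs1 : s ≤ 1 / 8) (x y : E) :
    ‖Gb G s x - Gb G s y‖ ≤ 3 * ‖x - y‖ := by
  unfold Gb
  rw [← integral_sub (rgo_integrable_G_ev hV s x) (rgo_integrable_G_ev hV s y)]
  refine (norm_integral_le_of_norm_le_const (C := 3 * ‖x - y‖)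
    (Eventually.of_forall fun z => ?_)).trans ?_
  · refine (hV.lipG _ _).trans ?_
    have e1 : ev G s x z - ev G s y z = (x - y) - s • (G x - G y) := by
      unfold ev
      rw [smul_sub]
      abel
    rw [e1]
    have e2 : ‖(x - y) - s • (G x - G y)‖ ≤ ‖x - y‖ + ‖s • (G x - G y)‖ := norm_sub_le _ _
    rw [norm_smul, Real.norm_eq_abs, abs_of_pos hs] at e2
    have e3 : s * ‖G x - G y‖ ≤ 1 / 8 * (2 * ‖x - y‖) :=
      mul_le_mul hs1 (hV.lipG x y) (norm_nonneg _) (by norm_num)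
    linarith only [e2, e3, norm_nonneg (x - y)]
  · simp

end Vale.Agent.P347
end

section

/-! Definitions of the one-step maps and operators for P347. -/

open MeasureTheory Filter Module Set
open scoped ENNReal NNReal

namespace Vale.Agent.P347

variable {E : Type*} [NormedAddCommGroup E] [InnerProductSpace ℝ E] [FiniteDimensional ℝ E]
  [MeasurableSpace E] [BorelSpace E]

/-- Position update as a function of the three gradient estimates. -/
noncomputable def upY (h : ℝ) (y p g0 g1 g2 : E) : E :=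
  y + h • p - h ^ 2 • ((1 / 6 : ℝ) • g0 + (1 / 3 : ℝ) • g1) - h ^ 3 • g2

/-- Momentum update as a function of the three gradient estimates. -/
noncomputable def upP (h : ℝ) (p g0 g1 g2 : E) : E :=
  (1 - 2 * h) • (p - (h / 6) • (g0 + (4 : ℝ) • g1 + g2))

/-- Standard deviation of the momentum noise: `1 - (1-2h)^2 = 4h - 4h^2`. -/
noncomputable def sg2 (h : ℝ) : ℝ := 1 - (1 - 2 * h) ^ 2

/-- Ideal transition operator, built from the exact flow. -/
noncomputable def Pop (W : E → ℝ) (h : ℝ) (Y P : ℝ → E × E → E) (f : E × E → ℝ) (z : E × E) : ℝ :=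
  ∫ w, (∫ y', f (y', (1 - 2 * h) • P h z + √(sg2 h) • w.2)
      ∂(gibbs (post W (h ^ 3) (Y h z + √(h ^ 3) • w.1)))) ∂((gam E).prod (gam E))

/-- One step of stage 2 (target `gibbs (post V s y)`), with inner step `τ`. -/
noncomputable def stepT (G : E → E) (s τ : ℝ) (y x : E) (w : E × E) : E :=
  let τ' := s * τ / (s + τ)
  let c := (τ / (s + τ)) • y + (s / (s + τ)) • (x + √τ • w.1)
  c - τ' • G c + √τ' • w.2

noncomputable def Top (G : E → E) (s τ : ℝ) (y : E) (f : E → ℝ) (x : E) : ℝ :=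
  ∫ w, f (stepT G s τ y x w) ∂((gam E).prod (gam E))

end Vale.Agent.P347
end

section

/-! Task I2 (P347): estimates along the Hamiltonian flow. -/

open MeasureTheory Filter Module Set
open scoped ENNReal NNReal Topology

namespace Vale.Agent.P347

/-- Cauchy-Schwarz on an interval. -/
theorem oneaux_sq_integral_le {h : ℝ} (hh : 0 < h) {φ : ℝ → ℝ} (hφ : ContinuousOn φ (Icc 0 h)) :
    (∫ t in (0 : ℝ)..h, φ t) ^ 2 ≤ h * ∫ t in (0 : ℝ)..h, φ t ^ 2 := by
  have hu : uIcc (0 : ℝ) h = Icc 0 h := uIcc_of_le hh.le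
  have i1 : IntervalIntegrable φ volume 0 h := ContinuousOn.intervalIntegrable (by rwa [hu])
  have i2 : IntervalIntegrable (fun t => φ t ^ 2) volume 0 h :=
    ContinuousOn.intervalIntegrable (by rw [hu]; exact hφ.pow 2)
  set I := ∫ t in (0 : ℝ)..h, φ t with hI
  set c := I / h with hc
  have h0 : 0 ≤ ∫ t in (0 : ℝ)..h, (φ t - c) ^ 2 :=
    intervalIntegral.integral_nonneg hh.le fun t _ => sq_nonneg _
  have e : ∫ t in (0 : ℝ)..h, (φ t - c) ^ 2 =
      (∫ t in (0 : ℝ)..h, φ t ^ 2) - 2 * c * I + c ^ 2 * h := by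
    have e1 : ∀ t, (φ t - c) ^ 2 = φ t ^ 2 - 2 * c * φ t + c ^ 2 := fun t => by ring
    simp_rw [e1]
    rw [intervalIntegral.integral_add (i2.sub (i1.const_mul _)) intervalIntegrable_const,
      intervalIntegral.integral_sub i2 (i1.const_mul _), intervalIntegral.integral_const_mul,
      intervalIntegral.integral_const]
    simp only [sub_zero, smul_eq_mul, hI]
    ring
  rw [e] at h0
  have h1 : c * h = I := by rw [hc]; field_simp
  have h2 : 2 * c * I * h = 2 * I ^ 2 := by rw [← h1]; ring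
  have h3 : c ^ 2 * h * h = I ^ 2 := by rw [← h1]; ring
  nlinarith only [h2, h3, hh, h0]

variable {E : Type*} [NormedAddCommGroup E] [InnerProductSpace ℝ E] [FiniteDimensional ℝ E]
  [MeasurableSpace E] [BorelSpace E]

section flow

variable {F : E → E} {Y P : ℝ → E × E → E}

theorem HamFlow.sub_Ioo {h : ℝ} (hh1 : h ≤ 1 / 8) {t : ℝ} (ht : t ∈ Icc 0 h) :
    t ∈ Ioo (-(1 / 4) : ℝ) (1 / 4) :=
  ⟨by linarith only [ht.1], by linarith only [hh1, ht.2]⟩

omit [FiniteDimensional ℝ E] [MeasurableSpace E] [BorelSpace E] in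
theorem HamFlow.contYt (hF : HamFlow F Y P) {h : ℝ} (hh1 : h ≤ 1 / 8) (z : E × E) :
    ContinuousOn (fun t => Y t z) (Icc 0 h) := fun t ht =>
  (hF.dY z t (HamFlow.sub_Ioo hh1 ht)).continuousAt.continuousWithinAt

omit [FiniteDimensional ℝ E] [MeasurableSpace E] [BorelSpace E] in
theorem HamFlow.contPt (hF : HamFlow F Y P) {h : ℝ} (hh1 : h ≤ 1 / 8) (z : E × E) :
    ContinuousOn (fun t => P t z) (Icc 0 h) := fun t ht =>
  (hF.dP z t (HamFlow.sub_Ioo hh1 ht)).continuousAt.continuousWithinAt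

omit [MeasurableSpace E] [BorelSpace E] in
theorem HamFlow.P_eq (hF : HamFlow F Y P) (hc : Continuous F) {h : ℝ} (hh : 0 ≤ h)
    (hh1 : h ≤ 1 / 8) (z : E × E) :
    P h z = z.2 - ∫ t in (0 : ℝ)..h, F (Y t z) := by
  have hu : uIcc (0 : ℝ) h = Icc 0 h := uIcc_of_le hh
  have h1 := intervalIntegral.integral_eq_sub_of_hasDerivAt (f := fun t => P t z) (f' := fun t => -F (Y t z))
    (a := 0) (b := h) (fun t ht => hF.dP z t (HamFlow.sub_Ioo hh1 (by rwa [hu] at ht)))
    (ContinuousOn.intervalIntegrable (by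
      rw [hu]; exact (hc.comp_continuousOn (hF.contYt hh1 z)).neg))
  rw [intervalIntegral.integral_neg] at h1
  simp only [hF.P0] at h1
  rw [← sub_eq_iff_eq_add'.2 (sub_eq_iff_eq_add.1 h1.symm)]
  abel

omit [MeasurableSpace E] [BorelSpace E] in
theorem HamFlow.Y_eq (hF : HamFlow F Y P) (hc : Continuous F) {h : ℝ} (hh : 0 ≤ h)
    (hh1 : h ≤ 1 / 8) (z : E × E) :
    Y h z = z.1 + h • z.2 - ∫ t in (0 : ℝ)..h, (h - t) • F (Y t z) := by
  have hu : uIcc (0 : ℝ) h = Icc 0 h := uIcc_of_le hh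
  have h1 := intervalIntegral.integral_eq_sub_of_hasDerivAt (f := fun t => Y t z + (h - t) • P t z)
    (f' := fun t => -((h - t) • F (Y t z)))
    (a := 0) (b := h) (fun t ht => by
      have ht' := HamFlow.sub_Ioo hh1 (show t ∈ Icc 0 h by rwa [hu] at ht)
      have d1 := hF.dY z t ht'
      have d2 := hF.dP z t ht'
      have d3 : HasDerivAt (fun t : ℝ => h - t) (-1) t := by
        simpa only [id_eq] using (hasDerivAt_id t).const_sub h
      have d4 := d1.add (d3.smul d2)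
      refine HasDerivAt.congr_deriv d4 ?_
      simp only [smul_neg, neg_smul, one_smul]
      abel)
    (ContinuousOn.intervalIntegrable (by
      rw [hu]
      exact ((by (clear * -; fun_prop) : Continuous fun t : ℝ => h - t).continuousOn.smul
        (hc.comp_continuousOn (hF.contYt hh1 z))).neg))
  rw [intervalIntegral.integral_neg] at h1
  simp only [hF.P0, hF.Y0, sub_self, zero_smul, add_zero, sub_zero] at h1
  rw [← sub_eq_iff_eq_add'.2 (sub_eq_iff_eq_add.1 h1.symm)]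
  abel

end flow

section avg

variable {W : E → ℝ} {F : E → E} {Y P : ℝ → E × E → E}

theorem flow_mp (hW : CPot W F) (ha : Adm W) (hF : HamFlow F Y P) {h : ℝ} (hh1 : h ≤ 1 / 8)
    {t : ℝ} (ht : t ∈ Icc 0 h) :
    MeasurePreserving (fun z => (Y t z, P t z)) ((gibbs W).prod (gam E))
      ((gibbs W).prod (gam E)) :=
  ⟨(hF.continuous (HamFlow.sub_Ioo hh1 ht)).measurable,
    hF.invariant hW ha ⟨ht.1, (HamFlow.sub_Ioo hh1 ht).2⟩⟩

theorem flow_int (hW : CPot W F) (ha : Adm W) (hF : HamFlow F Y P) {h : ℝ} (hh1 : h ≤ 1 / 8)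
    {t : ℝ} (ht : t ∈ Icc 0 h) {φ : E × E → ℝ} (hφ : Integrable φ ((gibbs W).prod (gam E))) :
    Integrable (fun z => φ (Y t z, P t z)) ((gibbs W).prod (gam E)) ∧
    ∫ z, φ (Y t z, P t z) ∂((gibbs W).prod (gam E)) = ∫ z, φ z ∂((gibbs W).prod (gam E)) := by
  have hmp := flow_mp hW ha hF hh1 ht
  refine ⟨hmp.integrable_comp_of_integrable hφ, ?_⟩
  have h1 := integral_map (μ := (gibbs W).prod (gam E)) hmp.measurable.aemeasurable (f := φ)
    (by rw [hmp.map_eq]; exact hφ.aestronglyMeasurable)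
  rw [hmp.map_eq] at h1
  exact h1.symm

/-- Time averages along the stationary flow. -/
theorem time_avg (hW : CPot W F) (ha : Adm W) (hF : HamFlow F Y P) {h : ℝ} (hh : 0 < h)
    (hh1 : h ≤ 1 / 8) {φ : E × E → ℝ} (hc : Continuous φ) (h0 : ∀ z, 0 ≤ φ z)
    (hφ : Integrable φ ((gibbs W).prod (gam E))) :
    Integrable (fun z => ∫ t in (0 : ℝ)..h, φ (Y t z, P t z)) ((gibbs W).prod (gam E)) ∧
    ∫ z, (∫ t in (0 : ℝ)..h, φ (Y t z, P t z)) ∂((gibbs W).prod (gam E))
      = h * ∫ z, φ z ∂((gibbs W).prod (gam E)) := by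
  have hpW := ha.isProb
  set μ := (gibbs W).prod (gam E) with hμ
  set ν := (volume : Measure ℝ).restrict (Ioc 0 h) with hν
  have hcont : ContinuousOn (fun q : ℝ × (E × E) => φ (Y q.1 q.2, P q.1 q.2))
      (Ioo (-(1 / 4) : ℝ) (1 / 4) ×ˢ univ) :=
    hc.comp_continuousOn (hF.contY.prodMk hF.contP)
  have hsub : Ioc 0 h ×ˢ (univ : Set (E × E)) ⊆ Ioo (-(1 / 4) : ℝ) (1 / 4) ×ˢ univ :=
    prod_mono (fun t ht => HamFlow.sub_Ioo hh1 ⟨ht.1.le, ht.2⟩) le_rfl
  have hae : AEStronglyMeasurable (fun q : ℝ × (E × E) => φ (Y q.1 q.2, P q.1 q.2))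
      (ν.prod μ) := by
    have e : ν.prod μ = ((volume : Measure ℝ).prod μ).restrict (Ioc 0 h ×ˢ univ) := by
      rw [hν, ← Measure.prod_restrict, Measure.restrict_univ]
    rw [e]
    exact (hcont.mono hsub).aestronglyMeasurable (measurableSet_Ioc.prod MeasurableSet.univ)
  have hint : Integrable (fun q : ℝ × (E × E) => φ (Y q.1 q.2, P q.1 q.2)) (ν.prod μ) := by
    rw [integrable_prod_iff hae]
    constructor
    · rw [hν]
      refine (ae_restrict_iff' measurableSet_Ioc).2 (Eventually.of_forall fun t ht => ?_)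
      exact (flow_int hW ha hF hh1 ⟨ht.1.le, ht.2⟩ hφ).1
    · have hc1 : Integrable (fun _ : ℝ => ∫ z, φ z ∂μ) ν := by
        rw [hν]
        exact integrable_const _
      refine hc1.congr ?_
      rw [hν]
      refine (ae_restrict_iff' measurableSet_Ioc).2 (Eventually.of_forall fun t ht => ?_)
      simp only [Real.norm_eq_abs, abs_of_nonneg (h0 _)]
      exact (flow_int hW ha hF hh1 ⟨ht.1.le, ht.2⟩ hφ).2.symm
  have e1 : ∀ z, (∫ t in (0 : ℝ)..h, φ (Y t z, P t z)) = ∫ t, φ (Y t z, P t z) ∂ν := fun z =>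
    intervalIntegral.integral_of_le hh.le
  simp_rw [e1]
  refine ⟨hint.swap.integral_prod_left, ?_⟩
  rw [← integral_integral_swap (f := fun (t : ℝ) (z : E × E) => φ (Y t z, P t z)) hint]
  have e2 : ∫ t, ∫ z, φ (Y t z, P t z) ∂μ ∂ν = ∫ _t, ∫ z, φ z ∂μ ∂ν := by
    refine integral_congr_ae ?_
    rw [hν]
    refine (ae_restrict_iff' measurableSet_Ioc).2 (Eventually.of_forall fun t ht => ?_)
    exact (flow_int hW ha hF hh1 ⟨ht.1.le, ht.2⟩ hφ).2
  rw [e2, integral_const, smul_eq_mul]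
  congr 1
  rw [hν, measureReal_restrict_apply_univ]
  simp only [Real.volume_real_Ioc, sub_zero, hh.le, sup_of_le_left]

end avg

section quad

variable {V : E → ℝ} {G : E → E} {H : E → E →L[ℝ] E} {s h : ℝ} {Y P : ℝ → E × E → E}

end quad

end Vale.Agent.P347
end

section

/-! Auxiliary material for task J (P347): chi-square comparison of Gaussian mixtures. -/

open MeasureTheory Filter Module Set
open scoped ENNReal NNReal

namespace Vale.Agent.P347

/-- Cauchy-Schwarz for mixtures. -/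
theorem chi_mixture {Ω S : Type*} [MeasurableSpace Ω] [MeasurableSpace S] {ν : Measure Ω}
    {γ : Measure S} [SFinite ν] [SFinite γ] {L : Ω → S → ℝ≥0∞}
    (hL : Measurable (Function.uncurry L)) {Φ : S → ℝ≥0∞} (hΦ : Measurable Φ) :
    (∫⁻ ω, ∫⁻ x, Φ x * L ω x ∂γ ∂ν) ^ 2 ≤
      (∫⁻ ω, ∫⁻ ω', ∫⁻ x, L ω x * L ω' x ∂γ ∂ν ∂ν) * ∫⁻ x, Φ x ^ 2 ∂γ := by
  have mL : ∀ x, Measurable fun ω => L ω x := fun x => hL.comp (measurable_id.prodMk measurable_const)
  have mL' : ∀ ω, Measurable fun x => L ω x := fun ω => hL.comp (measurable_const.prodMk measurable_id)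
  set g : S → ℝ≥0∞ := fun x => ∫⁻ ω, L ω x ∂ν with hg
  have mg : Measurable g := by
    have : Measurable (Function.uncurry fun (x : S) (ω : Ω) => L ω x) := hL.comp measurable_swap
    exact this.lintegral_prod_right
  have h1 : ∫⁻ ω, ∫⁻ x, Φ x * L ω x ∂γ ∂ν = ∫⁻ x, (Φ * g) x ∂γ := by
    rw [lintegral_lintegral_swap]
    · refine lintegral_congr fun x => ?_
      rw [lintegral_const_mul _ (mL x)]
      rfl
    · exact ((hΦ.comp measurable_snd).mul hL).aemeasurable
  have h2 := ENNReal.lintegral_mul_le_Lp_mul_Lq γ (p := 2) (q := 2)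
    Real.HolderConjugate.two_two hΦ.aemeasurable mg.aemeasurable
  have h3 : ∫⁻ x, g x ^ 2 ∂γ = ∫⁻ ω, ∫⁻ ω', ∫⁻ x, L ω x * L ω' x ∂γ ∂ν ∂ν := by
    have e1 : ∀ x, g x ^ 2 = ∫⁻ ω, ∫⁻ ω', L ω x * L ω' x ∂ν ∂ν := by
      intro x
      rw [pow_two]
      simp_rw [lintegral_const_mul _ (mL x)]
      rw [lintegral_mul_const _ (mL x)]
    simp_rw [e1]
    have m3 : Measurable fun q : (S × Ω) × Ω => L q.1.2 q.1.1 * L q.2 q.1.1 := by
      refine Measurable.mul ?_ ?_
      · exact hL.comp ((measurable_snd.comp measurable_fst).prodMk (measurable_fst.comp measurable_fst))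
      · exact hL.comp (measurable_snd.prodMk (measurable_fst.comp measurable_fst))
    have m2 : Measurable (Function.uncurry fun (x : S) (ω : Ω) =>
        ∫⁻ ω', L ω x * L ω' x ∂ν) := m3.lintegral_prod_right'
    rw [lintegral_lintegral_swap m2.aemeasurable]
    refine lintegral_congr fun ω => ?_
    rw [lintegral_lintegral_swap]
    have m4 : Measurable fun q : S × Ω => L ω q.1 * L q.2 q.1 :=
      ((mL' ω).comp measurable_fst).mul (hL.comp measurable_swap)
    exact m4.aemeasurable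
  rw [h1]
  have e2 : ∀ f : S → ℝ≥0∞, ((∫⁻ x, f x ^ (2 : ℝ) ∂γ) ^ ((1 : ℝ) / 2)) ^ 2 = ∫⁻ x, f x ^ 2 ∂γ := by
    intro f
    rw [← ENNReal.rpow_natCast, ← ENNReal.rpow_mul]
    (clear * -; norm_num)
  calc (∫⁻ x, (Φ * g) x ∂γ) ^ 2
      ≤ ((∫⁻ x, Φ x ^ (2 : ℝ) ∂γ) ^ ((1 : ℝ) / 2) * (∫⁻ x, g x ^ (2 : ℝ) ∂γ) ^ ((1 : ℝ) / 2)) ^ 2 := by
        (clear * - h2; gcongr)
    _ = (∫⁻ x, Φ x ^ 2 ∂γ) * ∫⁻ x, g x ^ 2 ∂γ := by rw [mul_pow, e2, e2]
    _ = _ := by rw [h3, mul_comm]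

variable {E : Type*} [NormedAddCommGroup E] [InnerProductSpace ℝ E] [FiniteDimensional ℝ E]
  [MeasurableSpace E] [BorelSpace E]

theorem gam_integrable_exp {f : E → ℝ} (hf : Continuous f) {c C : ℝ} (hc : c < 1 / 2)
    (h : ∀ x, f x ≤ c * ‖x‖ ^ 2 + C) : Integrable (fun x => Real.exp (f x)) (gam E) :=
  Adm.integrable_exp_mul (a := 1 / 2) (b := 0) (by norm_num) (by fun_prop)
    (fun x => by linarith) hf hc h

omit [FiniteDimensional ℝ E] [MeasurableSpace E] [BorelSpace E] in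
theorem inner_le_quad (v x : E) : (inner ℝ v x : ℝ) ≤ 1 / 4 * ‖x‖ ^ 2 + ‖v‖ ^ 2 := by
  have h1 := real_inner_le_norm v x
  nlinarith [sq_nonneg (‖x‖ / 2 - ‖v‖), norm_nonneg v, norm_nonneg x]

theorem lint_exp_inner (v : E) :
    ∫⁻ z, ENNReal.ofReal (Real.exp (inner ℝ v z)) ∂(gam E) =
      ENNReal.ofReal (Real.exp (‖v‖ ^ 2 / 2)) := by
  rw [← gam_exp_inner v, ofReal_integral_eq_lintegral_ofReal]
  · exact gam_integrable_exp (by fun_prop) (by norm_num : (1 : ℝ) / 4 < 1 / 2)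
      (fun x => inner_le_quad v x)
  · exact Eventually.of_forall fun z => (Real.exp_pos _).le

/-- density of the shifted Gaussian -/
noncomputable def dens (c : ℝ) (δ z : E) : ℝ≥0∞ :=
  ENNReal.ofReal (Real.exp (inner ℝ δ z / √c - ‖δ‖ ^ 2 / (2 * c)))

theorem lint_shift {c : ℝ} (hc : 0 < c) (m m' : E) {g : E → ℝ≥0∞} (hg : Measurable g) :
    ∫⁻ z, g (m + √c • z) ∂(gam E) = ∫⁻ z, g (m' + √c • z) * dens c (m - m') z ∂(gam E) := by
  have hs0 : 0 < √c := Real.sqrt_pos.2 hc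
  have mT : ∀ m : E, Measurable fun z : E => m + √c • z := fun m => by (clear hc m' g hg hs0; fun_prop)
  have mD : Measurable fun z : E => dens c (m - m') z := by
    unfold dens; (clear hc g hg hs0 mT; fun_prop)
  have hmeas : (gam E).map (fun z => m + √c • z) =
      ((gam E).withDensity (dens c (m - m'))).map (fun z => m' + √c • z) := by
    ext A hA
    rw [Measure.map_apply (mT m) hA, Measure.map_apply (mT m') hA,
      withDensity_apply _ (mT m' hA)]
    have h := gam_shift hc m m' (f := A.indicator fun _ => (1 : ℝ))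
      (measurable_const.indicator hA) ⟨1, fun x => by
        by_cases hx : x ∈ A
        · simp only [indicator_of_mem hx, abs_one, Std.le_refl]
        · simp only [indicator_of_notMem hx, abs_zero, zero_le_one]⟩
    have e1 : ∫ z, A.indicator (fun _ => (1 : ℝ)) (m + √c • z) ∂(gam E) =
        (gam E).real ((fun z => m + √c • z) ⁻¹' A) := by
      rw [← integral_indicator_one (mT m hA)]
      rfl
    have e2 : ∫ z, A.indicator (fun _ => (1 : ℝ)) (m' + √c • z) *
        Real.exp (inner ℝ (m - m') z / √c - ‖m - m'‖ ^ 2 / (2 * c)) ∂(gam E) =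
        ∫ z in (fun z => m' + √c • z) ⁻¹' A,
          Real.exp (inner ℝ (m - m') z / √c - ‖m - m'‖ ^ 2 / (2 * c)) ∂(gam E) := by
      rw [← integral_indicator (mT m' hA)]
      refine integral_congr_ae (Eventually.of_forall fun z => ?_)
      by_cases hz : m' + √c • z ∈ A
      · rw [indicator_of_mem (show z ∈ (fun z => m' + √c • z) ⁻¹' A from hz)]
        simp [indicator_of_mem hz]
      · rw [indicator_of_notMem (show z ∉ (fun z => m' + √c • z) ⁻¹' A from hz)]
        simp only [indicator_of_notMem hz, zero_mul]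
    have hint : Integrable (fun z => Real.exp (inner ℝ (m - m') z / √c -
        ‖m - m'‖ ^ 2 / (2 * c))) (gam E) := by
      apply gam_integrable_exp (c := 1 / 4) (C := ‖(√c)⁻¹ • (m - m')‖ ^ 2) (by fun_prop)
        (by norm_num)
      intro x
      have h1 := inner_le_quad ((√c)⁻¹ • (m - m')) x
      rw [real_inner_smul_left] at h1
      have h2 : (inner ℝ (m - m') x : ℝ) / √c = (√c)⁻¹ * inner ℝ (m - m') x := by
        rw [div_eq_inv_mul]
      have h3 : 0 ≤ ‖m - m'‖ ^ 2 / (2 * c) := by (clear * - hc; positivity)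
      rw [h2]
      linarith
    rw [e1, e2] at h
    have h' := congrArg ENNReal.ofReal h
    rw [Measure.real, ENNReal.ofReal_toReal (measure_ne_top _ _),
      ofReal_integral_eq_lintegral_ofReal hint.integrableOn
        (Eventually.of_forall fun z => (Real.exp_pos _).le)] at h'
    exact h'
  have h1 : ∫⁻ x, g x ∂((gam E).map (fun z => m + √c • z)) =
      ∫⁻ x, g x ∂(((gam E).withDensity (dens c (m - m'))).map (fun z => m' + √c • z)) := by
    rw [hmeas]
  rw [lintegral_map hg (mT m), lintegral_map hg (mT m')] at h1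
  have h2 := lintegral_withDensity_eq_lintegral_mul (gam E) mD (hg.comp (mT m'))
  have h3 : ∫⁻ z, g (m' + √c • z) ∂(gam E).withDensity (dens c (m - m')) =
      ∫⁻ z, g (m' + √c • z) * dens c (m - m') z ∂(gam E) := by
    refine h2.trans (lintegral_congr fun z => ?_)
    simp only [Pi.mul_apply, Function.comp]
    rw [mul_comm]
  rw [h1, h3]

theorem lint_dens_mul {c : ℝ} (hc : 0 < c) (δ δ' : E) :
    ∫⁻ z, dens c δ z * dens c δ' z ∂(gam E) = ENNReal.ofReal (Real.exp (inner ℝ δ δ' / c)) := by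
  have hs0 : 0 < √c := Real.sqrt_pos.2 hc
  have hss : √c ^ 2 = c := Real.sq_sqrt hc.le
  have e : ∀ z : E, dens c δ z * dens c δ' z =
      ENNReal.ofReal (Real.exp (inner ℝ ((√c)⁻¹ • (δ + δ')) z)) *
        ENNReal.ofReal (Real.exp (-(‖δ‖ ^ 2 + ‖δ'‖ ^ 2) / (2 * c))) := by
    intro z
    unfold dens
    rw [← ENNReal.ofReal_mul (Real.exp_pos _).le, ← ENNReal.ofReal_mul (Real.exp_pos _).le,
      ← Real.exp_add, ← Real.exp_add]
    congr 2
    rw [real_inner_smul_left, inner_add_left]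
    field_simp
    ring
  simp_rw [e]
  rw [lintegral_mul_const _ (by (clear hc hs0 hss e; fun_prop)), lint_exp_inner,
    ← ENNReal.ofReal_mul (Real.exp_pos _).le, ← Real.exp_add]
  congr 2
  rw [norm_smul, mul_pow, norm_inv, Real.norm_eq_abs, inv_pow, sq_abs, hss, norm_add_sq_real]
  field_simp
  ring

/-- shift of a pair of independent Gaussians -/
theorem lint_shift2 {c₁ c₂ : ℝ} (h1 : 0 < c₁) (h2 : 0 < c₂) (a a' b b' : E)
    {g : E × E → ℝ≥0∞} (hg : Measurable g) :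
    ∫⁻ w, g (a + √c₁ • w.1, b + √c₂ • w.2) ∂((gam E).prod (gam E)) =
      ∫⁻ w, g (a' + √c₁ • w.1, b' + √c₂ • w.2) *
        (dens c₁ (a - a') w.1 * dens c₂ (b - b') w.2) ∂((gam E).prod (gam E)) := by
  have mD : ∀ (c : ℝ) (δ : E), Measurable fun z : E => dens c δ z := fun c δ => by
    unfold dens; (clear c₁ c₂ h1 h2 a a' b b' g hg; fun_prop)
  have mS : ∀ (c : ℝ) (m : E), Measurable fun z : E => m + √c • z := fun c m => by (clear c₁ c₂ h1 h2 a a' b b' g hg mD; fun_prop)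
  rw [lintegral_prod _ (by
    exact (hg.comp (((mS c₁ a).comp measurable_fst).prodMk
      ((mS c₂ b).comp measurable_snd))).aemeasurable)]
  rw [lintegral_prod _ (by
    exact ((hg.comp (((mS c₁ a').comp measurable_fst).prodMk
      ((mS c₂ b').comp measurable_snd))).mul (((mD _ _).comp measurable_fst).mul
        ((mD _ _).comp measurable_snd))).aemeasurable)]
  simp only
  -- inner shift
  have e1 : ∀ x : E, ∫⁻ y, g (x, b + √c₂ • y) ∂(gam E) =
      ∫⁻ y, g (x, b' + √c₂ • y) * dens c₂ (b - b') y ∂(gam E) := fun x =>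
    lint_shift h2 b b' (hg.comp (measurable_const.prodMk measurable_id))
  simp_rw [e1]
  set k : E → ℝ≥0∞ := fun x => ∫⁻ y, g (x, b' + √c₂ • y) * dens c₂ (b - b') y ∂(gam E) with hk
  have mk : Measurable k := by
    have : Measurable (Function.uncurry fun (x y : E) =>
        g (x, b' + √c₂ • y) * dens c₂ (b - b') y) :=
      (hg.comp (measurable_fst.prodMk ((mS c₂ b').comp measurable_snd))).mul
        ((mD _ _).comp measurable_snd)
    exact this.lintegral_prod_right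
  have e2 := lint_shift h1 a a' mk
  simp only [hk] at e2
  rw [e2]
  refine lintegral_congr fun x => ?_
  rw [← lintegral_mul_const]
  · refine lintegral_congr fun y => ?_
    ring
  · exact (hg.comp (measurable_const.prodMk (mS c₂ b'))).mul (mD _ _)

theorem dens_comp_measurable {Ω : Type*} [MeasurableSpace Ω] {c : ℝ} {α β : Ω → E}
    (hα : Measurable α) (hβ : Measurable β) : Measurable fun ω => dens c (α ω) (β ω) := by
  unfold dens
  fun_prop

theorem lint_dens2 {c₁ c₂ : ℝ} (h1 : 0 < c₁) (h2 : 0 < c₂) (u u' v v' : E) :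
    ∫⁻ w, dens c₁ u w.1 * dens c₂ v w.2 * (dens c₁ u' w.1 * dens c₂ v' w.2)
      ∂((gam E).prod (gam E)) =
    ENNReal.ofReal (Real.exp (inner ℝ u u' / c₁ + inner ℝ v v' / c₂)) := by
  have e2 : ∀ w : E × E, dens c₁ u w.1 * dens c₂ v w.2 * (dens c₁ u' w.1 * dens c₂ v' w.2) =
      (dens c₁ u w.1 * dens c₁ u' w.1) * (dens c₂ v w.2 * dens c₂ v' w.2) := fun w => by ring
  have mD' : ∀ (c : ℝ) (δ : E), Measurable fun z : E => dens c δ z := fun c δ => by
    unfold dens; (clear c₁ c₂ h1 h2 u u' v v' e2; fun_prop)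
  simp_rw [e2]
  rw [lintegral_prod_mul (f := fun x => dens c₁ u x * dens c₁ u' x)
    (g := fun x => dens c₂ v x * dens c₂ v' x)
    ((mD' _ _).mul (mD' _ _)).aemeasurable
    ((mD' _ _).mul (mD' _ _)).aemeasurable, lint_dens_mul h1, lint_dens_mul h2,
    ← ENNReal.ofReal_mul (Real.exp_pos _).le, ← Real.exp_add]

/-- chi-square comparison for Gaussian mixtures with random shifts -/
theorem chi_gauss {Ω : Type*} [MeasurableSpace Ω] {ν : Measure Ω} [SFinite ν] {c₁ c₂ : ℝ}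
    (h1 : 0 < c₁) (h2 : 0 < c₂) (a b : E) {α β : Ω → E} (hα : Measurable α) (hβ : Measurable β)
    {g : E × E → ℝ≥0∞} (hg : Measurable g) :
    (∫⁻ ω, ∫⁻ w, g (α ω + √c₁ • w.1, β ω + √c₂ • w.2) ∂((gam E).prod (gam E)) ∂ν) ^ 2 ≤
      (∫⁻ ω, ∫⁻ ω', ENNReal.ofReal (Real.exp (inner ℝ (α ω - a) (α ω' - a) / c₁ +
        inner ℝ (β ω - b) (β ω' - b) / c₂)) ∂ν ∂ν) *
      ∫⁻ w, g (a + √c₁ • w.1, b + √c₂ • w.2) ^ 2 ∂((gam E).prod (gam E)) := by
  have e1 : ∀ ω, ∫⁻ w, g (α ω + √c₁ • w.1, β ω + √c₂ • w.2) ∂((gam E).prod (gam E)) =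
      ∫⁻ w, g (a + √c₁ • w.1, b + √c₂ • w.2) *
        (dens c₁ (α ω - a) w.1 * dens c₂ (β ω - b) w.2) ∂((gam E).prod (gam E)) := fun ω =>
    lint_shift2 h1 h2 _ _ _ _ hg
  simp_rw [e1]
  have m1 : Measurable fun q : Ω × (E × E) => dens c₁ (α q.1 - a) q.2.1 :=
    dens_comp_measurable ((hα.comp measurable_fst).sub_const a)
      (measurable_fst.comp measurable_snd)
  have m2 : Measurable fun q : Ω × (E × E) => dens c₂ (β q.1 - b) q.2.2 :=
    dens_comp_measurable ((hβ.comp measurable_fst).sub_const b)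
      (measurable_snd.comp measurable_snd)
  have m3 : Measurable fun w : E × E => a + √c₁ • w.1 := by (clear c₂ h1 h2 b α β hα hβ g hg e1 m1 m2; fun_prop)
  have m4 : Measurable fun w : E × E => b + √c₂ • w.2 := by fun_prop
  have key := chi_mixture (ν := ν) (γ := (gam E).prod (gam E))
    (L := fun ω w => dens c₁ (α ω - a) w.1 * dens c₂ (β ω - b) w.2) (m1.mul m2)
    (Φ := fun w => g (a + √c₁ • w.1, b + √c₂ • w.2)) (hg.comp (m3.prodMk m4))
  refine key.trans (le_of_eq ?_)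
  clear key
  congr 1
  exact lintegral_congr fun ω => lintegral_congr fun ω' => lint_dens2 h1 h2 _ _ _ _

end Vale.Agent.P347
end

section

/-! Auxiliary material for task J (P347): exponential moments of the gradient noise. -/

open MeasureTheory Filter Module Set
open scoped ENNReal NNReal

namespace Vale.Agent.P347

variable {E : Type*} [NormedAddCommGroup E] [InnerProductSpace ℝ E] [FiniteDimensional ℝ E]
  [MeasurableSpace E] [BorelSpace E]

/-- centred noise of the gradient estimator -/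
noncomputable def nz (G : E → E) (s : ℝ) (b z : E) : E :=
  G (b + √s • z) - ∫ w, G (b + √s • w) ∂(gam E)

theorem nz_sub {G : E → E} (hG : ∀ x y, ‖G x - G y‖ ≤ 2 * ‖x - y‖) (s : ℝ) (b z z' : E) :
    ‖nz G s b z - nz G s b z'‖ ≤ 2 * √s * ‖z - z'‖ := by
  unfold nz
  rw [sub_sub_sub_cancel_right]
  refine (hG _ _).trans (le_of_eq ?_)
  have e : b + √s • z - (b + √s • z') = √s • (z - z') := by
    rw [smul_sub]; abel
  rw [e, norm_smul, Real.norm_eq_abs, abs_of_nonneg (Real.sqrt_nonneg _)]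
  ring

theorem nz_cont {G : E → E} (hG : ∀ x y, ‖G x - G y‖ ≤ 2 * ‖x - y‖) (s : ℝ) (b : E) :
    Continuous (nz G s b) := by
  have : LipschitzWith (Real.toNNReal (2 * √s)) (nz G s b) :=
    LipschitzWith.of_dist_le_mul fun x y => by
      rw [dist_eq_norm, dist_eq_norm, Real.coe_toNNReal _ (by (clear * -; positivity))]
      exact nz_sub hG s b x y
  exact this.continuous

theorem lint_nz {G : E → E} (hG : ∀ x y, ‖G x - G y‖ ≤ 2 * ‖x - y‖) {s : ℝ} (hs : 0 < s)
    (b lam : E) :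
    ∫⁻ z, ENNReal.ofReal (Real.exp (inner ℝ lam (nz G s b z))) ∂(gam E)
      ≤ ENNReal.ofReal (Real.exp (4 * s * ‖lam‖ ^ 2)) := by
  have hc := nz_cont hG s b
  rw [← ofReal_integral_eq_lintegral_ofReal]
  · exact ENNReal.ofReal_le_ofReal (noise_mgf hG hs b lam)
  · apply gam_integrable_exp (c := 1 / 4) (C := ‖lam‖ * ‖nz G s b 0‖ + 4 * s * ‖lam‖ ^ 2)
      (by fun_prop) (by norm_num)
    intro x
    have h1 := real_inner_le_norm lam (nz G s b x)
    have h2 := nz_sub hG s b x 0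
    rw [sub_zero] at h2
    have h3 : ‖nz G s b x‖ ≤ ‖nz G s b 0‖ + 2 * √s * ‖x‖ := by
      have := norm_add_le (nz G s b x - nz G s b 0) (nz G s b 0)
      rw [sub_add_cancel] at this
      linarith
    have h4 : ‖lam‖ * ‖nz G s b x‖ ≤ ‖lam‖ * (‖nz G s b 0‖ + 2 * √s * ‖x‖) :=
      mul_le_mul_of_nonneg_left h3 (norm_nonneg _)
    have h5 : √s ^ 2 = s := Real.sq_sqrt hs.le
    have h6 : ‖lam‖ * (2 * √s * ‖x‖) ≤ 1 / 4 * ‖x‖ ^ 2 + 4 * √s ^ 2 * ‖lam‖ ^ 2 := by
      nlinarith only [sq_nonneg (‖x‖ / 2 - 2 * (√s * ‖lam‖))]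
    rw [h5] at h6
    (clear hG hs hc h5; linarith)
  · exact Eventually.of_forall fun z => (Real.exp_pos _).le

theorem lint_exp_sq {θ : ℝ} (h0 : 0 ≤ θ) (h1 : θ ≤ 1 / 4) :
    ∫⁻ z, ENNReal.ofReal (Real.exp (θ * ‖z‖ ^ 2)) ∂(gam E) ≤
      ENNReal.ofReal (Real.exp (2 * θ * (finrank ℝ E : ℝ))) := by
  rw [← ofReal_integral_eq_lintegral_ofReal]
  · exact ENNReal.ofReal_le_ofReal (gam_exp_sq_le h0 h1)
  · apply gam_integrable_exp (c := θ) (C := 0) (by (clear * -; fun_prop)) (by linarith)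
    intro x
    linarith only []
  · exact Eventually.of_forall fun z => (Real.exp_pos _).le

end Vale.Agent.P347
end

section

/-! Auxiliary lemmas for task K (P347): one-step contraction. -/

open MeasureTheory Filter Module Set
open scoped ENNReal NNReal

namespace Vale.Agent.P347

variable {E : Type*} [NormedAddCommGroup E] [InnerProductSpace ℝ E] [FiniteDimensional ℝ E]
  [MeasurableSpace E] [BorelSpace E]

/-- The quadratic form of the contraction, as a function of the two components. -/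
noncomputable def Phi2 (a b : E) : ℝ := ‖a‖ ^ 2 + (1 / 4) * inner ℝ a b + (1 / 2) * ‖b‖ ^ 2

omit [FiniteDimensional ℝ E] [MeasurableSpace E] [BorelSpace E] in
theorem phi2_expand (h : ℝ) (a b u c : E) :
    Phi2 (a + h • b + h ^ 2 • u) ((1 - 2 * h) • (b - h • c)) =
      Phi2 a b + h * ((3 / 2) * inner ℝ a b - (7 / 4) * ‖b‖ ^ 2 - (1 / 4) * inner ℝ a c
        - inner ℝ b c) +
      h ^ 2 * (‖b‖ ^ 2 + 2 * inner ℝ a u + 2 * (h * inner ℝ b u) + h * (h * ‖u‖ ^ 2)
        + (1 / 4) * (inner ℝ b u - inner ℝ b c - h * inner ℝ u c - 2 * (‖b‖ ^ 2 - inner ℝ a c)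
          - 2 * (h * inner ℝ b u) + 2 * (h * inner ℝ b c) + 2 * (h * (h * inner ℝ u c)))
        + (‖c‖ ^ 2 / 2 + 4 * inner ℝ b c + 2 * ‖b‖ ^ 2 - 2 * (h * ‖c‖ ^ 2)
          - 4 * (h * inner ℝ b c) + 2 * (h * (h * ‖c‖ ^ 2)))) := by
  unfold Phi2
  simp only [← real_inner_self_eq_norm_sq, inner_add_right, inner_add_left, real_inner_smul_left, real_inner_smul_right, inner_sub_right, inner_sub_left]
  rw [real_inner_comm a b, real_inner_comm a u, real_inner_comm b u, real_inner_comm b c]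
  ring

theorem k_real {x y h ab ac bc ar br Er : ℝ} (hx0 : 0 ≤ x) (hy0 : 0 ≤ y)
    (hh1 : h ≤ 1 / 1000) (hac : ac = 3 / 2 * x ^ 2 + ar) (hbc : bc = 3 / 2 * ab + br)
    (e1 : -(x * (51 / 100 * x + 21 / 10 * h * y)) ≤ ar)
    (e2 : -(y * (51 / 100 * x + 21 / 10 * h * y)) ≤ br) (e3 : ab ≤ x * y)
    (hhE : h * Er ≤ 20 * (x + y) ^ 2 / 1000) :
    (3 / 2) * ab - (7 / 4) * y ^ 2 - (1 / 4) * ac - bc
      + h * Er + 1 / 100 * (x ^ 2 + (1 / 4) * ab + (1 / 2) * y ^ 2) ≤ 0 := by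
  have hxy : h * (x * y) ≤ 1 / 1000 * (x * y) := mul_le_mul_of_nonneg_right hh1 (by (clear * - hx0 hy0; positivity))
  have hyy : h * (y * y) ≤ 1 / 1000 * (y * y) := mul_le_mul_of_nonneg_right hh1 (by (clear * - hy0; positivity))
  have e1' : -(51 / 100 * (x * x) + 21 / 10 * (h * (x * y))) ≤ ar := by
    refine le_trans (le_of_eq ?_) e1
    ring
  have e2' : -(51 / 100 * (x * y) + 21 / 10 * (h * (y * y))) ≤ br := by
    refine le_trans (le_of_eq ?_) e2
    ring
  have hp : 0 ≤ x * y := mul_nonneg hx0 hy0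
  have hq : 0 ≤ x * x - 26 / 10 * (x * y) + 169 / 100 * (y * y) := by
    have := sq_nonneg (x - 13 / 10 * y)
    linarith only [this]
  have hyy0 : 0 ≤ y * y := mul_self_nonneg y
  rw [hac, hbc]
  have e4 : 20 * (x + y) ^ 2 / 1000 = 1 / 50 * (x * x) + 1 / 25 * (x * y) + 1 / 50 * (y * y) := by
    ring
  rw [e4] at hhE
  have e5 : x ^ 2 = x * x := by ring
  have e6 : y ^ 2 = y * y := by ring
  rw [e5, e6]
  linarith only [e1, e2, e3, hhE, hxy, hyy, hp, hq, hyy0]

/-- Differences of gradient estimates with common noise. -/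
theorem ev_diff {V : E → ℝ} {G : E → E} {H : E → E →L[ℝ] E} (hV : Pot V G H) {s : ℝ}
    (hs : 0 < s) (hs1 : s ≤ 1 / 1000) (x x' z : E) :
    ‖G (ev G s x z) - G (ev G s x' z) - (3 / 2 : ℝ) • (x - x')‖ ≤ 504 / 1000 * ‖x - x'‖ := by
  set e := ev G s x z - ev G s x' z with he
  have h1 := hV.lipG' (ev G s x z) (ev G s x' z)
  rw [← he] at h1
  have h2 : e - (x - x') = -(s • (G x - G x')) := by
    rw [he]
    unfold ev
    rw [smul_sub]
    abel
  have h3 : ‖e - (x - x')‖ ≤ 2 * s * ‖x - x'‖ := by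
    rw [h2, norm_neg, norm_smul, Real.norm_eq_abs, abs_of_pos hs]
    have := mul_le_mul_of_nonneg_left (hV.lipG x x') hs.le
    linarith only [this]
  have h4 : ‖e‖ ≤ (1 + 2 * s) * ‖x - x'‖ := by
    have := norm_add_le (e - (x - x')) (x - x')
    rw [sub_add_cancel] at this
    linarith only [h3, this]
  have h5 : G (ev G s x z) - G (ev G s x' z) - (3 / 2 : ℝ) • (x - x') =
      (G (ev G s x z) - G (ev G s x' z) - (3 / 2 : ℝ) • e) + (3 / 2 : ℝ) • (e - (x - x')) := by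
    rw [smul_sub (3 / 2 : ℝ) e]
    abel
  rw [h5]
  refine (norm_add_le _ _).trans ?_
  rw [norm_smul, Real.norm_eq_abs, abs_of_pos (by norm_num : (0 : ℝ) < 3 / 2)]
  have hn := norm_nonneg (x - x')
  have hs2 : s * ‖x - x'‖ ≤ 1 / 1000 * ‖x - x'‖ := mul_le_mul_of_nonneg_right hs1 hn
  linarith

end Vale.Agent.P347
end

section

/-! General-node version of stage 1 (P347, exponent 1/5): definitions. -/

open MeasureTheory Filter Module Set
open scoped ENNReal NNReal

namespace Vale.Agent.P347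

variable {E : Type*} [NormedAddCommGroup E] [InnerProductSpace ℝ E] [FiniteDimensional ℝ E]
  [MeasurableSpace E] [BorelSpace E]

/-- Nodes `c` in `[0,1]` and weights `w ≥ 0`, exact on polynomials of degree at most `m`. -/
structure QN (m : ℕ) {J : ℕ} (c w : Fin J → ℝ) : Prop where
  c0 : ∀ j, 0 ≤ c j
  c1 : ∀ j, c j ≤ 1
  w0 : ∀ j, 0 ≤ w j
  mom : ∀ k ≤ m, ∑ j, w j * c j ^ k = 1 / (k + 1 : ℝ)

/-- Query centre at time fraction `a`, using a gradient value `g0` at the starting point. -/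
noncomputable def node (h a : ℝ) (y p g0 : E) : E :=
  y + (a * h) • p - ((a * h) ^ 2 / 2) • g0

/-- Position update. -/
noncomputable def upY5 {J : ℕ} (h : ℝ) (c w : Fin J → ℝ) (y p : E) (g : Fin J → E) (ge : E) : E :=
  y + h • p - h ^ 2 • (∑ j, (w j * (1 - c j)) • g j) - h ^ 3 • ge

/-- Momentum update. -/
noncomputable def upP5 {J : ℕ} (h : ℝ) (w : Fin J → ℝ) (p : E) (g : Fin J → E) : E :=
  (1 - 2 * h) • (p - h • ∑ j, w j • g j)

/-- Noise space of one step: `(z0, ze, z, ζ, ξ)`. -/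
abbrev Noise5 (J : ℕ) (E : Type*) : Type _ := E × E × (Fin J → E) × E × E

/-- Law of the noise of one step. -/
noncomputable def gamN (J : ℕ) (E : Type*) [NormedAddCommGroup E] [InnerProductSpace ℝ E]
    [FiniteDimensional ℝ E] [MeasurableSpace E] [BorelSpace E] : Measure (Noise5 J E) :=
  (gam E).prod ((gam E).prod ((Measure.pi fun _ : Fin J => gam E).prod ((gam E).prod (gam E))))

/-- One step of the general-node stage 1. -/
noncomputable def step5 {J : ℕ} (G : E → E) (s h : ℝ) (c w : Fin J → ℝ) (z : E × E)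
    (ω : Noise5 J E) : E × E :=
  let g0 := G (ev G s z.1 ω.1)
  let ge := G (ev G s (node h 1 z.1 z.2 g0) ω.2.1)
  let g : Fin J → E := fun j => G (ev G s (node h (c j) z.1 z.2 g0) (ω.2.2.1 j))
  (upY5 h c w z.1 z.2 g ge + √(2 * h ^ 3) • ω.2.2.2.1, upP5 h w z.2 g + √(sg2 h) • ω.2.2.2.2)

/-- Transition operator of the general-node stage 1. -/
noncomputable def K5 {J : ℕ} (G : E → E) (s h : ℝ) (c w : Fin J → ℝ) (f : E × E → ℝ)
    (z : E × E) : ℝ :=
  ∫ ω, f (step5 G s h c w z ω) ∂(gamN J E)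

/-- Fully averaged gradient estimate at time fraction `a`. -/
noncomputable def mg (G : E → E) (s h a : ℝ) (z : E × E) : E :=
  ∫ z0, Gb G s (node h a z.1 z.2 (G (ev G s z.1 z0))) ∂(gam E)

/-- Transition operator with fully averaged gradients. -/
noncomputable def Kb5 {J : ℕ} (G : E → E) (s h : ℝ) (c w : Fin J → ℝ) (f : E × E → ℝ)
    (z : E × E) : ℝ :=
  ∫ ω, f (upY5 h c w z.1 z.2 (fun j => mg G s h (c j) z) (mg G s h 1 z) + √(2 * h ^ 3) • ω.1,
      upP5 h w z.2 (fun j => mg G s h (c j) z) + √(sg2 h) • ω.2) ∂((gam E).prod (gam E))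

end Vale.Agent.P347
end

section

/-! Auxiliary material for task J of the general-node scheme (P347, exponent 1/5): exponential
moments of the gradient noise. -/

open MeasureTheory Filter Module Set
open scoped ENNReal NNReal

namespace Vale.Agent.P347

variable {E : Type*} [NormedAddCommGroup E] [InnerProductSpace ℝ E] [FiniteDimensional ℝ E]
  [MeasurableSpace E] [BorelSpace E]

theorem nz_exp_integrable {G : E → E} (hG : ∀ x y, ‖G x - G y‖ ≤ 2 * ‖x - y‖) {s : ℝ} (hs : 0 < s)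
    (b lam : E) : Integrable (fun z => Real.exp (inner ℝ lam (nz G s b z))) (gam E) := by
  have hc := nz_cont hG s b
  apply gam_integrable_exp (c := 1 / 4) (C := ‖lam‖ * ‖nz G s b 0‖ + 4 * s * ‖lam‖ ^ 2)
    (by fun_prop) (by norm_num)
  intro x
  have h1 := real_inner_le_norm lam (nz G s b x)
  have h2 := nz_sub hG s b x 0
  rw [sub_zero] at h2
  have h3 : ‖nz G s b x‖ ≤ ‖nz G s b 0‖ + 2 * √s * ‖x‖ := by
    have := norm_add_le (nz G s b x - nz G s b 0) (nz G s b 0)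
    rw [sub_add_cancel] at this
    (clear hG hs lam hc h1; linarith)
  have h4 : ‖lam‖ * ‖nz G s b x‖ ≤ ‖lam‖ * (‖nz G s b 0‖ + 2 * √s * ‖x‖) :=
    mul_le_mul_of_nonneg_left h3 (norm_nonneg _)
  have h5 : √s ^ 2 = s := Real.sq_sqrt hs.le
  have h6 : ‖lam‖ * (2 * √s * ‖x‖) ≤ 1 / 4 * ‖x‖ ^ 2 + 4 * √s ^ 2 * ‖lam‖ ^ 2 := by
    nlinarith only [sq_nonneg (‖x‖ / 2 - 2 * (√s * ‖lam‖))]
  rw [h5] at h6
  linarith

/-- exponential moment of a sum of independent noises -/
theorem lint_pi_nz {G : E → E} (hG : ∀ x y, ‖G x - G y‖ ≤ 2 * ‖x - y‖) {s : ℝ} (hs : 0 < s)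
    {J : ℕ} (b l : Fin J → E) :
    ∫⁻ z : Fin J → E, ENNReal.ofReal (Real.exp (∑ j, inner ℝ (l j) (nz G s (b j) (z j))))
      ∂(Measure.pi fun _ : Fin J => gam E) ≤
      ENNReal.ofReal (Real.exp (4 * s * ∑ j, ‖l j‖ ^ 2)) := by
  have e1 : ∀ z : Fin J → E, Real.exp (∑ j, inner ℝ (l j) (nz G s (b j) (z j))) =
      ∏ j, Real.exp (inner ℝ (l j) (nz G s (b j) (z j))) := fun z => Real.exp_sum _ _
  simp_rw [e1]
  rw [← ofReal_integral_eq_lintegral_ofReal]
  · apply ENNReal.ofReal_le_ofReal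
    rw [integral_fintype_prod_eq_prod (μ := fun _ : Fin J => gam E)
      (f := fun j (x : E) => Real.exp (inner ℝ (l j) (nz G s (b j) x)))]
    rw [Finset.mul_sum, Real.exp_sum]
    refine Finset.prod_le_prod (fun j _ => integral_nonneg fun x => (Real.exp_pos _).le)
      fun j _ => noise_mgf hG hs (b j) (l j)
  · exact Integrable.fintype_prod (μ := fun _ : Fin J => gam E)
      (f := fun j (x : E) => Real.exp (inner ℝ (l j) (nz G s (b j) x)))
      fun j => nz_exp_integrable hG hs (b j) (l j)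
  · exact Eventually.of_forall fun z => Finset.prod_nonneg fun j _ => (Real.exp_pos _).le

/-- conditional exponential moment -/
theorem lint_cond {G : E → E} (hG : ∀ x y, ‖G x - G y‖ ≤ 2 * ‖x - y‖) {s : ℝ} (hs : 0 < s)
    {J : ℕ} (b l : Fin J → E) (be le : E) :
    ∫⁻ q : E × (Fin J → E), ENNReal.ofReal (Real.exp (inner ℝ le (nz G s be q.1) +
      ∑ j, inner ℝ (l j) (nz G s (b j) (q.2 j))))
      ∂((gam E).prod (Measure.pi fun _ : Fin J => gam E)) ≤
      ENNReal.ofReal (Real.exp (4 * s * (‖le‖ ^ 2 + ∑ j, ‖l j‖ ^ 2))) := by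
  have e1 : ∀ q : E × (Fin J → E), ENNReal.ofReal (Real.exp (inner ℝ le (nz G s be q.1) +
      ∑ j, inner ℝ (l j) (nz G s (b j) (q.2 j)))) =
      ENNReal.ofReal (Real.exp (inner ℝ le (nz G s be q.1))) *
      ENNReal.ofReal (Real.exp (∑ j, inner ℝ (l j) (nz G s (b j) (q.2 j)))) := fun q => by
    rw [← ENNReal.ofReal_mul (Real.exp_pos _).le, ← Real.exp_add]
  simp_rw [e1]
  have hc : ∀ b, Continuous (nz G s b) := nz_cont hG s
  have m1 : Measurable fun x : E => ENNReal.ofReal (Real.exp (inner ℝ le (nz G s be x))) := by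
    have := hc be
    refine (Continuous.measurable ?_).ennreal_ofReal
    fun_prop
  have m2 : Measurable fun z : Fin J → E => ENNReal.ofReal (Real.exp
      (∑ j, inner ℝ (l j) (nz G s (b j) (z j)))) := by
    refine (Continuous.measurable ?_).ennreal_ofReal
    refine Real.continuous_exp.comp (continuous_finsetSum _ fun j _ => ?_)
    exact continuous_const.inner ((hc (b j)).comp (continuous_apply j))
  rw [lintegral_prod_mul m1.aemeasurable m2.aemeasurable]
  calc _ ≤ ENNReal.ofReal (Real.exp (4 * s * ‖le‖ ^ 2)) *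
        ENNReal.ofReal (Real.exp (4 * s * ∑ j, ‖l j‖ ^ 2)) := by
        gcongr
        · exact lint_nz hG hs _ _
        · exact lint_pi_nz hG hs _ _
    _ = _ := by
        rw [← ENNReal.ofReal_mul (Real.exp_pos _).le, ← Real.exp_add]
        ring_nf

/-- Lipschitz functions of the Gaussian, exponential moment. -/
theorem lint_exp_lip {F : E → ℝ} {L : ℝ} (hL : 0 ≤ L) (hF : ∀ x y, |F x - F y| ≤ L * ‖x - y‖) :
    ∫⁻ z, ENNReal.ofReal (Real.exp (F z - ∫ y, F y ∂(gam E))) ∂(gam E) ≤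
      ENNReal.ofReal (Real.exp (L ^ 2)) := by
  have hmid : MidSC 1 (fun x : E => ‖x‖ ^ 2 / 2) := by
    intro x y
    simp only
    rw [norm_smul, mul_pow, Real.norm_eq_abs, sq_abs, norm_add_sq_real, norm_sub_sq_real]
    apply le_of_eq
    ring
  have hcont : Continuous F := by
    have : LipschitzWith (Real.toNNReal L) F := LipschitzWith.of_dist_le_mul fun x y => by
      rw [Real.coe_toNNReal _ hL, Real.dist_eq, dist_eq_norm]
      exact hF x y
    exact this.continuous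
  have h := exp_lip (E := E) one_pos adm_gam hmid hF
  rw [div_one] at h
  rw [← ofReal_integral_eq_lintegral_ofReal]
  · exact ENNReal.ofReal_le_ofReal h
  · apply gam_integrable_exp (c := 1 / 4) (C := |F 0| + L ^ 2 - ∫ y, F y ∂(gam E)) (by fun_prop)
      (by norm_num)
    intro x
    have h1 := (abs_le.1 (hF x 0)).2
    rw [sub_zero] at h1
    have h2 : L * ‖x‖ ≤ 1 / 4 * ‖x‖ ^ 2 + L ^ 2 := by nlinarith only [sq_nonneg (‖x‖ / 2 - L)]
    have h3 := le_abs_self (F 0)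
    linarith
  · exact Eventually.of_forall fun z => (Real.exp_pos _).le

section nodes

variable {V : E → ℝ} {G : E → E} {H : E → E →L[ℝ] E} {s h : ℝ}

/-- node as a function of the first noise -/
noncomputable def nd5 (G : E → E) (s h : ℝ) (z : E × E) (a : ℝ) (z0 : E) : E :=
  node h a z.1 z.2 (G (ev G s z.1 z0))

theorem nd5_lip (hV : Pot V G H) (hs : 0 < s) (hh : 0 < h) (z : E × E) {a : ℝ} (ha : 0 ≤ a)
    (ha1 : a ≤ 1) (x y : E) : ‖nd5 G s h z a x - nd5 G s h z a y‖ ≤ h ^ 2 * √s * ‖x - y‖ := by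
  have e1 : nd5 G s h z a x - nd5 G s h z a y =
      -(((a * h) ^ 2 / 2) • (G (ev G s z.1 x) - G (ev G s z.1 y))) := by
    unfold nd5 node
    module
  have e2 : ev G s z.1 x - ev G s z.1 y = √s • (x - y) := by
    unfold ev
    module
  have h1 := hV.lipG (ev G s z.1 x) (ev G s z.1 y)
  rw [e2, norm_smul, Real.norm_of_nonneg (Real.sqrt_nonneg _)] at h1
  rw [e1, norm_neg, norm_smul, Real.norm_of_nonneg (by (clear * -; positivity))]
  have h2 : (a * h) ^ 2 / 2 ≤ h ^ 2 / 2 := by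
    have : (a * h) ^ 2 ≤ h ^ 2 := by
      apply pow_le_pow_left₀ (by positivity)
      nlinarith only [hh, ha1]
    linarith only [this]
  calc (a * h) ^ 2 / 2 * ‖G (ev G s z.1 x) - G (ev G s z.1 y)‖
      ≤ h ^ 2 / 2 * (2 * (√s * ‖x - y‖)) := by
        apply mul_le_mul h2 h1 (norm_nonneg _) (by positivity)
    _ = _ := by ring

theorem Gbnd_lip (hV : Pot V G H) (hs : 0 < s) (hs1 : s ≤ 1 / 8) (hh : 0 < h) (z : E × E) {a : ℝ}
    (ha : 0 ≤ a) (ha1 : a ≤ 1) (x y : E) :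
    ‖Gb G s (nd5 G s h z a x) - Gb G s (nd5 G s h z a y)‖ ≤ 3 * (h ^ 2 * √s) * ‖x - y‖ := by
  refine (Gb_lip hV hs hs1 _ _).trans ?_
  have := nd5_lip hV hs hh z ha ha1 x y
  linarith only [this]

theorem Gbnd_integrable (hV : Pot V G H) (hs : 0 < s) (hs1 : s ≤ 1 / 8) (hh : 0 < h) (z : E × E)
    {a : ℝ} (ha : 0 ≤ a) (ha1 : a ≤ 1) :
    Integrable (fun z0 => Gb G s (nd5 G s h z a z0)) (gam E) := by
  have hl := Gbnd_lip hV hs hs1 hh z ha ha1
  have hc : Continuous fun z0 => Gb G s (nd5 G s h z a z0) := by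
    have : LipschitzWith (Real.toNNReal (3 * (h ^ 2 * √s))) fun z0 =>
        Gb G s (nd5 G s h z a z0) := LipschitzWith.of_dist_le_mul fun x y => by
      rw [Real.coe_toNNReal _ (by (clear * - hh hs; positivity)), dist_eq_norm, dist_eq_norm]
      exact hl x y
    exact this.continuous
  exact gam_integrable (PG.of_lip hl) hc.aestronglyMeasurable

variable {J : ℕ} {c : Fin J → ℝ}

/-- the deviation of the conditional means has small exponential moments -/
theorem lint_mean (hV : Pot V G H) (hs : 0 < s) (hs1 : s ≤ 1 / 8) (hh : 0 < h) (z : E × E)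
    (hc0 : ∀ j, 0 ≤ c j) (hc1 : ∀ j, c j ≤ 1) (l : Fin J → E) (le : E) :
    ∫⁻ z0, ENNReal.ofReal (Real.exp (inner ℝ le (Gb G s (nd5 G s h z 1 z0) - mg G s h 1 z) +
      ∑ j, inner ℝ (l j) (Gb G s (nd5 G s h z (c j) z0) - mg G s h (c j) z))) ∂(gam E) ≤
      ENNReal.ofReal (Real.exp ((3 * (h ^ 2 * √s) * (‖le‖ + ∑ j, ‖l j‖)) ^ 2)) := by
  set F : E → ℝ := fun z0 => inner ℝ le (Gb G s (nd5 G s h z 1 z0)) +
    ∑ j, inner ℝ (l j) (Gb G s (nd5 G s h z (c j) z0)) with hF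
  have hi : ∀ a, 0 ≤ a → a ≤ 1 → Integrable (fun z0 => Gb G s (nd5 G s h z a z0)) (gam E) :=
    fun a => Gbnd_integrable hV hs hs1 hh z
  have hmean : ∫ y, F y ∂(gam E) = inner ℝ le (mg G s h 1 z) +
      ∑ j, inner ℝ (l j) (mg G s h (c j) z) := by
    have i1 : ∀ (l : E) a, 0 ≤ a → a ≤ 1 →
        Integrable (fun z0 => (inner ℝ l (Gb G s (nd5 G s h z a z0)) : ℝ)) (gam E) :=
      fun l a h0 h1 => (hi a h0 h1).const_inner l
    simp only [hF]
    rw [integral_add (i1 le 1 (by norm_num) le_rfl)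
      (integrable_finsetSum _ fun j _ => i1 (l j) (c j) (hc0 j) (hc1 j)),
      integral_finsetSum _ fun j _ => i1 (l j) (c j) (hc0 j) (hc1 j),
      integral_inner (hi 1 (by norm_num) le_rfl)]
    congr 1
    refine Finset.sum_congr rfl fun j _ => ?_
    rw [integral_inner (hi (c j) (hc0 j) (hc1 j))]
    rfl
  have hlip : ∀ x y, |F x - F y| ≤ (3 * (h ^ 2 * √s) * (‖le‖ + ∑ j, ‖l j‖)) * ‖x - y‖ := by
    intro x y
    have e : F x - F y = inner ℝ le (Gb G s (nd5 G s h z 1 x) - Gb G s (nd5 G s h z 1 y)) +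
        ∑ j, inner ℝ (l j) (Gb G s (nd5 G s h z (c j) x) - Gb G s (nd5 G s h z (c j) y)) := by
      simp only [hF, inner_sub_right, Finset.sum_sub_distrib]
      ring
    have hb : ∀ (l : E) a, 0 ≤ a → a ≤ 1 →
        |(inner ℝ l (Gb G s (nd5 G s h z a x) - Gb G s (nd5 G s h z a y)) : ℝ)| ≤
          ‖l‖ * (3 * (h ^ 2 * √s) * ‖x - y‖) := fun l a h0 h1 =>
      (abs_real_inner_le_norm _ _).trans
        (mul_le_mul_of_nonneg_left (Gbnd_lip hV hs hs1 hh z h0 h1 x y) (norm_nonneg _))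
    rw [e]
    refine (abs_add_le _ _).trans ?_
    have h2 : |∑ j, (inner ℝ (l j) (Gb G s (nd5 G s h z (c j) x) -
        Gb G s (nd5 G s h z (c j) y)) : ℝ)| ≤ ∑ j, ‖l j‖ * (3 * (h ^ 2 * √s) * ‖x - y‖) :=
      (Finset.abs_sum_le_sum_abs _ _).trans
        (Finset.sum_le_sum fun j _ => hb (l j) (c j) (hc0 j) (hc1 j))
    rw [← Finset.sum_mul] at h2
    have h3 := hb le 1 (by norm_num) le_rfl
    (clear hc0 hc1 F hF hi hmean e; linarith)
  have h1 := lint_exp_lip (by (clear * - hh hs; positivity)) hlip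
  refine le_trans (le_of_eq ?_) h1
  refine lintegral_congr fun z0 => ?_
  rw [hmean]
  congr 2
  simp only [inner_sub_right, Finset.sum_sub_distrib, hF]
  ring

/-- joint exponential moment of all noises of one step -/
theorem lint_all (hV : Pot V G H) (hs : 0 < s) (hs1 : s ≤ 1 / 8) (hh : 0 < h) (z : E × E)
    (hc0 : ∀ j, 0 ≤ c j) (hc1 : ∀ j, c j ≤ 1) (l : Fin J → E) (le : E) :
    ∫⁻ ω : E × E × (Fin J → E), ENNReal.ofReal (Real.exp (
      inner ℝ le (G (ev G s (nd5 G s h z 1 ω.1) ω.2.1) - mg G s h 1 z) +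
      ∑ j, inner ℝ (l j) (G (ev G s (nd5 G s h z (c j) ω.1) (ω.2.2 j)) - mg G s h (c j) z)))
      ∂((gam E).prod ((gam E).prod (Measure.pi fun _ : Fin J => gam E))) ≤
      ENNReal.ofReal (Real.exp (4 * s * (‖le‖ ^ 2 + ∑ j, ‖l j‖ ^ 2) +
        (3 * (h ^ 2 * √s) * (‖le‖ + ∑ j, ‖l j‖)) ^ 2)) := by
  have hG := hV.lipG
  have hcG : Continuous G := hV.cpot.contF
  have hnd : ∀ a, Continuous (nd5 G s h z a) := fun a => by
    unfold nd5 node ev
    fun_prop
  have hm : Measurable fun ω : E × E × (Fin J → E) => ENNReal.ofReal (Real.exp (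
      inner ℝ le (G (ev G s (nd5 G s h z 1 ω.1) ω.2.1) - mg G s h 1 z) +
      ∑ j, inner ℝ (l j) (G (ev G s (nd5 G s h z (c j) ω.1) (ω.2.2 j)) -
        mg G s h (c j) z))) := by
    refine (Continuous.measurable ?_).ennreal_ofReal
    refine Real.continuous_exp.comp ?_
    have h1 : ∀ a, Continuous fun ω : E × E × (Fin J → E) => nd5 G s h z a ω.1 := fun a =>
      (hnd a).comp continuous_fst
    have h2 : ∀ a, Continuous fun ω : E × E × (Fin J → E) =>
        nd5 G s h z a ω.1 - s • G (nd5 G s h z a ω.1) := fun a => by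
      have := h1 a
      fun_prop
    refine Continuous.add ?_ (continuous_finsetSum _ fun j _ => ?_)
    · refine continuous_const.inner (Continuous.sub (hcG.comp ?_) continuous_const)
      exact (h2 1).add (by fun_prop)
    · refine continuous_const.inner (Continuous.sub (hcG.comp ?_) continuous_const)
      exact (h2 (c j)).add (by fun_prop)
  rw [lintegral_prod _ hm.aemeasurable]
  have hpt : ∀ z0 : E, ∫⁻ q : E × (Fin J → E), ENNReal.ofReal (Real.exp (
      inner ℝ le (G (ev G s (nd5 G s h z 1 z0) q.1) - mg G s h 1 z) +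
      ∑ j, inner ℝ (l j) (G (ev G s (nd5 G s h z (c j) z0) (q.2 j)) - mg G s h (c j) z)))
      ∂((gam E).prod (Measure.pi fun _ : Fin J => gam E)) ≤
      ENNReal.ofReal (Real.exp (4 * s * (‖le‖ ^ 2 + ∑ j, ‖l j‖ ^ 2))) *
      ENNReal.ofReal (Real.exp (inner ℝ le (Gb G s (nd5 G s h z 1 z0) - mg G s h 1 z) +
      ∑ j, inner ℝ (l j) (Gb G s (nd5 G s h z (c j) z0) - mg G s h (c j) z))) := by
    intro z0
    have e1 : ∀ q : E × (Fin J → E), ENNReal.ofReal (Real.exp (
      inner ℝ le (G (ev G s (nd5 G s h z 1 z0) q.1) - mg G s h 1 z) +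
      ∑ j, inner ℝ (l j) (G (ev G s (nd5 G s h z (c j) z0) (q.2 j)) - mg G s h (c j) z))) =
      ENNReal.ofReal (Real.exp (
        inner ℝ le (nz G s (nd5 G s h z 1 z0 - s • G (nd5 G s h z 1 z0)) q.1) +
        ∑ j, inner ℝ (l j) (nz G s (nd5 G s h z (c j) z0 - s • G (nd5 G s h z (c j) z0))
          (q.2 j)))) *
      ENNReal.ofReal (Real.exp (inner ℝ le (Gb G s (nd5 G s h z 1 z0) - mg G s h 1 z) +
      ∑ j, inner ℝ (l j) (Gb G s (nd5 G s h z (c j) z0) - mg G s h (c j) z))) := by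
      intro q
      rw [← ENNReal.ofReal_mul (Real.exp_pos _).le, ← Real.exp_add]
      congr 2
      have e2 : ∀ (l : E) (y q m : E), (inner ℝ l (G (ev G s y q) - m) : ℝ) =
          inner ℝ l (nz G s (y - s • G y) q) + inner ℝ l (Gb G s y - m) := by
        intro l y q m
        rw [← inner_add_right]
        congr 1
        have : nz G s (y - s • G y) q = G (ev G s y q) - Gb G s y := rfl
        rw [this]
        abel
      rw [e2, Finset.sum_congr rfl fun j _ => e2 (l j) _ _ _, Finset.sum_add_distrib]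
      ring
    simp_rw [e1]
    rw [lintegral_mul_const']
    · gcongr
      exact lint_cond hG hs _ _ _ _
    · exact ENNReal.ofReal_ne_top
  refine (lintegral_mono hpt).trans ?_
  rw [lintegral_const_mul' _ _ ENNReal.ofReal_ne_top, Real.exp_add,
    ENNReal.ofReal_mul (Real.exp_pos _).le]
  gcongr
  exact lint_mean hV hs hs1 hh z hc0 hc1 l le

end nodes

/-- From a subgaussian bound for a pair of random vectors to the decoupled exponential moment. -/
theorem double_mgf {Ω : Type*} [MeasurableSpace Ω] {ν : Measure Ω} [SFinite ν] {s h c : ℝ}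
    (hs : 0 < s) (hs1 : s ≤ 1 / 1000) (hh : 0 < h) (hh1 : h ≤ 1 / 1000) (hc : 3 * h ≤ c)
    {Ny Np : Ω → E} (hNy : Measurable Ny) (hNp : Measurable Np)
    (hM : ∀ u v : E, ∫⁻ ω, ENNReal.ofReal (Real.exp (inner ℝ u (Ny ω) + inner ℝ v (Np ω))) ∂ν ≤
      ENNReal.ofReal (Real.exp (5 * s * (h ^ 2 * ‖u‖ + h * ‖v‖) ^ 2))) :
    ∫⁻ ω, ∫⁻ ω', ENNReal.ofReal (Real.exp (inner ℝ (Ny ω) (Ny ω') / (2 * h ^ 3) +
      inner ℝ (Np ω) (Np ω') / c)) ∂ν ∂ν ≤
      ENNReal.ofReal (Real.exp (10000 * s ^ 2 * h ^ 2 * (finrank ℝ E : ℝ))) := by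
  have hc0 : 0 < c := by linarith only [hh, hc]
  set θ1 : ℝ := 5 * s / (2 * h ^ 2) with hθ1
  set θ2 : ℝ := 10 / 9 * s with hθ2
  have hθ10 : 0 ≤ θ1 := by positivity
  have hθ20 : 0 ≤ θ2 := by positivity
  -- first copy
  have h1 : ∀ ω, ∫⁻ ω', ENNReal.ofReal (Real.exp (inner ℝ (Ny ω) (Ny ω') / (2 * h ^ 3) +
      inner ℝ (Np ω) (Np ω') / c)) ∂ν ≤
      ENNReal.ofReal (Real.exp (θ1 * ‖Ny ω‖ ^ 2 + θ2 * ‖Np ω‖ ^ 2)) := by
    intro ω
    have e1 : ∀ ω', (inner ℝ (Ny ω) (Ny ω') / (2 * h ^ 3) + inner ℝ (Np ω) (Np ω') / c : ℝ) =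
        inner ℝ ((1 / (2 * h ^ 3)) • Ny ω) (Ny ω') + inner ℝ ((1 / c) • Np ω) (Np ω') := by
      intro ω'
      rw [real_inner_smul_left, real_inner_smul_left]
      ring
    simp_rw [e1]
    refine (hM _ _).trans (ENNReal.ofReal_le_ofReal (Real.exp_le_exp.2 ?_))
    rw [norm_smul, norm_smul, Real.norm_of_nonneg (by positivity),
      Real.norm_of_nonneg (by positivity)]
    have e2 : h ^ 2 * (1 / (2 * h ^ 3) * ‖Ny ω‖) = ‖Ny ω‖ / (2 * h) := by
      field_simp
    have e3 : h * (1 / c * ‖Np ω‖) ≤ 1 / 3 * ‖Np ω‖ := by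
      have : h * (1 / c) ≤ 1 / 3 := by
        rw [mul_one_div, div_le_div_iff₀ hc0 (by norm_num)]
        linarith only [hc]
      calc h * (1 / c * ‖Np ω‖) = h * (1 / c) * ‖Np ω‖ := by ring
        _ ≤ 1 / 3 * ‖Np ω‖ := mul_le_mul_of_nonneg_right this (norm_nonneg _)
    have e4 : 0 ≤ h * (1 / c * ‖Np ω‖) := by (clear * - hh hc0; positivity)
    have e5 : 0 ≤ ‖Ny ω‖ / (2 * h) := by (clear * - hh; positivity)
    rw [e2]
    have e6 : (‖Ny ω‖ / (2 * h) + h * (1 / c * ‖Np ω‖)) ^ 2 ≤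
        (‖Ny ω‖ / (2 * h) + 1 / 3 * ‖Np ω‖) ^ 2 := by
      apply pow_le_pow_left₀ (by (clear * - hh hc0; positivity))
      linarith only [e3]
    have e7 : (‖Ny ω‖ / (2 * h) + 1 / 3 * ‖Np ω‖) ^ 2 ≤
        2 * (‖Ny ω‖ / (2 * h)) ^ 2 + 2 * (1 / 3 * ‖Np ω‖) ^ 2 := by
      nlinarith only [sq_nonneg (‖Ny ω‖ / (2 * h) - 1 / 3 * ‖Np ω‖)]
    calc 5 * s * (‖Ny ω‖ / (2 * h) + h * (1 / c * ‖Np ω‖)) ^ 2
        ≤ 5 * s * (2 * (‖Ny ω‖ / (2 * h)) ^ 2 + 2 * (1 / 3 * ‖Np ω‖) ^ 2) := by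
          apply mul_le_mul_of_nonneg_left (e6.trans e7) (by positivity)
      _ = θ1 * ‖Ny ω‖ ^ 2 + θ2 * ‖Np ω‖ ^ 2 := by
          rw [hθ1, hθ2]
          field_simp
          ring
  refine (lintegral_mono h1).trans ?_
  -- linearisation
  have q1 : √(2 * θ1) ^ 2 = 2 * θ1 := Real.sq_sqrt (by positivity)
  have q2 : √(2 * θ2) ^ 2 = 2 * θ2 := Real.sq_sqrt (by positivity)
  have hlin : ∀ (θ : ℝ) (_ : 0 ≤ θ) (N : E), ENNReal.ofReal (Real.exp (θ * ‖N‖ ^ 2)) =
      ∫⁻ g, ENNReal.ofReal (Real.exp (inner ℝ (√(2 * θ) • g) N)) ∂(gam E) := by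
    intro θ hθ N
    have h3 := lint_exp_inner (√(2 * θ) • N)
    have h4 : ‖√(2 * θ) • N‖ ^ 2 / 2 = θ * ‖N‖ ^ 2 := by
      rw [norm_smul, mul_pow, Real.norm_eq_abs, sq_abs, Real.sq_sqrt (by (clear * - hθ; positivity))]
      ring
    rw [h4] at h3
    rw [← h3]
    refine lintegral_congr fun g => ?_
    rw [real_inner_smul_left, real_inner_smul_left, real_inner_comm]
  have e8 : ∀ ω, ENNReal.ofReal (Real.exp (θ1 * ‖Ny ω‖ ^ 2 + θ2 * ‖Np ω‖ ^ 2)) =
      ∫⁻ g : E × E, ENNReal.ofReal (Real.exp (inner ℝ (√(2 * θ1) • g.1) (Ny ω) +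
        inner ℝ (√(2 * θ2) • g.2) (Np ω))) ∂((gam E).prod (gam E)) := by
    intro ω
    have e9 : ∀ g : E × E, ENNReal.ofReal (Real.exp (inner ℝ (√(2 * θ1) • g.1) (Ny ω) +
        inner ℝ (√(2 * θ2) • g.2) (Np ω))) =
        ENNReal.ofReal (Real.exp (inner ℝ (√(2 * θ1) • g.1) (Ny ω))) *
        ENNReal.ofReal (Real.exp (inner ℝ (√(2 * θ2) • g.2) (Np ω))) := fun g => by
      rw [← ENNReal.ofReal_mul (Real.exp_pos _).le, ← Real.exp_add]
    simp_rw [e9]
    have m : ∀ (θ : ℝ) (N : E), AEMeasurable (fun g : E =>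
        ENNReal.ofReal (Real.exp (inner ℝ (√(2 * θ) • g) N))) (gam E) := fun θ N => by
      refine Measurable.aemeasurable ?_
      refine (Continuous.measurable ?_).ennreal_ofReal
      fun_prop
    rw [lintegral_prod_mul (m θ1 (Ny ω)) (m θ2 (Np ω)), ← hlin θ1 hθ10, ← hlin θ2 hθ20,
      ← ENNReal.ofReal_mul (Real.exp_pos _).le, ← Real.exp_add]
  simp_rw [e8]
  rw [lintegral_lintegral_swap (by
    refine Measurable.aemeasurable ?_
    simp only [Function.uncurry_def]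
    refine Measurable.ennreal_ofReal (Real.measurable_exp.comp ?_)
    have a1 : Measurable fun p : Ω × (E × E) => Ny p.1 := hNy.comp measurable_fst
    have a2 : Measurable fun p : Ω × (E × E) => Np p.1 := hNp.comp measurable_fst
    (clear c hs hs1 hh hh1 hc hM hc0 hθ1 hθ2 hθ10 hθ20 h1 q1 q2 hlin e8 a1 a2; fun_prop))]
  have h5 : ∀ g : E × E, ∫⁻ ω, ENNReal.ofReal (Real.exp (inner ℝ (√(2 * θ1) • g.1) (Ny ω) +
        inner ℝ (√(2 * θ2) • g.2) (Np ω))) ∂ν ≤
      ENNReal.ofReal (Real.exp ((20 * s * h ^ 4 * θ1) * ‖g.1‖ ^ 2)) *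
        ENNReal.ofReal (Real.exp ((20 * s * h ^ 2 * θ2) * ‖g.2‖ ^ 2)) := by
    intro g
    refine (hM _ _).trans ?_
    rw [← ENNReal.ofReal_mul (Real.exp_pos _).le, ← Real.exp_add]
    refine ENNReal.ofReal_le_ofReal (Real.exp_le_exp.2 ?_)
    rw [norm_smul, norm_smul, Real.norm_of_nonneg (Real.sqrt_nonneg _),
      Real.norm_of_nonneg (Real.sqrt_nonneg _)]
    have e9 : (h ^ 2 * (√(2 * θ1) * ‖g.1‖) + h * (√(2 * θ2) * ‖g.2‖)) ^ 2 ≤
        2 * (h ^ 2 * (√(2 * θ1) * ‖g.1‖)) ^ 2 + 2 * (h * (√(2 * θ2) * ‖g.2‖)) ^ 2 := by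
      nlinarith only [sq_nonneg (h ^ 2 * (√(2 * θ1) * ‖g.1‖) - h * (√(2 * θ2) * ‖g.2‖))]
    calc 5 * s * (h ^ 2 * (√(2 * θ1) * ‖g.1‖) + h * (√(2 * θ2) * ‖g.2‖)) ^ 2
        ≤ 5 * s * (2 * (h ^ 2 * (√(2 * θ1) * ‖g.1‖)) ^ 2 +
          2 * (h * (√(2 * θ2) * ‖g.2‖)) ^ 2) := mul_le_mul_of_nonneg_left e9 (by positivity)
      _ = 5 * s * (2 * (h ^ 4 * (√(2 * θ1) ^ 2 * ‖g.1‖ ^ 2)) +
          2 * (h ^ 2 * (√(2 * θ2) ^ 2 * ‖g.2‖ ^ 2))) := by ring
      _ = _ := by rw [q1, q2]; ring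
  refine (lintegral_mono h5).trans ?_
  have m : ∀ κ : ℝ, AEMeasurable (fun g : E =>
      ENNReal.ofReal (Real.exp (κ * ‖g‖ ^ 2))) (gam E) := fun κ => by
    refine Measurable.aemeasurable ?_
    refine (Continuous.measurable ?_).ennreal_ofReal
    fun_prop
  rw [lintegral_prod_mul (m _) (m _)]
  have k1 : 20 * s * h ^ 4 * θ1 = 50 * (s ^ 2 * h ^ 2) := by
    rw [hθ1]
    field_simp
    ring
  have k2 : 20 * s * h ^ 2 * θ2 = 200 / 9 * (s ^ 2 * h ^ 2) := by
    rw [hθ2]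
    ring
  have k3 : s ^ 2 * h ^ 2 ≤ 1 / 1000000 := by
    have a1 : s ^ 2 ≤ 1 / 1000 := by nlinarith only [hs, hs1]
    have a2 : h ^ 2 ≤ 1 / 1000 := by nlinarith only [hh1, hh]
    calc s ^ 2 * h ^ 2 ≤ 1 / 1000 * (1 / 1000) := mul_le_mul a1 a2 (by positivity) (by norm_num)
      _ = _ := by norm_num
  rw [k1, k2]
  have hn : (0 : ℝ) ≤ (finrank ℝ E : ℝ) := Nat.cast_nonneg _
  have hsh : 0 ≤ s ^ 2 * h ^ 2 := by positivity
  calc _ ≤ ENNReal.ofReal (Real.exp (2 * (50 * (s ^ 2 * h ^ 2)) * (finrank ℝ E : ℝ))) *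
        ENNReal.ofReal (Real.exp (2 * (200 / 9 * (s ^ 2 * h ^ 2)) * (finrank ℝ E : ℝ))) := by
        gcongr
        · exact lint_exp_sq (by positivity) (by linarith only [k3])
        · exact lint_exp_sq (by positivity) (by linarith only [k3])
    _ ≤ _ := by
        rw [← ENNReal.ofReal_mul (Real.exp_pos _).le, ← Real.exp_add]
        refine ENNReal.ofReal_le_ofReal (Real.exp_le_exp.2 ?_)
        have := mul_nonneg hsh hn
        nlinarith only [this]

end Vale.Agent.P347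
end

section

/-! Definitions of the operators on tensor fields used in the regularity theory (P347, analytic
half). -/

open MeasureTheory Filter Module Set
open scoped ENNReal NNReal

namespace Vale.Agent.P347.Z

variable {d : ℕ}

/-- Constant matrix acting on tensor fields. -/
def TM {K I : Type} [Fintype I] (M : K → I → ℝ) (u : TF d I) : TF d K :=
  fun k p => ∑ i, M k i * u i p

/-- Operator norm of a constant matrix at most `c`. -/
def opM (c : ℝ) {K I : Type} [Fintype K] [Fintype I] (M : K → I → ℝ) : Prop :=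
  ∀ x : I → ℝ, ∑ k, (∑ i, M k i * x i) ^ 2 ≤ c ^ 2 * ∑ i, (x i) ^ 2

/-- Matrix of the embedding of `a`-slots. -/
def mE (d : ℕ) (I : Type) [DecidableEq I] : Sl d × I → Fin d × I → ℝ :=
  fun m n => if m.1 = (false, n.1) ∧ m.2 = n.2 then 1 else 0

/-- Matrix of the restriction to `a`-slots. -/
def mP (d : ℕ) (I : Type) [DecidableEq I] : Fin d × I → Sl d × I → ℝ :=
  fun n m => if m.1 = (false, n.1) ∧ m.2 = n.2 then 1 else 0

/-- Matrix of the complex structure: `(J u)(g_k) = u(a_k)`, `(J u)(a_k) = -u(g_k)`. -/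
def mJ (d : ℕ) (I : Type) [DecidableEq I] : Sl d × I → Sl d × I → ℝ :=
  fun m n => if m.1.2 = n.1.2 ∧ m.2 = n.2 then
    (if m.1.1 = true ∧ n.1.1 = false then 1 else if m.1.1 = false ∧ n.1.1 = true then -1 else 0)
    else 0

/-- Swap of the first two slots. -/
def swp {I : Type} (u : TF d (Sl d × (Sl d × I))) : TF d (Sl d × (Sl d × I)) :=
  fun m => u (m.2.1, (m.1, m.2.2))

/-- Left ampliation. -/
def ampL (A : Type) [DecidableEq A] {K I : Type} (B : MF d K I) : MF d (A × K) (A × I) :=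
  fun k i p => if k.1 = i.1 then B k.2 i.2 p else 0

/-- Sum of tensor fields. -/
def addT {I : Type} (u v : TF d I) : TF d I := fun i p => u i p + v i p

/-- Scalar multiple of a tensor field. -/
def smT {I : Type} (c : ℝ) (u : TF d I) : TF d I := fun i p => c * u i p

/-- The multiplier `B` acting on the first slot, restricted to `a`-directions. -/
def slotB (D : Dat d) {I : Type} [Fintype I] [DecidableEq I] (B : MF d (Fin d) (Fin d))
    (u : TF d (Sl d × I)) : TF d (Sl d × I) :=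
  TM (mE d I) (D.TB (amp B I) (TM (mP d I) u))

/-- The field `G` in divergence form. -/
noncomputable def GT (D : Dat d) {I : Type} [Fintype I] [DecidableEq I] (u : TF d I) : TF d I :=
  addT (D.divT (TM (mJ d I) (slotB D (B0 D.κ D.w) (gradT u))))
    (D.divT (slotB D (B0 D.κ D.w) (TM (mJ d I) (gradT u))))

/-- Total material derivative of tensor fields. -/
noncomputable def DtotT (D : Dat d) {I : Type} (u : TF d I) : TF d I := fun i => D.Dtot (u i)

/-- Constant vector. -/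
def cT (e : Eu d) : TF d (Fin d × Unit) := fun k _ => e k.1

end Vale.Agent.P347.Z
end

section
attribute [-instance] ProperSMul.toContinuousSMul IsTopologicalTorsor.toContinuousSMul IdemSemiring.toCanonicallyOrderedAdd IdemSemiring.toMulLeftMono IdemSemiring.toMulRightMono AddQuantale.instAddLeftMono AddQuantale.instAddRightMono Quantale.instMulLeftMono Quantale.instMulRightMono FiniteDimensional.rclike_to_real IsScalarTower.complexToReal FiniteDimensional.complexToReal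

/-! Definitions for the flows and the nodes (P347, analytic half). -/

open MeasureTheory Filter Module Set
open scoped ENNReal NNReal

namespace Vale.Agent.P347.Z

variable {d : ℕ}

/-- `a`-component of the field of the `lam`-flow. -/
noncomputable def Dat.Xa (D : Dat d) (p : ZS d) : Eu d := WithLp.toLp 2 fun k => D.Xf (false, k) p

/-- `g`-component of the field of the `lam`-flow. -/
noncomputable def Dat.Xg (D : Dat d) (p : ZS d) : Eu d := WithLp.toLp 2 fun k => D.Xf (true, k) p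

/-- The `lam`-flow: `A τ (Y, a, g)`, `Q τ (Y, a, g)`. -/
structure LFl (w : ℝ × Eu d → ℝ) (κ l0 lam : ℝ) (A Q : ℝ → Eu d × (Eu d × Eu d) → Eu d) :
    Prop where
  A0 : ∀ Y z, A 0 (Y, z) = z.1
  Q0 : ∀ Y z, Q 0 (Y, z) = z.2
  dA : ∀ Y z, ∀ τ ∈ IT, HasDerivWithinAt (fun t => A t (Y, z))
    ((Dat.mk w κ l0 lam Y).Xa (τ, (A τ (Y, z), Q τ (Y, z)))) IT τ
  dQ : ∀ Y z, ∀ τ ∈ IT, HasDerivWithinAt (fun t => Q t (Y, z))
    ((Dat.mk w κ l0 lam Y).Xg (τ, (A τ (Y, z), Q τ (Y, z)))) IT τ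
  cA : ContinuousOn (fun p : ℝ × (Eu d × (Eu d × Eu d)) => A p.1 p.2) (IT ×ˢ univ)
  cQ : ContinuousOn (fun p : ℝ × (Eu d × (Eu d × Eu d)) => Q p.1 p.2) (IT ×ˢ univ)
  law : ∀ Y, ∀ τ ∈ IT, ((gam (Eu d)).prod (gam (Eu d))).map (fun z => (A τ (Y, z), Q τ (Y, z)))
    = (Dat.mk w κ l0 lam Y).mu τ

/-- The plain flow `a' = -F(l0-τ², Y+τ a)`. -/
structure PFl (w : ℝ × Eu d → ℝ) (l0 : ℝ) (A : ℝ → Eu d × Eu d → Eu d) : Prop where
  A0 : ∀ Y a, A 0 (Y, a) = a
  dA : ∀ Y a, ∀ τ ∈ IT, HasDerivWithinAt (fun t => A t (Y, a))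
    (-Fv w (l0 - τ ^ 2, Y + τ • A τ (Y, a))) IT τ
  cA : ContinuousOn (fun p : ℝ × (Eu d × Eu d) => A p.1 p.2) (IT ×ˢ univ)
  law : ∀ Y, ∀ τ ∈ IT, (gam (Eu d)).map (fun a => A τ (Y, a)) = nu w l0 Y τ

/-- The normalised Hessian as a linear map. -/
noncomputable def B0L (κ : ℝ) (w : ℝ × Eu d → ℝ) (p : ℝ × Eu d) : Eu d →L[ℝ] Eu d :=
  LinearMap.toContinuousLinearMap
    { toFun := fun v => WithLp.toLp 2 fun k => ∑ j, B0 κ w k j p * v j
      map_add' := fun u v => by
        ext k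
        simp [mul_add, Finset.sum_add_distrib]
      map_smul' := fun c v => by
        ext k
        simp [Finset.mul_sum, mul_left_comm] }

/-- The interpolation constants of `Interp.lean`. -/
structure InterpData (p : ℕ) (A : Fin p → Fin p → ℝ) (α β : Fin (p + 1) → ℝ) (K : ℝ) : Prop where
  K0 : 0 ≤ K
  A_le : ∀ i j, |A i j| ≤ K
  α_le : ∀ e, |α e| ≤ K
  β_le : ∀ e, |β e| ≤ K
  α_sum : ∑ e, α e = 0
  β_sum : ∑ e, β e = 0
  A_sum : ∀ i, ∑ j, A i j = ((i : ℝ) + 1) / p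
  errA : ∀ (E : Type) [NormedAddCommGroup E] [NormedSpace ℝ E] [CompleteSpace E] (T : ℝ), 0 < T →
    ∀ h : ℕ → ℝ → E, Tower T p h → ∀ i : Fin p,
      ‖(∫ t in (0 : ℝ)..(((i : ℝ) + 1) / p * T), h 0 t)
        - T • ∑ j : Fin p, A i j • h 0 (((j : ℝ) + 1) / p * T)‖
        ≤ K * T ^ p * ∫ t in (0 : ℝ)..T, ‖h p t‖
  errα : ∀ (E : Type) [NormedAddCommGroup E] [NormedSpace ℝ E] [CompleteSpace E] (T : ℝ), 0 < T →
    ∀ h : ℕ → ℝ → E, Tower T (p + 1) h →
      ‖h 1 0 - T⁻¹ • ∑ e : Fin (p + 1), α e • h 0 ((e : ℝ) / p * T)‖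
        ≤ K * T ^ (p - 1) * ∫ t in (0 : ℝ)..T, ‖h (p + 1) t‖
  errβ : ∀ (E : Type) [NormedAddCommGroup E] [NormedSpace ℝ E] [CompleteSpace E] (T : ℝ), 0 < T →
    ∀ h : ℕ → ℝ → E, Tower T (p + 1) h →
      ‖h 2 0 - (T⁻¹) ^ 2 • ∑ e : Fin (p + 1), β e • h 0 ((e : ℝ) / p * T)‖
        ≤ K * T ^ (p - 2) * ∫ t in (0 : ℝ)..T, ‖h (p + 1) t‖

theorem exists_interpData (p : ℕ) (hp : 2 ≤ p) : ∃ A α β K, InterpData p A α β K := by
  obtain ⟨A, α, β, K, h0, h1, h2, h3, h4, h5, h6, h7⟩ := exists_interp p hp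
  exact ⟨A, α, β, K, h0, h1, h2, h3, h4, h5, h6, fun E _ _ _ T hT h => (h7 E T hT h).1,
    fun E _ _ _ T hT h => (h7 E T hT h).2.1, fun E _ _ _ T hT h => (h7 E T hT h).2.2⟩

end Vale.Agent.P347.Z
end
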