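import Vale.Agent.P347.MathlibUsed
import Vale.Agent.P347.Bdl.B1
import Vale.Agent.P347.Bdl.B2

set_option linter.all false

section

/-! Task G3 (P347): integrated bound for `dF3`. -/

open MeasureTheory Filter Module Set Topology
open scoped ENNReal NNReal

namespace Vale.Agent.P347

variable {E : Type*} [NormedAddCommGroup E] [InnerProductSpace ℝ E] [FiniteDimensional ℝ E]
  [MeasurableSpace E] [BorelSpace E]

section

variable {V : E → ℝ} {G : E → E} {H : E → E →L[ℝ] E} {s : ℝ}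

end

end Vale.Agent.P347
end

section

/-! Task G2 (P347): tensor bounds from the Poincare inequality. -/

open MeasureTheory Filter Module Set
open scoped ENNReal NNReal

namespace Vale.Agent.P347

variable {E : Type*} [NormedAddCommGroup E] [InnerProductSpace ℝ E] [FiniteDimensional ℝ E]
  [MeasurableSpace E] [BorelSpace E]

/-- Probability measures with finite moments and Poincare constant `s`. -/
structure Nice (ρ : Measure E) (s : ℝ) : Prop where
  prob : IsProbabilityMeasure ρ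
  integ : ∀ f : E → ℝ, Continuous f → PG f → Integrable f ρ
  poin : ∀ (f : E → ℝ) (g : E → E), (∀ x, HasFDerivAt f (innerSL ℝ (g x)) x) → Continuous g →
    PG f → PG g → (∫ x, f x ^ 2 ∂ρ) - (∫ x, f x ∂ρ) ^ 2 ≤ s * ∫ x, ‖g x‖ ^ 2 ∂ρ

/-- Continuous functions of polynomial growth. -/
def CP (f : E → ℝ) : Prop := Continuous f ∧ PG f

theorem CP.add {f g : E → ℝ} (hf : CP f) (hg : CP g) : CP (fun x => f x + g x) :=
  ⟨hf.1.add hg.1, hf.2.add hg.2⟩
theorem CP.sub {f g : E → ℝ} (hf : CP f) (hg : CP g) : CP (fun x => f x - g x) :=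
  ⟨hf.1.sub hg.1, hf.2.sub hg.2⟩
theorem CP.mul {f g : E → ℝ} (hf : CP f) (hg : CP g) : CP (fun x => f x * g x) :=
  ⟨hf.1.mul hg.1, hf.2.mul hg.2⟩
theorem CP.const (c : ℝ) : CP (fun _ : E => c) := ⟨continuous_const, PG.const c⟩
theorem CP.pow {f : E → ℝ} (hf : CP f) (k : ℕ) : CP (fun x => f x ^ k) :=
  ⟨hf.1.pow k, hf.2.pow k⟩
theorem CP.sum {ι : Type*} (s : Finset ι) {f : ι → E → ℝ} (hf : ∀ i ∈ s, CP (f i)) :
    CP (fun x => ∑ i ∈ s, f i x) := by
  classical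
  induction s using Finset.induction_on with
  | empty => simpa only [Finset.sum_empty] using CP.const 0
  | insert a s ha ih =>
    simp only [Finset.sum_insert ha]
    exact (hf a (by simp)).add (ih fun i hi => hf i (by simp [hi]))

theorem CP.affine (a c : E) : CP (fun x : E => (inner ℝ (x - c) a : ℝ)) :=
  ⟨by fun_prop, (PG.id.sub (PG.const c)).inner (PG.const a)⟩

namespace Nice

variable {ρ : Measure E} {s : ℝ}

theorem int (h : Nice ρ s) {f : E → ℝ} (hf : CP f) : Integrable f ρ := h.integ f hf.1 hf.2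

theorem iadd (h : Nice ρ s) {f g : E → ℝ} (hf : CP f) (hg : CP g) :
    ∫ x, (f x + g x) ∂ρ = (∫ x, f x ∂ρ) + ∫ x, g x ∂ρ := integral_add (h.int hf) (h.int hg)

theorem isub (h : Nice ρ s) {f g : E → ℝ} (hf : CP f) (hg : CP g) :
    ∫ x, (f x - g x) ∂ρ = (∫ x, f x ∂ρ) - ∫ x, g x ∂ρ := integral_sub (h.int hf) (h.int hg)

theorem iconst (h : Nice ρ s) (c : ℝ) : ∫ _x : E, c ∂ρ = c := by
  have := h.prob
  simp

theorem csq (h : Nice ρ s) {a c : E → ℝ} (ha : CP a) (hc : CP c) :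
    (∫ x, a x * c x ∂ρ) ^ 2 ≤ (∫ x, a x ^ 2 ∂ρ) * (∫ x, c x ^ 2 ∂ρ) := by
  have key : ∀ t : ℝ, 0 ≤ (∫ x, a x ^ 2 ∂ρ) * (t * t) + (2 * ∫ x, a x * c x ∂ρ) * t
      + ∫ x, c x ^ 2 ∂ρ := by
    intro t
    have : 0 ≤ ∫ x, (t * a x + c x) ^ 2 ∂ρ := integral_nonneg fun x => sq_nonneg _
    have e3 : (fun x => (t * a x + c x) ^ 2)
        = fun x => ((t * t) * a x ^ 2 + (2 * t) * (a x * c x)) + c x ^ 2 := by
      ext x; ring
    rw [e3, h.iadd (((CP.const _).mul (ha.pow 2)).add ((CP.const _).mul (ha.mul hc))) (hc.pow 2),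
      h.iadd ((CP.const _).mul (ha.pow 2)) ((CP.const _).mul (ha.mul hc)),
      integral_const_mul, integral_const_mul] at this
    linarith only [this]
  have := discrim_le_zero key
  unfold discrim at this
  linarith

/-- Poincare in the form with a general derivative, in coordinates. -/
theorem poinc (h : Nice ρ s) {ι : Type*} [Fintype ι] (b : OrthonormalBasis ι ℝ E)
    {f : E → ℝ} {l : E → E →L[ℝ] ℝ} (hf : ∀ x, HasFDerivAt f (l x) x) (cf : CP f)
    (cl : ∀ k, CP (fun x => l x (b k))) :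
    (∫ x, f x ^ 2 ∂ρ) - (∫ x, f x ∂ρ) ^ 2 ≤ s * ∑ k, ∫ x, (l x (b k)) ^ 2 ∂ρ := by
  classical
  set g : E → E := fun x => ∑ k, l x (b k) • b k with hg
  have hl : ∀ x, innerSL ℝ (g x) = l x := by
    intro x
    ext w
    simp only [hg, innerSL_apply_apply, sum_inner, inner_smul_left]
    conv_rhs => rw [← b.sum_repr' w]
    simp only [Real.ringHom_apply, map_sum, map_smul, smul_eq_mul, mul_comm]
  have hgc : Continuous g := by
    apply continuous_finsetSum
    intro k _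
    exact (cl k).1.smul continuous_const
  have hgp : PG g := by
    have : ∀ t : Finset ι, PG (fun x => ∑ k ∈ t, l x (b k) • b k) := by
      intro t
      induction t using Finset.induction_on with
      | empty => simpa only [Finset.sum_empty] using PG.const (0 : E)
      | insert a t ha ih =>
        simp only [Finset.sum_insert ha]
        exact ((cl a).2.smul (PG.const (b a))).add ih
    exact this _
  have hn : ∀ x, ‖g x‖ ^ 2 = ∑ k, (l x (b k)) ^ 2 := by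
    intro x
    rw [← real_inner_self_eq_norm_sq]
    simp only [hg, sum_inner, inner_sum, inner_smul_left, inner_smul_right, b.inner_eq_ite]
    simp only [Real.ringHom_apply, mul_ite, mul_one, mul_zero, Finset.sum_ite_eq', Finset.mem_univ, ↓reduceIte, pow_two]
  have := h.poin f g (fun x => by rw [hl x]; exact hf x) hgc cf.2 hgp
  simp only [hn] at this
  rwa [integral_finsetSum _ (fun k _ => h.int ((cl k).pow 2))] at this

end Nice

theorem hasFDerivAt_affine (a c x : E) :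
    HasFDerivAt (fun x : E => (inner ℝ (x - c) a : ℝ)) (innerSL ℝ a) x := by
  have h := (((innerSL ℝ a).hasFDerivAt (x := x - c))).comp x
    ((hasFDerivAt_id x).sub_const c)
  have e : (fun x : E => (inner ℝ (x - c) a : ℝ)) = (innerSL ℝ a) ∘ (fun x => id x - c) := by
    ext y; simp [real_inner_comm]
  rw [e]
  simpa only [coe_innerSL_apply, id_eq, ContinuousLinearMap.comp_id] using h

theorem dual_le {S A K : ℝ} (hS : 0 ≤ S) (hAK : 0 ≤ A * K) (h : S ^ 2 ≤ A * (K * S)) :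
    S ≤ A * K := by
  rcases hS.eq_or_lt with h0 | h0
  · rw [← h0]; exact hAK
  · have : S * S ≤ (A * K) * S := by linarith
    exact le_of_mul_le_mul_right this h0

section
variable {ρ : Measure E} {s : ℝ} {ι : Type*} [Fintype ι]

/-- L1 -/
theorem Nice.lin (h : Nice ρ s) (b : OrthonormalBasis ι ℝ E) (c : E)
    (hc : ∀ i, ∫ x, (inner ℝ (x - c) (b i) : ℝ) ∂ρ = 0) (a : ι → ℝ) :
    ∫ x, (∑ i, a i * (inner ℝ (x - c) (b i) : ℝ)) ^ 2 ∂ρ ≤ s * ∑ i, a i ^ 2 := by
  classical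
  have hcp : CP (fun x : E => ∑ i, a i * (inner ℝ (x - c) (b i) : ℝ)) :=
    CP.sum _ fun i _ => (CP.const _).mul (CP.affine _ _)
  have hd : ∀ x, HasFDerivAt (fun x : E => ∑ i, a i * (inner ℝ (x - c) (b i) : ℝ))
      (∑ i, a i • innerSL ℝ (b i)) x := by
    intro x
    apply HasFDerivAt.fun_sum
    intro i _
    exact (hasFDerivAt_affine (b i) c x).const_mul (a i)
  have hk : ∀ k, (∑ i, a i • innerSL ℝ (b i)) (b k) = a k := by
    intro k
    simp only [sum_apply, smul_apply, coe_innerSL_apply, b.inner_eq_ite, smul_eq_mul, mul_ite, mul_one, mul_zero, Finset.sum_ite_eq', Finset.mem_univ, ↓reduceIte]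
  have := h.poinc b (l := fun _ => ∑ i, a i • innerSL ℝ (b i)) hd hcp (by
    intro k; simp only [hk]; exact CP.const _)
  simp only [hk] at this
  have h0 : ∫ x, (∑ i, a i * (inner ℝ (x - c) (b i) : ℝ)) ∂ρ = 0 := by
    rw [integral_finsetSum _ (fun k _ => h.int ((CP.const _).mul (CP.affine _ _)))]
    simp only [integral_const_mul, hc, mul_zero, Finset.sum_const_zero]
  rw [h0] at this
  simp only [h.iconst] at this
  simpa only [ge_iff_le, ne_eq, OfNat.ofNat_ne_zero, not_false_eq_true, zero_pow, sub_zero] using this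

/-- L2 -/
theorem Nice.quad (h : Nice ρ s) (hs : 0 ≤ s) (b : OrthonormalBasis ι ℝ E) (c : E)
    (hc : ∀ i, ∫ x, (inner ℝ (x - c) (b i) : ℝ) ∂ρ = 0) (C : ι → ι → ℝ)
    (hC : ∀ i j, C i j = ∫ x, (inner ℝ (x - c) (b i) : ℝ) * inner ℝ (x - c) (b j) ∂ρ)
    (A : ι → ι → ℝ) (hA : ∀ i j, A i j = A j i) :
    ∫ x, (∑ i, ∑ j, A i j * ((inner ℝ (x - c) (b i) : ℝ) * inner ℝ (x - c) (b j) - C i j)) ^ 2 ∂ρ
      ≤ 4 * s ^ 2 * ∑ i, ∑ j, A i j ^ 2 := by
  classical
  have hcp0 : ∀ i j, CP (fun x : E => A i j *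
      ((inner ℝ (x - c) (b i) : ℝ) * inner ℝ (x - c) (b j) - C i j)) := fun i j =>
    (CP.const _).mul (((CP.affine _ _).mul (CP.affine _ _)).sub (CP.const _))
  have hcp : CP (fun x : E => ∑ i, ∑ j, A i j *
      ((inner ℝ (x - c) (b i) : ℝ) * inner ℝ (x - c) (b j) - C i j)) :=
    CP.sum _ fun i _ => CP.sum _ fun j _ => hcp0 i j
  set l : E → E →L[ℝ] ℝ := fun x => ∑ i, ∑ j, A i j •
    ((inner ℝ (x - c) (b i) : ℝ) • innerSL ℝ (b j) + (inner ℝ (x - c) (b j) : ℝ) • innerSL ℝ (b i))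
    with hl
  have hd : ∀ x, HasFDerivAt (fun x : E => ∑ i, ∑ j, A i j *
      ((inner ℝ (x - c) (b i) : ℝ) * inner ℝ (x - c) (b j) - C i j)) (l x) x := by
    intro x
    apply HasFDerivAt.fun_sum
    intro i _
    apply HasFDerivAt.fun_sum
    intro j _
    exact (((hasFDerivAt_affine (b i) c x).mul (hasFDerivAt_affine (b j) c x)).sub_const
      (C i j)).const_mul (A i j)
  have hk : ∀ x k, l x (b k) = ∑ i, (2 * A k i) * (inner ℝ (x - c) (b i) : ℝ) := by
    intro x k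
    simp only [hl, ContinuousLinearMap.sum_apply, ContinuousLinearMap.smul_apply, ContinuousLinearMap.add_apply, innerSL_apply_apply, b.inner_eq_ite, smul_eq_mul]
    simp only [mul_ite, mul_one, mul_zero, mul_add, Finset.sum_add_distrib]
    rw [Finset.sum_comm (f := fun i j => if i = k then A i j * (inner ℝ (x - c) (b j) : ℝ) else 0)]
    simp only [Finset.sum_ite_eq', Finset.mem_univ, if_true]
    rw [← Finset.sum_add_distrib]
    refine Finset.sum_congr rfl fun i _ => ?_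
    rw [hA i k]; ring
  have h1 := h.poinc b (l := l) hd hcp (by
    intro k
    simp only [hk]
    exact CP.sum _ fun i _ => (CP.const _).mul (CP.affine _ _))
  have h0 : ∫ x, (∑ i, ∑ j, A i j *
      ((inner ℝ (x - c) (b i) : ℝ) * inner ℝ (x - c) (b j) - C i j)) ∂ρ = 0 := by
    rw [integral_finsetSum _ (fun i _ => h.int (CP.sum _ fun j _ => hcp0 i j))]
    refine Finset.sum_eq_zero fun i _ => ?_
    rw [integral_finsetSum _ (fun j _ => h.int (hcp0 i j))]
    refine Finset.sum_eq_zero fun j _ => ?_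
    rw [integral_const_mul, h.isub ((CP.affine _ _).mul (CP.affine _ _)) (CP.const _), h.iconst,
      ← hC i j]
    simp
  rw [h0] at h1
  have h2 : ∀ k, ∫ x, (l x (b k)) ^ 2 ∂ρ ≤ s * ∑ i, (2 * A k i) ^ 2 := by
    intro k
    simp only [hk]
    exact h.lin b c hc _
  have h3 : ∑ k, ∫ x, (l x (b k)) ^ 2 ∂ρ ≤ ∑ k, s * ∑ i, (2 * A k i) ^ 2 :=
    Finset.sum_le_sum fun k _ => h2 k
  have h4 : ∑ k, s * ∑ i, (2 * A k i) ^ 2 = 4 * s * ∑ k, ∑ i, A k i ^ 2 := by
    rw [Finset.mul_sum]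
    refine Finset.sum_congr rfl fun k _ => ?_
    rw [Finset.mul_sum, Finset.mul_sum]
    refine Finset.sum_congr rfl fun i _ => ?_
    ring
  rw [h4] at h3
  have h5 := mul_le_mul_of_nonneg_left h3 hs
  calc _ ≤ s * ∑ k, ∫ x, (l x (b k)) ^ 2 ∂ρ := by simpa only [ne_eq, OfNat.ofNat_ne_zero, not_false_eq_true, zero_pow, sub_zero] using h1
    _ ≤ s * (4 * s * ∑ k, ∑ i, A k i ^ 2) := h5
    _ = _ := by ring

end

section
variable {ρ : Measure E} {s : ℝ} {ι : Type*} [Fintype ι]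

end

section
variable {ρ : Measure E} {ι : Type*} [Fintype ι]

end

/-- Coordinates. -/
noncomputable abbrev co {ι : Type*} [Fintype ι] (b : OrthonormalBasis ι ℝ E) (c : E) (i : ι) (x : E) : ℝ :=
  inner ℝ (x - c) (b i)

/-- The data of the posterior law at a fixed point. -/
structure PD {ι : Type*} [Fintype ι] (ρ : Measure E) (s : ℝ) (b : OrthonormalBasis ι ℝ E) (c F : E)
    (G : E → E) (H : E → E →L[ℝ] E) : Prop where
  nice : Nice ρ s
  pos : 0 < s
  hc : ∀ i, ∫ x, co b c i x ∂ρ = 0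
  hv : ∀ u, ∫ x, co b F u (G x) ∂ρ = 0
  hG : ∀ x, HasFDerivAt G (H x) x
  pG : PG G
  cH : Continuous H
  symm : ∀ x u v, inner ℝ (H x u) v = inner ℝ u (H x v)
  hb : ∀ x v, ‖H x v‖ ≤ 2 * ‖v‖
  ibp : ∀ (f : E → ℝ) (l : E → E →L[ℝ] ℝ), (∀ x, HasFDerivAt f (l x) x) → CP f →
    (∀ k, CP (fun x => l x (b k))) → ∀ i,
      s * ∫ x, l x (b i) ∂ρ = ∫ x, f x * (s * co b F i (G x) + co b c i x) ∂ρ

namespace PD

variable {ι : Type*} [Fintype ι] {ρ : Measure E} {s : ℝ} {b : OrthonormalBasis ι ℝ E} {c F : E}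
    {G : E → E} {H : E → E →L[ℝ] E}

theorem cGv (h : PD ρ s b c F G H) (w a : E) : CP (fun x => (inner ℝ (G x - w) a : ℝ)) := by
  have hGc : Continuous G := continuous_iff_continuousAt.2 fun x => (h.hG x).continuousAt
  exact ⟨by fun_prop, (h.pG.sub (PG.const w)).inner (PG.const a)⟩

theorem pHR (h : PD ρ s b c F G H) (g : E → E) (hg : PG g) : PG (fun x => H x (g x)) := by
  have h2 : PG (fun x => (2 : ℝ) • g x) := (PG.const (2 : ℝ)).smul hg
  refine h2.of_le fun x => ?_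
  rw [norm_smul, Real.norm_eq_abs, abs_of_pos two_pos]
  exact h.hb x _

theorem cHR (h : PD ρ s b c F G H) {g : E → E} (cg : Continuous g) (hg : PG g) (a : E) :
    CP (fun x => (inner ℝ (H x (g x)) a : ℝ)) := by
  have := h.cH
  exact ⟨by (clear * - this cg; fun_prop), (h.pHR g hg).inner (PG.const a)⟩

theorem hasF (h : PD ρ s b c F G H) (w a x : E) :
    HasFDerivAt (fun x => (inner ℝ (G x - w) a : ℝ)) ((innerSL ℝ a).comp (H x)) x := by
  have h1 := ((innerSL ℝ a).hasFDerivAt (x := G x - w)).comp x ((h.hG x).sub_const w)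
  have e : (fun x : E => (inner ℝ (G x - w) a : ℝ)) = (innerSL ℝ a) ∘ (fun x => G x - w) := by
    ext y; simp only [real_inner_comm, coe_innerSL_apply, Function.comp_apply]
  rw [e]
  exact h1

/-- variance of `⟨G, w⟩` -/
theorem varG (h : PD ρ s b c F G H) (a : ι → ℝ) :
    ∫ x, (∑ u, a u * co b F u (G x)) ^ 2 ∂ρ ≤ 4 * s * ∑ u, a u ^ 2 := by
  classical
  set w : E := ∑ u, a u • b u with hw
  have hwn : ‖w‖ ^ 2 = ∑ u, a u ^ 2 := by
    rw [← real_inner_self_eq_norm_sq]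
    simp only [hw, sum_inner, inner_sum, inner_smul_left, inner_smul_right, b.inner_eq_ite]
    simp only [Real.ringHom_apply, mul_ite, mul_one, mul_zero, Finset.sum_ite_eq', Finset.mem_univ, ↓reduceIte, pow_two]
  have e1 : ∀ x, ∑ u, a u * co b F u (G x) = inner ℝ (G x - F) w := by
    intro x
    simp only [hw, inner_sum, inner_smul_right]
  have hm : ∫ x, (inner ℝ (G x - F) w : ℝ) ∂ρ = 0 := by
    have : (fun x => (inner ℝ (G x - F) w : ℝ)) = fun x => ∑ u, a u * co b F u (G x) := by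
      ext x; rw [e1]
    rw [this, integral_finsetSum _ (fun k _ => h.nice.int ((CP.const _).mul (h.cGv _ _)))]
    refine Finset.sum_eq_zero fun k _ => ?_
    rw [integral_const_mul, h.hv]; simp
  have h1 := h.nice.poinc b (fun x => h.hasF F w x) (h.cGv F w) (by
    intro k
    have := h.cHR (g := fun _ => b k) continuous_const (PG.const _) w
    simpa only [ContinuousLinearMap.comp_apply, coe_innerSL_apply, real_inner_comm] using this)
  have h2 : ∀ x, ∑ k, ((innerSL ℝ w).comp (H x) (b k)) ^ 2 ≤ 4 * ∑ u, a u ^ 2 := by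
    intro x
    have e2 : ∀ k, ((innerSL ℝ w).comp (H x) (b k)) = inner ℝ (b k) (H x w) := by
      intro k
      simp only [ContinuousLinearMap.comp_apply, innerSL_apply_apply]
      rw [← h.symm, real_inner_comm]
    simp only [e2]
    have e3 : ∑ k, (inner ℝ (b k) (H x w) : ℝ) ^ 2 = ‖H x w‖ ^ 2 := by
      rw [← b.sum_sq_norm_inner_right (H x w)]
      simp only [Real.norm_eq_abs, sq_abs]
    rw [e3, ← hwn]
    have := h.hb x w
    have h0 : 0 ≤ ‖H x w‖ := norm_nonneg _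
    nlinarith only [this, h0]
  have h3 : ∑ k, ∫ x, ((innerSL ℝ w).comp (H x) (b k)) ^ 2 ∂ρ ≤ 4 * ∑ u, a u ^ 2 := by
    rw [← integral_finsetSum _ (fun k _ => h.nice.int (CP.pow (by
      have := h.cHR (g := fun _ => b k) continuous_const (PG.const _) w
      simpa only [ContinuousLinearMap.comp_apply, coe_innerSL_apply, real_inner_comm] using this) 2))]
    have := h.nice.prob
    calc _ ≤ ∫ _x : E, (4 * ∑ u, a u ^ 2) ∂ρ := by
          apply integral_mono_of_nonneg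
          · exact Filter.Eventually.of_forall fun x => Finset.sum_nonneg fun k _ => sq_nonneg _
          · exact integrable_const _
          · exact Filter.Eventually.of_forall h2
      _ = _ := by simp only [integral_const, probReal_univ, smul_eq_mul, one_mul]
  rw [hm] at h1
  simp only [e1]
  have := mul_le_mul_of_nonneg_left h3 h.pos.le
  have h00 : (0:ℝ)^2 = 0 := by norm_num
  linarith

theorem sumsq (b : OrthonormalBasis ι ℝ E) (w : E) : ∑ i, (inner ℝ w (b i) : ℝ) ^ 2 = ‖w‖ ^ 2 := by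
  rw [← b.sum_sq_norm_inner_left w]
  simp only [Real.norm_eq_abs, sq_abs]

theorem sumprod (b : OrthonormalBasis ι ℝ E) (w w' : E) :
    ∑ i, (inner ℝ w (b i) : ℝ) * inner ℝ w' (b i) = inner ℝ w w' := by
  rw [← b.sum_inner_mul_inner w w']
  refine Finset.sum_congr rfl fun i _ => ?_
  rw [real_inner_comm w' (b i)]

end PD

end Vale.Agent.P347
end

section

/-! Task G (P347): three time derivatives of the force along the flow, and their L2 bound. -/

open MeasureTheory Filter Module Set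
open scoped ENNReal NNReal

namespace Vale.Agent.P347

variable {E : Type*} [NormedAddCommGroup E] [InnerProductSpace ℝ E] [FiniteDimensional ℝ E]
  [MeasurableSpace E] [BorelSpace E]

/-! ### Task G2: the core estimate -/

section
variable {V : E → ℝ} {G : E → E} {H : E → E →L[ℝ] E}

theorem post_nice (hV : Pot V G H) {s : ℝ} (hs : 0 < s) (y : E) :
    Nice (gibbs (post V s y)) s where
  prob := (hV.cpot.post_adm hs y).isProb
  integ := fun f cf pf => (hV.cpot.post_adm hs y).integrable pf cf.aestronglyMeasurable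
  poin := by
    intro f g hf cg pf pg
    have := poincare (one_div_pos.2 hs) (hV.cpot.post_adm hs y) (hV.cpot.post_midSC hs y) hf cg pf pg
    simpa only [tsub_le_iff_right, ge_iff_le, one_div, div_inv_eq_mul, one_mul] using this

theorem Pot.contG (hV : Pot V G H) : Continuous G :=
  continuous_iff_continuousAt.2 fun x => (hV.hess x).continuousAt

theorem Pot.pgG (hV : Pot V G H) : PG G := PG.of_lip hV.lipG

theorem Pot.normH (hV : Pot V G H) (x v : E) : ‖H x v‖ ≤ 2 * ‖v‖ := by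
  have h := (hV.hess x).le_of_lip' (C := 2) (by norm_num)
    (Filter.Eventually.of_forall fun y => hV.lipG y x)
  exact (H x).le_of_opNorm_le h v

theorem xb_eq (hV : Pot V G H) {s : ℝ} (hs : 0 < s) (y : E) :
    xb V s y = y - s • Fp V G s y := post_mean hV.cpot hs y

theorem pot_post_grad (hV : Pot V G H) {s : ℝ} (_hs : 0 < s) (y x : E) :
    HasFDerivAt (post V s y) (innerSL ℝ (G x + (1 / s) • (x - y))) x := by
  have h1 := hV.grad x
  have h2 : HasFDerivAt (fun x : E => ‖x - y‖ ^ 2) (2 • (innerSL ℝ (x - y))) x := by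
    have := ((hasFDerivAt_id (𝕜 := ℝ) x).sub_const y).norm_sq
    refine this.congr_fderiv ?_
    ext w
    simp
  have h3 := h1.add (h2.mul_const (1 / (2 * s)))
  have e : post V s y = fun x => V x + ‖x - y‖ ^ 2 * (1 / (2 * s)) := by
    ext x; unfold post; ring
  rw [e]
  refine h3.congr_fderiv ?_
  ext w
  simp only [ContinuousLinearMap.add_apply, ContinuousLinearMap.smul_apply, innerSL_apply_apply,
    inner_add_left, inner_smul_left, smul_eq_mul]
  simp only [one_div, mul_inv_rev, nsmul_eq_mul, Nat.cast_ofNat, map_inv₀, Real.ringHom_apply, add_right_inj]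
  (clear * - _hs; field_simp)

theorem post_pd {ι : Type*} [Fintype ι] (b : OrthonormalBasis ι ℝ E) (hV : Pot V G H) {s : ℝ}
    (hs : 0 < s) (y : E) :
    PD (gibbs (post V s y)) s b (xb V s y) (Fp V G s y) G H where
  nice := post_nice hV hs y
  pos := hs
  hc := by
    intro i
    have hadm := hV.cpot.post_adm hs y
    have hp := hadm.isProb
    have hint : Integrable (fun x : E => x) (gibbs (post V s y)) :=
      hadm.integrable PG.id continuous_id.aestronglyMeasurable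
    have e : (fun x : E => co b (xb V s y) i x) = fun x => inner ℝ (b i) (x - xb V s y) := by
      ext x; simp only [co]; rw [real_inner_comm]
    have hint2 : Integrable (fun x : E => x - xb V s y) (gibbs (post V s y)) :=
      hint.sub (integrable_const _)
    rw [e, integral_inner hint2, integral_sub hint (integrable_const _)]
    simp [xb]
  hv := by
    intro i
    have hadm := hV.cpot.post_adm hs y
    have hp := hadm.isProb
    have hint : Integrable (fun x : E => G x) (gibbs (post V s y)) :=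
      hadm.integrable hV.pgG hV.contG.aestronglyMeasurable
    have e : (fun x : E => co b (Fp V G s y) i (G x)) = fun x => inner ℝ (b i) (G x - Fp V G s y) := by
      ext x; simp only [co]; rw [real_inner_comm]
    have hint2 : Integrable (fun x : E => G x - Fp V G s y) (gibbs (post V s y)) :=
      hint.sub (integrable_const _)
    rw [e, integral_inner hint2, integral_sub hint (integrable_const _)]
    simp only [Fp, integral_const, probReal_univ, one_smul, sub_self, inner_zero_right]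
  hG := hV.hess
  pG := hV.pgG
  cH := hV.contH
  symm := hV.symm
  hb := hV.normH
  ibp := by
    classical
    intro f l hf cf cl i
    set g : E → E := fun x => ∑ k, l x (b k) • b k with hg
    have hl : ∀ x, innerSL ℝ (g x) = l x := by
      intro x
      ext w
      simp only [hg, innerSL_apply_apply, sum_inner, inner_smul_left]
      conv_rhs => rw [← b.sum_repr' w]
      simp [_root_.map_sum, mul_comm]
    have hgc : Continuous g := by
      apply continuous_finsetSum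
      intro k _
      exact (cl k).1.smul continuous_const
    have hgp : PG g := by
      have : ∀ t : Finset ι, PG (fun x => ∑ k ∈ t, l x (b k) • b k) := by
        intro t
        induction t using Finset.induction_on with
        | empty => simpa only [Finset.sum_empty] using PG.const (0 : E)
        | insert a t ha ih =>
          simp only [Finset.sum_insert ha]
          exact ((cl a).2.smul (PG.const (b a))).add ih
      exact this _
    have hGc := hV.contG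
    have h1 := gibbs_ibp (hV.cpot.post_adm hs y) (g := fun x => G x + (1 / s) • (x - y))
      (fun x => pot_post_grad hV hs y x) (by fun_prop)
      (hV.pgG.add ((PG.const (1 / s)).smul (PG.id.sub (PG.const y))))
      (f := f) (f' := g) (fun x => by rw [hl x]; exact hf x) hgc cf.2 hgp (b i)
    have e1 : ∀ x, (inner ℝ (g x) (b i) : ℝ) = l x (b i) := by
      intro x; rw [← hl x]; rfl
    simp only [e1] at h1
    rw [h1, ← integral_const_mul]
    congr 1
    ext x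
    simp only [co, inner_add_left, inner_smul_left, inner_sub_left, xb_eq hV hs]
    simp only [one_div, map_inv₀, Real.ringHom_apply]
    field_simp
    ring


theorem varG_inner {ι : Type*} [Fintype ι] {b : OrthonormalBasis ι ℝ E} (hV : Pot V G H) {s : ℝ}
    (hs : 0 < s) (y w : E) :
    ∫ x, (inner ℝ (G x - Fp V G s y) w : ℝ) ^ 2 ∂(gibbs (post V s y)) ≤ 4 * s * ‖w‖ ^ 2 := by
  have h := post_pd b hV hs y
  have h1 := h.varG (fun i => inner ℝ w (b i))
  rw [PD.sumsq] at h1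
  have e : ∀ x, ∑ i, (inner ℝ w (b i) : ℝ) * co b (Fp V G s y) i (G x)
      = inner ℝ (G x - Fp V G s y) w := by
    intro x
    simp only [co]
    rw [PD.sumprod, real_inner_comm]
  simpa only [e] using h1

end

end Vale.Agent.P347
end

section

/-! Auxiliary facts for Task I (P347): measurability of the one-step operators and reversibility of
the ideal heat / restricted Gaussian step. -/

open MeasureTheory Filter Module Set
open scoped ENNReal NNReal

namespace Vale.Agent.P347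

section basic

variable {E : Type*} [NormedAddCommGroup E] [InnerProductSpace ℝ E]

theorem oneaux_contG {V : E → ℝ} {G : E → E} {H : E → E →L[ℝ] E} (hV : Pot V G H) :
    Continuous G :=
  continuous_iff_continuousAt.2 fun x => (hV.hess x).continuousAt

end basic

/-- Parametric integrals of bounded measurable functions are measurable. -/
theorem meas_param {S T : Type*} [MeasurableSpace S] [MeasurableSpace T] {ν : Measure T}
    [SFinite ν] {f : S × T → ℝ} (hf : Measurable f) : Measurable fun a => ∫ b, f (a, b) ∂ν :=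
  (hf.stronglyMeasurable.integral_prod_right' (ν := ν)).measurable

theorem bdd_integral {T : Type*} [MeasurableSpace T] {ν : Measure T} [IsProbabilityMeasure ν]
    {f : T → ℝ} {C : ℝ} (hf : ∀ b, |f b| ≤ C) : |∫ b, f b ∂ν| ≤ C := by
  have := norm_integral_le_of_norm_le_const (μ := ν) (f := f) (C := C)
    (Eventually.of_forall fun b => by rw [Real.norm_eq_abs]; exact hf b)
  simpa only [ge_iff_le, Real.norm_eq_abs, probReal_univ, mul_one] using this

theorem bdd_integrable {T : Type*} [MeasurableSpace T] {ν : Measure T} [IsProbabilityMeasure ν]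
    {f : T → ℝ} (hm : Measurable f) {C : ℝ} (hf : ∀ b, |f b| ≤ C) : Integrable f ν :=
  Integrable.of_bound hm.aestronglyMeasurable C (Eventually.of_forall hf)

theorem swap_bdd {S T : Type*} [MeasurableSpace S] [MeasurableSpace T] {μ : Measure S}
    {ν : Measure T} [IsProbabilityMeasure μ] [IsProbabilityMeasure ν] {f : S → T → ℝ}
    (hm : Measurable (Function.uncurry f)) {C : ℝ} (hC : ∀ a b, |f a b| ≤ C) :
    ∫ a, ∫ b, f a b ∂ν ∂μ = ∫ b, ∫ a, f a b ∂μ ∂ν :=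
  integral_integral_swap (bdd_integrable hm (C := C) fun q => hC q.1 q.2)

variable {E : Type*} [NormedAddCommGroup E] [InnerProductSpace ℝ E] [FiniteDimensional ℝ E]
  [MeasurableSpace E] [BorelSpace E]

theorem measurable_Gb {G : E → E} (hG : Continuous G) (s : ℝ) : Measurable (Gb G s) := by
  have h1 : StronglyMeasurable fun q : E × E => G (ev G s q.1 q.2) := by
    have : Continuous fun q : E × E => G (ev G s q.1 q.2) := by
      unfold ev
      fun_prop
    exact this.stronglyMeasurable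
  exact (h1.integral_prod_right' (ν := gam E)).measurable

/-- Integrals against `gibbs (post W ε (u a))` depend measurably on `a`. -/
theorem meas_gibbs_post {S : Type*} [MeasurableSpace S] {W : E → ℝ} (hW : Continuous W) (ε : ℝ)
    {u : S → E} (hu : Measurable u) {f : S × E → ℝ} (hf : Measurable f) :
    Measurable fun a => ∫ x, f (a, x) ∂(gibbs (post W ε (u a))) := by
  have hWm := hW.measurable
  have h1 : Measurable fun q : S × E => Real.exp (-post W ε (u q.1) q.2) := by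
    unfold post
    (clear f hf; fun_prop)
  have h2 : Measurable fun q : S × E => Real.exp (-post W ε (u q.1) q.2) * f q := h1.mul hf
  have h3 := (meas_param (ν := (volume : Measure E)) h1).inv.mul
    (meas_param (ν := (volume : Measure E)) h2)
  have h4 : (fun a => ∫ x, f (a, x) ∂(gibbs (post W ε (u a)))) =
      (fun a => ∫ b, Real.exp (-post W ε (u a) b))⁻¹ *
        fun a => ∫ b, Real.exp (-post W ε (u a) b) * f (a, b) := by
    funext a
    rw [gibbs_integral]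
    rfl
  rw [h4]
  exact h3

theorem integrable_kernel {W : E → ℝ} (hW : Adm W) {ε : ℝ} (hε : 0 < ε) :
    Integrable (fun q : E × E => Real.exp (-post W ε q.1 q.2))
      ((volume : Measure E).prod (volume : Measure E)) := by
  have hg : Integrable (fun v : E => Real.exp (-(‖v - 0‖ ^ 2 / (2 * ε)))) (volume : Measure E) :=
    (adm_sq hε 0).integrable_exp
  have h1 := Integrable.convolution_integrand (ContinuousLinearMap.mul ℝ ℝ)
    hW.integrable_exp hg
  refine h1.congr (Eventually.of_forall fun q => ?_)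
  simp only [ContinuousLinearMap.mul_apply', sub_zero]
  rw [← Real.exp_add, post, norm_sub_rev]
  congr 1
  ring

/-- The heat kernel / posterior step as a joint law: both orders of sampling agree. -/
theorem rgo_balance {W : E → ℝ} (hW : Adm W) {ε : ℝ} (hε : 0 < ε) {F : E → ℝ}
    (hF : Measurable F) {C : ℝ} (bF : ∀ x, |F x| ≤ C) :
    ∫ y, ∫ w, ∫ x, F x ∂(gibbs (post W ε (y + √ε • w))) ∂(gam E) ∂(gibbs W)
      = ∫ x, F x ∂(gibbs W) := by
  have hWm := hW.cont.measurable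
  set K : E × E → ℝ := fun q => Real.exp (-post W ε q.1 q.2) with hK
  have hKint : Integrable K ((volume : Measure E).prod (volume : Measure E)) :=
    integrable_kernel hW hε
  set Z : E → ℝ := fun u => ∫ x, K (u, x) with hZ
  set Θ : E → ℝ := fun u => ∫ x, F x ∂(gibbs (post W ε u)) with hΘ
  have hΘm : Measurable Θ := meas_gibbs_post hW.cont ε measurable_id
    (f := fun q : E × E => F q.2) (by fun_prop)
  have hpadm : ∀ u, Adm (post W ε u) := by
    intro u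
    obtain ⟨a, ha, b, hab⟩ := hW.low
    refine ⟨by unfold post; have := hW.cont; fun_prop, a, ha, b, fun x => ?_⟩
    unfold post
    have := hab x
    have h0 : 0 ≤ ‖x - u‖ ^ 2 / (2 * ε) := by (clear * - hε; positivity)
    linarith
  have hΘb : ∀ u, |Θ u| ≤ C := fun u => by
    have := (hpadm u).isProb
    exact bdd_integral bF
  have hZpos : ∀ u, 0 < Z u := fun u => (hpadm u).integral_exp_pos
  have hZΘ : ∀ u, Z u * Θ u = ∫ x, K (u, x) * F x := by
    intro u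
    simp only [hΘ]
    rw [gibbs_integral]
    simp only [smul_eq_mul]
    have : (∫ x, Real.exp (-post W ε u x)) = Z u := rfl
    rw [this, ← mul_assoc, mul_inv_cancel₀ (hZpos u).ne', one_mul]
  set c : ℝ := ∫ v : E, Real.exp (-(‖v‖ ^ 2 / (2 * ε))) with hc
  have hcpos : 0 < c := by
    have := (adm_sq (E := E) hε 0).integral_exp_pos
    simpa only [gt_iff_lt, sub_zero] using this
  have hcy : ∀ y : E, ∫ u : E, Real.exp (-(‖u - y‖ ^ 2 / (2 * ε))) = c := fun y =>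
    integral_sub_right_eq_self (fun v : E => Real.exp (-(‖v‖ ^ 2 / (2 * ε)))) y
  have hcy' : ∀ y : E, ∫ u : E, Real.exp (-(‖y - u‖ ^ 2 / (2 * ε))) = c := fun y => by
    rw [← hcy y]
    refine integral_congr_ae (Eventually.of_forall fun u => ?_)
    simp only [norm_sub_rev]
  have hin : ∀ y : E, ∫ w, Θ (y + √ε • w) ∂(gam E) =
      c⁻¹ * ∫ u, Real.exp (-(‖u - y‖ ^ 2 / (2 * ε))) * Θ u := by
    intro y
    rw [gam_affine hε y Θ, gibbs_integral, hcy y]
    rfl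
  have hL : ∫ y, ∫ w, Θ (y + √ε • w) ∂(gam E) ∂(gibbs W) =
      (∫ x, Real.exp (-W x))⁻¹ * (c⁻¹ * ∫ y, ∫ u, K (u, y) * Θ u) := by
    have e1 : ∀ y, Real.exp (-W y) • (c⁻¹ * ∫ u, Real.exp (-(‖u - y‖ ^ 2 / (2 * ε))) * Θ u) =
        c⁻¹ * ∫ u, K (u, y) * Θ u := by
      intro y
      rw [smul_eq_mul, mul_left_comm, ← integral_const_mul]
      refine congrArg (fun t => c⁻¹ * t) (integral_congr_ae (Eventually.of_forall fun u => ?_))
      simp only [hK, post]
      rw [← mul_assoc, ← Real.exp_add, norm_sub_rev]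
      congr 2
      ring
    simp_rw [hin]
    rw [gibbs_integral]
    simp_rw [e1]
    rw [integral_const_mul, smul_eq_mul]
  have hKΘ : Integrable (fun q : E × E => K q * Θ q.1)
      ((volume : Measure E).prod (volume : Measure E)) := by
    refine hKint.mul_bdd (c := C) ?_ (Eventually.of_forall fun q => ?_)
    · exact (hΘm.comp measurable_fst).aestronglyMeasurable
    · exact hΘb q.1
  have hKF : Integrable (fun q : E × E => K q * F q.2)
      ((volume : Measure E).prod (volume : Measure E)) := by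
    refine hKint.mul_bdd (c := C) ?_ (Eventually.of_forall fun q => ?_)
    · exact (hF.comp measurable_snd).aestronglyMeasurable
    · exact bF q.2
  have hswap1 : ∫ y, ∫ u, K (u, y) * Θ u = ∫ u, ∫ y, K (u, y) * Θ u :=
    (integral_integral_swap (f := fun u y => K (u, y) * Θ u) hKΘ).symm
  have hswap2 : ∫ u, ∫ x, K (u, x) * F x = ∫ x, ∫ u, K (u, x) * F x :=
    integral_integral_swap (f := fun u x => K (u, x) * F x) hKF
  have h1 : ∫ u, ∫ y, K (u, y) * Θ u = ∫ u, ∫ x, K (u, x) * F x := by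
    refine integral_congr_ae (Eventually.of_forall fun u => ?_)
    simp only
    rw [integral_mul_const, ← hZΘ u]
  have h2 : ∫ x, ∫ u, K (u, x) * F x = c * ∫ x, Real.exp (-W x) * F x := by
    rw [← integral_const_mul]
    refine integral_congr_ae (Eventually.of_forall fun x => ?_)
    simp only
    rw [integral_mul_const]
    have : ∫ u, K (u, x) = Real.exp (-W x) * c := by
      rw [← hcy' x, ← integral_const_mul]
      refine integral_congr_ae (Eventually.of_forall fun u => ?_)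
      simp only [hK, post]
      rw [← Real.exp_add]
      congr 1
      ring
    rw [this]
    ring
  change ∫ y, ∫ w, Θ (y + √ε • w) ∂(gam E) ∂(gibbs W) = _
  rw [hL, hswap1, h1, hswap2, h2, ← mul_assoc c⁻¹, inv_mul_cancel₀ hcpos.ne', one_mul,
    gibbs_integral]
  rfl

omit [InnerProductSpace ℝ E] [FiniteDimensional ℝ E] [MeasurableSpace E] [BorelSpace E] in
theorem post_adm' {W : E → ℝ} (hW : Adm W) {ε : ℝ} (hε : 0 < ε) (u : E) : Adm (post W ε u) := by
  obtain ⟨a, ha, b, hab⟩ := hW.low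
  refine ⟨by unfold post; have := hW.cont; fun_prop, a, ha, b, fun x => ?_⟩
  unfold post
  have := hab x
  have h0 : 0 ≤ ‖x - u‖ ^ 2 / (2 * ε) := by (clear * - hε; positivity)
  linarith

end Vale.Agent.P347
end

section

/-! P347-Z-B1. Calculus of multipliers.

Everything here is about levels in `Ioi 0` (where `CG` functions are smooth); `Lev ⊆ Ioi 0`.
`opB` is operator norm ≤ c: `opB_mulM` by applying `B'` then `B`; `opB_amp`: sum over the spectator
slot. Identities (pointwise at levels `> 0`, product rule for `fderiv`):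
`Dout (B B') = (Dout B) B' + (id ⊗ B)(Dout B')`, `Din (B B') = B (Din B') + (Din B)(id ⊗ B')`,
`P (B B') = (P B) B' + B (P B') + (Din B)(Dout B')` (the new slot is summed),
`P (Dout B) = Dout (P B) + (F1 ⊗ id)(Dout B)`, `P (Din B) = Din (P B) + (Din B)(F1 ⊗ id)` (F1 symmetric).
`MBn` is stable under congruence at levels in `Ioi 0`, under `mulM`, `amp`, `rei` (reindexing by injective
maps; in particular permutations of the slots), `addM`, `smM`; by induction on `n` for all index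
types at once. -/

open MeasureTheory Filter Module Set
open scoped ENNReal NNReal

namespace Vale.Agent.P347.Z

variable {d : ℕ} {w : ℝ × Eu d → ℝ} {S : Set ℝ}

/-! ### Pointwise calculus at positive levels -/

theorem mlt_diff {f : ℝ × Eu d → ℝ} (hf : CG (Ioi 0) f) {p : ℝ × Eu d} (hp : 0 < p.1) :
    DifferentiableAt ℝ f p :=
  (hf.diff p ⟨hp, trivial⟩).differentiableAt ((isOpen_Ioi.prod isOpen_univ).mem_nhds ⟨hp, trivial⟩)

theorem mlt_dy_congr {f g : ℝ × Eu d → ℝ} (h : ∀ p : ℝ × Eu d, 0 < p.1 → g p = f p) (m : Fin d)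
    {p : ℝ × Eu d} (hp : 0 < p.1) : dy m g p = dy m f p := by
  have h1 : fderiv ℝ g p = fderiv ℝ f p :=
    cgl_fderiv_congr isOpen_Ioi (fun q hq => h q hq.1) ⟨hp, trivial⟩
  show fderiv ℝ g p (0, ek m) = fderiv ℝ f p (0, ek m)
  rw [h1]

theorem mlt_dlev_congr {f g : ℝ × Eu d → ℝ} (h : ∀ p : ℝ × Eu d, 0 < p.1 → g p = f p)
    {p : ℝ × Eu d} (hp : 0 < p.1) : dlev g p = dlev f p := by
  have h1 : fderiv ℝ g p = fderiv ℝ f p :=
    cgl_fderiv_congr isOpen_Ioi (fun q hq => h q hq.1) ⟨hp, trivial⟩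
  show fderiv ℝ g p (1, 0) = fderiv ℝ f p (1, 0)
  rw [h1]

theorem mlt_Pf_congr {f g : ℝ × Eu d → ℝ} (h : ∀ p : ℝ × Eu d, 0 < p.1 → g p = f p)
    {p : ℝ × Eu d} (hp : 0 < p.1) : Pf w g p = Pf w f p := by
  show -dlev g p + (1 / 2) * ∑ k, dy k (dy k g) p - ∑ k, dy k w p * dy k g p =
    -dlev f p + (1 / 2) * ∑ k, dy k (dy k f) p - ∑ k, dy k w p * dy k f p
  have h1 : ∀ k, dy k (dy k g) p = dy k (dy k f) p := fun k =>
    mlt_dy_congr (fun q hq => mlt_dy_congr h k hq) k hp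
  have h2 : ∀ k, dy k g p = dy k f p := fun k => mlt_dy_congr h k hp
  rw [mlt_dlev_congr h hp]
  simp only [h1, h2]

theorem mlt_dy_add {f g : ℝ × Eu d → ℝ} (hf : CG (Ioi 0) f) (hg : CG (Ioi 0) g) (m : Fin d)
    {p : ℝ × Eu d} (hp : 0 < p.1) : dy m (fun q => f q + g q) p = dy m f p + dy m g p := by
  show fderiv ℝ (fun q => f q + g q) p (0, ek m) = _
  rw [fderiv_fun_add (mlt_diff hf hp) (mlt_diff hg hp)]
  rfl

theorem mlt_dlev_add {f g : ℝ × Eu d → ℝ} (hf : CG (Ioi 0) f) (hg : CG (Ioi 0) g)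
    {p : ℝ × Eu d} (hp : 0 < p.1) : dlev (fun q => f q + g q) p = dlev f p + dlev g p := by
  show fderiv ℝ (fun q => f q + g q) p (1, 0) = _
  rw [fderiv_fun_add (mlt_diff hf hp) (mlt_diff hg hp)]
  rfl

theorem mlt_dy_mul {f g : ℝ × Eu d → ℝ} (hf : CG (Ioi 0) f) (hg : CG (Ioi 0) g) (m : Fin d)
    {p : ℝ × Eu d} (hp : 0 < p.1) :
    dy m (fun q => f q * g q) p = dy m f p * g p + f p * dy m g p := by
  show fderiv ℝ (fun q => f q * g q) p (0, ek m) =
    fderiv ℝ f p (0, ek m) * g p + f p * fderiv ℝ g p (0, ek m)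
  rw [fderiv_fun_mul (mlt_diff hf hp) (mlt_diff hg hp)]
  show f p * fderiv ℝ g p (0, ek m) + g p * fderiv ℝ f p (0, ek m) = _
  ring

theorem mlt_dlev_mul {f g : ℝ × Eu d → ℝ} (hf : CG (Ioi 0) f) (hg : CG (Ioi 0) g)
    {p : ℝ × Eu d} (hp : 0 < p.1) :
    dlev (fun q => f q * g q) p = dlev f p * g p + f p * dlev g p := by
  show fderiv ℝ (fun q => f q * g q) p (1, 0) =
    fderiv ℝ f p (1, 0) * g p + f p * fderiv ℝ g p (1, 0)
  rw [fderiv_fun_mul (mlt_diff hf hp) (mlt_diff hg hp)]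
  show f p * fderiv ℝ g p (1, 0) + g p * fderiv ℝ f p (1, 0) = _
  ring

theorem mlt_dy_sum {ι : Type} (s : Finset ι) {F : ι → ℝ × Eu d → ℝ}
    (hF : ∀ i, CG (Ioi 0) (F i)) (m : Fin d) {p : ℝ × Eu d} (hp : 0 < p.1) :
    dy m (fun q => ∑ i ∈ s, F i q) p = ∑ i ∈ s, dy m (F i) p := by
  show fderiv ℝ (fun q => ∑ i ∈ s, F i q) p (0, ek m) = _
  rw [fderiv_fun_sum fun i _ => mlt_diff (hF i) hp]
  rw [ContinuousLinearMap.sum_apply]
  rfl

theorem mlt_Pf_add {f g : ℝ × Eu d → ℝ} (hf : CG (Ioi 0) f) (hg : CG (Ioi 0) g)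
    {p : ℝ × Eu d} (hp : 0 < p.1) :
    Pf w (fun q => f q + g q) p = Pf w f p + Pf w g p := by
  show -dlev (fun q => f q + g q) p + (1 / 2) * ∑ k, dy k (dy k (fun q => f q + g q)) p
    - ∑ k, dy k w p * dy k (fun q => f q + g q) p =
    (-dlev f p + (1 / 2) * ∑ k, dy k (dy k f) p - ∑ k, dy k w p * dy k f p) +
    (-dlev g p + (1 / 2) * ∑ k, dy k (dy k g) p - ∑ k, dy k w p * dy k g p)
  have h1 : ∀ k, dy k (dy k (fun q => f q + g q)) p = dy k (dy k f) p + dy k (dy k g) p := by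
    intro k
    rw [mlt_dy_congr (f := fun q => dy k f q + dy k g q) (fun q hq => mlt_dy_add hf hg k hq) k hp]
    exact mlt_dy_add (hf.dy k) (hg.dy k) k hp
  have h2 : ∀ k, dy k (fun q => f q + g q) p = dy k f p + dy k g p := fun k =>
    mlt_dy_add hf hg k hp
  rw [mlt_dlev_add hf hg hp]
  simp only [h1, h2, mul_add, Finset.sum_add_distrib]
  ring

theorem mlt_dy_smul (a : ℝ) (f : ℝ × Eu d → ℝ) (m : Fin d) :
    dy m (fun q => a * f q) = fun q => a * dy m f q := by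
  funext p
  show fderiv ℝ (fun q => a * f q) p (0, ek m) = a * fderiv ℝ f p (0, ek m)
  have h1 : (fun q => a * f q) = a • f := rfl
  rw [h1, fderiv_const_smul_field]
  rfl

theorem mlt_dlev_smul (a : ℝ) (f : ℝ × Eu d → ℝ) :
    dlev (fun q => a * f q) = fun q => a * dlev f q := by
  funext p
  show fderiv ℝ (fun q => a * f q) p (1, 0) = a * fderiv ℝ f p (1, 0)
  have h1 : (fun q => a * f q) = a • f := rfl
  rw [h1, fderiv_const_smul_field]
  rfl

theorem mlt_Pf_smul (a : ℝ) (f : ℝ × Eu d → ℝ) :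
    Pf w (fun q => a * f q) = fun q => a * Pf w f q := by
  funext p
  show -dlev (fun q => a * f q) p + (1 / 2) * ∑ k, dy k (dy k (fun q => a * f q)) p
    - ∑ k, dy k w p * dy k (fun q => a * f q) p =
    a * (-dlev f p + (1 / 2) * ∑ k, dy k (dy k f) p - ∑ k, dy k w p * dy k f p)
  rw [mlt_dlev_smul]
  simp only [mlt_dy_smul]
  have h1 : ∑ k, a * dy k (dy k f) p = a * ∑ k, dy k (dy k f) p := by rw [Finset.mul_sum]
  have h2 : ∑ k, dy k w p * (a * dy k f p) = a * ∑ k, dy k w p * dy k f p := by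
    rw [Finset.mul_sum]
    exact Finset.sum_congr rfl fun k _ => by ring
  rw [h1, h2]
  ring

theorem mlt_dy_const (c : ℝ) (m : Fin d) : dy m (fun _ : ℝ × Eu d => c) = fun _ => 0 := by
  funext p
  show fderiv ℝ (fun _ : ℝ × Eu d => c) p (0, ek m) = 0
  rw [fderiv_fun_const]
  rfl

theorem mlt_dlev_const (c : ℝ) : dlev (fun _ : ℝ × Eu d => c) = fun _ => 0 := by
  funext p
  show fderiv ℝ (fun _ : ℝ × Eu d => c) p (1, 0) = 0
  rw [fderiv_fun_const]
  rfl

theorem mlt_Pf_const (c : ℝ) : Pf w (fun _ : ℝ × Eu d => c) = fun _ => 0 := by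
  funext p
  show -dlev (fun _ : ℝ × Eu d => c) p + (1 / 2) * ∑ k, dy k (dy k (fun _ : ℝ × Eu d => c)) p
    - ∑ k, dy k w p * dy k (fun _ : ℝ × Eu d => c) p = 0
  rw [mlt_dlev_const]
  simp only [mlt_dy_const]
  simp only [neg_zero, one_div, Finset.sum_const_zero, mul_zero, add_zero, sub_self]

theorem mlt_Pf_cg (hw : CG (Ioi 0) w) {f : ℝ × Eu d → ℝ} (hf : CG (Ioi 0) f) :
    CG (Ioi 0) (Pf w f) := by
  have h1 : CG (Ioi 0) (fun p => -dlev f p) := CG.neg isOpen_Ioi hf.dlev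
  have h2 : CG (Ioi 0) (fun p => (1 / 2 : ℝ) * ∑ k, dy k (dy k f) p) :=
    CG.mul isOpen_Ioi (CG.const isOpen_Ioi (1 / 2))
      (CG.sum isOpen_Ioi Finset.univ fun k _ => (hf.dy k).dy k)
  have h3 : CG (Ioi 0) (fun p => ∑ k, dy k w p * dy k f p) :=
    CG.sum isOpen_Ioi Finset.univ fun k _ => CG.mul isOpen_Ioi (hw.dy k) (hf.dy k)
  exact CG.sub isOpen_Ioi (CG.add isOpen_Ioi h1 h2) h3

section
variable {K I L : Type} [Fintype K] [Fintype I] [Fintype L]

theorem opB.mono {c c' : ℝ} {B : MF d K I} (h : opB S c B) (hc : 0 ≤ c) (hcc : c ≤ c') :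
    opB S c' B := by
  intro l hl y x
  refine (h l hl y x).trans ?_
  have h1 : 0 ≤ ∑ i, (x i) ^ 2 := Finset.sum_nonneg fun i _ => sq_nonneg _
  exact mul_le_mul_of_nonneg_right (pow_le_pow_left₀ hc hcc 2) h1

theorem opB_mulM {c c' : ℝ} (hc : 0 ≤ c) (hc' : 0 ≤ c') {B : MF d K L} {B' : MF d L I}
    (h : opB S c B) (h' : opB S c' B') : opB S (c * c') (mulM B B') := by
  intro l hl y x
  have h1 : ∀ k, ∑ i, mulM B B' k i (l, y) * x i =
      ∑ j, B k j (l, y) * ∑ i, B' j i (l, y) * x i := by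
    intro k
    simp only [mulM, Finset.sum_mul, Finset.mul_sum]
    rw [Finset.sum_comm]
    exact Finset.sum_congr rfl fun j _ => Finset.sum_congr rfl fun i _ => by ring
  simp only [h1]
  refine (h l hl y fun j => ∑ i, B' j i (l, y) * x i).trans ?_
  refine (mul_le_mul_of_nonneg_left (h' l hl y x) (sq_nonneg c)).trans (le_of_eq ?_)
  ring

theorem opB_addM {c c' : ℝ} (hc : 0 ≤ c) (hc' : 0 ≤ c') {B B' : MF d K I}
    (h : opB S c B) (h' : opB S c' B') : opB S (c + c') (addM B B') := by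
  intro l hl y x
  have h1 : ∀ k, ∑ i, addM B B' k i (l, y) * x i =
      ∑ i, B k i (l, y) * x i + ∑ i, B' k i (l, y) * x i := by
    intro k
    simp only [addM, add_mul, Finset.sum_add_distrib]
  simp only [h1]
  have hX : 0 ≤ ∑ i, (x i) ^ 2 := Finset.sum_nonneg fun i _ => sq_nonneg _
  have h2 := h l hl y x
  have h3 := h' l hl y x
  obtain ⟨X, hXe⟩ : ∃ X, X = ∑ i, (x i) ^ 2 := ⟨_, rfl⟩
  obtain ⟨a, ha⟩ : ∃ a : K → ℝ, a = fun k => ∑ i, B k i (l, y) * x i := ⟨_, rfl⟩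
  obtain ⟨b, hb⟩ : ∃ b : K → ℝ, b = fun k => ∑ i, B' k i (l, y) * x i := ⟨_, rfl⟩
  have ha' : ∀ k, ∑ i, B k i (l, y) * x i = a k := fun k => by rw [ha]
  have hb' : ∀ k, ∑ i, B' k i (l, y) * x i = b k := fun k => by rw [hb]
  simp only [ha', hb', ← hXe] at h2 h3 ⊢
  rw [← hXe] at hX
  have h4 : (∑ k, a k * b k) ^ 2 ≤ (∑ k, a k ^ 2) * ∑ k, b k ^ 2 :=
    Finset.sum_mul_sq_le_sq_mul_sq _ _ _
  have h5 : (∑ k, a k * b k) ^ 2 ≤ (c * c' * X) ^ 2 := by
    refine h4.trans ((mul_le_mul h2 h3 (Finset.sum_nonneg fun i _ => sq_nonneg _)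
      (mul_nonneg (sq_nonneg c) hX)).trans (le_of_eq ?_))
    ring
  have h6 : ∑ k, a k * b k ≤ c * c' * X :=
    (le_abs_self _).trans (abs_le_of_sq_le_sq h5 (mul_nonneg (mul_nonneg hc hc') hX))
  have h7 : ∑ k, (a k + b k) ^ 2 = ∑ k, a k ^ 2 + 2 * (∑ k, a k * b k) + ∑ k, b k ^ 2 := by
    rw [Finset.mul_sum, ← Finset.sum_add_distrib, ← Finset.sum_add_distrib]
    exact Finset.sum_congr rfl fun k _ => by ring
  rw [h7]
  have h8 : (c + c') ^ 2 * X = c ^ 2 * X + 2 * (c * c' * X) + c' ^ 2 * X := by ring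
  rw [h8]
  linarith only [h3, h2, h6]

theorem opB_smM {c a : ℝ} {B : MF d K I} (h : opB S c B) : opB S (|a| * c) (smM a B) := by
  intro l hl y x
  have h1 : ∀ k, ∑ i, smM a B k i (l, y) * x i = a * ∑ i, B k i (l, y) * x i := by
    intro k
    simp only [smM, Finset.mul_sum]
    exact Finset.sum_congr rfl fun i _ => by ring
  simp only [h1, mul_pow, sq_abs]
  rw [← Finset.mul_sum, mul_assoc]
  exact mul_le_mul_of_nonneg_left (h l hl y x) (sq_nonneg a)

theorem opB_amp {c : ℝ} {B : MF d K I} (h : opB S c B) (A : Type) [Fintype A] [DecidableEq A] :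
    opB S c (amp B A) := by
  intro l hl y x
  have h1 : ∀ k : K × A, ∑ i : I × A, amp B A k i (l, y) * x i =
      ∑ i : I, B k.1 i (l, y) * x (i, k.2) := by
    intro k
    rw [Fintype.sum_prod_type]
    refine Finset.sum_congr rfl fun i _ => ?_
    have h2 : ∀ a : A, amp B A k (i, a) (l, y) * x (i, a) =
        if k.2 = a then B k.1 i (l, y) * x (i, a) else 0 := by
      intro a
      simp only [amp]
      split_ifs
      · rfl
      · ring
    simp only [h2]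
    rw [Finset.sum_ite_eq]
    simp only [Finset.mem_univ, ↓reduceIte]
  simp only [h1]
  rw [Fintype.sum_prod_type, Finset.sum_comm, Fintype.sum_prod_type,
    Finset.sum_comm (f := fun (i : I) (a : A) => x (i, a) ^ 2), Finset.mul_sum]
  exact Finset.sum_le_sum fun a _ => h l hl y fun i => x (i, a)

theorem opB_rei {c : ℝ} {B : MF d K I} (h : opB S c B) {K' I' : Type} [Fintype K'] [Fintype I']
    {e : K' → K} {f : I' → I} (he : Function.Injective e) (hf : Function.Injective f) :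
    opB S c (rei e f B) := by
  intro l hl y x
  have h1 : ∀ k, ∑ i, B k i (l, y) * Function.extend f x 0 i =
      ∑ i', B k (f i') (l, y) * x i' := by
    intro k
    symm
    refine Fintype.sum_of_injective f hf _ _ (fun i hi => ?_) fun i' => ?_
    · rw [Function.extend_apply' _ _ _ (by simpa only [not_exists, mem_range] using hi)]
      simp
    · rw [hf.extend_apply]
  have h2 : ∑ i, (Function.extend f x 0 i) ^ 2 = ∑ i', (x i') ^ 2 := by
    symm
    refine Fintype.sum_of_injective f hf _ _ (fun i hi => ?_) fun i' => ?_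
    · rw [Function.extend_apply' _ _ _ (by simpa only [not_exists, mem_range] using hi)]
      simp
    · rw [hf.extend_apply]
  have h3 := h l hl y (Function.extend f x 0)
  rw [h2] at h3
  simp only [h1] at h3
  refine le_trans ?_ h3
  have h4 : ∑ k', (∑ i', rei e f B k' i' (l, y) * x i') ^ 2 =
      ∑ k ∈ Finset.univ.map ⟨e, he⟩, (∑ i', B k (f i') (l, y) * x i') ^ 2 := by
    rw [Finset.sum_map]
    rfl
  rw [h4]
  exact Finset.sum_le_sum_of_subset_of_nonneg (Finset.subset_univ _) fun _ _ _ => sq_nonneg _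

theorem mlt_opB {n : ℕ} {c : ℝ} {B : MF d K I} (h : MBn w S n c B) : Z.opB S c B := by
  cases n with
  | zero => exact h
  | succ n => exact h.1

theorem mlt_mono {n : ℕ} {c c' : ℝ} (hc : 0 ≤ c) (hcc : c ≤ c') :
    ∀ {K I : Type} [Fintype K] [Fintype I] {B : MF d K I}, MBn w S n c B → MBn w S n c' B := by
  induction n with
  | zero =>
    intro K I _ _ B h
    exact opB.mono h hc hcc
  | succ n ih =>
    intro K I _ _ B h
    exact ⟨opB.mono h.1 hc hcc, ih h.2.1, ih h.2.2.1, ih h.2.2.2⟩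

theorem MBn.mono {n : ℕ} {c c' : ℝ} {B : MF d K I} (h : MBn w S n c B) (hc : 0 ≤ c)
    (hcc : c ≤ c') : MBn w S n c' B := mlt_mono hc hcc h

theorem mlt_mono_n1 {n : ℕ} {c : ℝ} :
    ∀ {K I : Type} [Fintype K] [Fintype I] {B : MF d K I}, MBn w S (n + 1) c B →
      MBn w S n c B := by
  induction n with
  | zero =>
    intro K I _ _ B h
    exact h.1
  | succ n ih =>
    intro K I _ _ B h
    exact ⟨h.1, ih h.2.1, ih h.2.2.1, ih h.2.2.2⟩

theorem MBn.mono_n {n m : ℕ} {c : ℝ} {B : MF d K I} (h : MBn w S n c B) (hm : m ≤ n) :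
    MBn w S m c B := by
  induction n with
  | zero =>
    obtain rfl : m = 0 := by omega
    exact h
  | succ n ih =>
    rcases Nat.lt_or_ge m (n + 1) with h1 | h1
    · exact ih (mlt_mono_n1 h) (by omega)
    · obtain rfl : m = n + 1 := by omega
      exact h

theorem mlt_mono_S {n : ℕ} {c : ℝ} {S' : Set ℝ} (hS : S' ⊆ S) :
    ∀ {K I : Type} [Fintype K] [Fintype I] {B : MF d K I}, MBn w S n c B → MBn w S' n c B := by
  induction n with
  | zero =>
    intro K I _ _ B h l hl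
    exact h l (hS hl)
  | succ n ih =>
    intro K I _ _ B h
    exact ⟨fun l hl => h.1 l (hS hl), ih h.2.1, ih h.2.2.1, ih h.2.2.2⟩

theorem MBn.mono_S {n : ℕ} {c : ℝ} {S' : Set ℝ} {B : MF d K I} (h : MBn w S n c B) (hS : S' ⊆ S) :
    MBn w S' n c B := mlt_mono_S hS h

theorem MBn.opB {n : ℕ} {c : ℝ} {B : MF d K I} (h : MBn w S n c B) : opB S c B := mlt_opB h

theorem mlt_congr (hS : S ⊆ Ioi 0) {n : ℕ} {c : ℝ} :
    ∀ {K I : Type} [Fintype K] [Fintype I] {B B' : MF d K I}, MBn w S n c B →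
      (∀ k i (p : ℝ × Eu d), 0 < p.1 → B' k i p = B k i p) → MBn w S n c B' := by
  have h0 : ∀ {K I : Type} [Fintype K] [Fintype I] {B B' : MF d K I}, Z.opB S c B →
      (∀ k i (p : ℝ × Eu d), 0 < p.1 → B' k i p = B k i p) → Z.opB S c B' := by
    intro K I _ _ B B' h hB l hl y x
    have h1 : ∀ k i, B' k i (l, y) = B k i (l, y) := fun k i => hB k i (l, y) (hS hl)
    simp only [h1]
    exact h l hl y x
  induction n with
  | zero =>
    intro K I _ _ B B' h hB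
    exact h0 h hB
  | succ n ih =>
    intro K I _ _ B B' h hB
    exact ⟨h0 h.1 hB, ih h.2.1 fun k i p hp => mlt_dy_congr (hB k.2 i) k.1 hp,
      ih h.2.2.1 fun k i p hp => mlt_dy_congr (hB k i.2) i.1 hp,
      ih h.2.2.2 fun k i p hp => mlt_Pf_congr (hB k i) hp⟩

theorem MBn.congr (hw : CG (Ioi 0) w) (hS : S ⊆ Ioi 0) {n : ℕ} {c : ℝ} {B B' : MF d K I}
    (h : MBn w S n c B) (hB : ∀ k i (p : ℝ × Eu d), 0 < p.1 → B' k i p = B k i p) :
    MBn w S n c B' := mlt_congr hS h hB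

theorem mlt_addM (hw : CG (Ioi 0) w) (hS : S ⊆ Ioi 0) {n : ℕ} {c c' : ℝ} (hc : 0 ≤ c)
    (hc' : 0 ≤ c') : ∀ {K I : Type} [Fintype K] [Fintype I] {B B' : MF d K I},
    (∀ k i, CG (Ioi 0) (B k i)) → (∀ k i, CG (Ioi 0) (B' k i)) → MBn w S n c B →
    MBn w S n c' B' → MBn w S n (c + c') (addM B B') := by
  induction n with
  | zero =>
    intro K I _ _ B B' _ _ h h'
    exact opB_addM hc hc' h h'
  | succ n ih =>
    intro K I _ _ B B' cB cB' h h'
    refine ⟨opB_addM hc hc' h.1 h'.1, ?_, ?_, ?_⟩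
    · exact mlt_congr hS (ih (fun k i => (cB k.2 i).dy k.1) (fun k i => (cB' k.2 i).dy k.1)
        h.2.1 h'.2.1) fun k i p hp => mlt_dy_add (cB k.2 i) (cB' k.2 i) k.1 hp
    · exact mlt_congr hS (ih (fun k i => (cB k i.2).dy i.1) (fun k i => (cB' k i.2).dy i.1)
        h.2.2.1 h'.2.2.1) fun k i p hp => mlt_dy_add (cB k i.2) (cB' k i.2) i.1 hp
    · exact mlt_congr hS (ih (fun k i => mlt_Pf_cg hw (cB k i)) (fun k i => mlt_Pf_cg hw (cB' k i))
        h.2.2.2 h'.2.2.2) fun k i p hp => mlt_Pf_add (cB k i) (cB' k i) hp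

theorem mlt_smM {n : ℕ} {c a : ℝ} : ∀ {K I : Type} [Fintype K] [Fintype I] {B : MF d K I},
    MBn w S n c B → MBn w S n (|a| * c) (smM a B) := by
  induction n with
  | zero =>
    intro K I _ _ B h
    exact opB_smM h
  | succ n ih =>
    intro K I _ _ B h
    refine ⟨opB_smM h.1, ?_, ?_, ?_⟩
    · have h1 : Dout (smM a B) = smM a (Dout B) := by
        funext k i
        exact mlt_dy_smul a _ _
      rw [h1]
      exact ih h.2.1
    · have h1 : Din (smM a B) = smM a (Din B) := by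
        funext k i
        exact mlt_dy_smul a _ _
      rw [h1]
      exact ih h.2.2.1
    · have h1 : PM w (smM a B) = smM a (PM w B) := by
        funext k i
        exact mlt_Pf_smul a _
      rw [h1]
      exact ih h.2.2.2

theorem mlt_rei {n : ℕ} {c : ℝ} : ∀ {K I : Type} [Fintype K] [Fintype I] {B : MF d K I},
    MBn w S n c B → ∀ {K' I' : Type} [Fintype K'] [Fintype I'] {e : K' → K} {f : I' → I},
    Function.Injective e → Function.Injective f → MBn w S n c (rei e f B) := by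
  induction n with
  | zero =>
    intro K I _ _ B h K' I' _ _ e f he hf
    exact opB_rei h he hf
  | succ n ih =>
    intro K I _ _ B h K' I' _ _ e f he hf
    refine ⟨opB_rei h.1 he hf, ?_, ?_, ?_⟩
    · have h1 : Dout (rei e f B) = rei (Prod.map id e) f (Dout B) := rfl
      rw [h1]
      exact ih h.2.1 (Function.injective_id.prodMap he) hf
    · have h1 : Din (rei e f B) = rei e (Prod.map id f) (Din B) := rfl
      rw [h1]
      exact ih h.2.2.1 he (Function.injective_id.prodMap hf)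
    · have h1 : PM w (rei e f B) = rei e f (PM w B) := rfl
      rw [h1]
      exact ih h.2.2.2 he hf

theorem mlt_assoc_inj (X Y A : Type) :
    Function.Injective (fun m : X × (Y × A) => (((m.1, m.2.1), m.2.2) : (X × Y) × A)) := by
  rintro ⟨a, b, c⟩ ⟨a', b', c'⟩ h
  simp only [Prod.mk.injEq] at h
  obtain ⟨⟨rfl, rfl⟩, rfl⟩ := h
  rfl

theorem mlt_amp {n : ℕ} {c : ℝ} (A : Type) [Fintype A] [DecidableEq A] :
    ∀ {K I : Type} [Fintype K] [Fintype I] {B : MF d K I}, MBn w S n c B →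
    MBn w S n c (amp B A) := by
  induction n with
  | zero =>
    intro K I _ _ B h
    exact opB_amp h A
  | succ n ih =>
    intro K I _ _ B h
    refine ⟨opB_amp h.1 A, ?_, ?_, ?_⟩
    · have h1 : Dout (amp B A) = rei (fun m : Fin d × (K × A) => ((m.1, m.2.1), m.2.2)) id
          (amp (Dout B) A) := by
        funext m i
        show dy m.1 (fun p => if m.2.2 = i.2 then B m.2.1 i.1 p else 0) =
          fun p => if m.2.2 = i.2 then dy m.1 (B m.2.1 i.1) p else 0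
        split_ifs
        · rfl
        · exact mlt_dy_const 0 m.1
      rw [h1]
      exact mlt_rei (ih h.2.1) (mlt_assoc_inj _ _ _) Function.injective_id
    · have h1 : Din (amp B A) = rei id (fun m : Fin d × (I × A) => ((m.1, m.2.1), m.2.2))
          (amp (Din B) A) := by
        funext k m
        show dy m.1 (fun p => if k.2 = m.2.2 then B k.1 m.2.1 p else 0) =
          fun p => if k.2 = m.2.2 then dy m.1 (B k.1 m.2.1) p else 0
        split_ifs
        · rfl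
        · exact mlt_dy_const 0 m.1
      rw [h1]
      exact mlt_rei (ih h.2.2.1) Function.injective_id (mlt_assoc_inj _ _ _)
    · have h1 : PM w (amp B A) = amp (PM w B) A := by
        funext k i
        show Pf w (fun p => if k.2 = i.2 then B k.1 i.1 p else 0) =
          fun p => if k.2 = i.2 then Pf w (B k.1 i.1) p else 0
        split_ifs
        · rfl
        · exact mlt_Pf_const 0
      rw [h1]
      exact ih h.2.2.2

end

/-! ### Identities -/

section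
variable {K I L : Type} [Fintype K] [Fintype I] [Fintype L]

theorem Pf_mul (hw : CG (Ioi 0) w) {f g : ℝ × Eu d → ℝ} (hf : CG (Ioi 0) f) (hg : CG (Ioi 0) g)
    {p : ℝ × Eu d} (hp : 0 < p.1) :
    Pf w (fun q => f q * g q) p = Pf w f p * g p + f p * Pf w g p + ∑ k, dy k f p * dy k g p := by
  show -dlev (fun q => f q * g q) p + (1 / 2) * ∑ k, dy k (dy k (fun q => f q * g q)) p
    - ∑ k, dy k w p * dy k (fun q => f q * g q) p =
    (-dlev f p + (1 / 2) * ∑ k, dy k (dy k f) p - ∑ k, dy k w p * dy k f p) * g p +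
    f p * (-dlev g p + (1 / 2) * ∑ k, dy k (dy k g) p - ∑ k, dy k w p * dy k g p) +
    ∑ k, dy k f p * dy k g p
  have h1 : ∀ k, dy k (dy k (fun q => f q * g q)) p =
      dy k (dy k f) p * g p + 2 * (dy k f p * dy k g p) + f p * dy k (dy k g) p := by
    intro k
    rw [mlt_dy_congr (f := fun q => dy k f q * g q + f q * dy k g q)
      (fun q hq => mlt_dy_mul hf hg k hq) k hp]
    rw [mlt_dy_add (CG.mul isOpen_Ioi (hf.dy k) hg) (CG.mul isOpen_Ioi hf (hg.dy k)) k hp,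
      mlt_dy_mul (hf.dy k) hg k hp, mlt_dy_mul hf (hg.dy k) k hp]
    ring
  have h2 : ∀ k, dy k (fun q => f q * g q) p = dy k f p * g p + f p * dy k g p := fun k =>
    mlt_dy_mul hf hg k hp
  rw [mlt_dlev_mul hf hg hp]
  simp only [h1, h2]
  have h3 : ∑ k, (dy k (dy k f) p * g p + 2 * (dy k f p * dy k g p) + f p * dy k (dy k g) p) =
      (∑ k, dy k (dy k f) p) * g p + 2 * (∑ k, dy k f p * dy k g p) +
        f p * ∑ k, dy k (dy k g) p := by
    rw [Finset.sum_mul, Finset.mul_sum, Finset.mul_sum, ← Finset.sum_add_distrib,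
      ← Finset.sum_add_distrib]
  have h4 : ∑ k, dy k w p * (dy k f p * g p + f p * dy k g p) =
      (∑ k, dy k w p * dy k f p) * g p + f p * ∑ k, dy k w p * dy k g p := by
    rw [Finset.sum_mul, Finset.mul_sum, ← Finset.sum_add_distrib]
    exact Finset.sum_congr rfl fun k _ => by ring
  rw [h3, h4]
  ring

theorem mlt_dy_comm {f : ℝ × Eu d → ℝ} (hf : CG (Ioi 0) f) (m k : Fin d)
    {p : ℝ × Eu d} (hp : 0 < p.1) : dy m (dy k f) p = dy k (dy m f) p :=
  CG.comm isOpen_Ioi hf (0, ek k) (0, ek m) ⟨hp, trivial⟩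

theorem mlt_dlev_comm {f : ℝ × Eu d → ℝ} (hf : CG (Ioi 0) f) (m : Fin d)
    {p : ℝ × Eu d} (hp : 0 < p.1) : dlev (dy m f) p = dy m (dlev f) p :=
  CG.comm isOpen_Ioi hf (0, ek m) (1, 0) ⟨hp, trivial⟩

theorem Pf_dy (hw : CG (Ioi 0) w) {f : ℝ × Eu d → ℝ} (hf : CG (Ioi 0) f) (m : Fin d)
    {p : ℝ × Eu d} (hp : 0 < p.1) :
    Pf w (dy m f) p = dy m (Pf w f) p + ∑ k, F1 w m k p * dy k f p := by
  have hA : CG (Ioi 0) (fun q => -1 * dlev f q) :=
    CG.mul isOpen_Ioi (CG.const isOpen_Ioi (-1)) hf.dlev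
  have hB : CG (Ioi 0) (fun q => (1 / 2 : ℝ) * ∑ k, dy k (dy k f) q) :=
    CG.mul isOpen_Ioi (CG.const isOpen_Ioi (1 / 2))
      (CG.sum isOpen_Ioi Finset.univ fun k _ => (hf.dy k).dy k)
  have hC1 : CG (Ioi 0) (fun q => ∑ k, dy k w q * dy k f q) :=
    CG.sum isOpen_Ioi Finset.univ fun k _ => CG.mul isOpen_Ioi (hw.dy k) (hf.dy k)
  have hC : CG (Ioi 0) (fun q => -1 * ∑ k, dy k w q * dy k f q) :=
    CG.mul isOpen_Ioi (CG.const isOpen_Ioi (-1)) hC1
  have h1 : dy m (Pf w f) p = -1 * dy m (dlev f) p + (1 / 2) * ∑ k, dy m (dy k (dy k f)) p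
      + -1 * ∑ k, (dy m (dy k w) p * dy k f p + dy k w p * dy m (dy k f) p) := by
    rw [mlt_dy_congr (g := Pf w f) (f := fun q => (-1 * dlev f q + (1 / 2 : ℝ) *
      ∑ k, dy k (dy k f) q) + -1 * ∑ k, dy k w q * dy k f q)
      (fun q hq => by simp only [Pf]; ring) m hp]
    rw [mlt_dy_add (CG.add isOpen_Ioi hA hB) hC m hp, mlt_dy_add hA hB m hp,
      mlt_dy_smul, mlt_dy_smul, mlt_dy_smul]
    show -1 * dy m (dlev f) p + (1 / 2) * dy m (fun q => ∑ k, dy k (dy k f) q) p +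
      -1 * dy m (fun q => ∑ k, dy k w q * dy k f q) p = _
    rw [mlt_dy_sum Finset.univ (fun k => (hf.dy k).dy k) m hp,
      mlt_dy_sum Finset.univ (fun k => CG.mul isOpen_Ioi (hw.dy k) (hf.dy k)) m hp]
    have h2 : ∀ k, dy m (fun q => dy k w q * dy k f q) p =
        dy m (dy k w) p * dy k f p + dy k w p * dy m (dy k f) p := fun k =>
      mlt_dy_mul (hw.dy k) (hf.dy k) m hp
    simp only [h2]
  rw [h1]
  show -dlev (dy m f) p + (1 / 2) * ∑ k, dy k (dy k (dy m f)) p - ∑ k, dy k w p * dy k (dy m f) p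
    = _
  have h3 : ∀ k, dy k (dy k (dy m f)) p = dy m (dy k (dy k f)) p := by
    intro k
    rw [mlt_dy_comm (hf.dy k) m k hp]
    exact mlt_dy_congr (fun q hq => mlt_dy_comm hf k m hq) k hp
  have h4 : ∀ k, dy k (dy m f) p = dy m (dy k f) p := fun k => mlt_dy_comm hf k m hp
  have h5 : ∑ k, (dy m (dy k w) p * dy k f p + dy k w p * dy m (dy k f) p) =
      ∑ k, F1 w m k p * dy k f p + ∑ k, dy k w p * dy m (dy k f) p := by
    rw [Finset.sum_add_distrib]
    rfl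
  rw [mlt_dlev_comm hf m hp, h5]
  simp only [h3, h4]
  ring

theorem mlt_mulM_cg {B : MF d K L} {B' : MF d L I} (cB : ∀ k i, CG (Ioi 0) (B k i))
    (cB' : ∀ k i, CG (Ioi 0) (B' k i)) (k : K) (i : I) : CG (Ioi 0) (mulM B B' k i) :=
  CG.sum isOpen_Ioi Finset.univ fun j _ => CG.mul isOpen_Ioi (cB k j) (cB' j i)

theorem dy_mulM (hw : CG (Ioi 0) w) {B : MF d K L} {B' : MF d L I}
    (cB : ∀ k i, CG (Ioi 0) (B k i)) (cB' : ∀ k i, CG (Ioi 0) (B' k i)) (m : Fin d) (k : K) (i : I)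
    {p : ℝ × Eu d} (hp : 0 < p.1) :
    dy m (mulM B B' k i) p = ∑ j, (dy m (B k j) p * B' j i p + B k j p * dy m (B' j i) p) := by
  have h1 : mulM B B' k i = fun q => ∑ j, B k j q * B' j i q := rfl
  rw [h1, mlt_dy_sum Finset.univ (fun j => CG.mul isOpen_Ioi (cB k j) (cB' j i)) m hp]
  exact Finset.sum_congr rfl fun j _ => mlt_dy_mul (cB k j) (cB' j i) m hp

theorem mlt_Pf_sum (hw : CG (Ioi 0) w) {ι : Type} (s : Finset ι) {F : ι → ℝ × Eu d → ℝ}
    (hF : ∀ i, CG (Ioi 0) (F i)) {p : ℝ × Eu d} (hp : 0 < p.1) :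
    Pf w (fun q => ∑ i ∈ s, F i q) p = ∑ i ∈ s, Pf w (F i) p := by
  classical
  induction s using Finset.induction_on with
  | empty =>
    simp only [Finset.sum_empty]
    rw [mlt_Pf_const]
  | insert a s ha ih =>
    simp only [Finset.sum_insert ha]
    rw [mlt_Pf_add (hF a) (CG.sum isOpen_Ioi s fun i _ => hF i) hp, ih]

theorem PM_mulM (hw : CG (Ioi 0) w) {B : MF d K L} {B' : MF d L I}
    (cB : ∀ k i, CG (Ioi 0) (B k i)) (cB' : ∀ k i, CG (Ioi 0) (B' k i)) (k : K) (i : I)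
    {p : ℝ × Eu d} (hp : 0 < p.1) :
    PM w (mulM B B') k i p = mulM (PM w B) B' k i p + mulM B (PM w B') k i p
      + mulM (Din B) (Dout B') k i p := by
  show Pf w (fun q => ∑ j, B k j q * B' j i q) p = ∑ j, Pf w (B k j) p * B' j i p +
    ∑ j, B k j p * Pf w (B' j i) p + ∑ m : Fin d × L, dy m.1 (B k m.2) p * dy m.1 (B' m.2 i) p
  rw [mlt_Pf_sum hw Finset.univ (fun j => CG.mul isOpen_Ioi (cB k j) (cB' j i)) hp]
  rw [Fintype.sum_prod_type, Finset.sum_comm, ← Finset.sum_add_distrib, ← Finset.sum_add_distrib]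
  exact Finset.sum_congr rfl fun j _ => Pf_mul hw (cB k j) (cB' j i) hp

end

section
variable {K I L : Type} [Fintype K] [Fintype I] [Fintype L]

theorem mlt_swap_inj (X Y : Type) : Function.Injective (Prod.swap : X × Y → Y × X) :=
  Prod.swap_injective

theorem mlt_amp_cg {B : MF d K I} (cB : ∀ k i, CG (Ioi 0) (B k i)) (A : Type) [DecidableEq A]
    (k : K × A) (i : I × A) : CG (Ioi 0) (amp B A k i) := by
  by_cases h : k.2 = i.2
  · have h1 : amp B A k i = B k.1 i.1 := by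
      funext p
      simp [amp, h]
    rw [h1]
    exact cB _ _
  · have h1 : amp B A k i = fun _ => 0 := by
      funext p
      simp [amp, h]
    rw [h1]
    exact CG.const isOpen_Ioi 0

theorem mlt_mulM (hw : CG (Ioi 0) w) (hS : S ⊆ Ioi 0) {n : ℕ} {c c' : ℝ} (hc : 0 ≤ c)
    (hc' : 0 ≤ c') : ∀ {K I L : Type} [Fintype K] [Fintype I] [Fintype L] {B : MF d K L}
    {B' : MF d L I}, (∀ k i, CG (Ioi 0) (B k i)) → (∀ k i, CG (Ioi 0) (B' k i)) →
    MBn w S n c B → MBn w S n c' B' → MBn w S n (3 ^ n * (c * c')) (mulM B B') := by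
  have hcc : 0 ≤ c * c' := mul_nonneg hc hc'
  induction n with
  | zero =>
    intro K I L _ _ _ B B' _ _ h h'
    have h1 := opB_mulM hc hc' h h'
    rw [pow_zero, one_mul]
    exact h1
  | succ n ih =>
    intro K I L _ _ _ B B' cB cB' h h'
    have h3 : (0 : ℝ) ≤ 3 ^ n * (c * c') := mul_nonneg (by positivity) hcc
    have h30 : c * c' ≤ 3 ^ (n + 1) * (c * c') := by
      have h4 : (1 : ℝ) ≤ 3 ^ (n + 1) := one_le_pow₀ (by norm_num)
      linarith only [mul_nonneg hcc (sub_nonneg.2 h4)]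
    have h31 : 3 ^ n * (c * c') + 3 ^ n * (c * c') ≤ 3 ^ (n + 1) * (c * c') := by
      rw [pow_succ]
      linarith only [h3]
    have h32 : 3 ^ n * (c * c') + 3 ^ n * (c * c') + 3 ^ n * (c * c') ≤
        3 ^ (n + 1) * (c * c') := by
      rw [pow_succ]
      (refine le_of_not_gt fun hng_ => ?_; linarith only [mul_pos (sub_pos.2 hng_) (sub_pos.2 hng_)])
    refine ⟨opB.mono (opB_mulM hc hc' h.1 h'.1) hcc h30, ?_, ?_, ?_⟩
    · -- `Dout`
      have hE : MBn w S n c (rei Prod.swap Prod.swap (amp B (Fin d))) :=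
        mlt_rei (mlt_amp (Fin d) (mlt_mono_n1 h)) (mlt_swap_inj _ _) (mlt_swap_inj _ _)
      have cE : ∀ k i, CG (Ioi 0) ((rei Prod.swap Prod.swap (amp B (Fin d)) :
          MF d (Fin d × K) (Fin d × L)) k i) := fun k i => mlt_amp_cg cB (Fin d) _ _
      have cD : ∀ k i, CG (Ioi 0) (Dout B k i) := fun k i => (cB k.2 i).dy k.1
      have cD' : ∀ k i, CG (Ioi 0) (Dout B' k i) := fun k i => (cB' k.2 i).dy k.1
      have h1 := ih cD cB' h.2.1 (mlt_mono_n1 h')
      have h2 := ih cE cD' hE h'.2.1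
      have h5 := mlt_addM hw hS h3 h3 (fun k i => mlt_mulM_cg cD cB' k i)
        (fun k i => mlt_mulM_cg cE cD' k i) h1 h2
      refine mlt_mono (add_nonneg h3 h3) h31 (mlt_congr hS h5 fun k i p hp => ?_)
      show dy k.1 (mulM B B' k.2 i) p = ∑ j, dy k.1 (B k.2 j) p * B' j i p +
        ∑ m : Fin d × L, (if k.1 = m.1 then B k.2 m.2 p else 0) * dy m.1 (B' m.2 i) p
      rw [dy_mulM hw cB cB' k.1 k.2 i hp, Finset.sum_add_distrib]
      congr 1
      rw [Fintype.sum_prod_type, Finset.sum_comm]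
      refine Finset.sum_congr rfl fun j _ => ?_
      simp only [ite_mul, zero_mul]
      rw [Finset.sum_ite_eq]
      simp only [Finset.mem_univ, ↓reduceIte]
    · -- `Din`
      have hE : MBn w S n c' (rei Prod.swap Prod.swap (amp B' (Fin d))) :=
        mlt_rei (mlt_amp (Fin d) (mlt_mono_n1 h')) (mlt_swap_inj _ _) (mlt_swap_inj _ _)
      have cE : ∀ k i, CG (Ioi 0) ((rei Prod.swap Prod.swap (amp B' (Fin d)) :
          MF d (Fin d × L) (Fin d × I)) k i) := fun k i => mlt_amp_cg cB' (Fin d) _ _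
      have cD : ∀ k i, CG (Ioi 0) (Din B k i) := fun k i => (cB k i.2).dy i.1
      have cD' : ∀ k i, CG (Ioi 0) (Din B' k i) := fun k i => (cB' k i.2).dy i.1
      have h1 := ih cD cE h.2.2.1 hE
      have h2 := ih cB cD' (mlt_mono_n1 h) h'.2.2.1
      have h5 := mlt_addM hw hS h3 h3 (fun k i => mlt_mulM_cg cD cE k i)
        (fun k i => mlt_mulM_cg cB cD' k i) h1 h2
      refine mlt_mono (add_nonneg h3 h3) h31 (mlt_congr hS h5 fun k i p hp => ?_)
      show dy i.1 (mulM B B' k i.2) p = ∑ m : Fin d × L, dy m.1 (B k m.2) p *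
          (if m.1 = i.1 then B' m.2 i.2 p else 0) + ∑ j, B k j p * dy i.1 (B' j i.2) p
      rw [dy_mulM hw cB cB' i.1 k i.2 hp, Finset.sum_add_distrib]
      congr 1
      rw [Fintype.sum_prod_type, Finset.sum_comm]
      refine Finset.sum_congr rfl fun j _ => ?_
      simp only [mul_ite, mul_zero]
      rw [Finset.sum_ite_eq']
      simp only [Finset.mem_univ, ↓reduceIte]
    · -- `P`
      have cP : ∀ k i, CG (Ioi 0) (PM w B k i) := fun k i => mlt_Pf_cg hw (cB k i)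
      have cP' : ∀ k i, CG (Ioi 0) (PM w B' k i) := fun k i => mlt_Pf_cg hw (cB' k i)
      have cD : ∀ k i, CG (Ioi 0) (Din B k i) := fun k i => (cB k i.2).dy i.1
      have cD' : ∀ k i, CG (Ioi 0) (Dout B' k i) := fun k i => (cB' k.2 i).dy k.1
      have h1 := ih cP cB' h.2.2.2 (mlt_mono_n1 h')
      have h2 := ih cB cP' (mlt_mono_n1 h) h'.2.2.2
      have h4 := ih cD cD' h.2.2.1 h'.2.1
      have h5 := mlt_addM hw hS h3 h3 (fun k i => mlt_mulM_cg cP cB' k i)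
        (fun k i => mlt_mulM_cg cB cP' k i) h1 h2
      have h6 := mlt_addM hw hS (add_nonneg h3 h3) h3
        (fun k i => CG.add isOpen_Ioi (mlt_mulM_cg cP cB' k i) (mlt_mulM_cg cB cP' k i))
        (fun k i => mlt_mulM_cg cD cD' k i) h5 h4
      exact mlt_mono (add_nonneg (add_nonneg h3 h3) h3) h32 (mlt_congr hS h6 fun k i p hp =>
        PM_mulM hw cB cB' k i hp)

end

section
variable {K I L : Type} [Fintype K] [Fintype I] [Fintype L]

theorem MBn_mulM (hw : CG (Ioi 0) w) (hS : S ⊆ Ioi 0) {n : ℕ} {c c' : ℝ} (hc : 0 ≤ c)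
    (hc' : 0 ≤ c') {B : MF d K L} {B' : MF d L I} (cB : ∀ k i, CG (Ioi 0) (B k i))
    (cB' : ∀ k i, CG (Ioi 0) (B' k i)) (h : MBn w S n c B) (h' : MBn w S n c' B') :
    MBn w S n (3 ^ n * (c * c')) (mulM B B') := mlt_mulM hw hS hc hc' cB cB' h h'

theorem MBn_addM (hw : CG (Ioi 0) w) (hS : S ⊆ Ioi 0) {n : ℕ} {c c' : ℝ} (hc : 0 ≤ c)
    (hc' : 0 ≤ c') {B B' : MF d K I} (cB : ∀ k i, CG (Ioi 0) (B k i))
    (cB' : ∀ k i, CG (Ioi 0) (B' k i)) (h : MBn w S n c B) (h' : MBn w S n c' B') :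
    MBn w S n (c + c') (addM B B') := mlt_addM hw hS hc hc' cB cB' h h'

theorem MBn_smM (hS : S ⊆ Ioi 0) {n : ℕ} {c a : ℝ} {B : MF d K I}
    (cB : ∀ k i, CG (Ioi 0) (B k i)) (h : MBn w S n c B) : MBn w S n (|a| * c) (smM a B) :=
  mlt_smM h

theorem MBn_amp (hw : CG (Ioi 0) w) (hS : S ⊆ Ioi 0) {n : ℕ} {c : ℝ} {B : MF d K I}
    (cB : ∀ k i, CG (Ioi 0) (B k i)) (h : MBn w S n c B) (A : Type) [Fintype A] [DecidableEq A] :
    MBn w S n c (amp B A) := mlt_amp A h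

theorem MBn_rei (hw : CG (Ioi 0) w) (hS : S ⊆ Ioi 0) {n : ℕ} {c : ℝ} {B : MF d K I}
    (cB : ∀ k i, CG (Ioi 0) (B k i)) (h : MBn w S n c B) {K' I' : Type} [Fintype K'] [Fintype I']
    {e : K' → K} {f : I' → I} (he : Function.Injective e) (hf : Function.Injective f) :
    MBn w S n c (rei e f B) := mlt_rei h he hf

end

end Vale.Agent.P347.Z
end

section
attribute [-instance] ProperSMul.toContinuousSMul IsTopologicalTorsor.toContinuousSMul IdemSemiring.toCanonicallyOrderedAdd IdemSemiring.toMulLeftMono IdemSemiring.toMulRightMono AddQuantale.instAddLeftMono AddQuantale.instAddRightMono Quantale.instMulLeftMono Quantale.instMulRightMono FiniteDimensional.rclike_to_real IsScalarTower.complexToReal FiniteDimensional.complexToReal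

/-! Euler scheme: telescoping and convergence (task E2). -/

open Set Module MeasureTheory Metric Filter Topology
open scoped ENNReal NNReal

namespace Vale.Agent.P347.Z

namespace Tr

variable {W : Type} [NormedAddCommGroup W] [NormedSpace ℝ W]

/-- pull back of a test function along the last `k` of `n` Euler steps -/
def back (X : ℝ × W → W) (h : ℝ) (n : ℕ) (f : W → ℝ) : ℕ → W → ℝ
  | 0 => f
  | k + 1 => fun z => back X h n f k (z + h • X (((n : ℝ) - (k + 1)) * h, z))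

/-- forward Euler iterates -/
def eul (X : ℝ × W → W) (h : ℝ) (z : W) : ℕ → W
  | 0 => z
  | j + 1 => eul X h z j + h • X ((j : ℝ) * h, eul X h z j)

lemma back_eul (X : ℝ × W → W) (h : ℝ) (n : ℕ) (f : W → ℝ) (z : W) :
    ∀ k, k ≤ n → back X h n f k (eul X h z (n - k)) = f (eul X h z n)
  | 0, _ => rfl
  | k + 1, hk => by
    have ih := back_eul X h n f z k (by omega)
    rw [← ih]
    have e : n - k = (n - (k + 1)) + 1 := by omega
    rw [e]
    simp only [back, eul]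
    have : ((n - (k + 1) : ℕ) : ℝ) = (n : ℝ) - (k + 1) := by
      rw [Nat.cast_sub hk]; push_cast; ring
    rw [this]

lemma exp_lower {x : ℝ} (h0 : 0 ≤ x) (h1 : x ≤ 1 / 2) : 1 ≤ (1 - x) * Real.exp (2 * x) := by
  have h2 : 2 * x + 1 ≤ Real.exp (2 * x) := Real.add_one_le_exp _
  have h3 : 0 ≤ 1 - x := by linarith only [h1]
  linarith only [mul_nonneg (sub_nonneg.2 h2) h3, mul_nonneg h0 (sub_nonneg.2 h1)]

section

variable {T : ℝ} {X : ℝ × W → W} {C : ℝ}
    (hC : ∀ t ∈ Icc 0 T, ∀ z, ‖X (t, z)‖ ≤ C * (1 + ‖z‖))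

include hC

lemma back_supp (hC0 : 0 ≤ C) {h : ℝ} (hh : 0 < h) (hhC : h * C ≤ 1 / 2) {n : ℕ}
    (hn : (n : ℝ) * h ≤ T) {f : W → ℝ} {a : ℝ} (hf0 : ∀ z, a < ‖z‖ → f z = 0) :
    ∀ k, k ≤ n → ∀ z, back X h n f k z ≠ 0 → 1 + ‖z‖ ≤ (1 + a) * Real.exp (2 * (h * C) * k)
  | 0, _, z, hz => by
    by_contra hcon
    apply hz
    apply hf0
    simp only [CharP.cast_eq_zero, mul_zero, Real.exp_zero, mul_one, add_le_add_iff_left, not_le] at hcon
    linarith only [hcon]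
  | k + 1, hk, z, hz => by
    have ih := back_supp hC0 hh hhC hn hf0 k (by omega) _ hz
    set t : ℝ := ((n : ℝ) - (k + 1)) * h with ht
    have hkn : ((k : ℝ) + 1) ≤ n := by exact_mod_cast hk
    have htI : t ∈ Icc 0 T := by
      refine ⟨by rw [ht]; exact mul_nonneg (by linarith only [hkn]) hh.le, ?_⟩
      rw [ht]
      have : ((n : ℝ) - (k + 1)) * h ≤ n * h := by
        have : (0 : ℝ) ≤ k := Nat.cast_nonneg k
        gcongr; linarith only []
      linarith only [this, hn]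
    have h1 : (1 - h * C) * (1 + ‖z‖) ≤ 1 + ‖z + h • X (t, z)‖ := by
      have h2 : ‖z‖ ≤ ‖z + h • X (t, z)‖ + h * ‖X (t, z)‖ := by
        calc ‖z‖ = ‖(z + h • X (t, z)) - h • X (t, z)‖ := by congr 1; abel
          _ ≤ ‖z + h • X (t, z)‖ + ‖h • X (t, z)‖ := norm_sub_le _ _
          _ = _ := by rw [norm_smul, Real.norm_eq_abs, abs_of_pos hh]
      have h3 : h * ‖X (t, z)‖ ≤ h * (C * (1 + ‖z‖)) := by gcongr; exact hC t htI z
      linarith only [h2, h3]
    have h4 := exp_lower (mul_nonneg hh.le hC0) hhC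
    have hz0 : 0 ≤ 1 + ‖z‖ := by (clear * -; positivity)
    calc 1 + ‖z‖ ≤ ((1 - h * C) * Real.exp (2 * (h * C))) * (1 + ‖z‖) := by linarith only [mul_nonneg (sub_nonneg.2 h4) hz0]
      _ = Real.exp (2 * (h * C)) * ((1 - h * C) * (1 + ‖z‖)) := by ring
      _ ≤ Real.exp (2 * (h * C)) * ((1 + a) * Real.exp (2 * (h * C) * k)) :=
          mul_le_mul_of_nonneg_left (h1.trans ih) (Real.exp_pos _).le
      _ = (1 + a) * Real.exp (2 * (h * C) * (k + 1 : ℕ)) := by
          have : 2 * (h * C) * ((k + 1 : ℕ) : ℝ) = 2 * (h * C) + 2 * (h * C) * k := by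
            push_cast; ring
          rw [this, Real.exp_add]; ring

omit hC in
lemma back_bound {h : ℝ} {n : ℕ} {f : W → ℝ} {M : ℝ} (hM : ∀ z, |f z| ≤ M) :
    ∀ k z, |back X h n f k z| ≤ M
  | 0, z => hM z
  | k + 1, _ => back_bound hM k _

lemma eul_bound (hC0 : 0 ≤ C) {h : ℝ} (hh : 0 < h) (z : W) :
    ∀ j : ℕ, (j : ℝ) * h ≤ T → 1 + ‖eul X h z j‖ ≤ (1 + ‖z‖) * Real.exp (C * (j * h))
  | 0, _ => by simp [eul]
  | j + 1, hj => by
    have hj' : (j : ℝ) * h ≤ T := by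
      push_cast at hj
      nlinarith only [hh, hj]
    have ih := eul_bound hC0 hh z j hj'
    have htI : (j : ℝ) * h ∈ Icc 0 T := ⟨by (clear * - hh; positivity), hj'⟩
    have h1 : ‖eul X h z (j + 1)‖ ≤ ‖eul X h z j‖ + h * (C * (1 + ‖eul X h z j‖)) := by
      simp only [eul]
      refine (norm_add_le _ _).trans ?_
      rw [norm_smul, Real.norm_eq_abs, abs_of_pos hh]
      gcongr
      exact hC _ htI _
    have h2 : C * h + 1 ≤ Real.exp (C * h) := Real.add_one_le_exp _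
    have h0 : 0 ≤ 1 + ‖eul X h z j‖ := by (clear * -; positivity)
    calc 1 + ‖eul X h z (j + 1)‖ ≤ (C * h + 1) * (1 + ‖eul X h z j‖) := by linarith only [h1]
      _ ≤ Real.exp (C * h) * ((1 + ‖z‖) * Real.exp (C * (j * h))) := by (clear * - h2 ih; (clear * - h2 ih; gcongr))
      _ = (1 + ‖z‖) * Real.exp (C * (((j + 1 : ℕ) : ℝ) * h)) := by
        have : C * (((j + 1 : ℕ) : ℝ) * h) = C * h + C * (j * h) := by push_cast; ring
        rw [this, Real.exp_add]; ring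

/-- convergence of the Euler scheme -/
lemma eul_tendsto {J : Set ℝ} (hJ : IsOpen J) (hT : 0 < T) (hTJ : Icc 0 T ⊆ J)
    [FiniteDimensional ℝ W]
    (hX : ContDiffOn ℝ 1 X (J ×ˢ univ)) {γ : ℝ → W}
    (hγ : ∀ t ∈ Icc 0 T, HasDerivWithinAt γ (X (t, γ t)) (Icc 0 T) t) :
    Tendsto (fun n : ℕ => eul X (T / n) (γ 0) n) atTop (𝓝 (γ T)) := by
  have hOo : IsOpen (J ×ˢ (univ : Set W)) := hJ.prod isOpen_univ
  have hC0 : 0 ≤ C := by
    have := (norm_nonneg _).trans (hC 0 ⟨le_rfl, hT.le⟩ 0)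
    simpa only [ge_iff_le, norm_zero, add_zero, mul_one] using this
  have hγc : ContinuousOn γ (Icc 0 T) := fun t ht => (hγ t ht).continuousWithinAt
  obtain ⟨r₁, hr₁⟩ := isCompact_Icc.exists_bound_of_continuousOn hγc
  obtain ⟨r, hr⟩ : ∃ r, r = max r₁ ((1 + ‖γ 0‖) * Real.exp (C * T)) := ⟨_, rfl⟩
  have hK : IsCompact (Icc 0 T ×ˢ closedBall (0 : W) r) :=
    isCompact_Icc.prod (isCompact_closedBall _ _)
  have hKc : Convex ℝ (Icc 0 T ×ˢ closedBall (0 : W) r) :=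
    (convex_Icc _ _).prod (convex_closedBall _ _)
  have hKO : Icc 0 T ×ˢ closedBall (0 : W) r ⊆ J ×ˢ (univ : Set W) :=
    prod_mono hTJ (subset_univ _)
  obtain ⟨L, hL, hLip⟩ := c1_lip hOo hX hK hKc hKO
  have hgc : ContinuousOn (fun s => X (s, γ s)) (Icc 0 T) :=
    hX.continuousOn.comp (continuousOn_id.prodMk hγc) (fun s hs => ⟨hTJ hs, mem_univ _⟩)
  have hgu := isCompact_Icc.uniformContinuousOn_of_continuous hgc
  rw [Metric.uniformContinuousOn_iff] at hgu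
  rw [Metric.tendsto_atTop]
  intro η hη
  obtain ⟨ω, hω, hωη⟩ : ∃ ω > 0, T * ω * Real.exp (L * T) < η := by
    refine ⟨η / (2 * T * Real.exp (L * T)), by (clear * - hη hT; positivity), ?_⟩
    have : T * (η / (2 * T * Real.exp (L * T))) * Real.exp (L * T) = η / 2 := by
      (clear * - hT hη; field_simp)
    rw [this]; linarith only [hη]
  obtain ⟨δ, hδ, Hδ⟩ := hgu ω hω
  obtain ⟨N, hN⟩ := exists_nat_gt (T / δ)
  refine ⟨max N 1, fun n hn => ?_⟩
  have hn1 : 1 ≤ n := (le_max_right _ _).trans hn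
  have hn0 : (0 : ℝ) < n := by exact_mod_cast hn1
  set h : ℝ := T / n with hh
  have hh0 : 0 < h := by (clear * - hT hn1; (clear * - hT hn1; positivity))
  have hnh : (n : ℝ) * h = T := by rw [hh]; (clear * - hn1 hT; field_simp)
  have hhδ : h < δ := by
    rw [hh, div_lt_iff₀ hn0]
    have : (N : ℝ) ≤ n := by exact_mod_cast (le_max_left _ _).trans hn
    rw [div_lt_iff₀ hδ] at hN
    nlinarith only [this, hT, hN, hn0]
  have hmain : ∀ j : ℕ, j ≤ n → ‖eul X h (γ 0) j - γ (j * h)‖ ≤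
      (j * h) * ω * Real.exp (L * (j * h)) := by
    intro j
    induction j with
    | zero => intro _; simp [eul]
    | succ j ih =>
      intro hj
      have ih := ih (by omega)
      have hjn : ((j : ℝ) + 1) ≤ n := by exact_mod_cast hj
      have ht0 : (0 : ℝ) ≤ j * h := by (clear * - hT hn1; (clear * - hT hn1; positivity))
      have ht1 : ((j : ℝ) + 1) * h ≤ T := by rw [← hnh]; (clear * - hjn hT hn1; gcongr)
      have hle : (j : ℝ) * h ≤ (j + 1) * h := by gcongr; linarith only []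
      have htI : (j : ℝ) * h ∈ Icc 0 T := ⟨ht0, hle.trans ht1⟩
      have htI' : ((j : ℝ) + 1) * h ∈ Icc 0 T := ⟨ht0.trans hle, ht1⟩
      have hsub : Icc ((j : ℝ) * h) ((j + 1) * h) ⊆ Icc 0 T := Icc_subset_Icc ht0 ht1
      -- local error
      have hloc : ‖γ ((j + 1) * h) - γ (j * h) - h • X (j * h, γ (j * h))‖ ≤ ω * h := by
        have hd : ∀ s ∈ Icc ((j : ℝ) * h) ((j + 1) * h),
            HasDerivWithinAt (fun s => γ s - s • X (j * h, γ (j * h)))
              (X (s, γ s) - X (j * h, γ (j * h))) (Icc ((j : ℝ) * h) ((j + 1) * h)) s := by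
          intro s hs
          have h1 := (hγ s (hsub hs)).mono hsub
          have h2 : HasDerivWithinAt (fun s : ℝ => s • X (j * h, γ (j * h)))
              (X (j * h, γ (j * h))) (Icc ((j : ℝ) * h) ((j + 1) * h)) s := by
            simpa only [id_eq, one_smul] using (hasDerivAt_id s).hasDerivWithinAt.smul_const (X (j * h, γ (j * h)))
          exact h1.sub h2
        have hb : ∀ s ∈ Icc ((j : ℝ) * h) ((j + 1) * h),
            ‖X (s, γ s) - X (j * h, γ (j * h))‖ ≤ ω := by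
          intro s hs
          have h1 : dist s ((j : ℝ) * h) < δ := by
            rw [Real.dist_eq, abs_of_nonneg (by linarith only [hs.1])]
            have := hs.2
            linarith only [this, hhδ]
          have := Hδ s (hsub hs) _ htI h1
          rw [dist_eq_norm] at this
          exact this.le
        have := (convex_Icc ((j : ℝ) * h) ((j + 1) * h)).norm_image_sub_le_of_norm_hasDerivWithin_le
          hd hb (left_mem_Icc.2 hle) (right_mem_Icc.2 hle)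
        have e1 : γ ((j + 1) * h) - ((j + 1) * h) • X (j * h, γ (j * h)) -
            (γ (j * h) - (j * h) • X (j * h, γ (j * h))) =
            γ ((j + 1) * h) - γ (j * h) - h • X (j * h, γ (j * h)) := by
          module
        rw [e1] at this
        have e2 : ‖((j : ℝ) + 1) * h - j * h‖ = h := by
          have : ((j : ℝ) + 1) * h - j * h = h := by ring
          rw [this, Real.norm_eq_abs, abs_of_pos hh0]
        rw [e2] at this
        exact this
      have hmemγ : γ (j * h) ∈ closedBall (0 : W) r := by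
        rw [mem_closedBall_zero_iff, hr]
        exact (hr₁ _ htI).trans (le_max_left _ _)
      have hmeme : eul X h (γ 0) j ∈ closedBall (0 : W) r := by
        rw [mem_closedBall_zero_iff, hr]
        have h1 := eul_bound hC hC0 hh0 (γ 0) j htI.2
        have h2 : (1 + ‖γ 0‖) * Real.exp (C * (j * h)) ≤ (1 + ‖γ 0‖) * Real.exp (C * T) := by
          gcongr; exact htI.2
        exact le_trans (by linarith only [h2, h1]) (le_max_right _ _)
      have hlip : ‖X (j * h, eul X h (γ 0) j) - X (j * h, γ (j * h))‖ ≤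
          L * ‖eul X h (γ 0) j - γ (j * h)‖ := by
        have := hLip ((j : ℝ) * h, γ (j * h)) ⟨htI, hmemγ⟩
          ((j : ℝ) * h, eul X h (γ 0) j) ⟨htI, hmeme⟩
        have e : ‖((j : ℝ) * h, eul X h (γ 0) j) - ((j : ℝ) * h, γ (j * h))‖ =
            ‖eul X h (γ 0) j - γ (j * h)‖ := by
          rw [Prod.mk_sub_mk, sub_self, Prod.norm_def]
          simp only [norm_zero, norm_nonneg, sup_of_le_right]
        rwa [e] at this
      have hrec : ‖eul X h (γ 0) (j + 1) - γ (((j + 1 : ℕ) : ℝ) * h)‖ ≤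
          (L * h + 1) * ‖eul X h (γ 0) j - γ (j * h)‖ + ω * h := by
        have e0 : (((j + 1 : ℕ) : ℝ) * h) = ((j : ℝ) + 1) * h := by push_cast; ring
        rw [e0]
        have e1 : eul X h (γ 0) (j + 1) - γ ((j + 1) * h) =
            (eul X h (γ 0) j - γ (j * h)) +
              h • (X (j * h, eul X h (γ 0) j) - X (j * h, γ (j * h))) -
              (γ ((j + 1) * h) - γ (j * h) - h • X (j * h, γ (j * h))) := by
          simp only [eul]
          module
        rw [e1]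
        refine (norm_sub_le _ _).trans ?_
        refine add_le_add ?_ hloc
        refine (norm_add_le _ _).trans ?_
        rw [norm_smul, Real.norm_eq_abs, abs_of_pos hh0]
        have : h * ‖X (j * h, eul X h (γ 0) j) - X (j * h, γ (j * h))‖ ≤
            h * (L * ‖eul X h (γ 0) j - γ (j * h)‖) := by (clear * - hlip hT hn1; gcongr)
        linarith only [this]
      have hexp : L * h + 1 ≤ Real.exp (L * h) := Real.add_one_le_exp _
      have hLh : 0 ≤ L * h := by (clear * - hL hT hn1; positivity)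
      have hE1 : 1 ≤ Real.exp (L * (((j + 1 : ℕ) : ℝ) * h)) := Real.one_le_exp (by (clear * - hL hT hn1; (clear * - hL hT hn1; positivity)))
      have hE2 : Real.exp (L * (((j + 1 : ℕ) : ℝ) * h)) =
          Real.exp (L * h) * Real.exp (L * (j * h)) := by
        rw [← Real.exp_add]; congr 1; push_cast; ring
      calc ‖eul X h (γ 0) (j + 1) - γ (((j + 1 : ℕ) : ℝ) * h)‖
          ≤ (L * h + 1) * ‖eul X h (γ 0) j - γ (j * h)‖ + ω * h := hrec
        _ ≤ Real.exp (L * h) * ((j * h) * ω * Real.exp (L * (j * h))) + ω * h := by (clear * - hexp ih; gcongr)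
        _ = (j * h) * ω * Real.exp (L * (((j + 1 : ℕ) : ℝ) * h)) + ω * h * 1 := by
            rw [hE2]; ring
        _ ≤ (j * h) * ω * Real.exp (L * (((j + 1 : ℕ) : ℝ) * h)) +
              ω * h * Real.exp (L * (((j + 1 : ℕ) : ℝ) * h)) := by (clear * - hE1 hω hT hn1; gcongr)
        _ = (((j + 1 : ℕ) : ℝ) * h) * ω * Real.exp (L * (((j + 1 : ℕ) : ℝ) * h)) := by
            push_cast; ring
  have := hmain n le_rfl
  rw [hnh] at this
  rw [dist_eq_norm]
  exact this.trans_lt hωη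

end

end Tr

end Vale.Agent.P347.Z
end

section

/-! Telescoping and the transport theorem for test functions (task E2). -/

open Set Module MeasureTheory Metric Filter Topology
open scoped ENNReal NNReal

namespace Vale.Agent.P347.Z

namespace Tr

variable {W : Type} [NormedAddCommGroup W] [NormedSpace ℝ W] [FiniteDimensional ℝ W]
  [MeasurableSpace W] [BorelSpace W]

omit [FiniteDimensional ℝ W] [MeasurableSpace W] [BorelSpace W] in
lemma time_mem {T h : ℝ} {n k : ℕ} (hh : 0 < h) (hn : (n : ℝ) * h ≤ T) (hk : k + 1 ≤ n) :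
    0 ≤ ((n : ℝ) - (k + 1)) * h ∧ ((n : ℝ) - (k + 1)) * h + h ≤ T := by
  have hkn : ((k : ℝ) + 1) ≤ n := by exact_mod_cast hk
  refine ⟨mul_nonneg (by linarith only [hkn]) hh.le, ?_⟩
  have : ((n : ℝ) - (k + 1)) * h + h = n * h - k * h := by ring
  rw [this]
  have : 0 ≤ (k : ℝ) * h := by (clear * - hh; positivity)
  linarith only [this, hn]

section

variable {J : Set ℝ} {T : ℝ} (hTJ : Icc 0 T ⊆ J) {X : ℝ × W → W}
    (hX : ContDiffOn ℝ 1 X (J ×ˢ univ))

include hTJ hX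

omit [FiniteDimensional ℝ W] in
lemma back_meas {h : ℝ} (hh : 0 < h) {n : ℕ} (hn : (n : ℝ) * h ≤ T) {f : W → ℝ}
    (hf : Measurable f) [SecondCountableTopology W] :
    ∀ k, k ≤ n → Measurable (back X h n f k)
  | 0, _ => hf
  | k + 1, hk => by
    have ih := back_meas hh hn hf k (by omega)
    obtain ⟨h1, h2⟩ := time_mem (T := T) hh hn hk
    have hc : Continuous fun z : W => X (((n : ℝ) - (k + 1)) * h, z) :=
      cont_slice hX.continuousOn (hTJ ⟨h1, by linarith only [h2, hh]⟩)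
    have hc2 : Continuous fun z : W => z + h • X (((n : ℝ) - (k + 1)) * h, z) :=
      continuous_id.add (hc.const_smul h)
    exact ih.comp hc2.measurable

omit [FiniteDimensional ℝ W] [MeasurableSpace W] [BorelSpace W] in
lemma eul_cont {h : ℝ} (hh : 0 < h) : ∀ j : ℕ, (j : ℝ) * h ≤ T →
    Continuous fun z => eul X h z j
  | 0, _ => continuous_id
  | j + 1, hj => by
    have hj' : (j : ℝ) * h ≤ T := by
      push_cast at hj
      nlinarith only [hh, hj]
    have ih := eul_cont hh j hj'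
    have hc : Continuous fun z : W => X ((j : ℝ) * h, z) :=
      cont_slice hX.continuousOn (hTJ ⟨by (clear * - hh; positivity), hj'⟩)
    exact ih.add ((hc.comp ih).const_smul h)

end

variable (μ : Measure W) [μ.IsAddHaarMeasure] {ι : Type} [Fintype ι] (b : Basis ι ℝ W)
    {J : Set ℝ} (hJ : IsOpen J) {T : ℝ} (hTJ : Icc 0 T ⊆ J) {X : ℝ × W → W}
    (hX : ContDiffOn ℝ 1 X (J ×ˢ univ)) {C : ℝ}
    (hC : ∀ t ∈ Icc 0 T, ∀ z, ‖X (t, z)‖ ≤ C * (1 + ‖z‖))
    {ρ : ℝ × W → ℝ} (hρ : ContDiffOn ℝ 1 ρ (J ×ˢ univ))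

include hJ hTJ hX hC hρ

/-- telescoping over all Euler steps -/
lemma telescope (hT : 0 < T)
    (hce : ∀ t ∈ Icc 0 T, ∀ z, fderiv ℝ ρ (t, z) (1, 0) + fderiv ℝ ρ (t, z) (0, X (t, z))
      + ρ (t, z) * ∑ i, b.repr (fderiv ℝ X (t, z) (0, b i)) i = 0)
    {f : W → ℝ} (hf : Measurable f) {M a : ℝ} (hM : ∀ z, |f z| ≤ M)
    (ha : 0 ≤ a) (hf0 : ∀ z, a < ‖z‖ → f z = 0) (ε : ℝ) (hε : 0 < ε) :
    ∃ N : ℕ, ∀ n : ℕ, N ≤ n →
      |∫ z, f (eul X (T / n) z n) * ρ (0, z) ∂μ - ∫ y, f y * ρ (T, y) ∂μ| ≤ M * (ε * T) := by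
  have hC0 : 0 ≤ C := by
    have := (norm_nonneg _).trans (hC 0 ⟨le_rfl, hT.le⟩ 0)
    simpa only [ge_iff_le, norm_zero, add_zero, mul_one] using this
  obtain ⟨B, hB⟩ : ∃ B, B = (1 + a) * Real.exp (2 * C * T) := ⟨_, rfl⟩
  have hB0 : 0 ≤ B := by rw [hB]; (clear * - ha; positivity)
  obtain ⟨h₀, hh₀, H⟩ := one_step μ b hJ hT.le hTJ hX hC hρ hce B hB0 ε hε
  obtain ⟨N, hN⟩ := exists_nat_gt (T / min h₀ (1 / (2 * (C + 1))))
  refine ⟨max N 1, fun n hn => ?_⟩
  have hn1 : 1 ≤ n := (le_max_right _ _).trans hn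
  have hn0 : (0 : ℝ) < n := by exact_mod_cast hn1
  obtain ⟨h, hh⟩ : ∃ h : ℝ, h = T / n := ⟨_, rfl⟩
  rw [← hh]
  have hh0 : 0 < h := by rw [hh]; (clear * - hT hn1; positivity)
  have hnh : (n : ℝ) * h = T := by rw [hh]; field_simp
  have hhm : h ≤ min h₀ (1 / (2 * (C + 1))) := by
    have h1 : 0 < min h₀ (1 / (2 * (C + 1))) := lt_min hh₀ (by (clear * - hC0; positivity))
    rw [hh, div_le_iff₀ hn0]
    have : (N : ℝ) ≤ n := by exact_mod_cast (le_max_left _ _).trans hn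
    rw [div_lt_iff₀ h1] at hN
    nlinarith only [this, hT, hN, hn0]
  have hhh₀ : h ≤ h₀ := hhm.trans (min_le_left _ _)
  have hhC : h * C ≤ 1 / 2 := by
    have := hhm.trans (min_le_right _ _)
    rw [le_div_iff₀ (by (clear * - hC0; positivity))] at this
    linarith only [hh0, this]
  have hM0 : 0 ≤ M := (abs_nonneg _).trans (hM 0)
  have key : ∀ k : ℕ, k ≤ n →
      |∫ z, back X h n f k z * ρ (((n : ℝ) - k) * h, z) ∂μ - ∫ y, f y * ρ (T, y) ∂μ| ≤
        k * (M * (ε * h)) := by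
    intro k
    induction k with
    | zero =>
      intro _
      simp only [back, Nat.cast_zero, sub_zero, hnh]
      simp
    | succ k ih =>
      intro hk
      have ih := ih (by omega)
      obtain ⟨t1, t2⟩ := time_mem (T := T) hh0 hnh.le hk
      have hsupp : ∀ z, B < ‖z‖ → back X h n f k z = 0 := by
        intro z hz
        by_contra hne
        have h1 := back_supp hC hC0 hh0 hhC hnh.le hf0 k (by omega) z hne
        have h2 : 2 * (h * C) * k ≤ 2 * C * T := by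
          have : (k : ℝ) ≤ n := by exact_mod_cast (by omega : k ≤ n)
          have h3 : (k : ℝ) * h ≤ T := by rw [← hnh]; (clear * - this hh0; gcongr)
          nlinarith only [hC0, h3]
        have h3 : (1 + a) * Real.exp (2 * (h * C) * k) ≤ B := by
          rw [hB]; (clear * - h2 ha; gcongr)
        linarith only [h3, hz, h1]
      have hstep := H h hh0 hhh₀ _ t1 t2 (back X h n f k)
        (back_meas hTJ hX hh0 hnh.le hf k (by omega)) M (back_bound hM k) hsupp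
      have e1 : ((n : ℝ) - (k + 1)) * h + h = ((n : ℝ) - k) * h := by ring
      rw [e1] at hstep
      have e2 : ∀ z, back X h n f (k + 1) z =
          back X h n f k (z + h • X (((n : ℝ) - (k + 1)) * h, z)) := fun z => rfl
      have e3 : ((n : ℝ) - ((k + 1 : ℕ) : ℝ)) * h = ((n : ℝ) - (k + 1)) * h := by push_cast; ring
      rw [e3]
      simp only [e2]
      calc _ ≤ |∫ z, back X h n f k (z + h • X (((n : ℝ) - (k + 1)) * h, z)) *
              ρ (((n : ℝ) - (k + 1)) * h, z) ∂μ -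
              ∫ z, back X h n f k z * ρ (((n : ℝ) - k) * h, z) ∂μ| +
            |∫ z, back X h n f k z * ρ (((n : ℝ) - k) * h, z) ∂μ - ∫ y, f y * ρ (T, y) ∂μ| :=
            abs_sub_le _ _ _
        _ ≤ M * (ε * h) + k * (M * (ε * h)) := add_le_add hstep ih
        _ = ((k + 1 : ℕ) : ℝ) * (M * (ε * h)) := by push_cast; ring
  have hfin := key n le_rfl
  have e0 : ((n : ℝ) - n) * h = 0 := by ring
  rw [e0] at hfin
  have e4 : ∀ z, back X h n f n z = f (eul X h z n) := by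
    intro z
    have := back_eul X h n f z n le_rfl
    rw [Nat.sub_self] at this
    exact this
  simp only [e4] at hfin
  have e5 : (n : ℝ) * (M * (ε * h)) = M * (ε * T) := by rw [← hnh]; ring
  rw [e5] at hfin
  exact hfin

/-- the transport theorem for test functions -/
lemma test_transport (hT : 0 < T)
    (hce : ∀ t ∈ Icc 0 T, ∀ z, fderiv ℝ ρ (t, z) (1, 0) + fderiv ℝ ρ (t, z) (0, X (t, z))
      + ρ (t, z) * ∑ i, b.repr (fderiv ℝ X (t, z) (0, b i)) i = 0)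
    (hρi : Integrable (fun z => ρ (0, z)) μ)
    {Φ : ℝ → W → W} (hΦ0 : ∀ z, Φ 0 z = z)
    (hΦ : ∀ z, ∀ t ∈ Icc 0 T, HasDerivWithinAt (fun t => Φ t z) (X (t, Φ t z)) (Icc 0 T) t)
    {f : W → ℝ} (hf : Continuous f) {M a : ℝ} (hM : ∀ z, |f z| ≤ M)
    (ha : 0 ≤ a) (hf0 : ∀ z, a < ‖z‖ → f z = 0) :
    ∫ z, f (Φ T z) * ρ (0, z) ∂μ = ∫ y, f y * ρ (T, y) ∂μ := by
  have hM0 : 0 ≤ M := (abs_nonneg _).trans (hM 0)
  have hlim : Tendsto (fun n : ℕ => ∫ z, f (eul X (T / n) z n) * ρ (0, z) ∂μ) atTop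
      (𝓝 (∫ z, f (Φ T z) * ρ (0, z) ∂μ)) := by
    apply tendsto_integral_filter_of_dominated_convergence (fun z => M * ‖ρ (0, z)‖)
    · filter_upwards [eventually_ge_atTop 1] with n hn
      have hn0 : (0 : ℝ) < n := by exact_mod_cast hn
      have hc : Continuous fun z => eul X (T / n) z n :=
        eul_cont hTJ hX (by (clear * - hT hn; positivity)) n (by field_simp; rfl)
      have hr : Continuous fun z : W => ρ (0, z) :=
        cont_slice hρ.continuousOn (hTJ ⟨le_rfl, hT.le⟩)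
      exact ((hf.comp hc).mul hr).aestronglyMeasurable
    · refine Eventually.of_forall fun n => Eventually.of_forall fun z => ?_
      rw [norm_mul]
      gcongr
      exact hM _
    · exact hρi.norm.const_mul M
    · refine Eventually.of_forall fun z => ?_
      have h1 := eul_tendsto (C := C) hC hJ hT hTJ hX (γ := fun t => Φ t z) (hΦ z)
      simp only [hΦ0] at h1
      exact ((hf.tendsto _).comp h1).mul_const _
  have hle : ∀ ε > 0, |∫ z, f (Φ T z) * ρ (0, z) ∂μ - ∫ y, f y * ρ (T, y) ∂μ| ≤ M * (ε * T) := by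
    intro ε hε
    obtain ⟨N, hN⟩ := telescope μ b hJ hTJ hX hC hρ hT hce hf.measurable hM ha hf0 ε hε
    have h1 : Tendsto (fun n : ℕ => |∫ z, f (eul X (T / n) z n) * ρ (0, z) ∂μ -
        ∫ y, f y * ρ (T, y) ∂μ|) atTop
        (𝓝 |∫ z, f (Φ T z) * ρ (0, z) ∂μ - ∫ y, f y * ρ (T, y) ∂μ|) :=
      (hlim.sub_const _).abs
    exact le_of_tendsto h1 (eventually_atTop.2 ⟨N, hN⟩)
  have hzero : |∫ z, f (Φ T z) * ρ (0, z) ∂μ - ∫ y, f y * ρ (T, y) ∂μ| ≤ 0 := by
    apply le_of_forall_pos_le_add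
    intro η hη
    have := hle (η / (M * T + 1)) (by (clear * - hη hM0 hT; positivity))
    refine this.trans ?_
    rw [zero_add]
    have h1 : M * (η / (M * T + 1) * T) = η * (M * T / (M * T + 1)) := by ring
    rw [h1]
    have h2 : M * T / (M * T + 1) ≤ 1 := by
      rw [div_le_one (by (clear * - hM0 hT; positivity))]; linarith only []
    linarith only [mul_nonneg (le_of_lt hη) (sub_nonneg.2 h2)]
  exact sub_eq_zero.1 (abs_nonpos_iff.1 hzero)

/-- the transport theorem at the final time -/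
theorem transport_final (hT : 0 < T)
    (hce : ∀ t ∈ Icc 0 T, ∀ z, fderiv ℝ ρ (t, z) (1, 0) + fderiv ℝ ρ (t, z) (0, X (t, z))
      + ρ (t, z) * ∑ i, b.repr (fderiv ℝ X (t, z) (0, b i)) i = 0)
    (hρ0 : ∀ p, 0 ≤ ρ p) (hρi : ∀ t ∈ Icc 0 T, Integrable (fun z => ρ (t, z)) μ)
    {Φ : ℝ → W → W} (hΦ0 : ∀ z, Φ 0 z = z)
    (hΦ : ∀ z, ∀ t ∈ Icc 0 T, HasDerivWithinAt (fun t => Φ t z) (X (t, Φ t z)) (Icc 0 T) t)
    (hΦc : Continuous (Φ T)) :
    (μ.withDensity (fun z => ENNReal.ofReal (ρ (0, z)))).map (Φ T)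
      = μ.withDensity (fun z => ENNReal.ofReal (ρ (T, z))) := by
  have h0 : (0 : ℝ) ∈ Icc 0 T := ⟨le_rfl, hT.le⟩
  have h1 : T ∈ Icc 0 T := ⟨hT.le, le_rfl⟩
  have hc0 : Continuous fun z : W => ρ (0, z) := cont_slice hρ.continuousOn (hTJ h0)
  have hc1 : Continuous fun z : W => ρ (T, z) := cont_slice hρ.continuousOn (hTJ h1)
  have hfin0 : IsFiniteMeasure (μ.withDensity (fun z => ENNReal.ofReal (ρ (0, z)))) :=
    isFiniteMeasure_withDensity_ofReal (hρi 0 h0).2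
  have hfin1 : IsFiniteMeasure (μ.withDensity (fun z => ENNReal.ofReal (ρ (T, z)))) :=
    isFiniteMeasure_withDensity_ofReal (hρi T h1).2
  have hfin2 : IsFiniteMeasure ((μ.withDensity (fun z => ENNReal.ofReal (ρ (0, z)))).map (Φ T)) :=
    Measure.isFiniteMeasure_map _ _
  apply Measure.ext_of_integral_eq_on_compactlySupported
  intro f
  have hfc : Continuous f := f.continuous
  have hfs : HasCompactSupport f := f.hasCompactSupport
  obtain ⟨M, hM⟩ := hfs.exists_bound_of_continuous hfc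
  obtain ⟨a, ha⟩ := hfs.isCompact.isBounded.subset_closedBall (0 : W)
  rw [integral_map hΦc.measurable.aemeasurable hfc.aestronglyMeasurable]
  rw [integral_withDensity_eq_integral_toReal_smul (hc0.measurable.ennreal_ofReal)
    (Eventually.of_forall fun _ => ENNReal.ofReal_lt_top)]
  rw [integral_withDensity_eq_integral_toReal_smul (hc1.measurable.ennreal_ofReal)
    (Eventually.of_forall fun _ => ENNReal.ofReal_lt_top)]
  have e0 : ∀ z, (ENNReal.ofReal (ρ (0, z))).toReal • f (Φ T z) = f (Φ T z) * ρ (0, z) := by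
    intro z
    rw [ENNReal.toReal_ofReal (hρ0 _), smul_eq_mul, mul_comm]
  have e1 : ∀ z, (ENNReal.ofReal (ρ (T, z))).toReal • f z = f z * ρ (T, z) := by
    intro z
    rw [ENNReal.toReal_ofReal (hρ0 _), smul_eq_mul, mul_comm]
  simp only [e0, e1]
  apply test_transport μ b hJ hTJ hX hC hρ hT hce (hρi 0 h0) hΦ0 hΦ hfc (M := M) (a := max a 0)
    (fun z => hM z) (le_max_right _ _)
  intro z hz
  by_contra hne
  have h2 : z ∈ tsupport f := subset_tsupport _ hne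
  have h3 := ha h2
  rw [mem_closedBall_zero_iff] at h3
  have := le_max_left a 0
  linarith only [this, hz, h3]

end Tr

end Vale.Agent.P347.Z
end

section
attribute [-instance] ProperSMul.toContinuousSMul IsTopologicalTorsor.toContinuousSMul IdemSemiring.toCanonicallyOrderedAdd IdemSemiring.toMulLeftMono IdemSemiring.toMulRightMono AddQuantale.instAddLeftMono AddQuantale.instAddRightMono Quantale.instMulLeftMono Quantale.instMulRightMono FiniteDimensional.rclike_to_real IsScalarTower.complexToReal FiniteDimensional.complexToReal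

set_option linter.all false

/-! P347-Z-A2a. Posterior moments as functions of (level, centre) are in the class `CG`.

PROOF. `gibbs (post V l y)` is the exponential family with weight
`e^{-V(x) - α|x|²/2 + ⟨β,x⟩}`, `α = 1/l`, `β = y/l`. Differentiability of
`M φ (α,β) = ∫ φ(x) e^{-V(x) - α|x|²/2 + ⟨β,x⟩} dx` for continuous PG `φ` by
`hasFDerivAt_integral_of_dominated_of_fderiv_le` (dominate by
`C (1+|x|)^k e^{-(α0/4) |x|² + (|β0|+1)|x|}`), or directly in `(l,y)`. Then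
`Em φ = M φ / M 1` gives `Em_fderiv`; `Em_cg` by induction on `n` (statement for all φ): the derivative in
direction v is `Em (φ * sc) - Em φ * Em sc` and `sc p v x` is a polynomial in `x` with coefficients
polynomials in `(l⁻¹, y)`, so it is a finite combination of (CG functions) * Em (φ * monomials) - use the
closure lemmas of CGLib. Growth (PGu): `Em |x|^{2k} ≤ C (1+‖y‖)^{2k}` by integration by parts
(`gibbs_ibp`) with `⟨x, ∇U⟩ ≥ |x|²/l - |x||y|/l` (as `⟨x, G x⟩ ≥ 0`):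
`E |x|^{2k}/l ≤ (d+2k-2) E |x|^{2k-2} + (|y|/l) E |x|^{2k-1}`, Young, induction on k. -/

open MeasureTheory Filter Module Set
open scoped ENNReal NNReal

namespace Vale.Agent.P347.Z

variable {d : ℕ} {V : Eu d → ℝ} {G : Eu d → Eu d} {H : Eu d → Eu d →L[ℝ] Eu d}

/-- Posterior expectation at `p = (l, y)`. -/
noncomputable def Em (V : Eu d → ℝ) (p : ℝ × Eu d) (φ : Eu d → ℝ) : ℝ :=
  ∫ x, φ x ∂(gibbs (post V p.1 p.2))

/-- The score in direction `v`. -/
noncomputable def sc (p v : ℝ × Eu d) (x : Eu d) : ℝ :=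
  inner ℝ (x - p.2) v.2 / p.1 + ‖x - p.2‖ ^ 2 * v.1 / (2 * p.1 ^ 2)

/-- The score as a linear functional of the direction. -/
noncomputable def scL (p : ℝ × Eu d) (x : Eu d) : ℝ × Eu d →L[ℝ] ℝ :=
  (p.1)⁻¹ • (innerSL ℝ (x - p.2)).comp (ContinuousLinearMap.snd ℝ ℝ (Eu d))
    + (‖x - p.2‖ ^ 2 / (2 * p.1 ^ 2)) • ContinuousLinearMap.fst ℝ ℝ (Eu d)

theorem scL_apply (p v : ℝ × Eu d) (x : Eu d) : scL p x v = sc p v x := by
  unfold scL sc
  simp only [_root_.add_apply, _root_.smul_apply, ContinuousLinearMap.comp_apply,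
    ContinuousLinearMap.coe_snd', ContinuousLinearMap.coe_fst', innerSL_apply_apply, smul_eq_mul]
  ring

theorem scL_norm_le (p : ℝ × Eu d) (hp : 0 < p.1) (x : Eu d) :
    ‖scL p x‖ ≤ ‖x - p.2‖ / p.1 + ‖x - p.2‖ ^ 2 / (2 * p.1 ^ 2) := by
  refine ContinuousLinearMap.opNorm_le_bound _ (by (clear * - hp; positivity)) fun v => ?_
  rw [scL_apply, sc]
  have h1 : ‖v.2‖ ≤ ‖v‖ := norm_snd_le v
  have h2 : ‖v.1‖ ≤ ‖v‖ := norm_fst_le v
  have h3 := abs_real_inner_le_norm (x - p.2) v.2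
  refine (norm_add_le _ _).trans ?_
  rw [add_mul]
  refine add_le_add ?_ ?_
  · rw [Real.norm_eq_abs, abs_div, abs_of_pos hp, div_mul_eq_mul_div]
    exact div_le_div_of_nonneg_right
      (h3.trans (mul_le_mul_of_nonneg_left h1 (norm_nonneg _))) hp.le
  · rw [Real.norm_eq_abs, abs_div, abs_of_pos (show 0 < 2 * p.1 ^ 2 by positivity), abs_mul,
      abs_of_nonneg (sq_nonneg ‖x - p.2‖), div_mul_eq_mul_div]
    exact div_le_div_of_nonneg_right
      (mul_le_mul_of_nonneg_left h2 (sq_nonneg _)) (by positivity)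

theorem post_hasFDerivAt_param (V : Eu d → ℝ) {p : ℝ × Eu d} (hp : 0 < p.1) (x : Eu d) :
    HasFDerivAt (fun q : ℝ × Eu d => -post V q.1 q.2 x) (scL p x) p := by
  have h1 : HasFDerivAt (fun q : ℝ × Eu d => x - q.2)
      (-(ContinuousLinearMap.snd ℝ ℝ (Eu d))) p := by
    have := (hasFDerivAt_snd (𝕜 := ℝ) (p := p)).const_sub x
    exact this
  have h2 := h1.norm_sq
  have h3 : HasDerivAt (fun t : ℝ => (2 * t)⁻¹) (-(2 * 1) / (2 * p.1) ^ 2) p.1 :=
    ((hasDerivAt_id p.1).const_mul 2).inv (by simpa only [id_eq, ne_eq, mul_eq_zero, OfNat.ofNat_ne_zero, false_or] using hp.ne')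
  have h4 : HasFDerivAt (fun q : ℝ × Eu d => (2 * q.1)⁻¹)
      ((-(2 * 1) / (2 * p.1) ^ 2) • ContinuousLinearMap.fst ℝ ℝ (Eu d)) p :=
    h3.comp_hasFDerivAt p hasFDerivAt_fst
  have h5 := ((h2.mul h4).const_add (V x)).neg
  have h6 : scL p x = -(‖x - p.2‖ ^ 2 • ((-(2 * 1) / (2 * p.1) ^ 2) •
      ContinuousLinearMap.fst ℝ ℝ (Eu d)) + (2 * p.1)⁻¹ •
        (2 • (innerSL ℝ (x - p.2)).comp (-(ContinuousLinearMap.snd ℝ ℝ (Eu d))))) := by
    ext v
    · simp only [scL, map_sub, ContinuousLinearMap.sub_comp, ContinuousLinearMap.add_comp, ContinuousLinearMap.smul_comp, ContinuousLinearMap.fst_comp_inl, add_apply, smul_apply, sub_apply, ContinuousLinearMap.comp_apply, ContinuousLinearMap.inl_apply, ContinuousLinearMap.coe_snd', coe_innerSL_apply, inner_zero_right, sub_self, smul_eq_mul, mul_zero, ContinuousLinearMap.id_apply, mul_one, zero_add, mul_inv_rev, ContinuousLinearMap.comp_neg, neg_sub, neg_add_rev, ContinuousLinearMap.neg_comp,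 nsmul_eq_mul, Nat.cast_ofNat, neg_apply, mul_apply_eq_comp, ContinuousLinearMap.ofNat_apply, nsmul_zero, neg_zero]
      field_simp
    · simp [scL]
      ring
  rw [h6]
  exact h5

/-- bound for the derivative of the numerator -/
theorem mom_num_bound (hV : Pot V G H) {φ : Eu d → ℝ} {C : ℝ} {k : ℕ} (hC : 0 ≤ C)
    (hφ : ∀ x, ‖φ x‖ ≤ C * (1 + ‖x‖) ^ k) {a B : ℝ} (ha : 0 < a) (hB : 0 ≤ B) {q : ℝ × Eu d}
    (hq : a ≤ q.1) (hqB : ‖q.2‖ ≤ B) (x : Eu d) :
    ‖(Real.exp (-post V q.1 q.2 x) * φ x) • scL q x‖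
      ≤ C * ((1 + B) / a + (1 + B) ^ 2 / (2 * a ^ 2)) * (1 + ‖x‖) ^ (k + 2)
        * Real.exp (0 - 1 / 2 * ‖x‖ ^ 2) := by
  have hq0 : 0 < q.1 := ha.trans_le hq
  have h0 := norm_nonneg x
  have h1 : Real.exp (-post V q.1 q.2 x) ≤ Real.exp (0 - 1 / 2 * ‖x‖ ^ 2) := by
    apply Real.exp_le_exp.2
    have h2 := hV.low x
    have h3 : 0 ≤ ‖x - q.2‖ ^ 2 / (2 * q.1) := by (clear * - hq0; (clear * - hq0; positivity))
    unfold post
    linarith only [h3, h2]
  have h4 : ‖x - q.2‖ ≤ (1 + B) * (1 + ‖x‖) := by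
    refine (norm_sub_le _ _).trans ?_
    linarith only [mul_nonneg hB h0, hqB]
  have h5 : ‖scL q x‖ ≤ ((1 + B) / a + (1 + B) ^ 2 / (2 * a ^ 2)) * (1 + ‖x‖) ^ 2 := by
    refine (scL_norm_le q hq0 x).trans ?_
    have e1 : ‖x - q.2‖ / q.1 ≤ (1 + B) / a * (1 + ‖x‖) ^ 2 := by
      rw [div_mul_eq_mul_div]
      refine div_le_div₀ (by (clear * - hB; positivity)) (h4.trans ?_) ha hq
      refine mul_le_mul_of_nonneg_left ?_ (by positivity)
      (refine le_of_not_gt fun hng_ => ?_; linarith only [mul_nonneg (sq_nonneg (‖x‖)) (le_of_lt (sub_pos.2 hng_)), mul_pos (sub_pos.2 hng_) (sub_pos.2 hng_), mul_nonneg h0 (le_of_lt (sub_pos.2 hng_))])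
    have e2 : ‖x - q.2‖ ^ 2 / (2 * q.1 ^ 2) ≤ (1 + B) ^ 2 / (2 * a ^ 2) * (1 + ‖x‖) ^ 2 := by
      rw [div_mul_eq_mul_div, ← mul_pow]
      refine div_le_div₀ (by (clear * - hB; positivity)) (pow_le_pow_left₀ (norm_nonneg _) h4 2) (by positivity) ?_
      have := pow_le_pow_left₀ ha.le hq 2
      linarith only [this]
    rw [add_mul]
    exact add_le_add e1 e2
  rw [norm_smul, norm_mul, Real.norm_eq_abs, abs_of_pos (Real.exp_pos _)]
  calc Real.exp (-post V q.1 q.2 x) * ‖φ x‖ * ‖scL q x‖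
      ≤ Real.exp (0 - 1 / 2 * ‖x‖ ^ 2) * (C * (1 + ‖x‖) ^ k)
        * (((1 + B) / a + (1 + B) ^ 2 / (2 * a ^ 2)) * (1 + ‖x‖) ^ 2) :=
        mul_le_mul (mul_le_mul h1 (hφ x) (norm_nonneg _) (Real.exp_pos _).le) h5
          (norm_nonneg _) (by (clear * - hC; positivity))
    _ = _ := by ring

theorem mom_cont_post (hV : Pot V G H) (l : ℝ) (y : Eu d) : Continuous (post V l y) := by
  have := hV.cpot.contW
  unfold post
  (clear * - this; fun_prop)

theorem mom_cont_scL (p : ℝ × Eu d) : Continuous (scL p) := by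
  unfold scL
  have h1 : Continuous (fun x : Eu d => (innerSL ℝ (x - p.2) : Eu d →L[ℝ] ℝ)) :=
    (innerSL ℝ).continuous.comp (continuous_id.sub continuous_const)
  have h2 : Continuous (fun x : Eu d =>
      (innerSL ℝ (x - p.2)).comp (ContinuousLinearMap.snd ℝ ℝ (Eu d))) :=
    h1.clm_comp continuous_const
  have h3 : Continuous (fun x : Eu d => ‖x - p.2‖ ^ 2 / (2 * p.1 ^ 2)) := by (clear * -; fun_prop)
  have h4 : Continuous (fun x : Eu d => (p.1)⁻¹ •
      (innerSL ℝ (x - p.2)).comp (ContinuousLinearMap.snd ℝ ℝ (Eu d))) := h2.const_smul (p.1)⁻¹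
  exact h4.add (h3.smul continuous_const)

/-- derivative of the numerator -/
theorem mom_num_hasFDerivAt (hV : Pot V G H) {φ : Eu d → ℝ} (cφ : Continuous φ) (pφ : PG φ)
    {p : ℝ × Eu d} (hp : 0 < p.1) :
    HasFDerivAt (fun q : ℝ × Eu d => ∫ x, Real.exp (-post V q.1 q.2 x) * φ x)
      (∫ x, (Real.exp (-post V p.1 p.2 x) * φ x) • scL p x) p := by
  obtain ⟨C, k, hC, hφ⟩ := pφ.nonneg_bound
  have ha : 0 < p.1 / 2 := by (clear * - hp; positivity)
  have hB : 0 ≤ ‖p.2‖ + p.1 / 2 := by (clear * - hp; positivity)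
  have hball : ∀ q ∈ Metric.ball p (p.1 / 2), p.1 / 2 ≤ q.1 ∧ ‖q.2‖ ≤ ‖p.2‖ + p.1 / 2 := by
    intro q hq
    rw [mem_ball_iff_norm] at hq
    have h1 : ‖(q - p).1‖ ≤ ‖q - p‖ := norm_fst_le _
    have h2 : ‖(q - p).2‖ ≤ ‖q - p‖ := norm_snd_le _
    rw [Prod.fst_sub, Real.norm_eq_abs] at h1
    rw [Prod.snd_sub] at h2
    constructor
    · have := (abs_le.1 (h1.trans hq.le)).1
      linarith only [this]
    · calc ‖q.2‖ = ‖p.2 + (q.2 - p.2)‖ := by congr 1; abel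
        _ ≤ ‖p.2‖ + ‖q.2 - p.2‖ := norm_add_le _ _
        _ ≤ _ := by linarith only [h2, hq]
  refine hasFDerivAt_integral_of_dominated_of_fderiv_le
    (F := fun q x => Real.exp (-post V q.1 q.2 x) * φ x)
    (F' := fun q x => (Real.exp (-post V q.1 q.2 x) * φ x) • scL q x)
    (bound := fun x => C * ((1 + (‖p.2‖ + p.1 / 2)) / (p.1 / 2)
      + (1 + (‖p.2‖ + p.1 / 2)) ^ 2 / (2 * (p.1 / 2) ^ 2)) * (1 + ‖x‖) ^ (k + 2)
        * Real.exp (0 - 1 / 2 * ‖x‖ ^ 2))
    (Metric.ball_mem_nhds p ha) ?_ ?_ ?_ ?_ ?_ ?_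
  · refine Eventually.of_forall fun q => ?_
    have h1 := mom_cont_post hV q.1 q.2
    exact ((Real.continuous_exp.comp h1.neg).mul cφ).aestronglyMeasurable
  · have h1 := mom_cont_post hV p.1 p.2
    refine (integrable_pow_mul_exp (E := Eu d) (a := 1 / 2) (by (clear * -; norm_num)) C k 0).mono'
      ((Real.continuous_exp.comp h1.neg).mul cφ).aestronglyMeasurable
      (Eventually.of_forall fun x => ?_)
    rw [norm_mul, Real.norm_eq_abs, abs_of_pos (Real.exp_pos _), mul_comm]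
    refine mul_le_mul (hφ x) ?_ (Real.exp_pos _).le (by (clear * - hC; (clear * - hC; positivity)))
    apply Real.exp_le_exp.2
    have h2 := hV.low x
    have h3 : 0 ≤ ‖x - p.2‖ ^ 2 / (2 * p.1) := by (clear * - hp; positivity)
    unfold post
    linarith only [h3, h2]
  · have h1 := mom_cont_post hV p.1 p.2
    exact (((Real.continuous_exp.comp h1.neg).mul cφ).smul (mom_cont_scL p)).aestronglyMeasurable
  · refine Eventually.of_forall fun x q hq => ?_
    exact mom_num_bound hV hC hφ ha hB (hball q hq).1 (hball q hq).2 x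
  · exact integrable_pow_mul_exp (E := Eu d) (by norm_num) _ _ 0
  · refine Eventually.of_forall fun x q hq => ?_
    have h1 := ((post_hasFDerivAt_param V (p := q) (ha.trans_le (hball q hq).1) x).exp).mul_const
      (φ x)
    have h2 : (Real.exp (-post V q.1 q.2 x) * φ x) • scL q x
        = φ x • Real.exp (-post V q.1 q.2 x) • scL q x := by
      rw [smul_smul, mul_comm]
    rw [h2]
    exact h1

theorem mom_num_integrable (hV : Pot V G H) {φ : Eu d → ℝ} (cφ : Continuous φ) (pφ : PG φ)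
    {p : ℝ × Eu d} (hp : 0 < p.1) :
    Integrable (fun x => (Real.exp (-post V p.1 p.2 x) * φ x) • scL p x) := by
  obtain ⟨C, k, hC, hφ⟩ := pφ.nonneg_bound
  have h1 := mom_cont_post hV p.1 p.2
  exact (integrable_pow_mul_exp (E := Eu d) (a := 1 / 2) (by (clear * -; norm_num))
    (C * ((1 + ‖p.2‖) / p.1 + (1 + ‖p.2‖) ^ 2 / (2 * p.1 ^ 2))) (k + 2) 0).mono'
    (((Real.continuous_exp.comp h1.neg).mul cφ).smul (mom_cont_scL p)).aestronglyMeasurable
    (Eventually.of_forall fun x => mom_num_bound hV hC hφ hp (norm_nonneg _) le_rfl le_rfl x)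

theorem Em_eq (V : Eu d → ℝ) (p : ℝ × Eu d) (φ : Eu d → ℝ) :
    Em V p φ = (∫ x, Real.exp (-post V p.1 p.2 x))⁻¹
      * ∫ x, Real.exp (-post V p.1 p.2 x) * φ x := by
  unfold Em
  rw [gibbs_integral]
  simp only [smul_eq_mul]

theorem mom_Z_hasFDerivAt (hV : Pot V G H) {p : ℝ × Eu d} (hp : 0 < p.1) :
    HasFDerivAt (fun q : ℝ × Eu d => ∫ x, Real.exp (-post V q.1 q.2 x))
      (∫ x, (Real.exp (-post V p.1 p.2 x)) • scL p x) p := by
  have h := mom_num_hasFDerivAt hV (φ := fun _ => 1) continuous_const (PG.const _) hp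
  simpa only [mul_one] using h

theorem Em_hasFDerivAt (hV : Pot V G H) {φ : Eu d → ℝ} (cφ : Continuous φ) (pφ : PG φ)
    {p : ℝ × Eu d} (hp : 0 < p.1) :
    ∃ L : ℝ × Eu d →L[ℝ] ℝ, HasFDerivAt (fun q => Em V q φ) L p ∧ ∀ v, L v
      = Em V p (fun x => φ x * sc p v x) - Em V p φ * Em V p (sc p v) := by
  have hN := mom_num_hasFDerivAt hV cφ pφ hp
  have hZ := mom_Z_hasFDerivAt hV hp
  have hZpos : 0 < ∫ x, Real.exp (-post V p.1 p.2 x) :=
    (hV.cpot.post_adm hp p.2).integral_exp_pos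
  have hinv := (hasDerivAt_inv hZpos.ne').comp_hasFDerivAt p hZ
  have h := hinv.mul hN
  refine ⟨_, (h.congr_of_eventuallyEq (Eventually.of_forall fun q => Em_eq V q φ)), fun v => ?_⟩
  have e1 : (∫ x, (Real.exp (-post V p.1 p.2 x) * φ x) • scL p x) v
      = ∫ x, Real.exp (-post V p.1 p.2 x) * (φ x * sc p v x) := by
    rw [ContinuousLinearMap.integral_apply (mom_num_integrable hV cφ pφ hp)]
    refine integral_congr_ae (Eventually.of_forall fun x => ?_)
    simp only [_root_.smul_apply, scL_apply, smul_eq_mul, mul_assoc]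
  have e2 : (∫ x, (Real.exp (-post V p.1 p.2 x)) • scL p x) v
      = ∫ x, Real.exp (-post V p.1 p.2 x) * sc p v x := by
    have hi := mom_num_integrable hV (φ := fun _ => 1) continuous_const (PG.const _) hp
    simp only [mul_one] at hi
    rw [ContinuousLinearMap.integral_apply hi]
    refine integral_congr_ae (Eventually.of_forall fun x => ?_)
    simp only [smul_apply, scL_apply, smul_eq_mul]
  simp only [_root_.add_apply, _root_.smul_apply, smul_eq_mul, e1, e2, Function.comp_apply]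
  rw [Em_eq V p (fun x => φ x * sc p v x), Em_eq V p φ, Em_eq V p (sc p v)]
  field_simp
  ring

theorem Em_fderiv (hV : Pot V G H) {φ : Eu d → ℝ} (cφ : Continuous φ) (pφ : PG φ)
    {p : ℝ × Eu d} (hp : 0 < p.1) :
    DifferentiableAt ℝ (fun q => Em V q φ) p ∧ ∀ v, fderiv ℝ (fun q => Em V q φ) p v
      = Em V p (fun x => φ x * sc p v x) - Em V p φ * Em V p (sc p v) := by
  obtain ⟨L, hL, hv⟩ := Em_hasFDerivAt hV cφ pφ hp
  exact ⟨hL.differentiableAt, fun v => by rw [hL.fderiv]; exact hv v⟩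

theorem Wp_fderiv (hV : Pot V G H) {p : ℝ × Eu d} (hp : 0 < p.1) :
    DifferentiableAt ℝ (fun q : ℝ × Eu d => Wp V q.1 q.2) p ∧
      ∀ v, fderiv ℝ (fun q : ℝ × Eu d => Wp V q.1 q.2) p v = -Em V p (sc p v) := by
  have hZ := mom_Z_hasFDerivAt hV hp
  have hZpos : 0 < ∫ x, Real.exp (-post V p.1 p.2 x) :=
    (hV.cpot.post_adm hp p.2).integral_exp_pos
  have h := (hZ.log hZpos.ne').neg
  have h' : HasFDerivAt (fun q : ℝ × Eu d => Wp V q.1 q.2) _ p := h
  refine ⟨h'.differentiableAt, fun v => ?_⟩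
  rw [h'.fderiv]
  have e2 : (∫ x, (Real.exp (-post V p.1 p.2 x)) • scL p x) v
      = ∫ x, Real.exp (-post V p.1 p.2 x) * sc p v x := by
    have hi := mom_num_integrable hV (φ := fun _ => 1) continuous_const (PG.const _) hp
    simp only [mul_one] at hi
    rw [ContinuousLinearMap.integral_apply hi]
    refine integral_congr_ae (Eventually.of_forall fun x => ?_)
    simp only [smul_apply, scL_apply, smul_eq_mul]
  simp only [neg_apply, smul_apply, e2, smul_eq_mul]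
  rw [Em_eq V p (sc p v)]

theorem mom_sum_sq (x : Eu d) : ∑ i, x i * x i = ‖x‖ ^ 2 := by
  rw [EuclideanSpace.real_norm_sq_eq]
  exact Finset.sum_congr rfl fun i _ => by ring

theorem mom_inner (x y : Eu d) : inner ℝ x y = ∑ i, x i * y i := by
  rw [PiLp.inner_apply]
  refine Finset.sum_congr rfl fun i _ => ?_
  simp [mul_comm]

theorem mom_coord_fderiv (i : Fin d) (x : Eu d) :
    HasFDerivAt (fun x : Eu d => x i) (innerSL ℝ (ek i)) x := by
  have h : innerSL ℝ (ek i) = (EuclideanSpace.proj i : Eu d →L[ℝ] ℝ) := by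
    ext v
    simp only [coe_innerSL_apply, EuclideanSpace.inner_single_left, Real.ringHom_apply, one_mul, PiLp.proj_apply]
  rw [h]
  exact (EuclideanSpace.proj i : Eu d →L[ℝ] ℝ).hasFDerivAt

theorem mom_pg_coord (i : Fin d) : PG (fun x : Eu d => x i) :=
  PG.id.of_le fun x => PiLp.norm_apply_le x i

theorem mom_pg_nsq (m : ℕ) : PG (fun x : Eu d => (‖x‖ ^ 2) ^ m) := ((PG.id.norm).pow 2).pow m

/-- Integration by parts against the Euler field. -/
theorem mom_euler_ibp {U : Eu d → ℝ} (hU : Adm U) {g : Eu d → Eu d}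
    (hg : ∀ x, HasFDerivAt U (innerSL ℝ (g x)) x) (hgc : Continuous g) (hgp : PG g) (m : ℕ) :
    (d + 2 * m) * ∫ x, (‖x‖ ^ 2) ^ m ∂(gibbs U)
      = ∫ x, (‖x‖ ^ 2) ^ m * inner ℝ (g x) x ∂(gibbs U) := by
  have key : ∀ i : Fin d, ∫ x, ((‖x‖ ^ 2) ^ m + 2 * m * (‖x‖ ^ 2) ^ (m - 1) * (x i * x i))
      ∂(gibbs U) = ∫ x, (‖x‖ ^ 2) ^ m * x i * g x i ∂(gibbs U) := by
    intro i
    have h1 := gibbs_ibp hU hg hgc hgp (f := fun x : Eu d => (‖x‖ ^ 2) ^ m * x i)
      (f' := fun x => (‖x‖ ^ 2) ^ m • ek i + (2 * m * (‖x‖ ^ 2) ^ (m - 1) * x i) • x)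
      (fun x => by
        have h2 : HasFDerivAt (fun x : Eu d => ‖x‖ ^ 2)
            (2 • (innerSL ℝ x).comp (ContinuousLinearMap.id ℝ (Eu d))) x :=
          (hasFDerivAt_id x).norm_sq
        have h3 := h2.pow m
        have h4 := h3.mul (mom_coord_fderiv i x)
        have h5 : innerSL ℝ ((‖x‖ ^ 2) ^ m • ek i
            + (2 * m * (‖x‖ ^ 2) ^ (m - 1) * x i) • x)
            = (‖x‖ ^ 2) ^ m • innerSL ℝ (ek i) + x i • ((m • (‖x‖ ^ 2) ^ (m - 1)) •
              (2 • (innerSL ℝ x).comp (ContinuousLinearMap.id ℝ (Eu d)))) := by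
          ext v
          simp only [map_add, map_smul, add_apply, smul_apply, innerSL_apply_apply, smul_eq_mul, nsmul_eq_mul, ContinuousLinearMap.comp_apply, ContinuousLinearMap.id_apply]
          push_cast
          ring
        rw [h5]
        exact h4) (by (clear * -; (clear * -; fun_prop))) ((mom_pg_nsq m).mul (mom_pg_coord i))
      (((mom_pg_nsq m).smul (PG.const _)).add
        ((((PG.const (2 * (m : ℝ))).mul (mom_pg_nsq (m - 1))).mul (mom_pg_coord i)).smul PG.id)) (ek i)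
    have e1 : ∀ x : Eu d, (inner ℝ ((‖x‖ ^ 2) ^ m • ek i
        + (2 * m * (‖x‖ ^ 2) ^ (m - 1) * x i) • x) (ek i) : ℝ)
        = (‖x‖ ^ 2) ^ m + 2 * m * (‖x‖ ^ 2) ^ (m - 1) * (x i * x i) := by
      intro x
      rw [inner_add_left, real_inner_smul_left, real_inner_smul_left]
      have e2 : (inner ℝ (ek i : Eu d) (ek i) : ℝ) = 1 := by
        simp [ek]
      have e3 : (inner ℝ x (ek i) : ℝ) = x i := by
        simp [ek, EuclideanSpace.inner_single_right]
      rw [e2, e3]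
      ring
    have e4 : ∀ x : Eu d, (inner ℝ (g x) (ek i) : ℝ) = g x i := by
      intro x
      simp only [ek, EuclideanSpace.inner_single_right, Real.ringHom_apply, one_mul]
    simp only [e1, e4] at h1
    exact h1
  have hi1 : ∀ i ∈ (Finset.univ : Finset (Fin d)), Integrable
      (fun x : Eu d => (‖x‖ ^ 2) ^ m + 2 * m * (‖x‖ ^ 2) ^ (m - 1) * (x i * x i)) (gibbs U) := by
    intro i _
    exact hU.integrable ((mom_pg_nsq m).add (((PG.const (2 * (m : ℝ))).mul (mom_pg_nsq (m - 1))).mul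
      ((mom_pg_coord i).mul (mom_pg_coord i)))) (by (clear * -; (clear * -; fun_prop)))
  have hgi : ∀ i, Continuous (fun x => g x i) := fun i => by fun_prop
  have hi2 : ∀ i ∈ (Finset.univ : Finset (Fin d)), Integrable
      (fun x : Eu d => (‖x‖ ^ 2) ^ m * x i * g x i) (gibbs U) := by
    intro i _
    have := hgi i
    refine hU.integrable (((mom_pg_nsq m).mul (mom_pg_coord i)).mul
      (hgp.of_le (g := fun x => g x i) fun x => PiLp.norm_apply_le (g x) i)) ?_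
    exact Continuous.aestronglyMeasurable (by fun_prop)
  have hsum : ∑ i, ∫ x, ((‖x‖ ^ 2) ^ m + 2 * m * (‖x‖ ^ 2) ^ (m - 1) * (x i * x i))
      ∂(gibbs U) = ∑ i : Fin d, ∫ x, (‖x‖ ^ 2) ^ m * x i * g x i ∂(gibbs U) :=
    Finset.sum_congr rfl fun i _ => key i
  rw [← integral_finsetSum _ hi1, ← integral_finsetSum _ hi2] at hsum
  have f1 : ∀ x : Eu d, ∑ i : Fin d, ((‖x‖ ^ 2) ^ m + 2 * m * (‖x‖ ^ 2) ^ (m - 1) * (x i * x i))
      = (d + 2 * m) * (‖x‖ ^ 2) ^ m := by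
    intro x
    rw [Finset.sum_add_distrib, ← Finset.mul_sum, mom_sum_sq, Finset.sum_const, Finset.card_univ,
      Fintype.card_fin, nsmul_eq_mul]
    rcases m with _ | m
    · simp only [pow_zero, mul_one, CharP.cast_eq_zero, mul_zero, zero_tsub, zero_mul, add_zero]
    · simp only [Nat.add_sub_cancel]
      rw [pow_succ]
      ring
  have f2 : ∀ x : Eu d, ∑ i : Fin d, (‖x‖ ^ 2) ^ m * x i * g x i
      = (‖x‖ ^ 2) ^ m * inner ℝ (g x) x := by
    intro x
    rw [mom_inner, Finset.mul_sum]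
    exact Finset.sum_congr rfl fun i _ => by ring
  simp only [f1, f2] at hsum
  rw [integral_const_mul] at hsum
  exact hsum

/-- The `2m`-th moment of the posterior. -/
noncomputable def momM2 (V : Eu d → ℝ) (p : ℝ × Eu d) (m : ℕ) : ℝ :=
  ∫ x, (‖x‖ ^ 2) ^ m ∂(gibbs (post V p.1 p.2))

theorem momM2_nonneg (V : Eu d → ℝ) (p : ℝ × Eu d) (m : ℕ) : 0 ≤ momM2 V p m :=
  integral_nonneg fun x => by (clear * -; positivity)

theorem mom_euler (hV : Pot V G H) {p : ℝ × Eu d} (hp : 0 < p.1) (m : ℕ) :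
    momM2 V p (m + 1) - ∫ x, (‖x‖ ^ 2) ^ m * inner ℝ p.2 x ∂(gibbs (post V p.1 p.2))
      ≤ p.1 * ((d + 2 * m) * momM2 V p m) := by
  have hA := hV.cpot.post_adm hp p.2
  have := hA.isProb
  have cG := hV.cpot.contF
  have pG := hV.cpot.pgF
  have h1 := mom_euler_ibp hA (post_grad hV.grad p.1 p.2) (by (clear * - cG; fun_prop))
    (pG.add ((PG.const (p.1)⁻¹).smul (PG.id.sub (PG.const p.2)))) m
  have i1 : Integrable (fun x : Eu d => (‖x‖ ^ 2) ^ (m + 1)) (gibbs (post V p.1 p.2)) :=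
    hA.integrable (mom_pg_nsq (m + 1)) (by (clear * -; fun_prop))
  have i2 : Integrable (fun x : Eu d => (‖x‖ ^ 2) ^ m * inner ℝ p.2 x)
      (gibbs (post V p.1 p.2)) :=
    hA.integrable ((mom_pg_nsq m).mul ((PG.const p.2).inner PG.id)) (by (clear * -; fun_prop))
  have i3 : Integrable (fun x : Eu d => (‖x‖ ^ 2) ^ m *
      inner ℝ (G x + (p.1)⁻¹ • (x - p.2)) x) (gibbs (post V p.1 p.2)) :=
    hA.integrable ((mom_pg_nsq m).mul ((pG.add ((PG.const (p.1)⁻¹).smul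
      (PG.id.sub (PG.const p.2)))).inner PG.id))
      (Continuous.aestronglyMeasurable (by (clear * - cG; fun_prop)))
  unfold momM2
  rw [h1, ← integral_sub i1 i2, ← integral_const_mul]
  refine integral_mono (i1.sub i2) (i3.const_mul _) fun x => ?_
  simp only [inner_add_left, real_inner_smul_left, inner_sub_left, real_inner_self_eq_norm_sq]
  have h2 := hV.monoG x 0
  rw [hV.gzero, sub_zero, sub_zero] at h2
  have h3 : 0 ≤ (‖x‖ ^ 2) ^ m := by (clear * -; (clear * -; positivity))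
  have h4 : 0 ≤ p.1 * ((‖x‖ ^ 2) ^ m * inner ℝ (G x) x) := by
    have : 0 ≤ inner ℝ (G x) x := (sq_nonneg _).trans h2
    (clear * - hp this; positivity)
  have h5 : p.1 * ((‖x‖ ^ 2) ^ m * (inner ℝ (G x) x + (p.1)⁻¹ * (‖x‖ ^ 2 - inner ℝ p.2 x)))
      = p.1 * ((‖x‖ ^ 2) ^ m * inner ℝ (G x) x) + ((‖x‖ ^ 2) ^ (m + 1)
        - (‖x‖ ^ 2) ^ m * inner ℝ p.2 x) := by
    field_simp
    ring
  rw [h5]
  linarith only [h4]

theorem mom_step (hV : Pot V G H) {p : ℝ × Eu d} (hp : 0 < p.1) (m : ℕ) :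
    momM2 V p (m + 1) ≤ (2 * p.1 * (d + 2 * m) + ‖p.2‖ ^ 2) * momM2 V p m := by
  have hA := hV.cpot.post_adm hp p.2
  have := hA.isProb
  have h1 := mom_euler hV hp m
  have i1 : Integrable (fun x : Eu d => (‖x‖ ^ 2) ^ (m + 1)) (gibbs (post V p.1 p.2)) :=
    hA.integrable (mom_pg_nsq (m + 1)) (by (clear * -; fun_prop))
  have i0 : Integrable (fun x : Eu d => (‖x‖ ^ 2) ^ m) (gibbs (post V p.1 p.2)) :=
    hA.integrable (mom_pg_nsq m) (by (clear * -; fun_prop))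
  have i2 : Integrable (fun x : Eu d => (‖x‖ ^ 2) ^ m * inner ℝ p.2 x)
      (gibbs (post V p.1 p.2)) :=
    hA.integrable ((mom_pg_nsq m).mul ((PG.const p.2).inner PG.id)) (by (clear * -; (clear * -; fun_prop)))
  have h2 : ∫ x, (‖x‖ ^ 2) ^ m * inner ℝ p.2 x ∂(gibbs (post V p.1 p.2))
      ≤ 1 / 2 * momM2 V p (m + 1) + ‖p.2‖ ^ 2 / 2 * momM2 V p m := by
    unfold momM2
    rw [← integral_const_mul, ← integral_const_mul, ← integral_add (i1.const_mul _)
      (i0.const_mul _)]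
    refine integral_mono i2 ((i1.const_mul _).add (i0.const_mul _)) fun x => ?_
    have h3 := real_inner_le_norm p.2 x
    have h4 : inner ℝ p.2 x ≤ 1 / 2 * ‖x‖ ^ 2 + ‖p.2‖ ^ 2 / 2 := by
      (refine le_of_not_gt fun hng_ => ?_; linarith only [mul_nonneg (le_of_lt (sub_pos.2 hng_)) (sq_nonneg (‖x‖ - ‖p.2‖)), mul_nonneg (sub_nonneg.2 h3) (le_of_lt (sub_pos.2 hng_)), mul_pos (sub_pos.2 hng_) (sub_pos.2 hng_)])
    have h5 : 0 ≤ (‖x‖ ^ 2) ^ m := by (clear * -; (clear * -; positivity))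
    have h6 := mul_le_mul_of_nonneg_left h4 h5
    simp only []
    rw [pow_succ (‖x‖ ^ 2) m]
    linarith only [h6]
  linarith only [h2, h1]

theorem mom_le (hV : Pot V G H) {p : ℝ × Eu d} (hp : 0 < p.1) (m : ℕ) :
    ∀ j ≤ m, momM2 V p j ≤ (2 * p.1 * (d + 2 * m) + ‖p.2‖ ^ 2) ^ j := by
  intro j
  induction j with
  | zero =>
    intro _
    have := (hV.cpot.post_adm hp p.2).isProb
    simp only [momM2, pow_zero, integral_const, probReal_univ, smul_eq_mul, mul_one, Std.le_refl]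
  | succ j ih =>
    intro hj
    have h1 := ih (by omega)
    have h2 := mom_step hV hp j
    have h3 : (j : ℝ) ≤ m := by exact_mod_cast (by omega : j ≤ m)
    have h4 : 2 * p.1 * (d + 2 * j) + ‖p.2‖ ^ 2 ≤ 2 * p.1 * (d + 2 * m) + ‖p.2‖ ^ 2 := by
      have : 2 * p.1 * (d + 2 * j) ≤ 2 * p.1 * (d + 2 * m) :=
        mul_le_mul_of_nonneg_left (by linarith only [h3]) (by (clear * - hp; positivity))
      linarith only [this]
    calc momM2 V p (j + 1) ≤ (2 * p.1 * (d + 2 * j) + ‖p.2‖ ^ 2) * momM2 V p j := h2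
      _ ≤ (2 * p.1 * (d + 2 * m) + ‖p.2‖ ^ 2) * (2 * p.1 * (d + 2 * m) + ‖p.2‖ ^ 2) ^ j :=
          mul_le_mul h4 h1 (momM2_nonneg V p j) (by (clear * - hp; (clear * - hp; positivity)))
      _ = _ := by rw [pow_succ]; ring

theorem Em_growth (hV : Pot V G H) {φ : Eu d → ℝ} (cφ : Continuous φ) (pφ : PG φ) :
    PGu (Ioi 0) (fun q : ℝ × Eu d => Em V q φ) := by
  intro K hK hKc
  obtain ⟨C, k, hC, hφ⟩ := pφ.nonneg_bound
  obtain ⟨T, hT⟩ := hKc.isBounded.exists_norm_le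
  have hφ2 : ∀ x : Eu d, ‖φ x‖ ≤ C * 4 ^ k + C * 4 ^ k * (‖x‖ ^ 2) ^ k := by
    intro x
    have h0 := norm_nonneg x
    refine (hφ x).trans ?_
    have h1 : (1 + ‖x‖) ≤ 2 * (1 + ‖x‖ ^ 2) := by (refine le_of_not_gt fun hng_ => ?_; linarith only [mul_nonneg h0 (le_of_lt (sub_pos.2 hng_)), mul_pos (sub_pos.2 hng_) (sub_pos.2 hng_), mul_nonneg (le_of_lt (sub_pos.2 hng_)) (sq_nonneg (‖x‖ - 1)), mul_nonneg (sq_nonneg (‖x‖ - 1)) (sq_nonneg (‖x‖ - 1)), mul_nonneg h0 h0])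
    have h2 : (1 + ‖x‖) ^ k ≤ (2 * (1 + ‖x‖ ^ 2)) ^ k := pow_le_pow_left₀ (by (clear * -; positivity)) h1 k
    have h3 : (1 + ‖x‖ ^ 2) ^ k ≤ 2 ^ k * (1 + (‖x‖ ^ 2) ^ k) := by
      have h4 := add_pow_le (zero_le_one (α := ℝ)) (sq_nonneg ‖x‖) k
      rw [one_pow] at h4
      refine h4.trans (mul_le_mul_of_nonneg_right ?_ (by (clear * -; positivity)))
      exact pow_le_pow_right₀ (by norm_num) (by (clear * -; omega))
    calc C * (1 + ‖x‖) ^ k ≤ C * (2 ^ k * (2 ^ k * (1 + (‖x‖ ^ 2) ^ k))) := by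
          refine mul_le_mul_of_nonneg_left (h2.trans ?_) hC
          rw [mul_pow]
          exact mul_le_mul_of_nonneg_left h3 (by positivity)
      _ = _ := by
          rw [show (4 : ℝ) = 2 * 2 by norm_num, mul_pow]; ring
  refine ⟨C * 4 ^ k + C * 4 ^ k * (2 * |T| * (d + 2 * k) + 1) ^ k, 2 * k, fun t ht y => ?_⟩
  have ht0 : 0 < t := hK ht
  have hA := hV.cpot.post_adm ht0 y
  have := hA.isProb
  have i0 : Integrable (fun x : Eu d => (‖x‖ ^ 2) ^ k) (gibbs (post V t y)) :=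
    hA.integrable (mom_pg_nsq k) (by (clear * -; fun_prop))
  have h1 : |Em V (t, y) φ| ≤ C * 4 ^ k + C * 4 ^ k * momM2 V (t, y) k := by
    unfold Em momM2
    refine abs_integral_le_integral_abs.trans ?_
    have e1 : C * 4 ^ k + C * 4 ^ k * ∫ x, (‖x‖ ^ 2) ^ k ∂(gibbs (post V t y))
        = ∫ x : Eu d, (C * 4 ^ k + C * 4 ^ k * (‖x‖ ^ 2) ^ k) ∂(gibbs (post V t y)) := by
      rw [integral_add (integrable_const _) (i0.const_mul _), integral_const,
        probReal_univ, one_smul, integral_const_mul]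
    simp only []
    rw [e1]
    exact integral_mono (hA.integrable pφ cφ.aestronglyMeasurable).abs
      ((integrable_const _).add (i0.const_mul _)) fun x => hφ2 x
  have h2 := mom_le hV (p := (t, y)) ht0 k k le_rfl
  simp only [] at h2
  have hy := norm_nonneg y
  have h3 : 2 * t * (d + 2 * k) + ‖y‖ ^ 2 ≤ (2 * |T| * (d + 2 * k) + 1) * (1 + ‖y‖) ^ 2 := by
    have e1 : t ≤ |T| := ((le_abs_self t).trans (hT t ht)).trans (le_abs_self T)
    have e2 : 2 * t * (d + 2 * k) ≤ 2 * |T| * (d + 2 * k) :=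
      mul_le_mul_of_nonneg_right (by linarith only [e1]) (by (clear * -; (clear * -; positivity)))
    have e3 : 0 ≤ 2 * |T| * ((d : ℝ) + 2 * k) := by (clear * -; (clear * -; positivity))
    have e4 : 1 ≤ (1 + ‖y‖) ^ 2 := one_le_pow₀ (by linarith only [hy])
    have e5 : ‖y‖ ^ 2 ≤ (1 + ‖y‖) ^ 2 := pow_le_pow_left₀ hy (by linarith only []) 2
    nlinarith only [e1, e3, e4, e5]
  have h4 : momM2 V (t, y) k ≤ (2 * |T| * (d + 2 * k) + 1) ^ k * (1 + ‖y‖) ^ (2 * k) := by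
    refine h2.trans ?_
    calc (2 * t * (d + 2 * k) + ‖y‖ ^ 2) ^ k ≤ ((2 * |T| * (d + 2 * k) + 1) * (1 + ‖y‖) ^ 2) ^ k :=
          pow_le_pow_left₀ (by (clear * - ht0; positivity)) h3 k
      _ = _ := by rw [mul_pow, ← pow_mul]
  have h5 : 1 ≤ (1 + ‖y‖) ^ (2 * k) := one_le_pow₀ (by linarith only [hy])
  have h6 : 0 ≤ C * 4 ^ k := by (clear * - hC; positivity)
  calc |Em V (t, y) φ| ≤ C * 4 ^ k + C * 4 ^ k * momM2 V (t, y) k := h1
    _ ≤ C * 4 ^ k * (1 + ‖y‖) ^ (2 * k)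
        + C * 4 ^ k * ((2 * |T| * (d + 2 * k) + 1) ^ k * (1 + ‖y‖) ^ (2 * k)) :=
        add_le_add (le_mul_of_one_le_right h6 h5) (mul_le_mul_of_nonneg_left h4 h6)
    _ = _ := by ring

/-- Second moment of the posterior. -/
theorem Em_sq_le (hV : Pot V G H) {p : ℝ × Eu d} (hp : 0 < p.1) :
    Em V p (fun x => ‖x‖ ^ 2) ≤ (‖p.2‖ + √(p.1 * d)) ^ 2 := by
  have hA := hV.cpot.post_adm hp p.2
  have := hA.isProb
  have h1 := mom_euler hV hp 0
  simp only [pow_zero, one_mul, Nat.cast_zero, mul_zero, add_zero] at h1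
  have i1 : Integrable (fun x : Eu d => ‖x‖) (gibbs (post V p.1 p.2)) :=
    hA.integrable PG.id.norm (by (clear * -; fun_prop))
  have i2 : Integrable (fun x : Eu d => ‖x‖ ^ 2) (gibbs (post V p.1 p.2)) :=
    hA.integrable (PG.id.norm.pow 2) (by fun_prop)
  have i3 : Integrable (fun x : Eu d => (inner ℝ p.2 x : ℝ)) (gibbs (post V p.1 p.2)) :=
    hA.integrable ((PG.const p.2).inner PG.id) (by (clear * -; fun_prop))
  have e0 : momM2 V p 0 = 1 := by simp [momM2]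
  have e1 : momM2 V p (0 + 1) = Em V p (fun x => ‖x‖ ^ 2) := by simp only [momM2, zero_add, pow_one, Em]
  rw [e0, e1, mul_one] at h1
  have h2 : ∫ x, (inner ℝ p.2 x : ℝ) ∂(gibbs (post V p.1 p.2))
      ≤ ‖p.2‖ * ∫ x : Eu d, ‖x‖ ∂(gibbs (post V p.1 p.2)) := by
    rw [← integral_const_mul]
    exact integral_mono i3 (i1.const_mul _) fun x => real_inner_le_norm _ _
  have h3 := var_nonneg i1 i2
  obtain ⟨a, ha⟩ : ∃ a, a = √(Em V p (fun x => ‖x‖ ^ 2)) := ⟨_, rfl⟩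
  have hE : 0 ≤ Em V p (fun x => ‖x‖ ^ 2) := integral_nonneg fun x => by (clear * -; positivity)
  have ha0 : 0 ≤ a := by rw [ha]; exact Real.sqrt_nonneg _
  have ha2 : a ^ 2 = Em V p (fun x => ‖x‖ ^ 2) := by rw [ha]; exact Real.sq_sqrt hE
  have h4 : ∫ x : Eu d, ‖x‖ ∂(gibbs (post V p.1 p.2)) ≤ a := by
    rw [ha]
    apply Real.le_sqrt_of_sq_le
    unfold Em
    linarith only [h3]
  have h5 : a ^ 2 ≤ p.1 * d + ‖p.2‖ * a := by
    rw [ha2]
    have := mul_le_mul_of_nonneg_left h4 (norm_nonneg p.2)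
    linarith only [h2, h1, this]
  obtain ⟨b, hb⟩ : ∃ b, b = √(p.1 * d) := ⟨_, rfl⟩
  have hb0 : 0 ≤ b := by rw [hb]; exact Real.sqrt_nonneg _
  have hb2 : b ^ 2 = p.1 * d := by rw [hb]; exact Real.sq_sqrt (by (clear * - hp; positivity))
  rw [← ha2, ← hb]
  refine pow_le_pow_left₀ ha0 ?_ 2
  by_contra hcon
  push Not at hcon
  have hy := norm_nonneg p.2
  nlinarith only [hcon, (mul_pos (sub_pos.2 hcon) (lt_of_le_of_lt (add_nonneg hy hb0) hcon)), h5, hb0, hb2, (mul_nonneg hy hb0)]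

/-- The expansion of `Em V p (φ * sc p v)` in monomials. -/
noncomputable def scE (V : Eu d → ℝ) (φ : Eu d → ℝ) (v p : ℝ × Eu d) : ℝ :=
  (p.1)⁻¹ * Em V p (fun x => φ x * inner ℝ x v.2)
    + (-1) * ((p.1)⁻¹ * (inner ℝ v.2 p.2 * Em V p φ))
    + (v.1 / 2) * (((p.1)⁻¹ * (p.1)⁻¹) * Em V p (fun x => φ x * ‖x‖ ^ 2))
    + (-v.1) * (((p.1)⁻¹ * (p.1)⁻¹) * ∑ k, p.2 k * Em V p (fun x => φ x * x k))
    + (v.1 / 2) * (((p.1)⁻¹ * (p.1)⁻¹) * ((∑ k, p.2 k * p.2 k) * Em V p φ))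

theorem mom_int5 {μ : Measure (Eu d)} {f1 f2 f3 f4 f5 : Eu d → ℝ} (h1 : Integrable f1 μ)
    (h2 : Integrable f2 μ) (h3 : Integrable f3 μ) (h4 : Integrable f4 μ) (h5 : Integrable f5 μ)
    (c1 c2 c3 c4 c5 : ℝ) :
    ∫ x, (c1 * f1 x + (c2 * f2 x + (c3 * f3 x + (c4 * f4 x + c5 * f5 x)))) ∂μ
      = c1 * ∫ x, f1 x ∂μ + (c2 * ∫ x, f2 x ∂μ + (c3 * ∫ x, f3 x ∂μ + (c4 * ∫ x, f4 x ∂μ
        + c5 * ∫ x, f5 x ∂μ))) := by
  have g5 : Integrable (fun x => c4 * f4 x + c5 * f5 x) μ := (h4.const_mul c4).add (h5.const_mul c5)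
  have g4 : Integrable (fun x => c3 * f3 x + (c4 * f4 x + c5 * f5 x)) μ := (h3.const_mul c3).add g5
  have g3 : Integrable (fun x => c2 * f2 x + (c3 * f3 x + (c4 * f4 x + c5 * f5 x))) μ :=
    (h2.const_mul c2).add g4
  rw [integral_add (h1.const_mul c1) g3, integral_add (h2.const_mul c2) g4,
    integral_add (h3.const_mul c3) g5, integral_add (h4.const_mul c4) (h5.const_mul c5)]
  simp only [integral_const_mul]

theorem Em_mul_sc (hV : Pot V G H) {φ : Eu d → ℝ} (cφ : Continuous φ) (pφ : PG φ)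
    {p : ℝ × Eu d} (hp : 0 < p.1) (v : ℝ × Eu d) :
    Em V p (fun x => φ x * sc p v x) = scE V φ v p := by
  have hA := hV.cpot.post_adm hp p.2
  have := hA.isProb
  have i1 : Integrable (fun x : Eu d => φ x * inner ℝ x v.2) (gibbs (post V p.1 p.2)) :=
    hA.integrable (pφ.mul (PG.id.inner (PG.const v.2))) (by (clear * - cφ; (clear * - cφ; fun_prop)))
  have i2 : Integrable φ (gibbs (post V p.1 p.2)) := hA.integrable pφ (by (clear * - cφ; fun_prop))
  have i3 : Integrable (fun x : Eu d => φ x * ‖x‖ ^ 2) (gibbs (post V p.1 p.2)) :=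
    hA.integrable (pφ.mul (PG.id.norm.pow 2)) (by (clear * - cφ; fun_prop))
  have i4 : ∀ k ∈ (Finset.univ : Finset (Fin d)),
      Integrable (fun x : Eu d => p.2 k * (φ x * x k)) (gibbs (post V p.1 p.2)) := fun k _ =>
    (hA.integrable (pφ.mul (mom_pg_coord k)) (by fun_prop)).const_mul _
  have i4' : Integrable (fun x : Eu d => ∑ k, p.2 k * (φ x * x k)) (gibbs (post V p.1 p.2)) :=
    integrable_finset_sum _ i4
  have e1 : ∀ x, φ x * sc p v x = (p.1)⁻¹ * (φ x * inner ℝ x v.2)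
      + ((-1) * ((p.1)⁻¹ * inner ℝ v.2 p.2) * φ x
      + (((v.1 / 2) * ((p.1)⁻¹ * (p.1)⁻¹)) * (φ x * ‖x‖ ^ 2)
      + (((-v.1) * ((p.1)⁻¹ * (p.1)⁻¹)) * (∑ k, p.2 k * (φ x * x k))
      + ((v.1 / 2) * (((p.1)⁻¹ * (p.1)⁻¹) * (∑ k, p.2 k * p.2 k))) * φ x))) := by
    intro x
    have e2 : ∑ k, p.2 k * (φ x * x k) = φ x * inner ℝ x p.2 := by
      rw [mom_inner, Finset.mul_sum]
      exact Finset.sum_congr rfl fun k _ => by ring
    rw [e2, mom_sum_sq]
    unfold sc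
    have e3 : ‖x - p.2‖ ^ 2 = ‖x‖ ^ 2 - 2 * inner ℝ x p.2 + ‖p.2‖ ^ 2 :=
      norm_sub_sq_real x p.2
    rw [e3, inner_sub_left, real_inner_comm v.2 p.2]
    field_simp
    ring
  unfold Em
  simp only [e1]
  rw [mom_int5 i1 i2 i3 i4' i2, integral_finset_sum _ i4]
  simp only [integral_const_mul]
  unfold scE Em
  ring

theorem mom_zero_notMem : (0 : ℝ) ∉ Ioi (0 : ℝ) := by simp

theorem mom_cgn_coord (n : ℕ) (k : Fin d) : CGn (Ioi 0) n (fun p : ℝ × Eu d => p.2 k) :=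
  CG.lin isOpen_Ioi ((EuclideanSpace.proj k : Eu d →L[ℝ] ℝ).comp
    (ContinuousLinearMap.snd ℝ ℝ (Eu d))) n

theorem mom_cgn_inner (n : ℕ) (u : Eu d) :
    CGn (Ioi 0) n (fun p : ℝ × Eu d => (inner ℝ u p.2 : ℝ)) :=
  CG.lin isOpen_Ioi ((innerSL ℝ u).comp (ContinuousLinearMap.snd ℝ ℝ (Eu d))) n

theorem scE_cgn {n : ℕ} (h : ∀ ψ : Eu d → ℝ, Continuous ψ → PG ψ →
    CGn (Ioi 0) n (fun q : ℝ × Eu d => Em V q ψ)) {φ : Eu d → ℝ} (cφ : Continuous φ) (pφ : PG φ)
    (v : ℝ × Eu d) : CGn (Ioi 0) n (scE V φ v) := by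
  have hJ : IsOpen (Ioi (0 : ℝ)) := isOpen_Ioi
  have hinv : CGn (Ioi 0) n (fun p : ℝ × Eu d => (p.1)⁻¹) := CG.inv hJ mom_zero_notMem n
  have hinv2 := cgl_mul hJ hinv hinv
  have h1 := h (fun x => φ x * inner ℝ x v.2) (by fun_prop)
    (pφ.mul (PG.id.inner (PG.const v.2)))
  have h2 := h φ cφ pφ
  have h3 := h (fun x => φ x * ‖x‖ ^ 2) (by (clear * - cφ; fun_prop)) (pφ.mul (PG.id.norm.pow 2))
  have h4 : ∀ k, CGn (Ioi 0) n (fun q : ℝ × Eu d => Em V q (fun x => φ x * x k)) := fun k =>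
    h (fun x => φ x * x k) (by fun_prop) (pφ.mul (mom_pg_coord k))
  exact cgl_add hJ (cgl_add hJ (cgl_add hJ (cgl_add hJ (cgl_mul hJ hinv h1)
    (cgl_mul hJ (cgl_const n (-1)) (cgl_mul hJ hinv (cgl_mul hJ (mom_cgn_inner n v.2) h2))))
    (cgl_mul hJ (cgl_const n (v.1 / 2)) (cgl_mul hJ hinv2 h3)))
    (cgl_mul hJ (cgl_const n (-v.1)) (cgl_mul hJ hinv2 (cgl_sum hJ Finset.univ fun k _ =>
      cgl_mul hJ (mom_cgn_coord n k) (h4 k)))))
    (cgl_mul hJ (cgl_const n (v.1 / 2)) (cgl_mul hJ hinv2 (cgl_mul hJ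
      (cgl_sum hJ Finset.univ fun k _ => cgl_mul hJ (mom_cgn_coord n k) (mom_cgn_coord n k)) h2)))

theorem Em_diffOn (hV : Pot V G H) {φ : Eu d → ℝ} (cφ : Continuous φ) (pφ : PG φ) :
    DifferentiableOn ℝ (fun q : ℝ × Eu d => Em V q φ) (Ioi 0 ×ˢ univ) := fun p hp =>
  (Em_fderiv hV cφ pφ hp.1).1.differentiableWithinAt

theorem Em_cgn (hV : Pot V G H) (n : ℕ) : ∀ φ : Eu d → ℝ, Continuous φ → PG φ →
    CGn (Ioi 0) n (fun q : ℝ × Eu d => Em V q φ) := by
  induction n with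
  | zero => exact fun φ cφ pφ => ⟨(Em_diffOn hV cφ pφ).continuousOn, Em_growth hV cφ pφ⟩
  | succ n ih =>
    intro φ cφ pφ
    refine ⟨⟨(Em_diffOn hV cφ pφ).continuousOn, Em_growth hV cφ pφ⟩, Em_diffOn hV cφ pφ,
      fun v => ?_⟩
    have h1 := scE_cgn ih cφ pφ v
    have h2 := scE_cgn ih (φ := fun _ => 1) continuous_const (PG.const _) v
    refine cgl_congr isOpen_Ioi (cgl_add isOpen_Ioi h1 (cgl_mul isOpen_Ioi (cgl_const n (-1))
      (cgl_mul isOpen_Ioi (ih φ cφ pφ) h2))) fun p hp => ?_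
    rw [(Em_fderiv hV cφ pφ hp.1).2 v, Em_mul_sc hV cφ pφ hp.1 v]
    have h3 := Em_mul_sc hV (φ := fun _ => 1) continuous_const (PG.const _) hp.1 v
    simp only [one_mul] at h3
    have h4 : Em V p (sc p v) = scE V (fun _ => 1) v p := h3
    rw [h4]
    ring

theorem Wp_growth (hV : Pot V G H) : PGu (Ioi 0) (fun q : ℝ × Eu d => Wp V q.1 q.2) := by
  intro K hK hKc
  rcases K.eq_empty_or_nonempty with rfl | hne
  · exact ⟨0, 0, fun t ht => absurd ht (by simp)⟩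
  obtain ⟨a, haK, hmin⟩ := hKc.exists_isLeast hne
  have ha : 0 < a := hK haK
  obtain ⟨Z1, hZ1⟩ : ∃ Z1, Z1 = ∫ x : Eu d, Real.exp (-(1 / 2 * ‖x‖ ^ 2)) := ⟨_, rfl⟩
  obtain ⟨Z2, hZ2⟩ : ∃ Z2, Z2 = ∫ x : Eu d, Real.exp (-((1 + 1 / a) * ‖x‖ ^ 2)) := ⟨_, rfl⟩
  have hi1 := integrable_exp_neg_sq (E := Eu d) (b := 1 / 2) (by (clear * -; norm_num))
  have hi2 := integrable_exp_neg_sq (E := Eu d) (b := 1 + 1 / a) (by (clear * - ha; positivity))
  have hZ1p : 0 < Z1 := by rw [hZ1]; exact MeasureTheory.integral_exp_pos hi1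
  have hZ2p : 0 < Z2 := by rw [hZ2]; exact MeasureTheory.integral_exp_pos hi2
  refine ⟨1 / a + |Real.log Z1| + |Real.log Z2|, 2, fun t ht y => ?_⟩
  have ht0 : 0 < t := hK ht
  have hat : a ≤ t := hmin ht
  have hA := hV.cpot.post_adm ht0 y
  have hZ := hA.integrable_exp
  have hZp := hA.integral_exp_pos
  have hup : ∫ x, Real.exp (-post V t y x) ≤ Z1 := by
    rw [hZ1]
    refine integral_mono hZ hi1 fun x => Real.exp_le_exp.2 ?_
    have h1 := hV.low x
    have h2 : 0 ≤ ‖x - y‖ ^ 2 / (2 * t) := by (clear * - ht0; (clear * - ht0; positivity))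
    unfold post
    linarith only [h2, h1]
  have hlo : Real.exp (-(‖y‖ ^ 2 / a)) * Z2 ≤ ∫ x, Real.exp (-post V t y x) := by
    rw [hZ2, ← integral_const_mul]
    refine integral_mono (hi2.const_mul _) hZ fun x => ?_
    simp only []
    rw [← Real.exp_add]
    apply Real.exp_le_exp.2
    have h1 := hV.up x
    have h2 : ‖x - y‖ ^ 2 / (2 * t) ≤ ‖x‖ ^ 2 / a + ‖y‖ ^ 2 / a := by
      rw [← add_div]
      have h3 : ‖x - y‖ ^ 2 ≤ 2 * (‖x‖ ^ 2 + ‖y‖ ^ 2) := by
        have h4 := norm_sub_le x y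
        have h5 := pow_le_pow_left₀ (norm_nonneg _) h4 2
        (refine le_of_not_gt fun hng_ => ?_; linarith only [mul_nonneg (le_of_lt (sub_pos.2 hng_)) (sq_nonneg (‖x‖ - ‖y‖)), mul_nonneg (sub_nonneg.2 h5) (le_of_lt (sub_pos.2 hng_)), mul_pos (sub_pos.2 hng_) (sub_pos.2 hng_)])
      calc ‖x - y‖ ^ 2 / (2 * t) ≤ (2 * (‖x‖ ^ 2 + ‖y‖ ^ 2)) / (2 * t) :=
            div_le_div_of_nonneg_right h3 (by (clear * - ht0; positivity))
        _ = (‖x‖ ^ 2 + ‖y‖ ^ 2) / t := by (clear * - ht0; field_simp)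
        _ ≤ _ := div_le_div_of_nonneg_left (by (clear * -; (clear * -; positivity))) ha hat
    unfold post
    have h6 : (1 + 1 / a) * ‖x‖ ^ 2 = ‖x‖ ^ 2 + ‖x‖ ^ 2 / a := by ring
    rw [h6]
    linarith only [h2, h1]
  have hl1 : Real.log (∫ x, Real.exp (-post V t y x)) ≤ Real.log Z1 := Real.log_le_log hZp hup
  have hl2 : -(‖y‖ ^ 2 / a) + Real.log Z2 ≤ Real.log (∫ x, Real.exp (-post V t y x)) := by
    have h1 := Real.log_le_log (by (clear * - hZ2p; positivity)) hlo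
    rw [Real.log_mul (Real.exp_pos _).ne' hZ2p.ne', Real.log_exp] at h1
    exact h1
  have hW : Wp V t y = -Real.log (∫ x, Real.exp (-post V t y x)) := rfl
  simp only []
  rw [hW]
  have h1 := neg_abs_le (Real.log Z2)
  have h2 := le_abs_self (Real.log Z1)
  have h3 : 0 ≤ ‖y‖ ^ 2 / a := by (clear * - ha; (clear * - ha; positivity))
  have h7 : |-Real.log (∫ x, Real.exp (-post V t y x))|
      ≤ ‖y‖ ^ 2 / a + |Real.log Z1| + |Real.log Z2| := by
    rw [abs_le]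
    have h5 := abs_nonneg (Real.log Z1)
    have h6 := abs_nonneg (Real.log Z2)
    constructor <;> (first | linarith only [h3, hl1, h2, h6] | linarith only [h1, hl2, h5])
  refine h7.trans ?_
  have hy := norm_nonneg y
  have h8 : 1 ≤ (1 + ‖y‖) ^ 2 := one_le_pow₀ (by linarith only [hy])
  have h9 : ‖y‖ ^ 2 ≤ (1 + ‖y‖) ^ 2 := pow_le_pow_left₀ hy (by linarith only []) 2
  have h10 : ‖y‖ ^ 2 / a ≤ 1 / a * (1 + ‖y‖) ^ 2 := by
    rw [div_mul_eq_mul_div, one_mul]
    exact div_le_div_of_nonneg_right h9 ha.le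
  have h11 : |Real.log Z1| ≤ |Real.log Z1| * (1 + ‖y‖) ^ 2 :=
    le_mul_of_one_le_right (abs_nonneg _) h8
  have h12 : |Real.log Z2| ≤ |Real.log Z2| * (1 + ‖y‖) ^ 2 :=
    le_mul_of_one_le_right (abs_nonneg _) h8
  rw [add_mul, add_mul]
  linarith only [h11, h10, h12]

theorem Wp_cg (hV : Pot V G H) : CG (Ioi 0) (fun q : ℝ × Eu d => Wp V q.1 q.2) := by
  have hd : DifferentiableOn ℝ (fun q : ℝ × Eu d => Wp V q.1 q.2) (Ioi 0 ×ˢ univ) := fun p hp =>
    (Wp_fderiv hV hp.1).1.differentiableWithinAt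
  have h0 := Wp_growth hV
  intro n
  cases n with
  | zero => exact ⟨hd.continuousOn, h0⟩
  | succ n =>
    refine ⟨⟨hd.continuousOn, h0⟩, hd, fun v => ?_⟩
    have h2 := scE_cgn (Em_cgn hV n) (φ := fun _ => 1) continuous_const (PG.const _) v
    refine cgl_congr isOpen_Ioi (cgl_mul isOpen_Ioi (cgl_const n (-1)) h2) fun p hp => ?_
    rw [(Wp_fderiv hV hp.1).2 v]
    have h3 := Em_mul_sc hV (φ := fun _ => 1) continuous_const (PG.const _) hp.1 v
    simp only [one_mul] at h3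
    have h4 : Em V p (sc p v) = scE V (fun _ => 1) v p := h3
    rw [h4]
    ring

end Vale.Agent.P347.Z
end

section
attribute [-instance] ProperSMul.toContinuousSMul IsTopologicalTorsor.toContinuousSMul IdemSemiring.toCanonicallyOrderedAdd IdemSemiring.toMulLeftMono IdemSemiring.toMulRightMono AddQuantale.instAddLeftMono AddQuantale.instAddRightMono Quantale.instMulLeftMono Quantale.instMulRightMono FiniteDimensional.rclike_to_real IsScalarTower.complexToReal FiniteDimensional.complexToReal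

/-! Module M4 (P347, S): the two trivial evaluations. -/

open MeasureTheory Filter Module
open scoped ENNReal NNReal
open Vale.Agent.P347.Z

namespace Vale.Agent.P347.S

variable {d : ℕ}

/-- The sampler which computes one gradient, multiplies it with `w` and adds Gaussian noise. -/
theorem exists_gradNoise {Θ : Type} [MeasurableSpace Θ] (w σ : ℝ) :
    ∃ A : Samp d (Θ × Eu d) (Eu d), A.cost = 1 ∧
      ∀ V ∈ PotClass d, ∀ p : Θ × Eu d, A.law V p = gau (w • gradient V p.2) σ := by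
  obtain ⟨B1, hc1, hB1⟩ := exists_grad (d := d) (Θ := Θ × Eu d) (fun p => p.2) measurable_snd
  obtain ⟨B2, hc2, hB2⟩ := exists_map B1 (fun z : Eu d => w • z) (measurable_const_smul w)
  obtain ⟨B3, hc3, hB3⟩ := exists_noise (d := d) (Θ := Θ × Eu d) (gau (0 : Eu d) σ)
  obtain ⟨B4, hc4, hB4⟩ := exists_add B2 B3
  refine ⟨B4, by rw [hc4, hc2, hc3, hc1], fun V hV p => ?_⟩
  rw [hB4 V hV, hB2 V hV, hB3 V hV, hB1 V hV,
    Measure.map_dirac' (measurable_const_smul w), cnv_dirac]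
  have h := gau_map (0 : Eu d) (w • gradient V p.2) 1 σ
  rw [smul_zero, zero_add, one_mul] at h
  rw [← h]
  have h2 : (fun z : Eu d => (1 : ℝ) • z + w • gradient V p.2)
      = (fun z : Eu d => w • gradient V p.2 + z) := by
    funext z
    rw [one_smul, add_comm]
  rw [h2]

theorem eta_eq_one {ϖ : ℝ} {l m : ℕ} (hl : l = 0 ∨ m ≤ 1) : eta ϖ l m = 1 := by
  unfold eta
  have h : min l (m ^ 2 / 4) = 0 := by
    rcases hl with h | h
    · rw [h, Nat.zero_min]
    · have h2 : m ^ 2 / 4 = 0 := by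
        interval_cases m <;> norm_num
      rw [h2, Nat.min_zero]
  rw [h, pow_zero]

/-- Pure noise: if `l = 0` or `m ≤ 1` then `eta ϖ l m = 1` and the sampler of `N(0, σ²)` is good
enough. -/
theorem evalAt_noise {v ϖ s a Λ : ℝ} {D l m B : ℕ} (hl : l = 0 ∨ m ≤ 1) (hs : 0 < s) (hs1 : s ≤ 1)
    (ha : 2 ≤ a) (hΛ : 0 ≤ Λ) : EvalAt d v ϖ D l m s a Λ B := by
  intro w σ _ _ Θ _ h
  obtain ⟨A, hc, hA⟩ := exists_noise (d := d) (Θ := Θ) (gau (0 : Eu d) σ)
  refine ⟨A, fun τ _ _ => ?_, fun V hV θ₁ θ₂ c hc' => ?_, fun V hV θ y e he _ => ?_⟩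
  · rw [hc]
    exact Nat.zero_le _
  · rw [hA V hV, hA V hV]
    refine (WD.refl _).mono ?_
    have h1 := (hc' 0 (Nat.zero_le _)).nonneg
    (clear * - hΛ h1; (clear * - hΛ h1; positivity))
  · rw [hA V hV, eta_eq_one hl]
    refine (wd_gau _ _ _).mono ?_
    rw [zero_sub, norm_neg, norm_smul, Real.norm_eq_abs, mul_one]
    have h1 := Fp_norm hV hs hs1 y
    have h0 : 0 ≤ ‖y‖ + √d := by (clear * -; positivity)
    have h2 : 2 * (‖y‖ + √d) ≤ a * e := by (refine le_of_not_gt fun hng_ => ?_; linarith only [mul_nonneg (sub_nonneg.2 hs1) (le_of_lt (sub_pos.2 hng_)), mul_pos hs (sub_pos.2 hng_), mul_nonneg (sub_nonneg.2 ha) h0, mul_nonneg (sub_nonneg.2 hs1) (sub_nonneg.2 he), mul_nonneg (le_of_lt hs) (sub_nonneg.2 he), mul_nonneg (sub_nonneg.2 ha) (sub_nonneg.2 he)])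
    calc |w| * ‖Fp V (gradient V) s y‖ ≤ |w| * (a * e) :=
          mul_le_mul_of_nonneg_left (h1.trans h2) (abs_nonneg w)
      _ = |w| * a * e := by ring

/-- The bottom level: one query at a point drawn with `h l`. -/
theorem evalAt_bottom {v ϖ s a Λ : ℝ} {D l m B : ℕ} (hs : 0 < s) (hs1 : s ≤ 1) (hv : 0 ≤ v)
    (hv1 : v ≤ 1) (hϖ : 0 < ϖ) (hϖ1 : ϖ ≤ 1) (hb : 16 * √s ≤ ϖ ^ l) (ha : 3 ≤ a) (hΛ : 2 ≤ Λ)
    (hB : 2 ≤ B) (hD : 1 ≤ D) : EvalAt d v ϖ D l m s a Λ B := by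
  intro w σ _ _ Θ _ h
  obtain ⟨B0, hc0, hB0⟩ := exists_gradNoise (d := d) (Θ := Θ) w σ
  obtain ⟨A, hc, hA⟩ := exists_bind (h l) B0
  -- the integrand
  have key : ∀ V ∈ PotClass d, ∀ f : Eu d → ℝ, (∀ x y, |f x - f y| ≤ ‖x - y‖) →
      (∃ C, ∀ x, |f x| ≤ C) →
      (∀ θ, ∫ z, f z ∂(A.law V θ) = ∫ x, (∫ z, f z ∂(gau (w • gradient V x) σ)) ∂((h l).law V θ)) ∧
      (∀ x y, |(∫ z, f z ∂(gau (w • gradient V x) σ)) - ∫ z, f z ∂(gau (w • gradient V y) σ)|
        ≤ |w| * 2 * ‖x - y‖) ∧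
      (∃ C, ∀ x, |∫ z, f z ∂(gau (w • gradient V x) σ)| ≤ C) := by
    intro V hV f hf bf
    have hfc : Continuous f := by
      have hl : LipschitzWith 1 f := LipschitzWith.of_dist_le_mul fun x y => by
        rw [Real.dist_eq, dist_eq_norm, NNReal.coe_one, one_mul]
        exact hf x y
      exact hl.continuous
    refine ⟨fun θ => ?_, fun x y => ?_, ?_⟩
    · rw [hA V hV θ f hfc.measurable bf]
      refine integral_congr_ae (Eventually.of_forall fun x => ?_)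
      simp only [hB0 V hV]
    · refine (wd_gau (w • gradient V x) (w • gradient V y) σ f hf bf).trans ?_
      rw [← smul_sub, norm_smul, Real.norm_eq_abs]
      calc |w| * ‖gradient V x - gradient V y‖ ≤ |w| * (2 * ‖x - y‖) :=
            mul_le_mul_of_nonneg_left (grad_lip hV x y) (abs_nonneg w)
        _ = |w| * 2 * ‖x - y‖ := by ring
    · obtain ⟨C, hC⟩ := bf
      refine ⟨C, fun x => ?_⟩
      have h1 := norm_integral_le_of_norm_le_const (μ := gau (w • gradient V x) σ) (f := f)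
        (C := C) (Eventually.of_forall fun z => by rw [Real.norm_eq_abs]; exact hC z)
      rw [Real.norm_eq_abs] at h1
      simpa only [ge_iff_le, probReal_univ, mul_one] using h1
  refine ⟨A, fun τ hτ hcost => ?_, fun V hV θ₁ θ₂ c hc' => ?_, fun V hV θ y e he hh => ?_⟩
  · rw [hc, hc0]
    have h1 := hcost l le_rfl
    have h2 : 1 ≤ D ^ l * τ := Nat.one_le_iff_ne_zero.2 (by (clear * - hD hτ; positivity))
    calc (h l).cost + 1 ≤ 2 * (D ^ l * τ) := by (clear * - h1 h2; omega)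
      _ ≤ B * (D ^ l * τ) := Nat.mul_le_mul_right _ hB
      _ = B * D ^ l * τ := by ring
  · intro f hf bf
    obtain ⟨k1, k2, k3⟩ := key V hV f hf bf
    rw [k1, k1]
    have h0 : 0 ≤ c := (hc' 0 (Nat.zero_le _)).nonneg
    refine ((hc' l le_rfl).lip (by (clear * -; (clear * -; positivity))) k2 k3).trans ?_
    have h1 : |w| * 2 ≤ |w| * Λ := mul_le_mul_of_nonneg_left hΛ (abs_nonneg w)
    exact mul_le_mul_of_nonneg_right h1 h0
  · intro f hf bf
    obtain ⟨k1, k2, k3⟩ := key V hV f hf bf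
    rw [k1]
    set φ : Eu d → ℝ := fun x => ∫ z, f z ∂(gau (w • gradient V x) σ) with hφ
    set F := Fp V (gradient V) s y with hF
    set q : ℝ := ∫ z, f z ∂(gau (w • F) σ) with hq
    have h1 : |∫ x, φ x ∂((h l).law V θ) - ∫ x, φ x ∂(gau y (√(v * s)))|
        ≤ |w| * 2 * (eta ϖ l m * e) := (hh l le_rfl).lip (by (clear * -; positivity)) k2 k3
    have hφc : Continuous φ := by
      have hl : LipschitzWith (Real.toNNReal (|w| * 2)) φ := LipschitzWith.of_dist_le_mul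
        fun x y => by
          rw [Real.dist_eq, dist_eq_norm, Real.coe_toNNReal _ (by (clear * -; positivity))]
          exact k2 x y
      exact hl.continuous
    obtain ⟨C, hC⟩ := k3
    have hφi : Integrable φ (gau y (√(v * s))) :=
      Integrable.of_bound hφc.aestronglyMeasurable C (Eventually.of_forall fun x => by
        rw [Real.norm_eq_abs]
        exact hC x)
    obtain ⟨hi, hn⟩ := naive_bound hV hs hs1 hv hv1 y
    have h2 : |∫ x, φ x ∂(gau y (√(v * s))) - q| ≤ |w| * (8 * √s * (‖y‖ + √d)) := by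
      have h3 : ∫ x, φ x ∂(gau y (√(v * s))) - q = ∫ x, (φ x - q) ∂(gau y (√(v * s))) := by
        rw [integral_sub hφi (integrable_const q), integral_const]
        simp only [probReal_univ, smul_eq_mul, one_mul]
      rw [h3]
      calc |∫ x, (φ x - q) ∂(gau y (√(v * s)))|
          ≤ ∫ x, |φ x - q| ∂(gau y (√(v * s))) := abs_integral_le_integral_abs
        _ ≤ ∫ x, |w| * ‖gradient V x - F‖ ∂(gau y (√(v * s))) := by
            refine integral_mono (hφi.sub (integrable_const q)).abs (hi.const_mul _) fun x => ?_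
            have h4 := wd_gau (w • gradient V x) (w • F) σ f hf bf
            rw [← smul_sub, norm_smul, Real.norm_eq_abs] at h4
            exact h4
        _ = |w| * ∫ x, ‖gradient V x - F‖ ∂(gau y (√(v * s))) := integral_const_mul _ _
        _ ≤ |w| * (8 * √s * (‖y‖ + √d)) := mul_le_mul_of_nonneg_left hn (abs_nonneg w)
    have he0 : 0 ≤ ‖y‖ + √d := by (clear * -; (clear * -; positivity))
    have he1 : 0 ≤ e := he0.trans he
    have heta : ϖ ^ l ≤ eta ϖ l m := by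
      unfold eta
      exact pow_le_pow_of_le_one hϖ.le hϖ1 (Nat.min_le_left _ _)
    have heta0 : 0 < eta ϖ l m := by
      unfold eta
      exact pow_pos hϖ _
    have h5 : 8 * √s * (‖y‖ + √d) ≤ 1 / 2 * (eta ϖ l m * e) := by
      have h6 : 8 * √s ≤ 1 / 2 * eta ϖ l m := by linarith only [heta, hb]
      calc 8 * √s * (‖y‖ + √d) ≤ 8 * √s * e :=
            mul_le_mul_of_nonneg_left he (by positivity)
        _ ≤ 1 / 2 * eta ϖ l m * e := mul_le_mul_of_nonneg_right h6 he1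
        _ = 1 / 2 * (eta ϖ l m * e) := by ring
    have h7 : |∫ x, φ x ∂((h l).law V θ) - q|
        ≤ |∫ x, φ x ∂((h l).law V θ) - ∫ x, φ x ∂(gau y (√(v * s)))|
          + |∫ x, φ x ∂(gau y (√(v * s))) - q| := abs_sub_le _ _ _
    have h8 : |w| * (8 * √s * (‖y‖ + √d)) ≤ |w| * (1 / 2 * (eta ϖ l m * e)) :=
      mul_le_mul_of_nonneg_left h5 (abs_nonneg w)
    have h9 : 0 ≤ |w| * (eta ϖ l m * e) := by (clear * - heta0 he1; positivity)
    have h10 : 3 * (|w| * (eta ϖ l m * e)) ≤ a * (|w| * (eta ϖ l m * e)) :=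
      mul_le_mul_of_nonneg_right ha h9
    calc |∫ x, φ x ∂((h l).law V θ) - q|
        ≤ |w| * 2 * (eta ϖ l m * e) + |w| * (1 / 2 * (eta ϖ l m * e)) := by linarith only [h7, h1, h2, h8]
      _ ≤ a * (|w| * (eta ϖ l m * e)) := by linarith only [h10, h9]
      _ = |w| * a * eta ϖ l m * e := by ring

end Vale.Agent.P347.S
end

section

/-! Module M5 (P347, S): samplers of the virtual nodes of a network. -/

open MeasureTheory Filter Module
open scoped ENNReal NNReal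
open Vale.Agent.P347.Z

namespace Vale.Agent.P347.S

variable {d : ℕ}

/-! ### Pieces -/

theorem nh_scale {Θ : Type} [MeasurableSpace Θ] (A : Samp d Θ (Eu d)) (α : ℝ) :
    ∃ A' : Samp d Θ (Eu d), A'.cost ≤ A.cost ∧ (α = 0 → A'.cost = 0) ∧
      ∀ V ∈ PotClass d, ∀ θ, A'.law V θ = (A.law V θ).map (fun z => α • z) := by
  by_cases hα : α = 0
  · obtain ⟨A', h1, h2⟩ := exists_pure (d := d) (Θ := Θ) (fun _ => (0 : Eu d)) measurable_const
    refine ⟨A', by omega, fun _ => h1, fun V hV θ => ?_⟩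
    have := A.isProb hV θ
    rw [h2 V hV θ, hα]
    simp only [zero_smul]
    rw [Measure.map_const, measure_univ, one_smul]
  · obtain ⟨A', h1, h2⟩ := exists_map A (fun z : Eu d => α • z)
      (continuous_const_smul α).measurable
    exact ⟨A', h1.le, fun h => absurd h hα, h2⟩

theorem nh_assemble {Θ : Type} [MeasurableSpace Θ] (h : Samp d Θ (Eu d)) (α β cg cP : ℝ)
    (S : Samp d (Θ × Eu d × Eu d × Eu d) (Eu d)) :
    ∃ H : Samp d (Θ × Eu d × Eu d × Eu d) (Eu d), H.cost ≤ h.cost + S.cost ∧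
      (α = 0 → H.cost ≤ S.cost) ∧ ∀ V ∈ PotClass d, ∀ θ K g P, H.law V (θ, K, g, P) =
        cnv (cnv (Measure.dirac (β • K + cg • g + cP • P)) ((h.law V θ).map (fun z => α • z)))
          (S.law V (θ, K, g, P)) := by
  obtain ⟨A0, c0, c0', l0⟩ := nh_scale h α
  obtain ⟨A1, c1, l1⟩ := exists_comap (Θ' := Θ × Eu d × Eu d × Eu d) A0 Prod.fst measurable_fst
  obtain ⟨A2, c2, l2⟩ := exists_pure (d := d) (Θ := Θ × Eu d × Eu d × Eu d)
    (fun x => β • x.2.1 + cg • x.2.2.1 + cP • x.2.2.2) (by (clear * -; fun_prop))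
  obtain ⟨A3, c3, l3⟩ := exists_add A2 A1
  obtain ⟨A4, c4, l4⟩ := exists_add A3 S
  refine ⟨A4, by (clear * - c0 c1 c2 c3 c4; omega), fun hα => ?_, fun V hV θ K g P => ?_⟩
  · have := c0' hα
    omega
  · rw [l4 V hV, l3 V hV, l2 V hV, l1 V hV, l0 V hV]

theorem nh_lip_cnv {μ₁ μ₂ S₁ S₂ : Measure (Eu d)} [IsProbabilityMeasure μ₁]
    [IsProbabilityMeasure μ₂] [IsProbabilityMeasure S₁] [IsProbabilityMeasure S₂] {u₁ u₂ : Eu d}
    {α c cS : ℝ} (h : WD μ₁ μ₂ c) (hS : WD S₁ S₂ cS) :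
    WD (cnv (cnv (Measure.dirac u₁) (μ₁.map (fun z => α • z))) S₁)
      (cnv (cnv (Measure.dirac u₂) (μ₂.map (fun z => α • z))) S₂)
      (‖u₁ - u₂‖ + |α| * c + cS) := by
  have hm : Measurable (fun z : Eu d => α • z) := (continuous_const_smul α).measurable
  have i1 : IsProbabilityMeasure (μ₁.map (fun z => α • z)) :=
    Measure.isProbabilityMeasure_map hm.aemeasurable
  have i2 : IsProbabilityMeasure (μ₂.map (fun z => α • z)) :=
    Measure.isProbabilityMeasure_map hm.aemeasurable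
  have h1 : WD (μ₁.map (fun z => α • z)) (μ₂.map (fun z => α • z)) (|α| * c) :=
    WD.map h (abs_nonneg α) fun x y => by rw [← smul_sub, norm_smul, Real.norm_eq_abs]
  exact WD.cnv (WD.cnv (wd_dirac u₁ u₂) h1) hS

theorem nh_err_cnv {μ S : Measure (Eu d)} [IsProbabilityMeasure μ] [IsProbabilityMeasure S]
    {u y z : Eu d} {α σ ρ eh eS : ℝ} (h : WD μ (gau y σ) eh) (hS : WD S (gau z ρ) eS) :
    WD (cnv (cnv (Measure.dirac u) (μ.map (fun z => α • z))) S)
      (gau (u + α • y + z) (√((α * σ) ^ 2 + ρ ^ 2))) (|α| * eh + eS) := by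
  have hm : Measurable (fun z : Eu d => α • z) := (continuous_const_smul α).measurable
  have i1 : IsProbabilityMeasure (μ.map (fun z => α • z)) :=
    Measure.isProbabilityMeasure_map hm.aemeasurable
  have e0 : (gau y σ).map (fun z => α • z) = gau (α • y) (α * σ) := by
    have := gau_map y (0 : Eu d) α σ
    simpa only [add_zero] using this
  have i2 : IsProbabilityMeasure ((gau y σ).map (fun z => α • z)) := by
    rw [e0]
    infer_instance
  have h1 : WD (μ.map (fun z => α • z)) ((gau y σ).map (fun z => α • z)) (|α| * eh) :=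
    WD.map h (abs_nonneg α) fun x y => by rw [← smul_sub, norm_smul, Real.norm_eq_abs]
  have h2 := WD.cnv (WD.cnv (WD.refl (Measure.dirac u)) h1) hS
  rw [e0, ← gau_zero, gau_cnv, gau_cnv] at h2
  have e1 : (√((0 : ℝ) ^ 2 + (α * σ) ^ 2)) ^ 2 = (α * σ) ^ 2 := by
    rw [Real.sq_sqrt (by (clear * -; positivity))]
    ring
  rw [e1, zero_add] at h2
  rw [← gau_zero]
  exact h2

/-! ### The properties of the sampler of one node -/

/-- The properties of the sampler `A` of the node `i` of accuracy `k`. -/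
def NHNode {N : ℕ} (D l m : ℕ) (δ ϖ ε s : ℝ) (net : Net N) {Θ : Type} [MeasurableSpace Θ]
    (h : ℕ → Samp d Θ (Eu d)) (k : ℕ) (i : Fin N)
    (A : Samp d (Θ × Eu d × Eu d × Eu d) (Eu d)) : Prop :=
  (∀ τ : ℕ, 1 ≤ τ → (∀ l' ≤ l, (h l').cost ≤ D ^ l' * τ) →
    A.cost ≤ D ^ k * (2 * τ) ∧ (i = net.top → A.cost ≤ D ^ k * τ)) ∧
  (∀ V ∈ PotClass d, ∀ (θ₁ θ₂ : Θ) (c : ℝ), 0 ≤ c →
    (∀ l' ≤ l, WD ((h l').law V θ₁) ((h l').law V θ₂) c) → ∀ K₁ K₂ g P : Eu d,
    WD (A.law V (θ₁, K₁, g, P)) (A.law V (θ₂, K₂, g, P)) (2 * (c + ‖K₁ - K₂‖)) ∧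
    (i = net.top → WD (A.law V (θ₁, K₁, g, P)) (A.law V (θ₂, K₂, g, P))
      ((1 + ε / 8) * ‖K₁ - K₂‖ + ε / 8 * c))) ∧
  (∀ V ∈ PotClass d, ∀ (θ : Θ) (y : Eu d) (e : ℝ), ‖y‖ + √d ≤ e →
    (∀ l' ≤ l, WD ((h l').law V θ) (gau y (√(δ / 4 * s))) (eta ϖ l' m * e)) →
    ∀ (X : Fin N → Eu d) (r : ℝ) (av g P : Eu d), 0 ≤ r → X net.root = y →
      (∀ i, ‖X i - (y + net.t i • av + net.cg i • g + net.cP i • P
        + ∑ j, net.w i j • Fp V (gradient V) (net.lev j) (X j))‖ ≤ r) →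
      WD (A.law V (θ, y + √(δ * s) • av, g, P)) (gau (X i) (√(δ / 4 * net.lev i)))
        (eta ϖ k m * (2 * (e + ∑ i, (‖X i‖ + √d) + r / ϖ ^ l))) ∧
      (i = net.top → WD (A.law V (θ, y + √(δ * s) • av, g, P))
        (gau (X i) (√(δ / 4 * net.lev i)))
        (eta ϖ k m * (‖X i‖ + √d
          + ε / (32 * (N + 1)) * (e + ∑ i, (‖X i‖ + √d) + r / ϖ ^ l) + r / ϖ ^ l))))

/-! ### Numbers -/

section num

variable {N p lmax mmax B D : ℕ} {C δ ϖ ε a Λ smax s : ℝ}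

theorem nh_N_pos (par : GPar N p C δ ϖ ε a Λ smax lmax mmax B D) : (1 : ℝ) ≤ N := by
  exact_mod_cast par.hN

theorem nh_p_pos (par : GPar N p C δ ϖ ε a Λ smax lmax mmax B D) : (1 : ℝ) ≤ p := by
  exact_mod_cast par.hp

theorem nh_delta_le (par : GPar N p C δ ϖ ε a Λ smax lmax mmax B D) : δ ≤ 1 / 8 := by
  refine par.hδ'.trans ?_
  have := nh_p_pos par
  exact one_div_le_one_div_of_le (by norm_num) (by linarith only [this])

theorem nh_pi_le (par : GPar N p C δ ϖ ε a Λ smax lmax mmax B D) : ϖ ≤ 1 / 2 := by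
  have h1 := par.i2
  have h2 := par.hϖ
  (refine le_of_not_gt fun hng_ => ?_; linarith only [mul_nonneg (sq_nonneg (ϖ)) (le_of_lt (sub_pos.2 hng_)), mul_pos h2 (sub_pos.2 hng_), mul_nonneg (sub_nonneg.2 h1) (le_of_lt h2), mul_pos h2 h2])

theorem nh_eta_pos (hϖ : 0 < ϖ) (k m : ℕ) : 0 < eta ϖ k m := pow_pos hϖ _

theorem nh_eta_zero (m : ℕ) : eta ϖ 0 m = 1 := by
  unfold eta
  simp only [zero_le, inf_of_le_left, pow_zero]

theorem nh_eta_ge (hϖ : 0 < ϖ) (hϖ' : ϖ < 1) {k l : ℕ} (hk : k ≤ l) (m : ℕ) :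
    ϖ ^ l ≤ eta ϖ k m :=
  pow_le_pow_of_le_one hϖ.le hϖ'.le ((min_le_left _ _).trans hk)

theorem nh_eta_anti (hϖ : 0 < ϖ) (hϖ' : ϖ < 1) (k m : ℕ) :
    eta ϖ k m ≤ eta ϖ k (m - 2) := by
  refine pow_le_pow_of_le_one hϖ.le hϖ'.le (min_le_min le_rfl ?_)
  exact Nat.div_le_div_right (Nat.pow_le_pow_left (Nat.sub_le _ _) 2)

theorem nh_sq_div {m : ℕ} (hm : 2 ≤ m) : m ^ 2 / 4 = (m - 2) ^ 2 / 4 + (m - 1) := by
  obtain ⟨n, rfl⟩ : ∃ n, m = n + 2 := ⟨m - 2, by omega⟩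
  have e : (n + 2) ^ 2 = n ^ 2 + 4 * (n + 1) := by ring
  rw [e, Nat.add_mul_div_left _ _ (by norm_num)]
  congr 1

theorem nh_eta_step (hϖ : 0 < ϖ) (hϖ' : ϖ < 1) {m : ℕ} (hm : 2 ≤ m) (k : ℕ) :
    ϖ ^ (m - 1) * eta ϖ k (m - 2) ≤ eta ϖ (k + 1) m := by
  unfold eta
  rw [← pow_add]
  refine pow_le_pow_of_le_one hϖ.le hϖ'.le ?_
  have h := nh_sq_div hm
  omega

theorem nh_pow_le (hϖ : 0 < ϖ) (hϖ' : ϖ < 1) {m : ℕ} (hm : 2 ≤ m) :
    ϖ ^ (2 * m - 2) ≤ ϖ * ϖ ^ (m - 1) := by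
  have e : 2 * m - 2 = (m - 1) + (m - 1) := by (clear * - hm; omega)
  rw [e, pow_add]
  refine mul_le_mul_of_nonneg_right ?_ (by (clear * - hϖ; positivity))
  calc ϖ ^ (m - 1) ≤ ϖ ^ 1 := pow_le_pow_of_le_one hϖ.le hϖ'.le (by omega)
    _ = ϖ := pow_one ϖ

theorem nh_pow_le_sq (hϖ : 0 < ϖ) (hϖ' : ϖ < 1) {m : ℕ} (hm : 2 ≤ m) :
    ϖ ^ (2 * m - 2) ≤ ϖ ^ 2 := pow_le_pow_of_le_one hϖ.le hϖ'.le (by omega)

theorem nh_class (par : GPar N p C δ ϖ ε a Λ smax lmax mmax B D) {m : ℕ} (hm : 2 ≤ m)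
    (hs : 0 < s) {w lev σ : ℝ} (hw : |w| ≤ 8 * C * ϖ ^ (2 * m - 2)) (hlev : lev ≤ s)
    (hσ : √(δ * s / (16 * p * N)) ≤ σ) : |w| * √lev ≤ ϖ ^ (2 * (m - 2)) * σ := by
  have hN := nh_N_pos par
  have hp := nh_p_pos par
  have hδ := par.hδ
  have hC := par.hC
  have hϖ := par.hϖ
  have e1 : √(16 * p * N / δ) * √(δ * s / (16 * p * N)) = √s := by
    rw [← Real.sqrt_mul (by (clear * - hp hN hδ; positivity))]
    congr 1
    (clear * - hp hN hδ hs; field_simp)
  have h1 : 8 * C * ϖ ^ 2 * √s ≤ σ := by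
    rw [← e1]
    calc 8 * C * ϖ ^ 2 * (√(16 * p * N / δ) * √(δ * s / (16 * p * N))) =
        (8 * C * ϖ ^ 2 * √(16 * p * N / δ)) * √(δ * s / (16 * p * N)) := by ring
      _ ≤ 1 * √(δ * s / (16 * p * N)) :=
        mul_le_mul_of_nonneg_right par.i3 (Real.sqrt_nonneg _)
      _ ≤ σ := by rw [one_mul]; exact hσ
  have h2 : √lev ≤ √s := Real.sqrt_le_sqrt hlev
  have e2 : ϖ ^ (2 * m - 2) = ϖ ^ (2 * (m - 2)) * ϖ ^ 2 := by
    rw [← pow_add]
    congr 1
    omega
  calc |w| * √lev ≤ (8 * C * ϖ ^ (2 * m - 2)) * √s :=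
        mul_le_mul hw h2 (Real.sqrt_nonneg _) (by (clear * - hC hϖ; positivity))
    _ = ϖ ^ (2 * (m - 2)) * (8 * C * ϖ ^ 2 * √s) := by rw [e2]; ring
    _ ≤ ϖ ^ (2 * (m - 2)) * σ := mul_le_mul_of_nonneg_left h1 (by positivity)

/-- the residual variance -/
noncomputable def nhVar (δ s lev t : ℝ) : ℝ :=
  δ / 4 * lev - (1 - t / √(δ * s)) ^ 2 * (δ / 4 * s)

theorem nh_var_ge (par : GPar N p C δ ϖ ε a Λ smax lmax mmax B D) (hs : 0 < s) {lev t : ℝ}
    (hlev : (1 - 2 * δ) * s ≤ lev)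
    (hmar : (1 - t / √(δ * s)) ^ 2 * s ≤ (1 - 1 / (2 * p)) * lev) :
    δ * s / (16 * p) ≤ nhVar δ s lev t := by
  have hp := nh_p_pos par
  have hδ := par.hδ
  have hδ1 := nh_delta_le par
  have h1 : 3 / 4 * s ≤ lev := by (refine le_of_not_gt fun hng_ => ?_; linarith only [mul_pos hδ (sub_pos.2 hng_), mul_nonneg (sub_nonneg.2 hδ1) (le_of_lt (sub_pos.2 hng_)), mul_nonneg (le_of_lt hs) (sub_nonneg.2 hδ1), mul_nonneg (sub_nonneg.2 hlev) (sub_nonneg.2 hδ1), mul_nonneg (sub_nonneg.2 hlev) (le_of_lt hδ)])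
  have h2 : δ / 4 * (lev / (2 * p)) ≤ nhVar δ s lev t := by
    have h3 := mul_le_mul_of_nonneg_left hmar (by (clear * - hδ; positivity) : 0 ≤ δ / 4)
    have e : (1 - 1 / (2 * (p : ℝ))) * lev = lev - lev / (2 * p) := by ring
    rw [e] at h3
    unfold nhVar
    linarith only [h3]
  refine le_trans ?_ h2
  rw [show δ * s / (16 * p) = δ / 4 * ((s / 2) / (2 * p)) by field_simp; ring]
  refine mul_le_mul_of_nonneg_left ?_ (by positivity)
  refine div_le_div_of_nonneg_right ?_ (by positivity)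
  linarith only [h1, hs]

theorem nh_one_le_C (par : GPar N p C δ ϖ ε a Λ smax lmax mmax B D) : 0 < C := by
  linarith only [par.hC]

theorem nh_small0 (par : GPar N p C δ ϖ ε a Λ smax lmax mmax B D) :
    16 * N * C * a * ϖ ≤ ε / (32 * (N + 1)) := by
  have hN := nh_N_pos par
  rw [le_div_iff₀ (by (clear * - hN; positivity))]
  have := par.i5
  calc 16 * N * C * a * ϖ * (32 * (N + 1)) = 512 * N * (N + 1) * C * a * ϖ := by ring
    _ ≤ ε := this

theorem nh_small1 (par : GPar N p C δ ϖ ε a Λ smax lmax mmax B D) {m : ℕ} (hm : 2 ≤ m) :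
    8 * C * ϖ ^ (2 * m - 2) * 2 ≤ ε / (32 * (N + 1)) := by
  refine le_trans ?_ (nh_small0 par)
  have hN := nh_N_pos par
  have hC := nh_one_le_C par
  have hϖ := par.hϖ
  have ha := par.ha
  have h1 : ϖ ^ (2 * m - 2) ≤ ϖ := by
    calc ϖ ^ (2 * m - 2) ≤ ϖ ^ 1 := pow_le_pow_of_le_one hϖ.le par.hϖ'.le (by omega)
      _ = ϖ := pow_one ϖ
  have h2 : 1 ≤ (N : ℝ) * a := by nlinarith only [hN, ha]
  calc 8 * C * ϖ ^ (2 * m - 2) * 2 = 16 * C * ϖ ^ (2 * m - 2) := by ring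
    _ ≤ 16 * C * ϖ := mul_le_mul_of_nonneg_left h1 (by positivity)
    _ = 1 * (16 * C * ϖ) := by ring
    _ ≤ (N * a) * (16 * C * ϖ) := mul_le_mul_of_nonneg_right h2 (by positivity)
    _ = 16 * N * C * a * ϖ := by ring

theorem nh_small2 (par : GPar N p C δ ϖ ε a Λ smax lmax mmax B D) {m : ℕ} (hm : 2 ≤ m) :
    N * (8 * C * ϖ ^ (2 * m - 2) * Λ * 2) ≤ ε / 8 := by
  have hN := nh_N_pos par
  have hC := nh_one_le_C par
  have hϖ := par.hϖ
  have hΛ : 0 < Λ := by linarith only [par.hΛ]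
  have hε := par.hε
  have h1 := nh_pow_le_sq par.hϖ par.hϖ' hm
  have h2 := par.i8
  have h3 := nh_pi_le par
  calc N * (8 * C * ϖ ^ (2 * m - 2) * Λ * 2) = 16 * N * C * Λ * ϖ ^ (2 * m - 2) := by ring
    _ ≤ 16 * N * C * Λ * ϖ ^ 2 := mul_le_mul_of_nonneg_left h1 (by (clear * - hN hC hΛ; positivity))
    _ = (64 * N * C * Λ * ϖ) * (ϖ / 4) := by ring
    _ ≤ ε * (ϖ / 4) := mul_le_mul_of_nonneg_right h2 (by (clear * - hϖ; positivity))
    _ ≤ ε * (1 / 8) := mul_le_mul_of_nonneg_left (by linarith only [h3]) hε.le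
    _ = ε / 8 := by ring

theorem nh_small3 (par : GPar N p C δ ϖ ε a Λ smax lmax mmax B D) {m : ℕ} (hm : 2 ≤ m) (k : ℕ) :
    N * (8 * C * ϖ ^ (2 * m - 2) * a * eta ϖ k (m - 2) * 2) ≤
      ε / (32 * (N + 1)) * eta ϖ (k + 1) m := by
  have hN := nh_N_pos par
  have hC := nh_one_le_C par
  have hϖ := par.hϖ
  have ha : 0 < a := by linarith only [par.ha]
  have h1 := nh_pow_le par.hϖ par.hϖ' hm
  have h2 := nh_eta_step par.hϖ par.hϖ' hm k
  have h3 := nh_eta_pos (ϖ := ϖ) hϖ k (m - 2)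
  have h4 := nh_eta_pos (ϖ := ϖ) hϖ (k + 1) m
  calc N * (8 * C * ϖ ^ (2 * m - 2) * a * eta ϖ k (m - 2) * 2) =
        (16 * N * C * a * eta ϖ k (m - 2)) * ϖ ^ (2 * m - 2) := by ring
    _ ≤ (16 * N * C * a * eta ϖ k (m - 2)) * (ϖ * ϖ ^ (m - 1)) :=
        mul_le_mul_of_nonneg_left h1 (by (clear * - hN hC ha h3; positivity))
    _ = (16 * N * C * a * ϖ) * (ϖ ^ (m - 1) * eta ϖ k (m - 2)) := by ring
    _ ≤ (16 * N * C * a * ϖ) * eta ϖ (k + 1) m :=
        mul_le_mul_of_nonneg_left h2 (by (clear * - hN hC ha hϖ; positivity))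
    _ ≤ ε / (32 * (N + 1)) * eta ϖ (k + 1) m :=
        mul_le_mul_of_nonneg_right (nh_small0 par) h4.le

theorem nh_lev {W Wq : ℝ} (par : GPar N p C δ ϖ ε a Λ smax lmax mmax B D) (hs : 0 < s)
    (hs' : s ≤ smax) {net : Net N} (hnet : net.Good s δ W Wq (1 / (2 * p))) (j : Fin N) :
    0 < net.lev j ∧ net.lev j ≤ 1 := by
  have h1 := hnet.lev_lo j
  have h2 := hnet.lev_hi j
  have h3 := nh_delta_le par
  have h4 := par.hs'
  constructor
  · (refine lt_of_not_ge fun hng_ => ?_; linarith only [mul_nonneg (le_of_lt hs) (sub_nonneg.2 hng_), mul_nonneg (sub_nonneg.2 h4) (sub_nonneg.2 hng_), mul_nonneg (sub_nonneg.2 hs') (sub_nonneg.2 hng_), mul_pos hs hs, mul_nonneg (le_of_lt hs) (sub_nonneg.2 h1), mul_nonneg (sub_nonneg.2 hs') (sub_nonneg.2 h1), mul_nonneg (sub_nonneg.2 hs') (sub_nonneg.2 h2), mul_nonneg (le_of_lt hs) (sub_nonneg.2 h3), mul_nonneg (sub_nonneg.2 h1) (sub_nonneg.2 h4), mul_nonneg (sub_nonneg.2 h2) (sub_nonneg.2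 h4)])
  · linarith only [h2, hs', h4]

/-- bound of one weighted force -/
theorem nh_wF {Wq : ℝ} (par : GPar N p C δ ϖ ε a Λ smax lmax mmax B D) (hs : 0 < s)
    (hs' : s ≤ smax) {m : ℕ} (hm : 2 ≤ m) {net : Net N}
    (hnet : net.Good s δ (8 * C * ϖ ^ (2 * m - 2)) Wq (1 / (2 * p))) {V : Eu d → ℝ}
    (hV : V ∈ PotClass d) (i j : Fin N) (x : Eu d) :
    |net.w i j| * ‖Fp V (gradient V) (net.lev j) x‖ ≤ ε / (32 * (N + 1)) * (‖x‖ + √d) := by
  obtain ⟨h1, h2⟩ := nh_lev par hs hs' hnet j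
  have h3 := Fp_norm hV h1 h2 x
  have h4 := hnet.w_le i j
  have hC := nh_one_le_C par
  have hϖ := par.hϖ
  calc |net.w i j| * ‖Fp V (gradient V) (net.lev j) x‖ ≤
        (8 * C * ϖ ^ (2 * m - 2)) * (2 * (‖x‖ + √d)) :=
        mul_le_mul h4 h3 (norm_nonneg _) (by (clear * - hC hϖ; positivity))
    _ = (8 * C * ϖ ^ (2 * m - 2) * 2) * (‖x‖ + √d) := by ring
    _ ≤ _ := mul_le_mul_of_nonneg_right (nh_small1 par hm) (by (clear * -; positivity))

end num

/-! ### One node from the sampler of the remaining part -/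

theorem nh_of_rest {N p lmax mmax B D : ℕ} {C δ ϖ ε a Λ smax : ℝ}
    (par : GPar N p C δ ϖ ε a Λ smax lmax mmax B D) {l m k : ℕ} (hk : k ≤ l) {s W Wq : ℝ}
    (hs : 0 < s) {net : Net N} (hnet : net.Good s δ W Wq (1 / (2 * p)))
    {Θ : Type} [MeasurableSpace Θ] (h : ℕ → Samp d Θ (Eu d)) {i : Fin N} (hi : i ≠ net.root)
    (S : Samp d (Θ × Eu d × Eu d × Eu d) (Eu d))
    (hSc : ∀ τ : ℕ, 1 ≤ τ → (∀ l' ≤ l, (h l').cost ≤ D ^ l' * τ) → S.cost ≤ D ^ k * τ)
    (hSl : ∀ V ∈ PotClass d, ∀ (θ₁ θ₂ : Θ) (c : ℝ), 0 ≤ c →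
      (∀ l' ≤ l, WD ((h l').law V θ₁) ((h l').law V θ₂) c) → ∀ K₁ K₂ g P : Eu d,
      WD (S.law V (θ₁, K₁, g, P)) (S.law V (θ₂, K₂, g, P)) (ε / 8 * (c + ‖K₁ - K₂‖)))
    (hSe : ∀ V ∈ PotClass d, ∀ (θ : Θ) (y : Eu d) (e : ℝ), ‖y‖ + √d ≤ e →
      (∀ l' ≤ l, WD ((h l').law V θ) (gau y (√(δ / 4 * s))) (eta ϖ l' m * e)) →
      ∀ (X : Fin N → Eu d) (r : ℝ) (av g P : Eu d), 0 ≤ r → X net.root = y →
        (∀ i, ‖X i - (y + net.t i • av + net.cg i • g + net.cP i • P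
          + ∑ j, net.w i j • Fp V (gradient V) (net.lev j) (X j))‖ ≤ r) →
        ∃ (z : Eu d) (eS r' : ℝ), WD (S.law V (θ, y + √(δ * s) • av, g, P))
            (gau z (√(nhVar δ s (net.lev i) (net.t i)))) eS ∧
          ‖X i - (y + net.t i • av + net.cg i • g + net.cP i • P + z)‖ ≤ r' ∧
          eS + r' ≤ eta ϖ k m * (ε / (32 * (N + 1)) *
            (e + ∑ i, (‖X i‖ + √d) + r / ϖ ^ l) + r / ϖ ^ l)) :
    ∃ A : Samp d (Θ × Eu d × Eu d × Eu d) (Eu d), NHNode D l m δ ϖ ε s net h k i A := by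
  have hδ := par.hδ
  have hT : 0 < √(δ * s) := Real.sqrt_pos.2 (mul_pos hδ hs)
  have hε := par.hε
  have hε' := par.hε'
  have hN := nh_N_pos par
  set β := net.t i / √(δ * s) with hβ
  have hβ0 : 0 ≤ β := div_nonneg (hnet.t_nonneg i) hT.le
  have hβ1 : β ≤ 1 := (div_le_one hT).2 (hnet.t_le i)
  have hα0 : 0 ≤ 1 - β := by linarith only [hβ1]
  have hβT : β * √(δ * s) = net.t i := div_mul_cancel₀ _ hT.ne'
  have htop : i = net.top → β = 1 := by
    intro h0
    rw [hβ, h0, hnet.top_t]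
    exact div_self hT.ne'
  have hvar : 0 ≤ nhVar δ s (net.lev i) (net.t i) := by
    refine le_trans ?_ (nh_var_ge par hs (hnet.lev_lo i) (hnet.margin i hi))
    have := nh_p_pos par
    (clear * - hδ hs this; positivity)
  obtain ⟨A, c1, c2, hl⟩ := nh_assemble (h k) (1 - β) β (net.cg i) (net.cP i) S
  refine ⟨A, ?_, ?_, ?_⟩
  · intro τ hτ hh
    have h1 := hh k hk
    have h2 := hSc τ hτ hh
    refine ⟨?_, fun h0 => ?_⟩
    · calc A.cost ≤ (h k).cost + S.cost := c1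
        _ ≤ D ^ k * τ + D ^ k * τ := add_le_add h1 h2
        _ = D ^ k * (2 * τ) := by ring
    · exact (c2 (by rw [htop h0, sub_self])).trans h2
  · intro V hV θ₁ θ₂ c hc hh K₁ K₂ g P
    have i1 := (h k).isProb hV θ₁
    have i2 := (h k).isProb hV θ₂
    have i3 := S.isProb hV (θ₁, K₁, g, P)
    have i4 := S.isProb hV (θ₂, K₂, g, P)
    have h1 := nh_lip_cnv (α := 1 - β) (u₁ := β • K₁ + net.cg i • g + net.cP i • P)
      (u₂ := β • K₂ + net.cg i • g + net.cP i • P) (hh k hk) (hSl V hV θ₁ θ₂ c hc hh K₁ K₂ g P)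
    rw [← hl V hV θ₁ K₁ g P, ← hl V hV θ₂ K₂ g P] at h1
    have e1 : β • K₁ + net.cg i • g + net.cP i • P - (β • K₂ + net.cg i • g + net.cP i • P) =
        β • (K₁ - K₂) := by
      rw [smul_sub]
      abel
    rw [e1, norm_smul, Real.norm_eq_abs, abs_of_nonneg hβ0, abs_of_nonneg hα0] at h1
    have hn : 0 ≤ ‖K₁ - K₂‖ := norm_nonneg _
    refine ⟨WD.mono h1 ?_, fun h0 => WD.mono h1 ?_⟩
    · have a1 : β * ‖K₁ - K₂‖ ≤ 1 * ‖K₁ - K₂‖ := mul_le_mul_of_nonneg_right hβ1 hn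
      have a2 : (1 - β) * c ≤ 1 * c := mul_le_mul_of_nonneg_right (by linarith only [hβ0]) hc
      have a3 : ε / 8 * (c + ‖K₁ - K₂‖) ≤ 1 * (c + ‖K₁ - K₂‖) :=
        mul_le_mul_of_nonneg_right (by linarith only [hε']) (by (clear * - hc; positivity))
      linarith only [a2, a1, a3]
    · rw [htop h0]
      refine le_of_eq ?_
      ring
  · intro V hV θ y e he hh X r av g P hr hroot hX
    have i1 := (h k).isProb hV θ
    have i3 := S.isProb hV (θ, y + √(δ * s) • av, g, P)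
    obtain ⟨z, eS, r', w1, w2, w3⟩ := hSe V hV θ y e he hh X r av g P hr hroot hX
    have h1 := nh_err_cnv (α := 1 - β)
      (u := β • (y + √(δ * s) • av) + net.cg i • g + net.cP i • P) (hh k hk) w1
    rw [← hl V hV θ (y + √(δ * s) • av) g P] at h1
    have e1 : ((1 - β) * √(δ / 4 * s)) ^ 2 + (√(nhVar δ s (net.lev i) (net.t i))) ^ 2 =
        δ / 4 * net.lev i := by
      rw [Real.sq_sqrt hvar, mul_pow, Real.sq_sqrt (by (clear * - hδ hs; positivity))]
      unfold nhVar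
      ring
    have e2 : β • (y + √(δ * s) • av) + net.cg i • g + net.cP i • P + (1 - β) • y + z =
        y + net.t i • av + net.cg i • g + net.cP i • P + z := by
      rw [smul_add, smul_smul, hβT, sub_smul, one_smul]
      abel
    rw [e1, e2, abs_of_nonneg hα0] at h1
    have h2 := wd_gau (y + net.t i • av + net.cg i • g + net.cP i • P + z) (X i)
      (√(δ / 4 * net.lev i))
    have h3 := WD.trans h1 h2
    rw [norm_sub_rev] at h3
    have he0 : 0 ≤ e := le_trans (by (clear * -; positivity)) he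
    have hη := nh_eta_pos (ϖ := ϖ) par.hϖ k m
    have hSum : 0 ≤ ∑ i, (‖X i‖ + √d) := Finset.sum_nonneg fun i _ => by (clear * -; positivity)
    have hR : 0 ≤ r / ϖ ^ l := div_nonneg hr (pow_pos par.hϖ _).le
    set M := e + ∑ i, (‖X i‖ + √d) + r / ϖ ^ l with hM
    have hq : ε / (32 * (N + 1)) * M ≤ M := by
      refine mul_le_of_le_one_left (by (clear * - he0 hR; positivity)) ?_
      rw [div_le_one (by (clear * - hN; positivity))]
      linarith only [hε']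
    refine ⟨WD.mono h3 ?_, fun h0 => WD.mono h3 ?_⟩
    · have a1 : (1 - β) * (eta ϖ k m * e) ≤ 1 * (eta ϖ k m * e) :=
        mul_le_mul_of_nonneg_right (by linarith only [hβ0]) (by (clear * - hη he0; positivity))
      have a2 : eta ϖ k m * (e + ε / (32 * (N + 1)) * M + r / ϖ ^ l) ≤
          eta ϖ k m * (2 * M) := mul_le_mul_of_nonneg_left (by linarith only [hq, hSum]) hη.le
      linarith only [a1, w2, w3, a2]
    · have a1 : (1 - β) * (eta ϖ k m * e) = 0 := by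
        rw [htop h0]
        ring
      have a2 : eta ϖ k m * (ε / (32 * (N + 1)) * M + r / ϖ ^ l) ≤
          eta ϖ k m * (‖X i‖ + √d + ε / (32 * (N + 1)) * M + r / ϖ ^ l) := by
        refine mul_le_mul_of_nonneg_left ?_ hη.le
        have : 0 ≤ ‖X i‖ + √d := by (clear * -; positivity)
        linarith only [this]
      linarith only [a1, w2, w3, a2]

/-! ### The root, the accuracy zero and the induction step -/

theorem nh_root {N p lmax mmax B D : ℕ} {C δ ϖ ε a Λ smax : ℝ}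
    (par : GPar N p C δ ϖ ε a Λ smax lmax mmax B D) {l m k : ℕ} (hk : k ≤ l) {s W Wq : ℝ}
    (hs : 0 < s) {net : Net N} (hnet : net.Good s δ W Wq (1 / (2 * p)))
    {Θ : Type} [MeasurableSpace Θ] (h : ℕ → Samp d Θ (Eu d)) :
    ∃ A : Samp d (Θ × Eu d × Eu d × Eu d) (Eu d),
      NHNode D l m δ ϖ ε s net h k net.root A := by
  have hT : 0 < √(δ * s) := Real.sqrt_pos.2 (mul_pos par.hδ hs)
  have hrt : net.root ≠ net.top := by
    intro h0
    have h1 := hnet.root_t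
    rw [h0, hnet.top_t] at h1
    exact hT.ne' h1
  obtain ⟨A, c1, hl⟩ := exists_comap (Θ' := Θ × Eu d × Eu d × Eu d) (h k) Prod.fst
    measurable_fst
  refine ⟨A, ?_, ?_, ?_⟩
  · intro τ hτ hh
    refine ⟨?_, fun h0 => absurd h0 hrt⟩
    rw [c1]
    refine (hh k hk).trans (Nat.mul_le_mul_left _ ?_)
    omega
  · intro V hV θ₁ θ₂ c hc hh K₁ K₂ g P
    refine ⟨?_, fun h0 => absurd h0 hrt⟩
    rw [hl V hV, hl V hV]
    refine WD.mono (hh k hk) ?_
    have := norm_nonneg (K₁ - K₂)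
    linarith only [this, hc]
  · intro V hV θ y e he hh X r av g P hr hroot hX
    refine ⟨?_, fun h0 => absurd h0 hrt⟩
    rw [hl V hV, hroot, hnet.root_lev]
    refine WD.mono (hh k hk) ?_
    have he0 : 0 ≤ e := le_trans (by (clear * -; positivity)) he
    have hη := nh_eta_pos (ϖ := ϖ) par.hϖ k m
    have hSum : 0 ≤ ∑ i, (‖X i‖ + √d) := Finset.sum_nonneg fun i _ => by (clear * -; positivity)
    have hR : 0 ≤ r / ϖ ^ l := div_nonneg hr (pow_pos par.hϖ _).le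
    exact mul_le_mul_of_nonneg_left (by linarith only [hSum, he0, hR]) hη.le

theorem nh_zero {N p lmax mmax B D : ℕ} {C δ ϖ ε a Λ smax : ℝ}
    (par : GPar N p C δ ϖ ε a Λ smax lmax mmax B D) {l m : ℕ} (hm : 2 ≤ m) {s Wq : ℝ}
    (hs : 0 < s) (hs' : s ≤ smax) {net : Net N}
    (hnet : net.Good s δ (8 * C * ϖ ^ (2 * m - 2)) Wq (1 / (2 * p)))
    {Θ : Type} [MeasurableSpace Θ] (h : ℕ → Samp d Θ (Eu d)) (i : Fin N) :
    ∃ A : Samp d (Θ × Eu d × Eu d × Eu d) (Eu d), NHNode D l m δ ϖ ε s net h 0 i A := by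
  by_cases hi : i = net.root
  · rw [hi]
    exact nh_root par (Nat.zero_le l) hs hnet h
  obtain ⟨S, c1, hl⟩ := exists_noise (d := d) (Θ := Θ × Eu d × Eu d × Eu d)
    (gau (0 : Eu d) (√(nhVar δ s (net.lev i) (net.t i))))
  refine nh_of_rest par (Nat.zero_le l) hs hnet h hi S ?_ ?_ ?_
  · intro τ hτ hh
    rw [c1]
    exact Nat.zero_le _
  · intro V hV θ₁ θ₂ c hc hh K₁ K₂ g P
    rw [hl V hV, hl V hV]
    refine WD.mono (WD.refl _) ?_
    have := par.hε
    (clear * - this hc; positivity)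
  · intro V hV θ y e he hh X r av g P hr hroot hX
    refine ⟨0, 0, r + ε / (32 * (N + 1)) * ∑ i, (‖X i‖ + √d), ?_, ?_, ?_⟩
    · rw [hl V hV]
      exact WD.refl _
    · rw [add_zero]
      have e1 : X i - (y + net.t i • av + net.cg i • g + net.cP i • P) =
          (X i - (y + net.t i • av + net.cg i • g + net.cP i • P
          + ∑ j, net.w i j • Fp V (gradient V) (net.lev j) (X j))) +
          ∑ j, net.w i j • Fp V (gradient V) (net.lev j) (X j) := by abel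
      rw [e1]
      refine (norm_add_le _ _).trans (add_le_add (hX i) ?_)
      refine (norm_sum_le _ _).trans ?_
      rw [Finset.mul_sum]
      refine Finset.sum_le_sum fun j _ => ?_
      rw [norm_smul, Real.norm_eq_abs]
      exact nh_wF par hs hs' hm hnet hV i j (X j)
    · have h1 : r ≤ r / ϖ ^ l := by
        rw [le_div_iff₀ (pow_pos par.hϖ _)]
        exact mul_le_of_le_one_right hr (pow_le_one₀ par.hϖ.le par.hϖ'.le)
      have he0 : 0 ≤ e := le_trans (by (clear * -; positivity)) he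
      have hR : 0 ≤ r / ϖ ^ l := div_nonneg hr (pow_pos par.hϖ _).le
      have hε := par.hε
      have hq : 0 ≤ ε / (32 * ((N : ℝ) + 1)) := by (clear * - hε; positivity)
      rw [nh_eta_zero, one_mul, zero_add]
      have h2 := mul_nonneg hq he0
      have h3 := mul_nonneg hq hR
      have e2 : ε / (32 * ((N : ℝ) + 1)) * (e + ∑ i, (‖X i‖ + √d) + r / ϖ ^ l) =
          ε / (32 * ((N : ℝ) + 1)) * e + ε / (32 * ((N : ℝ) + 1)) * ∑ i, (‖X i‖ + √d) +
          ε / (32 * ((N : ℝ) + 1)) * (r / ϖ ^ l) := by ring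
      rw [e2]
      linarith only [h2, h1, h3]

theorem nh_succ {N p lmax mmax B D : ℕ} {C δ ϖ ε a Λ smax : ℝ}
    (par : GPar N p C δ ϖ ε a Λ smax lmax mmax B D) {l m k : ℕ} (hk : k < l) (hm : 2 ≤ m)
    {s Wq : ℝ} (hs : 0 < s) (hs' : s ≤ smax) {net : Net N}
    (hnet : net.Good s δ (8 * C * ϖ ^ (2 * m - 2)) Wq (1 / (2 * p)))
    (hE : ∀ s', (1 - 2 * δ) * s ≤ s' → s' ≤ s → EvalAt d (δ / 4) ϖ D k (m - 2) s' a Λ B)
    {Θ : Type} [MeasurableSpace Θ] (h : ℕ → Samp d Θ (Eu d))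
    (H : ℕ → Fin N → Samp d (Θ × Eu d × Eu d × Eu d) (Eu d))
    (hH : ∀ l' ≤ k, ∀ j, NHNode D l m δ ϖ ε s net h l' j (H l' j)) (i : Fin N) :
    ∃ A : Samp d (Θ × Eu d × Eu d × Eu d) (Eu d), NHNode D l m δ ϖ ε s net h (k + 1) i A := by
  by_cases hi : i = net.root
  · rw [hi]
    exact nh_root par hk hs hnet h
  have hN := nh_N_pos par
  have hp := nh_p_pos par
  have hδ := par.hδ
  have hvar := nh_var_ge par hs (hnet.lev_lo i) (hnet.margin i hi)
  set v := nhVar δ s (net.lev i) (net.t i) with hv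
  have hv0 : 0 < v := lt_of_lt_of_le (by (clear * - hδ hs hp; positivity)) hvar
  set σ := √(v / N) with hσ
  have hσ0 : 0 < σ := Real.sqrt_pos.2 (by (clear * - hv0 hN; positivity))
  have hσ1 : √(δ * s / (16 * p * N)) ≤ σ := by
    refine Real.sqrt_le_sqrt ?_
    rw [← div_div]
    exact div_le_div_of_nonneg_right hvar (by (clear * - hN; positivity))
  have hex : ∀ j, ∃ A : Samp d (Θ × Eu d × Eu d × Eu d) (Eu d),
      (∀ τ : ℕ, 1 ≤ τ → (∀ l' ≤ k, (H l' j).cost ≤ D ^ l' * τ) → A.cost ≤ B * D ^ k * τ) ∧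
      (∀ V ∈ PotClass d, ∀ (θ₁ θ₂ : Θ × Eu d × Eu d × Eu d) (c : ℝ),
        (∀ l' ≤ k, WD ((H l' j).law V θ₁) ((H l' j).law V θ₂) c) →
        WD (A.law V θ₁) (A.law V θ₂) (|net.w i j| * Λ * c)) ∧
      (∀ V ∈ PotClass d, ∀ (θ : Θ × Eu d × Eu d × Eu d) (y : Eu d) (e : ℝ), ‖y‖ + √d ≤ e →
        (∀ l' ≤ k, WD ((H l' j).law V θ) (gau y (√(δ / 4 * net.lev j)))
          (eta ϖ l' (m - 2) * e)) →
        WD (A.law V θ) (gau (net.w i j • Fp V (gradient V) (net.lev j) y) σ)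
          (|net.w i j| * a * eta ϖ k (m - 2) * e)) := by
    intro j
    exact hE (net.lev j) (hnet.lev_lo j) (hnet.lev_hi j) (net.w i j) σ hσ0
      (nh_class par hm hs (hnet.w_le i j) (hnet.lev_hi j) hσ1) _ (fun l' => H l' j)
  choose AA hAc hAl hAe using hex
  obtain ⟨S, c1, hl⟩ := exists_sum AA
  refine nh_of_rest par hk hs hnet h hi S ?_ ?_ ?_
  · intro τ hτ hh
    rw [c1]
    have h1 : ∀ j, (AA j).cost ≤ B * D ^ k * (2 * τ) := fun j =>
      hAc j (2 * τ) (by (clear * - hτ; omega)) fun l' hl' => ((hH l' hl' j).1 τ hτ hh).1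
    calc ∑ j, (AA j).cost ≤ ∑ _j : Fin N, B * D ^ k * (2 * τ) :=
          Finset.sum_le_sum fun j _ => h1 j
      _ = (2 * N * B) * (D ^ k * τ) := by
          rw [Finset.sum_const, Finset.card_univ, Fintype.card_fin, smul_eq_mul]
          ring
      _ ≤ D * (D ^ k * τ) := Nat.mul_le_mul_right _ par.i10
      _ = D ^ (k + 1) * τ := by ring
  · intro V hV θ₁ θ₂ c hc hh K₁ K₂ g P
    rw [hl V hV, hl V hV]
    have i1 : ∀ j, IsProbabilityMeasure ((AA j).law V (θ₁, K₁, g, P)) := fun j =>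
      (AA j).isProb hV _
    have i2 : ∀ j, IsProbabilityMeasure ((AA j).law V (θ₂, K₂, g, P)) := fun j =>
      (AA j).isProb hV _
    have h1 := WD.cnvSum (fun j => hAl j V hV (θ₁, K₁, g, P) (θ₂, K₂, g, P)
      (2 * (c + ‖K₁ - K₂‖)) fun l' hl' => ((hH l' hl' j).2.1 V hV θ₁ θ₂ c hc hh K₁ K₂ g P).1)
    refine WD.mono h1 ?_
    have hx : 0 ≤ c + ‖K₁ - K₂‖ := add_nonneg hc (norm_nonneg _)
    have hΛ : 0 < Λ := by linarith only [par.hΛ]
    calc ∑ j, |net.w i j| * Λ * (2 * (c + ‖K₁ - K₂‖)) ≤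
          ∑ _j : Fin N, (8 * C * ϖ ^ (2 * m - 2) * Λ * 2) * (c + ‖K₁ - K₂‖) := by
          refine Finset.sum_le_sum fun j _ => ?_
          have h2 := mul_le_mul_of_nonneg_right (hnet.w_le i j)
            (by (clear * - hΛ hc; positivity) : 0 ≤ Λ * (2 * (c + ‖K₁ - K₂‖)))
          refine le_trans (le_of_eq ?_) (h2.trans (le_of_eq ?_)) <;> ring
      _ = (N * (8 * C * ϖ ^ (2 * m - 2) * Λ * 2)) * (c + ‖K₁ - K₂‖) := by
          rw [Finset.sum_const, Finset.card_univ, Fintype.card_fin, nsmul_eq_mul]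
          ring
      _ ≤ ε / 8 * (c + ‖K₁ - K₂‖) := mul_le_mul_of_nonneg_right (nh_small2 par hm) hx
  · intro V hV θ y e he hh X r av g P hr hroot hX
    have he0 : 0 ≤ e := le_trans (by (clear * -; positivity)) he
    have hSum : 0 ≤ ∑ i, (‖X i‖ + √d) := Finset.sum_nonneg fun i _ => by (clear * -; positivity)
    have hR : 0 ≤ r / ϖ ^ l := div_nonneg hr (pow_pos par.hϖ _).le
    set M := e + ∑ i, (‖X i‖ + √d) + r / ϖ ^ l with hM
    have hM0 : 0 ≤ M := by (clear * - he0 hR; positivity)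
    have hXM : ∀ j, ‖X j‖ + √d ≤ 2 * M := by
      intro j
      have h1 : ‖X j‖ + √d ≤ ∑ i, (‖X i‖ + √d) :=
        Finset.single_le_sum (f := fun i => ‖X i‖ + √d) (fun i _ => by (clear * -; positivity))
          (Finset.mem_univ j)
      linarith only [hM0, he0, hR, h1]
    have i1 : ∀ j, IsProbabilityMeasure ((AA j).law V (θ, y + √(δ * s) • av, g, P)) := fun j =>
      (AA j).isProb hV _
    have h1 := WD.cnvSum (fun j => hAe j V hV (θ, y + √(δ * s) • av, g, P) (X j) (2 * M)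
      (hXM j) fun l' hl' => by
        refine WD.mono ((hH l' hl' j).2.2 V hV θ y e he hh X r av g P hr hroot hX).1 ?_
        exact mul_le_mul_of_nonneg_right (nh_eta_anti par.hϖ par.hϖ' l' m) (by (clear * - he0 hR; positivity)))
    rw [← hl V hV, cnvSum_gau] at h1
    have e1 : ∑ _j : Fin N, σ ^ 2 = v := by
      rw [Finset.sum_const, Finset.card_univ, Fintype.card_fin, nsmul_eq_mul, hσ,
        Real.sq_sqrt (by (clear * - hv0 hN; positivity))]
      (clear * - hN hv0; field_simp)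
    rw [e1] at h1
    refine ⟨_, _, r, h1, hX i, ?_⟩
    have ha : 0 < a := by linarith only [par.ha]
    have hη := nh_eta_pos (ϖ := ϖ) par.hϖ k (m - 2)
    have hη1 := nh_eta_pos (ϖ := ϖ) par.hϖ (k + 1) m
    have h2 : ∑ j, |net.w i j| * a * eta ϖ k (m - 2) * (2 * M) ≤
        ε / (32 * (N + 1)) * eta ϖ (k + 1) m * M := by
      calc ∑ j, |net.w i j| * a * eta ϖ k (m - 2) * (2 * M) ≤
          ∑ _j : Fin N, (8 * C * ϖ ^ (2 * m - 2) * a * eta ϖ k (m - 2) * 2) * M := by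
            refine Finset.sum_le_sum fun j _ => ?_
            have h2 := mul_le_mul_of_nonneg_right (hnet.w_le i j)
              (by (clear * - ha hη he0 hR; positivity) : 0 ≤ a * eta ϖ k (m - 2) * (2 * M))
            refine le_trans (le_of_eq ?_) (h2.trans (le_of_eq ?_)) <;> ring
        _ = (N * (8 * C * ϖ ^ (2 * m - 2) * a * eta ϖ k (m - 2) * 2)) * M := by
            rw [Finset.sum_const, Finset.card_univ, Fintype.card_fin, nsmul_eq_mul]
            ring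
        _ ≤ _ := mul_le_mul_of_nonneg_right (nh_small3 par hm k) hM0
    have h3 : r ≤ eta ϖ (k + 1) m * (r / ϖ ^ l) := by
      have h4 := nh_eta_ge par.hϖ par.hϖ' (show k + 1 ≤ l from hk) m
      have h5 := pow_pos par.hϖ l
      calc r = ϖ ^ l * (r / ϖ ^ l) := by (clear * - h5; field_simp)
        _ ≤ _ := mul_le_mul_of_nonneg_right h4 hR
    calc ∑ j, |net.w i j| * a * eta ϖ k (m - 2) * (2 * M) + r ≤
          ε / (32 * (N + 1)) * eta ϖ (k + 1) m * M + eta ϖ (k + 1) m * (r / ϖ ^ l) :=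
          add_le_add h2 h3
      _ = _ := by ring

/-- From samplers `h l'` of `N(y, v s)` one gets samplers `H l' i` (parameter `(θ, K, g, P)`,
`K = y + √(δ s) a`) of `N(X i, v lev_i)`, for every solution `X` of the node equations up to `r`.
Here `v = δ / 4`. -/
theorem exists_nodeHandles {N p lmax mmax B D : ℕ} {C δ ϖ ε a Λ smax : ℝ}
    (par : GPar N p C δ ϖ ε a Λ smax lmax mmax B D) (hd : 1 ≤ d) {l m : ℕ} (hm : 2 ≤ m)
    (hm' : m ≤ mmax) (hl : l ≤ lmax) {s Wq : ℝ} (hs : 0 < s) (hs' : s ≤ smax) (net : Net N)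
    (hnet : net.Good s δ (8 * C * ϖ ^ (2 * m - 2)) Wq (1 / (2 * p)))
    (hE : ∀ l' < l, ∀ s', (1 - 2 * δ) * s ≤ s' → s' ≤ s →
      EvalAt d (δ / 4) ϖ D l' (m - 2) s' a Λ B)
    (Θ : Type) [MeasurableSpace Θ] (h : ℕ → Samp d Θ (Eu d)) :
    ∃ H : ℕ → Fin N → Samp d (Θ × Eu d × Eu d × Eu d) (Eu d),
      (∀ τ : ℕ, 1 ≤ τ → (∀ l' ≤ l, (h l').cost ≤ D ^ l' * τ) →
        (∀ l' ≤ l, ∀ i, (H l' i).cost ≤ D ^ l' * (2 * τ)) ∧
        (∀ l' ≤ l, (H l' net.top).cost ≤ D ^ l' * τ)) ∧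
      (∀ V ∈ PotClass d, ∀ (θ₁ θ₂ : Θ) (c : ℝ), 0 ≤ c →
        (∀ l' ≤ l, WD ((h l').law V θ₁) ((h l').law V θ₂) c) → ∀ K₁ K₂ g P : Eu d,
        (∀ l' ≤ l, ∀ i, WD ((H l' i).law V (θ₁, K₁, g, P)) ((H l' i).law V (θ₂, K₂, g, P))
          (2 * (c + ‖K₁ - K₂‖))) ∧
        (∀ l' ≤ l, WD ((H l' net.top).law V (θ₁, K₁, g, P)) ((H l' net.top).law V (θ₂, K₂, g, P))
          ((1 + ε / 8) * ‖K₁ - K₂‖ + ε / 8 * c))) ∧
      (∀ V ∈ PotClass d, ∀ (θ : Θ) (y : Eu d) (e : ℝ), ‖y‖ + √d ≤ e →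
        (∀ l' ≤ l, WD ((h l').law V θ) (gau y (√(δ / 4 * s))) (eta ϖ l' m * e)) →
        ∀ (X : Fin N → Eu d) (r : ℝ) (av g P : Eu d), 0 ≤ r → X net.root = y →
          (∀ i, ‖X i - (y + net.t i • av + net.cg i • g + net.cP i • P
            + ∑ j, net.w i j • Fp V (gradient V) (net.lev j) (X j))‖ ≤ r) →
          (∀ l' ≤ l, ∀ i, WD ((H l' i).law V (θ, y + √(δ * s) • av, g, P))
            (gau (X i) (√(δ / 4 * net.lev i)))
            (eta ϖ l' m * (2 * (e + ∑ i, (‖X i‖ + √d) + r / ϖ ^ l)))) ∧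
          (∀ l' ≤ l, WD ((H l' net.top).law V (θ, y + √(δ * s) • av, g, P))
            (gau (X net.top) (√(δ / 4 * net.lev net.top)))
            (eta ϖ l' m * (‖X net.top‖ + √d
              + ε / (32 * (N + 1)) * (e + ∑ i, (‖X i‖ + √d) + r / ϖ ^ l) + r / ϖ ^ l)))) := by
  have key : ∀ k ≤ l, ∃ H : ℕ → Fin N → Samp d (Θ × Eu d × Eu d × Eu d) (Eu d),
      ∀ l' ≤ k, ∀ i, NHNode D l m δ ϖ ε s net h l' i (H l' i) := by
    intro k
    induction k with
    | zero =>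
      intro _
      choose H0 hH0 using fun i => nh_zero (d := d) (l := l) par hm hs hs' hnet h i
      refine ⟨fun _ => H0, fun l' hl' i => ?_⟩
      obtain rfl : l' = 0 := by omega
      exact hH0 i
    | succ k ih =>
      intro hk
      obtain ⟨H, hH⟩ := ih (by omega)
      choose H1 hH1 using fun i => nh_succ (d := d) (l := l) par (show k < l from hk) hm hs hs'
        hnet (hE k hk) h H hH i
      refine ⟨Function.update H (k + 1) H1, fun l' hl' i => ?_⟩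
      rcases Nat.lt_or_ge l' (k + 1) with h0 | h0
      · rw [Function.update_of_ne (by omega)]
        exact hH l' (by omega) i
      · obtain rfl : l' = k + 1 := by omega
        rw [Function.update_self]
        exact hH1 i
  obtain ⟨H, hH⟩ := key l le_rfl
  refine ⟨H, ?_, ?_, ?_⟩
  · intro τ hτ hh
    exact ⟨fun l' hl' i => ((hH l' hl' i).1 τ hτ hh).1,
      fun l' hl' => ((hH l' hl' net.top).1 τ hτ hh).2 rfl⟩
  · intro V hV θ₁ θ₂ c hc hh K₁ K₂ g P
    exact ⟨fun l' hl' i => ((hH l' hl' i).2.1 V hV θ₁ θ₂ c hc hh K₁ K₂ g P).1,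
      fun l' hl' => ((hH l' hl' net.top).2.1 V hV θ₁ θ₂ c hc hh K₁ K₂ g P).2 rfl⟩
  · intro V hV θ y e he hh X r av g P hr hroot hX
    exact ⟨fun l' hl' i => ((hH l' hl' i).2.2 V hV θ y e he hh X r av g P hr hroot hX).1,
      fun l' hl' => ((hH l' hl' net.top).2.2 V hV θ y e he hh X r av g P hr hroot hX).2 rfl⟩

end Vale.Agent.P347.S
end

section
attribute [-instance] ProperSMul.toContinuousSMul IsTopologicalTorsor.toContinuousSMul IdemSemiring.toCanonicallyOrderedAdd IdemSemiring.toMulLeftMono IdemSemiring.toMulRightMono AddQuantale.instAddLeftMono AddQuantale.instAddRightMono Quantale.instMulLeftMono Quantale.instMulRightMono FiniteDimensional.rclike_to_real IsScalarTower.complexToReal FiniteDimensional.complexToReal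

/-! Module M6 (P347, S): the gate, one step of the recursion in the level. -/

open MeasureTheory Filter Module
open scoped ENNReal NNReal
open Vale.Agent.P347.Z

namespace Vale.Agent.P347.S

variable {d : ℕ}

/-! ### Numerical facts -/

theorem gs_good_mono {N : ℕ} {net : Net N} {s θ W W' Wq μ : ℝ} (h : net.Good s θ W Wq μ)
    (hW : W ≤ W') : net.Good s θ W' Wq μ :=
  { h with w_le := fun i j => (h.w_le i j).trans hW }

/-- The numerical facts about `κ` and `b`. -/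
structure GsNum (N : ℕ) (C δ ϖ w σ κ b s : ℝ) (m mmax : ℕ) : Prop where
  b0 : 0 < b
  b8 : b ≤ 1 / 8
  b2 : b ≤ ϖ ^ 2
  bm : ϖ ^ (2 * mmax) ≤ b
  ks : |κ| * √s ≤ 1
  W : C * (δ * s + |κ| * √(δ * s) + κ ^ 2 * (δ * s) / b + b) ≤ 8 * C * b
  kw : √δ / 2 * σ * κ = -w
  kw' : √δ / 2 * σ * |κ| = |w|
  q1 : √δ / 2 * σ * (C * (κ ^ 2 * √(δ * s) / b)) ≤ 2 * C * ϖ ^ 2 * |w|
  q2 : √δ / 2 * σ * (C * (κ ^ 2 * √(δ * s) / b)) * √s ≤ ϖ ^ (2 * m) * (σ * √(δ / (4 * N)))

theorem gs_num {N p lmax mmax B D : ℕ} {C δ ϖ ε a Λ smax : ℝ}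
    (par : GPar N p C δ ϖ ε a Λ smax lmax mmax B D) {m : ℕ} (hm : 2 ≤ m) (hm' : m ≤ mmax)
    {s : ℝ} (hs : 0 < s) (hs' : s ≤ smax) {w σ : ℝ} (hσ : 0 < σ)
    (hw : |w| * √s ≤ ϖ ^ (2 * m) * σ) :
    GsNum N C δ ϖ w σ (-2 * w / (√δ * σ)) (ϖ ^ (2 * m - 2)) s m mmax := by
  obtain ⟨k, rfl⟩ : ∃ k, m = k + 2 := ⟨m - 2, by omega⟩
  have hϖ := par.hϖ
  have hϖ1 := par.hϖ'.le
  have hC := par.hC
  have hδ := par.hδ
  have hsd : 0 < √δ := Real.sqrt_pos.2 par.hδ
  have hss : 0 < √s := Real.sqrt_pos.2 hs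
  have e1 : 2 * (k + 2) - 2 = 2 * k + 2 := by (clear * - hm; omega)
  have e2 : ϖ ^ (2 * (k + 2)) = ϖ ^ 2 * ϖ ^ (2 * k + 2) := by
    rw [← pow_add]
    congr 1
    ring
  rw [e1]
  rw [e2] at hw
  have hb2 : ϖ ^ (2 * k + 2) ≤ ϖ ^ 2 := pow_le_pow_of_le_one hϖ.le hϖ1 (by omega)
  have hbm : ϖ ^ (2 * mmax) ≤ ϖ ^ (2 * k + 2) := pow_le_pow_of_le_one hϖ.le hϖ1 (by (clear * - hm'; omega))
  have hb0 : 0 < ϖ ^ (2 * k + 2) := by positivity
  set b := ϖ ^ (2 * k + 2) with hb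
  set κ := -2 * w / (√δ * σ) with hκ
  have hp : (1 : ℝ) ≤ p := by exact_mod_cast par.hp
  have hδ1 : δ ≤ 1 := by
    refine par.hδ'.trans ?_
    rw [div_le_one (by (clear * - hp; (clear * - hp; positivity)))]
    linarith only [hp]
  have hκa : |κ| = 2 * |w| / (√δ * σ) := by
    rw [hκ, abs_div, abs_mul, abs_neg, abs_two, abs_of_pos (mul_pos hsd hσ)]
  have hmul : √(δ * s) = √δ * √s := Real.sqrt_mul hδ.le s
  have hϖ2 : ϖ ^ 2 ≤ 1 := pow_le_one₀ hϖ.le hϖ1
  have kds : |κ| * √(δ * s) ≤ 2 * ϖ ^ 2 * b := by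
    have h1 : |κ| * √(δ * s) = 2 * (|w| * √s) / σ := by
      rw [hκa, hmul]
      (clear * - hδ hs hσ; field_simp)
    rw [h1, div_le_iff₀ hσ]
    linarith only [hw]
  have kds0 : 0 ≤ |κ| * √(δ * s) := by (clear * - hδ hs; (clear * - hδ hs; positivity))
  have kw' : √δ / 2 * σ * |κ| = |w| := by
    rw [hκa]
    (clear * - hδ hσ; (clear * - hδ hσ; field_simp))
  have q1 : √δ / 2 * σ * (C * (κ ^ 2 * √(δ * s) / b)) ≤ 2 * C * ϖ ^ 2 * |w| := by
    have h1 : √δ / 2 * σ * (C * (κ ^ 2 * √(δ * s) / b)) =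
        C * (√δ / 2 * σ * |κ|) * ((|κ| * √(δ * s)) / b) := by
      rw [← sq_abs κ]
      ring
    rw [h1, kw']
    have h2 : (|κ| * √(δ * s)) / b ≤ 2 * ϖ ^ 2 := by
      rw [div_le_iff₀ hb0]
      exact kds
    calc C * |w| * ((|κ| * √(δ * s)) / b) ≤ C * |w| * (2 * ϖ ^ 2) := by (clear * - h2 hC; gcongr)
      _ = 2 * C * ϖ ^ 2 * |w| := by ring
  refine ⟨hb0, ?_, hb2, hbm, ?_, ?_, ?_, kw', q1, ?_⟩
  · have := par.i2
    linarith only [this, hb2]
  · have h1 : |κ| * √s = 2 * (|w| * √s) / (√δ * σ) := by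
      rw [hκa]
      (clear * - hs hσ hδ; field_simp)
    rw [h1, div_le_one (by (clear * - hδ hσ; positivity))]
    have h2 := par.i1
    calc 2 * (|w| * √s) ≤ 2 * (ϖ ^ 2 * b * σ) := by linarith only [hw]
      _ ≤ 2 * (ϖ ^ 2 * ϖ ^ 2 * σ) := by (clear * - hb2 hϖ hσ; gcongr)
      _ = 2 * ϖ ^ 4 * σ := by ring
      _ ≤ √δ * σ := by (clear * - h2 hσ; gcongr)
  · have h1 : δ * s ≤ b := by
      calc δ * s ≤ 1 * s := by (clear * - hδ1 hs; (clear * - hδ1 hs; gcongr))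
        _ = s := one_mul s
        _ ≤ b := (hs'.trans par.i9).trans hbm
    have h2 : |κ| * √(δ * s) ≤ 2 * b := by
      refine kds.trans ?_
      (refine le_of_not_gt fun hng_ => ?_; linarith only [mul_pos hb0 (sub_pos.2 hng_), mul_nonneg (sub_nonneg.2 hb2) (le_of_lt (sub_pos.2 hng_)), mul_nonneg (sub_nonneg.2 hϖ2) kds0, mul_nonneg (sub_nonneg.2 hϖ2) (sub_nonneg.2 kds)])
    have h3 : κ ^ 2 * (δ * s) / b ≤ 4 * b := by
      rw [div_le_iff₀ hb0]
      have h4 : κ ^ 2 * (δ * s) = (|κ| * √(δ * s)) ^ 2 := by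
        rw [mul_pow, sq_abs, Real.sq_sqrt (by positivity)]
      rw [h4]
      calc (|κ| * √(δ * s)) ^ 2 ≤ (2 * b) ^ 2 := by (clear * - hδ hs h2; gcongr)
        _ = 4 * b * b := by ring
    calc C * (δ * s + |κ| * √(δ * s) + κ ^ 2 * (δ * s) / b + b)
        ≤ C * (b + 2 * b + 4 * b + b) := by (clear * - h1 h2 h3 hC; gcongr)
      _ = 8 * C * b := by ring
  · rw [hκ]
    (clear * - hδ hσ; field_simp)
  · rw [e2]
    calc √δ / 2 * σ * (C * (κ ^ 2 * √(δ * s) / b)) * √s ≤ 2 * C * ϖ ^ 2 * |w| * √s := by (clear * - q1 hs; (clear * - q1 hs; gcongr))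
      _ = 2 * C * ϖ ^ 2 * (|w| * √s) := by ring
      _ ≤ 2 * C * ϖ ^ 2 * (ϖ ^ 2 * b * σ) := by (clear * - hw hC hϖ; gcongr)
      _ = ϖ ^ 2 * b * (σ * (2 * C * ϖ ^ 2)) := by ring
      _ ≤ ϖ ^ 2 * b * (σ * √(δ / (4 * N))) := by
          have := par.i4
          (clear * - this hσ hϖ; (clear * - this hσ hϖ; gcongr))

/-! ### Construction of the sampler -/

theorem gs_total {Θ : Type} [MeasurableSpace Θ] (A0 : Samp d Θ (Eu d)) (ς : ℝ)
    (O : Samp d (Θ × Eu d × Eu d × Eu d) (Eu d)) : ∃ A : Samp d Θ (Eu d),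
      A.cost = A0.cost + O.cost ∧ ∀ V ∈ PotClass d, ∀ θ, ∀ f : Eu d → ℝ,
      Measurable f → (∃ C, ∀ x, |f x| ≤ C) →
        ∫ y, f y ∂(A.law V θ) = ∫ K, (∫ z, (∫ y, f y ∂(O.law V (θ, K, z)))
          ∂((gam (Eu d)).prod (gam (Eu d)))) ∂(S.cnv (A0.law V θ) (gau 0 ς)) := by
  obtain ⟨nz, cnz, lnz⟩ := exists_noise (d := d) (Θ := Θ) (gau (0 : Eu d) ς)
  obtain ⟨AK, cAK, lAK⟩ := exists_add A0 nz
  obtain ⟨G, cG, lG⟩ := exists_noise (d := d) (Θ := Θ × Eu d) ((gam (Eu d)).prod (gam (Eu d)))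
  obtain ⟨O', cO', lO'⟩ := exists_comap O
    (fun x : (Θ × Eu d) × (Eu d × Eu d) => (x.1.1, x.1.2, x.2)) (by fun_prop)
  obtain ⟨Bs, cB, lB⟩ := exists_bind G O'
  obtain ⟨A, cA, lA⟩ := exists_bind AK Bs
  refine ⟨A, by omega, fun V hV θ f hf bf => ?_⟩
  rw [lA V hV θ f hf bf, lAK V hV θ, lnz V hV θ]
  congr 1
  funext K
  rw [lB V hV _ f hf bf, lG V hV _]
  congr 1
  funext z
  rw [lO' V hV]

theorem gs_out {Θ : Type} [MeasurableSpace Θ] (φ : Θ → Eu d) (hφ : Measurable φ)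
    (At : Samp d Θ (Eu d)) {N : ℕ} (Aj : Fin N → Samp d Θ (Eu d)) :
    ∃ O : Samp d Θ (Eu d), O.cost = At.cost + ∑ j, (Aj j).cost ∧ ∀ V ∈ PotClass d, ∀ θ,
      O.law V θ = S.cnv (Measure.dirac (φ θ))
        (S.cnv (At.law V θ) (cnvSum fun j => (Aj j).law V θ)) := by
  obtain ⟨P, cP, lP⟩ := exists_pure φ hφ
  obtain ⟨Sm, cS, lS⟩ := exists_sum Aj
  obtain ⟨T, cT, lT⟩ := exists_add At Sm
  obtain ⟨O, cO, lO⟩ := exists_add P T
  refine ⟨O, by omega, fun V hV θ => ?_⟩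
  rw [lO V hV, lP V hV, lT V hV, lS V hV]

theorem gs_wd_out {N : ℕ} {x x' : Eu d} {μ μ' : Measure (Eu d)} {μs μs' : Fin N → Measure (Eu d)}
    [IsProbabilityMeasure μ] [IsProbabilityMeasure μ'] [∀ i, IsProbabilityMeasure (μs i)]
    [∀ i, IsProbabilityMeasure (μs' i)] {c : ℝ} {cs : Fin N → ℝ} (h : WD μ μ' c)
    (h' : ∀ i, WD (μs i) (μs' i) (cs i)) :
    WD (S.cnv (Measure.dirac x) (S.cnv μ (cnvSum μs)))
      (S.cnv (Measure.dirac x') (S.cnv μ' (cnvSum μs'))) (‖x - x'‖ + (c + ∑ i, cs i)) :=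
  (wd_dirac x x').cnv (h.cnv (WD.cnvSum h'))

theorem gs_gau_out {N : ℕ} (hN : 1 ≤ N) {δ σ : ℝ} (hδ : 0 < δ) (hδ1 : δ ≤ 1) (hσ : 0 < σ)
    (x m : Eu d) (ms : Fin N → Eu d) :
    S.cnv (Measure.dirac x) (S.cnv (gau m (√(1 - δ / 2) * σ))
      (cnvSum fun i => gau (ms i) (σ * √(δ / (4 * N))))) =
      gau (x + (m + ∑ i, ms i)) (√(1 - δ / 4) * σ) := by
  have hN0 : (0 : ℝ) < N := by exact_mod_cast hN
  rw [cnvSum_gau, gau_cnv, ← gau_zero, gau_cnv]
  congr 1
  have h1 : ∑ i : Fin N, (σ * √(δ / (4 * N))) ^ 2 = σ ^ 2 * (δ / 4) := by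
    rw [Finset.sum_const, Finset.card_univ, Fintype.card_fin, mul_pow,
      Real.sq_sqrt (by (clear * - hδ hN; positivity)), nsmul_eq_mul]
    (clear * - hN hδ hσ; field_simp)
  have h2 : (√(1 - δ / 2) * σ) ^ 2 = (1 - δ / 2) * σ ^ 2 := by
    rw [mul_pow, Real.sq_sqrt (by linarith only [hδ1])]
  have h3 : (0 : ℝ) ^ 2 + ((1 - δ / 2) * σ ^ 2 + σ ^ 2 * (δ / 4)) = (1 - δ / 4) * σ ^ 2 := by ring
  rw [h1, Real.sq_sqrt (by (clear * - hσ hδ; (clear * - hσ hδ; positivity))), h2, Real.sq_sqrt, h3,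
    Real.sqrt_mul (by linarith only [hδ1]), Real.sqrt_sq hσ.le]
  have : 0 ≤ 1 - δ / 2 := by linarith only [hδ1]
  positivity

/-! ### Integrals -/

section int

variable {Ω : Type*} [MeasurableSpace Ω] {P : Measure Ω} [IsProbabilityMeasure P]

theorem gs_integrable {u : Ω → ℝ} (hu : Measurable u) {C : ℝ} (hC : ∀ ω, |u ω| ≤ C) :
    Integrable u P :=
  Integrable.of_bound hu.aestronglyMeasurable C (Eventually.of_forall hC)

theorem gs_abs_le {u : Ω → ℝ} {C : ℝ} (hC : ∀ ω, |u ω| ≤ C) : |∫ ω, u ω ∂P| ≤ C := by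
  have h := norm_integral_le_of_norm_le_const (μ := P) (f := u) (C := C)
    (Eventually.of_forall hC)
  simpa only [ge_iff_le, Real.norm_eq_abs, probReal_univ, mul_one] using h

theorem gs_sub_le {u v R : Ω → ℝ} (hu : Measurable u) (hv : Measurable v) {C : ℝ}
    (hCu : ∀ ω, |u ω| ≤ C) (hCv : ∀ ω, |v ω| ≤ C) (hR : Integrable R P)
    (h : ∀ ω, |u ω - v ω| ≤ R ω) : |∫ ω, u ω ∂P - ∫ ω, v ω ∂P| ≤ ∫ ω, R ω ∂P := by
  rw [← integral_sub (gs_integrable hu hCu) (gs_integrable hv hCv)]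
  refine (abs_integral_le_integral_abs).trans ?_
  refine integral_mono ?_ hR h
  exact ((gs_integrable hu hCu).sub (gs_integrable hv hCv)).abs

end int

theorem gs_lip_meas {f : Eu d → ℝ} {L : ℝ} (hL : 0 ≤ L) (hf : ∀ x y, |f x - f y| ≤ L * ‖x - y‖) :
    Continuous f := by
  have h : LipschitzWith L.toNNReal f := by
    refine LipschitzWith.of_dist_le_mul fun x y => ?_
    rw [Real.dist_eq, dist_eq_norm, Real.coe_toNNReal _ hL]
    exact hf x y
  exact h.continuous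

/-- The expectation given `K`. -/
noncomputable def gsPhi {Θ : Type} [MeasurableSpace Θ] (O : Samp d (Θ × Eu d × Eu d × Eu d) (Eu d))
    (V : Eu d → ℝ) (f : Eu d → ℝ) (θ : Θ) (K : Eu d) : ℝ :=
  ∫ z, (∫ y, f y ∂(O.law V (θ, K, z))) ∂((gam (Eu d)).prod (gam (Eu d)))

section phi

variable {Θ : Type} [MeasurableSpace Θ] {O : Samp d (Θ × Eu d × Eu d × Eu d) (Eu d)}
  {V : Eu d → ℝ} {f : Eu d → ℝ} {Cf : ℝ}

theorem gs_inner_bd (hV : V ∈ PotClass d) (hC : ∀ x, |f x| ≤ Cf)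
    (t : Θ × Eu d × Eu d × Eu d) : |∫ y, f y ∂(O.law V t)| ≤ Cf := by
  have := O.isProb hV t
  exact gs_abs_le hC

theorem gsPhi_bd (hV : V ∈ PotClass d) (hC : ∀ x, |f x| ≤ Cf) (θ : Θ) (K : Eu d) :
    |gsPhi O V f θ K| ≤ Cf :=
  gs_abs_le fun z => gs_inner_bd hV hC (θ, K, z)

theorem gs_inner_meas (hV : V ∈ PotClass d) (hf : Measurable f) (hC : ∀ x, |f x| ≤ Cf)
    (θ : Θ) : Measurable fun ω : Eu d × Eu d × Eu d => ∫ y, f y ∂(O.law V (θ, ω)) :=
  (O.meas_int hV hf ⟨Cf, hC⟩).comp measurable_prodMk_left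

theorem gs_inner_meas' (hV : V ∈ PotClass d) (hf : Measurable f) (hC : ∀ x, |f x| ≤ Cf)
    (θ : Θ) (K : Eu d) : Measurable fun z : Eu d × Eu d => ∫ y, f y ∂(O.law V (θ, K, z)) :=
  (gs_inner_meas hV hf hC θ).comp measurable_prodMk_left

theorem gsPhi_sub (hV : V ∈ PotClass d) (hf : Measurable f) (hC : ∀ x, |f x| ≤ Cf)
    (hlip : ∀ x y, |f x - f y| ≤ ‖x - y‖) {θ₁ θ₂ : Θ} {K₁ K₂ : Eu d} {c : ℝ}
    (h : ∀ z : Eu d × Eu d, WD (O.law V (θ₁, K₁, z)) (O.law V (θ₂, K₂, z)) c) :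
    |gsPhi O V f θ₁ K₁ - gsPhi O V f θ₂ K₂| ≤ c := by
  have h1 := gs_sub_le (P := (gam (Eu d)).prod (gam (Eu d))) (R := fun _ => c)
    (gs_inner_meas' (O := O) hV hf hC θ₁ K₁) (gs_inner_meas' (O := O) hV hf hC θ₂ K₂)
    (fun z => gs_inner_bd hV hC (θ₁, K₁, z)) (fun z => gs_inner_bd hV hC (θ₂, K₂, z))
    (integrable_const c) (fun z => h z f hlip ⟨Cf, hC⟩)
  simpa only [gsPhi, ge_iff_le, integral_const, probReal_univ, smul_eq_mul, one_mul] using h1

/-- Lipschitz dependence on the parameter. -/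
theorem gs_lip (hV : V ∈ PotClass d) (hC : ∀ x, |f x| ≤ Cf)
    (hlip : ∀ x y, |f x - f y| ≤ ‖x - y‖) {θ₁ θ₂ : Θ} {LK Lc : ℝ} (hLK : 0 ≤ LK) {μ₁ μ₂ : Measure (Eu d)}
    [IsProbabilityMeasure μ₁] [IsProbabilityMeasure μ₂] {c : ℝ} (hμ : WD μ₁ μ₂ c)
    (h1 : ∀ (K₁ K₂ : Eu d) (z : Eu d × Eu d),
      WD (O.law V (θ₁, K₁, z)) (O.law V (θ₁, K₂, z)) (LK * ‖K₁ - K₂‖))
    (h2 : ∀ (K : Eu d) (z : Eu d × Eu d),
      WD (O.law V (θ₁, K, z)) (O.law V (θ₂, K, z)) Lc) 
    (hcont : Continuous (gsPhi O V f θ₂)) :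
    |∫ K, gsPhi O V f θ₁ K ∂μ₁ - ∫ K, gsPhi O V f θ₂ K ∂μ₂| ≤ LK * c + Lc := by
  have hf : Measurable f := (gs_lip_meas zero_le_one (by simpa only [one_mul] using hlip)).measurable
  have hl1 : ∀ K₁ K₂, |gsPhi O V f θ₁ K₁ - gsPhi O V f θ₁ K₂| ≤ LK * ‖K₁ - K₂‖ :=
    fun K₁ K₂ => gsPhi_sub hV hf hC hlip (h1 K₁ K₂)
  have hc1 := gs_lip_meas hLK hl1
  have a1 := hμ.lip hLK hl1 ⟨Cf, gsPhi_bd hV hC θ₁⟩
  have a2 := gs_sub_le (P := μ₂) (R := fun _ => Lc) hc1.measurable hcont.measurable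
    (gsPhi_bd hV hC θ₁) (gsPhi_bd hV hC θ₂) (integrable_const Lc)
    (fun K => gsPhi_sub hV hf hC hlip (h2 K))
  simp only [integral_const, probReal_univ, one_smul] at a2
  calc |∫ K, gsPhi O V f θ₁ K ∂μ₁ - ∫ K, gsPhi O V f θ₂ K ∂μ₂|
      = |(∫ K, gsPhi O V f θ₁ K ∂μ₁ - ∫ K, gsPhi O V f θ₁ K ∂μ₂) +
          (∫ K, gsPhi O V f θ₁ K ∂μ₂ - ∫ K, gsPhi O V f θ₂ K ∂μ₂)| := by ring_nf
    _ ≤ _ := (abs_add_le _ _).trans (add_le_add a1 a2)

end phi

/-! ### The Gaussian comparison law -/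

/-- Integrals against the law of a sum. -/
theorem gs_cnv_int {μ ν : Measure (Eu d)} [IsProbabilityMeasure μ] [IsProbabilityMeasure ν]
    {f : Eu d → ℝ} (hf : Continuous f) {Cf : ℝ} (hC : ∀ x, |f x| ≤ Cf) :
    ∫ x, f x ∂(S.cnv μ ν) = ∫ x, (∫ y, f (x + y) ∂ν) ∂μ := by
  unfold S.cnv
  rw [integral_map (by (clear * -; fun_prop)) hf.aestronglyMeasurable]
  rw [integral_prod]
  exact gs_integrable (hf.comp (by (clear * -; fun_prop))).measurable fun p => hC _

theorem gs_gau_int {f : Eu d → ℝ} (hf : Continuous f) (m : Eu d) (σ : ℝ) :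
    ∫ x, f x ∂(gau m σ) = ∫ ξ, f (m + σ • ξ) ∂(gam (Eu d)) := by
  unfold gau
  rw [integral_map (by (clear * -; fun_prop)) hf.aestronglyMeasurable]

/-- The law of `c • Z ω + τ ξ`, if `Z + κ F` is standard Gaussian. -/
theorem gs_mix {Z : Eu d × Eu d × Eu d → Eu d} (hZ : Measurable Z) {F : Eu d} {c τ w σ κ : ℝ}
    (hlaw : (gam3 (Eu d)).map (fun ω => Z ω + κ • F) = gam (Eu d)) (hcκ : c * κ = -w)
    (hσ : √(c ^ 2 + τ ^ 2) = σ) {f : Eu d → ℝ} (hf : Continuous f) {Cf : ℝ}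
    (hC : ∀ x, |f x| ≤ Cf) :
    ∫ x, f x ∂(gau (w • F) σ) = ∫ ω, (∫ x, f x ∂(gau (c • Z ω) τ)) ∂(gam3 (Eu d)) := by
  have h1 : gau (w • F) σ = S.cnv (gau (w • F) c) (gau 0 τ) := by
    rw [gau_cnv, hσ, add_zero]
  rw [h1, gs_cnv_int hf hC]
  set ψ : Eu d → ℝ := fun x => ∫ y, f (x + y) ∂(gau 0 τ) with hψ
  have hψc : Continuous ψ := by
    refine continuous_of_dominated (bound := fun _ => Cf) ?_ ?_ (integrable_const _) ?_
    · intro x
      exact (hf.comp (by (clear * -; fun_prop))).aestronglyMeasurable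
    · intro x
      exact Eventually.of_forall fun y => hC _
    · exact Eventually.of_forall fun y => hf.comp (by (clear * -; fun_prop))
  rw [gs_gau_int hψc]
  have hg : Continuous fun ξ => ψ (w • F + c • ξ) := hψc.comp (by (clear * -; fun_prop))
  rw [← hlaw, integral_map (by (clear * - hZ; (clear * - hZ; fun_prop))) hg.aestronglyMeasurable]
  congr 1
  funext ω
  have h2 : w • F + c • (Z ω + κ • F) = c • Z ω := by
    rw [smul_add, smul_smul, hcκ]
    module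
  rw [h2, hψ]
  simp only
  have hfs : Continuous fun y => f (c • Z ω + y) := hf.comp (by (clear * -; fun_prop))
  rw [gs_gau_int hfs, gs_gau_int hf]
  simp only [zero_add]

/-! ### The error terms -/

/-- The expectation of the error bound. -/
theorem gs_err_int {Ω : Type*} [MeasurableSpace Ω] {P : Measure Ω} [IsProbabilityMeasure P] {N : ℕ}
    {T : Ω → ℝ} {Xn : Fin N → Ω → ℝ} {R : Ω → ℝ} {e D' ε a₁ ϖl y₀ q : ℝ} (hε : 0 < ε)
    (hε1 : ε ≤ 1) (ha₁ : 0 ≤ a₁) (hϖl : 0 < ϖl) (hD' : 0 ≤ D') (hy : y₀ + D' ≤ e) (hy0 : 0 ≤ y₀)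
    (hq : q ≤ ε / 8 * e)
    (iT : Integrable T P) (iX : ∀ i, Integrable (Xn i) P) (iR : Integrable R P)
    (mT : ∫ ω, T ω ∂P ≤ y₀ + q) (mX : ∀ i, ∫ ω, Xn i ω ∂P ≤ 2 * (y₀ + D'))
    (mR : ∫ ω, R ω ∂P ≤ ε / 64 * ϖl * e) :
    Integrable (fun ω => a₁ * (T ω + D' + ε / (32 * (N + 1)) * (e + ∑ i, (Xn i ω + D') + R ω / ϖl)
        + R ω / ϖl) + ε / (128 * (N + 1)) * (e + ∑ i, (Xn i ω + D') + R ω / ϖl) + R ω / ϖl) P ∧
    ∫ ω, (a₁ * (T ω + D' + ε / (32 * (N + 1)) * (e + ∑ i, (Xn i ω + D') + R ω / ϖl)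
        + R ω / ϖl) + ε / (128 * (N + 1)) * (e + ∑ i, (Xn i ω + D') + R ω / ϖl) + R ω / ϖl) ∂P ≤
      ((1 + ε) * a₁ + 1) * e := by
  have iXi : ∀ i, Integrable (fun ω => Xn i ω + D') P := fun i => (iX i).add (integrable_const _)
  have iS : Integrable (fun ω => ∑ i, (Xn i ω + D')) P :=
    integrable_finsetSum _ fun i _ => iXi i
  have iR' : Integrable (fun ω => R ω / ϖl) P := iR.div_const _
  have iM' : Integrable (fun ω => e + ∑ i, (Xn i ω + D')) P := (integrable_const _).add iS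
  have iM : Integrable (fun ω => e + ∑ i, (Xn i ω + D') + R ω / ϖl) P := iM'.add iR'
  have he : 0 ≤ e := by linarith only [hy, hD', hy0]
  have hN : (0 : ℝ) < (N : ℝ) + 1 := by (clear * -; (clear * -; positivity))
  have mRl : ∫ ω, R ω / ϖl ∂P ≤ ε / 64 * e := by
    rw [integral_div, div_le_iff₀ hϖl]
    linarith only [mR]
  have mM : ∫ ω, (e + ∑ i, (Xn i ω + D') + R ω / ϖl) ∂P ≤ 4 * ((N : ℝ) + 1) * e := by
    rw [integral_add iM' iR', integral_add (integrable_const _) iS,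
      integral_finsetSum _ fun i _ => iXi i]
    have h1 : ∑ i : Fin N, ∫ ω, (Xn i ω + D') ∂P ≤ ∑ _i : Fin N, 3 * e := by
      refine Finset.sum_le_sum fun i _ => ?_
      rw [integral_add (iX i) (integrable_const _)]
      simp only [integral_const, probReal_univ, one_smul]
      have := mX i
      linarith only [hy0, hy, this]
    simp only [Finset.sum_const, Finset.card_univ, Fintype.card_fin, nsmul_eq_mul] at h1
    simp only [integral_const, probReal_univ, one_smul]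
    have h2 : ε / 64 * e ≤ e := by (refine le_of_not_gt fun hng_ => ?_; linarith only [mul_nonneg (sub_nonneg.2 hε1) (le_of_lt (sub_pos.2 hng_)), mul_pos hε (sub_pos.2 hng_), mul_nonneg (le_of_lt hε) he, mul_nonneg (sub_nonneg.2 hε1) he])
    nlinarith only [h2, hε1, mRl, h1]
  have iT' : Integrable (fun ω => T ω + D') P := iT.add (integrable_const _)
  have iM2 : Integrable (fun ω => ε / (32 * ((N : ℝ) + 1)) *
      (e + ∑ i, (Xn i ω + D') + R ω / ϖl)) P := iM.const_mul _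
  have iM3 : Integrable (fun ω => ε / (128 * ((N : ℝ) + 1)) *
      (e + ∑ i, (Xn i ω + D') + R ω / ϖl)) P := iM.const_mul _
  have iT2 : Integrable (fun ω => T ω + D' + ε / (32 * ((N : ℝ) + 1)) *
      (e + ∑ i, (Xn i ω + D') + R ω / ϖl)) P := iT'.add iM2
  have iA : Integrable (fun ω => T ω + D' + ε / (32 * ((N : ℝ) + 1)) *
      (e + ∑ i, (Xn i ω + D') + R ω / ϖl) + R ω / ϖl) P := iT2.add iR'
  have iA' : Integrable (fun ω => a₁ * (T ω + D' + ε / (32 * ((N : ℝ) + 1)) *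
      (e + ∑ i, (Xn i ω + D') + R ω / ϖl) + R ω / ϖl)) P := iA.const_mul _
  have mA : ∫ ω, (T ω + D' + ε / (32 * (N + 1)) *
      (e + ∑ i, (Xn i ω + D') + R ω / ϖl) + R ω / ϖl) ∂P ≤ (1 + ε) * e := by
    rw [integral_add iT2 iR', integral_add iT' iM2,
      integral_add iT (integrable_const _), integral_const_mul]
    simp only [integral_const, probReal_univ, one_smul]
    have h1 : ε / (32 * ((N : ℝ) + 1)) * ∫ ω, (e + ∑ i, (Xn i ω + D') + R ω / ϖl) ∂P ≤
        ε / 8 * e := by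
      calc ε / (32 * ((N : ℝ) + 1)) * ∫ ω, (e + ∑ i, (Xn i ω + D') + R ω / ϖl) ∂P
          ≤ ε / (32 * ((N : ℝ) + 1)) * (4 * ((N : ℝ) + 1) * e) := by (clear * - mM hε; gcongr)
        _ = ε / 8 * e := by
          field_simp
          ring
    have h2 : 0 ≤ ε * e := by (clear * - hε he; (clear * - hε he; positivity))
    linarith only [hy, hq, mT, mRl, h1, h2]
  have iB : Integrable (fun ω => a₁ * (T ω + D' + ε / (32 * (N + 1)) *
      (e + ∑ i, (Xn i ω + D') + R ω / ϖl) + R ω / ϖl) + ε / (128 * (N + 1)) *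
      (e + ∑ i, (Xn i ω + D') + R ω / ϖl)) P := iA'.add iM3
  refine ⟨iB.add iR', ?_⟩
  rw [integral_add iB iR', integral_add iA' iM3,
    integral_const_mul, integral_const_mul]
  have h1 : ε / (128 * ((N : ℝ) + 1)) * ∫ ω, (e + ∑ i, (Xn i ω + D') + R ω / ϖl) ∂P ≤
      ε / 32 * e := by
    calc ε / (128 * ((N : ℝ) + 1)) * ∫ ω, (e + ∑ i, (Xn i ω + D') + R ω / ϖl) ∂P
        ≤ ε / (128 * ((N : ℝ) + 1)) * (4 * ((N : ℝ) + 1) * e) := by (clear * - mM hε; gcongr)
      _ = ε / 32 * e := by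
        field_simp
        ring
  have h2 := mul_le_mul_of_nonneg_left mA ha₁
  have h3 : 0 ≤ ε * e := by (clear * - hε he; positivity)
  (refine le_of_not_gt fun hng_ => ?_; linarith only [mul_nonneg (sub_nonneg.2 hε1) (le_of_lt (sub_pos.2 hng_)), mul_pos hε (sub_pos.2 hng_), mul_nonneg ha₁ (sub_nonneg.2 mA), mul_nonneg (le_of_lt hε) h3, mul_nonneg (le_of_lt hε) (sub_nonneg.2 mRl), mul_nonneg (sub_nonneg.2 hε1) he, mul_nonneg (sub_nonneg.2 hε1) (sub_nonneg.2 mRl), mul_nonneg (sub_nonneg.2 hε1) (sub_nonneg.2 h1), mul_nonneg (sub_nonneg.2 hε1) h3, mul_nonneg (le_of_lt hε) (sub_nonneg.2 h1)])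

theorem gs_eta_pos {ϖ : ℝ} (h : 0 < ϖ) (l m : ℕ) : 0 < eta ϖ l m := pow_pos h _

theorem gs_eta_step {ϖ : ℝ} (h : 0 < ϖ) (h1 : ϖ ≤ 1) {l m : ℕ} :
    ϖ * eta ϖ (l - 1) m ≤ eta ϖ l m := by
  unfold eta
  rw [← pow_succ']
  exact pow_le_pow_of_le_one h.le h1 (by omega)

theorem gs_eta_ge {ϖ : ℝ} (h : 0 < ϖ) (h1 : ϖ ≤ 1) {l m : ℕ} : ϖ ^ l ≤ eta ϖ l m :=
  pow_le_pow_of_le_one h.le h1 (min_le_left _ _)

/-! ### The main theorem -/

section main

variable {N p lmax mmax B D : ℕ} {C δ ϖ ε a Λ smax : ℝ}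

/-- The Lipschitz estimate of the inner sampler. -/
theorem gs_out_lip (par : GPar N p C δ ϖ ε a Λ smax lmax mmax B D) {w Λ₁ : ℝ} {Θ' : Type}
    [MeasurableSpace Θ'] {At : Samp d Θ' (Eu d)} {Aj : Fin N → Samp d Θ' (Eu d)}
    {O : Samp d Θ' (Eu d)} {V : Eu d → ℝ} (hV : V ∈ PotClass d) {φ : Θ' → Eu d}
    (lO : ∀ θ, O.law V θ = S.cnv (Measure.dirac (φ θ))
        (S.cnv (At.law V θ) (cnvSum fun j => (Aj j).law V θ)))
    {wj : Fin N → ℝ} (hwj : ∀ j, |wj j| ≤ 2 * C * ϖ ^ 2 * |w|) {t₁ t₂ : Θ'} (hφ : φ t₁ = φ t₂)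
    {ct cj : ℝ} (hcj : 0 ≤ cj)
    (h1 : WD (At.law V t₁) (At.law V t₂) (|w| * Λ₁ * ct))
    (h2 : ∀ j, WD ((Aj j).law V t₁) ((Aj j).law V t₂) (|wj j| * Λ * (2 * cj))) :
    WD (O.law V t₁) (O.law V t₂) (|w| * Λ₁ * ct + |w| * (4 * N * C * Λ * ϖ ^ 2) * cj) := by
  have := At.isProb hV t₁
  have := At.isProb hV t₂
  have : ∀ j, IsProbabilityMeasure ((Aj j).law V t₁) := fun j => (Aj j).isProb hV t₁
  have : ∀ j, IsProbabilityMeasure ((Aj j).law V t₂) := fun j => (Aj j).isProb hV t₂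
  rw [lO, lO]
  have h3 := gs_wd_out (x := φ t₁) (x' := φ t₂) h1 h2
  refine h3.mono ?_
  rw [hφ, sub_self, norm_zero, zero_add]
  have hΛ := par.hΛ
  have h4 : ∑ j, |wj j| * Λ * (2 * cj) ≤ ∑ _j : Fin N, 2 * C * ϖ ^ 2 * |w| * Λ * (2 * cj) := by
    refine Finset.sum_le_sum fun j _ => ?_
    have := hwj j
    (clear * - this hΛ hcj; gcongr)
  rw [Finset.sum_const, Finset.card_univ, Fintype.card_fin, nsmul_eq_mul] at h4
  linarith only [h4]

/-- The error estimate of the inner sampler at one `ω`. -/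
theorem gs_out_err (par : GPar N p C δ ϖ ε a Λ smax lmax mmax B D) {l m : ℕ} {s : ℝ} (hs : 0 < s)
    (hs' : s ≤ smax) {w σ a₁ : ℝ} (hσ : 0 < σ) {Θ' : Type}
    [MeasurableSpace Θ'] {At : Samp d Θ' (Eu d)} {Aj : Fin N → Samp d Θ' (Eu d)}
    {O : Samp d Θ' (Eu d)} {V : Eu d → ℝ} (hV : V ∈ PotClass d) {x Z mt : Eu d}
    {ms : Fin N → Eu d} {t : Θ'}
    (lO : O.law V t = S.cnv (Measure.dirac x)
        (S.cnv (At.law V t) (cnvSum fun j => (Aj j).law V t)))
    {wj : Fin N → ℝ} (hwj : ∀ j, |wj j| ≤ 2 * C * ϖ ^ 2 * |w|) {et M r : ℝ} (hM : 0 ≤ M)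
    (hr : 0 ≤ r)
    (h1 : WD (At.law V t) (gau mt (√(1 - δ / 2) * σ)) (|w| * a₁ * eta ϖ l m * et))
    (h2 : ∀ j, WD ((Aj j).law V t) (gau (ms j) (σ * √(δ / (4 * N))))
      (|wj j| * a * eta ϖ (l - 1) m * (2 * M)))
    (hZ : ‖x + (mt + ∑ j, ms j) - Z‖ ≤ |w| * √s * r) :
    WD (O.law V t) (gau Z (√(1 - δ / 4) * σ))
      (|w| * eta ϖ l m * (a₁ * et + ε / (128 * (N + 1)) * M + r / ϖ ^ l)) := by
  have := At.isProb hV t
  have : ∀ j, IsProbabilityMeasure ((Aj j).law V t) := fun j => (Aj j).isProb hV t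
  have hp : (1 : ℝ) ≤ p := by exact_mod_cast par.hp
  have hδ1 : δ ≤ 1 := by
    refine par.hδ'.trans ?_
    rw [div_le_one (by (clear * - hp; (clear * - hp; positivity)))]
    linarith only [hp]
  have hϖ := par.hϖ
  have hϖ1 := par.hϖ'.le
  have hC := par.hC
  have ha := par.ha
  have h3 := gs_wd_out (x := x) (x' := x) h1 h2
  rw [gs_gau_out par.hN par.hδ hδ1 hσ, ← lO] at h3
  refine (h3.trans (wd_gau _ Z _)).mono ?_
  rw [sub_self, norm_zero, zero_add]
  have hN0 : (0 : ℝ) < (N : ℝ) + 1 := by (clear * -; positivity)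
  have hη := gs_eta_pos hϖ l m
  have hη' := gs_eta_pos hϖ (l - 1) m
  have h4 : ∑ j, |wj j| * a * eta ϖ (l - 1) m * (2 * M) ≤
      |w| * eta ϖ l m * (ε / (128 * (N + 1)) * M) := by
    have h5 : ∑ j, |wj j| * a * eta ϖ (l - 1) m * (2 * M) ≤
        ∑ _j : Fin N, 2 * C * ϖ ^ 2 * |w| * a * eta ϖ (l - 1) m * (2 * M) := by
      refine Finset.sum_le_sum fun j _ => ?_
      have := hwj j
      (clear * - this ha hη' hM; (clear * - this ha hη' hM; gcongr))
    rw [Finset.sum_const, Finset.card_univ, Fintype.card_fin, nsmul_eq_mul] at h5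
    refine h5.trans ?_
    have h6 := gs_eta_step hϖ hϖ1 (l := l) (m := m)
    have h7 : 4 * N * C * a * ϖ ≤ ε / (128 * (N + 1)) := by
      rw [le_div_iff₀ (by (clear * -; (clear * -; positivity)))]
      have := par.i5
      linarith only [this]
    calc (N : ℝ) * (2 * C * ϖ ^ 2 * |w| * a * eta ϖ (l - 1) m * (2 * M))
        = |w| * (ϖ * eta ϖ (l - 1) m) * ((4 * N * C * a * ϖ) * M) := by ring
      _ ≤ |w| * eta ϖ l m * ((4 * N * C * a * ϖ) * M) := by (clear * - h6 hC ha hϖ hM; gcongr)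
      _ ≤ |w| * eta ϖ l m * (ε / (128 * (N + 1)) * M) := by (clear * - h7 hM hη; gcongr)
  have h8 : |w| * √s * r ≤ |w| * eta ϖ l m * (r / ϖ ^ l) := by
    have h9 : √s ≤ 1 := by
      rw [Real.sqrt_le_one]
      have := par.hs'
      linarith only [this, hs']
    have h10 := gs_eta_ge hϖ hϖ1 (l := l) (m := m)
    have h11 : 0 < ϖ ^ l := pow_pos hϖ _
    calc |w| * √s * r ≤ |w| * 1 * r := by (clear * - h9 hr; gcongr)
      _ = |w| * ϖ ^ l * (r / ϖ ^ l) := by (clear * - hϖ; field_simp)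
      _ ≤ |w| * eta ϖ l m * (r / ϖ ^ l) := by (clear * - h10 hr hϖ; gcongr)
  linarith only [(hZ.trans h8), h4]

/-- Continuity of integrals against Gaussian laws. -/
theorem gs_gau_cont {f : Eu d → ℝ} {Cf : ℝ} (hC : ∀ x, |f x| ≤ Cf)
    (hlip : ∀ x y, |f x - f y| ≤ ‖x - y‖) (τ : ℝ) :
    Continuous fun x : Eu d => ∫ z, f z ∂(gau x τ) :=
  gs_lip_meas zero_le_one fun x y => by
    rw [one_mul]
    exact wd_gau x y τ f hlip ⟨Cf, hC⟩

/-- The error estimate of the whole sampler. -/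
theorem gs_err (par : GPar N p C δ ϖ ε a Λ smax lmax mmax B D) {l m : ℕ} (hl : l ≤ lmax) {s : ℝ}
    (hs : 0 < s) (hs' : s ≤ smax) {w σ a₁ κ b : ℝ} (hσ : 0 < σ) (ha₁ : 0 ≤ a₁)
    (num : GsNum N C δ ϖ w σ κ b s m mmax) {Θ : Type} [MeasurableSpace Θ]
    {h : ℕ → Samp d Θ (Eu d)} {O : Samp d (Θ × Eu d × Eu d × Eu d) (Eu d)} {V : Eu d → ℝ}
    (hV : V ∈ PotClass d) {θ : Θ} {y : Eu d} {e : ℝ} (he : ‖y‖ + √d ≤ e)
    (hh : WD ((h l).law V θ) (gau y (√(δ / 4 * s))) (eta ϖ l m * e)) {LK : ℝ} (hLK0 : 0 ≤ LK)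
    (hLK : LK ≤ |w| * (2 * Λ))
    (hO1 : ∀ (K₁ K₂ : Eu d) (z : Eu d × Eu d),
      WD (O.law V (θ, K₁, z)) (O.law V (θ, K₂, z)) (LK * ‖K₁ - K₂‖))
    {net : Net N} {X : Fin N → Eu d × Eu d × Eu d → Eu d} {Z : Eu d × Eu d × Eu d → Eu d}
    {R : Eu d × Eu d × Eu d → ℝ}
    (cert : net.Cert (gradient V) (Fp V (gradient V)) s δ κ
      (C * ((√δ) ^ p / b + b ^ (p - 1)) * √d) C y X Z R)
    (hO2 : ∀ ω : Eu d × Eu d × Eu d, WD (O.law V (θ, y + √(δ * s) • ω.1, ω.2))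
      (gau ((√δ / 2 * σ) • Z ω) (√(1 - δ / 4) * σ)) (|w| * eta ϖ l m *
        (a₁ * (‖X net.top ω‖ + √d + ε / (32 * (N + 1)) *
          (e + ∑ i, (‖X i ω‖ + √d) + R ω / ϖ ^ l) + R ω / ϖ ^ l) +
          ε / (128 * (N + 1)) * (e + ∑ i, (‖X i ω‖ + √d) + R ω / ϖ ^ l) + R ω / ϖ ^ l)))
    {f : Eu d → ℝ} (hlip : ∀ x y, |f x - f y| ≤ ‖x - y‖) {Cf : ℝ} (hCf : ∀ x, |f x| ≤ Cf) :
    |∫ K, gsPhi O V f θ K ∂(S.cnv ((h l).law V θ) (gau 0 (√(3 / 4 * (δ * s))))) -
      ∫ x, f x ∂(gau (w • Fp V (gradient V) s y) σ)| ≤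
      |w| * ((1 + ε) * a₁ + (2 * Λ + 3)) * eta ϖ l m * e := by
  have hϖ := par.hϖ
  have hϖ1 := par.hϖ'.le
  have hδ := par.hδ
  have hC := par.hC
  have hε := par.hε
  have hp : (1 : ℝ) ≤ p := by exact_mod_cast par.hp
  have hδ1 : δ ≤ 1 := by
    refine par.hδ'.trans ?_
    rw [div_le_one (by (clear * - hp; (clear * - hp; positivity)))]
    linarith only [hp]
  have hη := gs_eta_pos hϖ l m
  have he0 : 0 ≤ e := le_trans (by (clear * -; (clear * -; positivity))) he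
  have hsd : 0 ≤ √(d : ℝ) := Real.sqrt_nonneg _
  have hde : √(d : ℝ) ≤ e := by linarith only [(norm_nonneg y), he]
  have hPr := (h l).isProb hV θ
  have hfc : Continuous f := gs_lip_meas zero_le_one (by simpa only [one_mul] using hlip)
  have hfm := hfc.measurable
  have hPhi : ∀ K₁ K₂, |gsPhi O V f θ K₁ - gsPhi O V f θ K₂| ≤ LK * ‖K₁ - K₂‖ :=
    fun K₁ K₂ => gsPhi_sub hV hfm hCf hlip (hO1 K₁ K₂)
  have hPhic := gs_lip_meas hLK0 hPhi
  -- step 1
  have s1 : |∫ K, gsPhi O V f θ K ∂(S.cnv ((h l).law V θ) (gau 0 (√(3 / 4 * (δ * s))))) -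
      ∫ K, gsPhi O V f θ K ∂(gau y (√(δ * s)))| ≤ LK * (eta ϖ l m * e + 0) := by
    have h1 : WD (S.cnv ((h l).law V θ) (gau 0 (√(3 / 4 * (δ * s))))) (gau y (√(δ * s)))
        (eta ϖ l m * e + 0) := by
      have h2 := hh.cnv (WD.refl (gau (0 : Eu d) (√(3 / 4 * (δ * s)))))
      have h3 : √(δ / 4 * s) ^ 2 + √(3 / 4 * (δ * s)) ^ 2 = δ * s := by
        rw [Real.sq_sqrt (by (clear * - hδ hs; positivity)), Real.sq_sqrt (by positivity)]
        ring
      rwa [gau_cnv, add_zero, h3] at h2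
    exact h1.lip hLK0 hPhi ⟨Cf, gsPhi_bd hV hCf θ⟩
  -- step 2
  have mu : Measurable fun ω : Eu d × Eu d × Eu d =>
      ∫ x, f x ∂(O.law V (θ, y + √(δ * s) • ω.1, ω.2)) :=
    (gs_inner_meas (O := O) hV hfm hCf θ).comp
      (g := fun ω : Eu d × Eu d × Eu d => ∫ x, f x ∂(O.law V (θ, ω)))
      (f := fun ω : Eu d × Eu d × Eu d => (y + √(δ * s) • ω.1, ω.2)) (by (clear * -; fun_prop))
  have bu : ∀ ω : Eu d × Eu d × Eu d,
      |∫ x, f x ∂(O.law V (θ, y + √(δ * s) • ω.1, ω.2))| ≤ Cf := fun ω => gs_inner_bd hV hCf _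
  have s2 : ∫ K, gsPhi O V f θ K ∂(gau y (√(δ * s))) =
      ∫ ω, (∫ x, f x ∂(O.law V (θ, y + √(δ * s) • ω.1, ω.2))) ∂(gam3 (Eu d)) := by
    rw [gs_gau_int hPhic, integral_prod _ (gs_integrable mu bu)]
    rfl
  -- step 3
  have mv : Measurable fun ω : Eu d × Eu d × Eu d =>
      ∫ x, f x ∂(gau ((√δ / 2 * σ) • Z ω) (√(1 - δ / 4) * σ)) :=
    (gs_gau_cont hCf hlip (√(1 - δ / 4) * σ)).measurable.comp
      (f := fun ω : Eu d × Eu d × Eu d => (√δ / 2 * σ) • Z ω) (by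
        have h1 := cert.measZ
        fun_prop)
  have bv : ∀ ω : Eu d × Eu d × Eu d,
      |∫ x, f x ∂(gau ((√δ / 2 * σ) • Z ω) (√(1 - δ / 4) * σ))| ≤ Cf := fun ω => gs_abs_le hCf
  have s3 : ∫ x, f x ∂(gau (w • Fp V (gradient V) s y) σ) =
      ∫ ω, (∫ x, f x ∂(gau ((√δ / 2 * σ) • Z ω) (√(1 - δ / 4) * σ))) ∂(gam3 (Eu d)) := by
    refine gs_mix cert.measZ cert.law num.kw ?_ hfc hCf
    have h1 : (√δ / 2 * σ) ^ 2 + (√(1 - δ / 4) * σ) ^ 2 = σ ^ 2 := by
      rw [mul_pow, mul_pow, div_pow, Real.sq_sqrt hδ.le, Real.sq_sqrt (by linarith only [hδ1])]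
      ring
    rw [h1, Real.sqrt_sq hσ.le]
  -- step 4
  have hfr : ((finrank ℝ (Eu d) : ℕ) : ℝ) = d := by rw [finrank_euclideanSpace_fin]
  have hsm : 0 ≤ smax := par.hs.le
  have hss : √(δ * s) ≤ √(δ * smax) := Real.sqrt_le_sqrt (by (clear * - hs' hδ; gcongr))
  have hint := gs_err_int (P := gam3 (Eu d)) (N := N) (T := fun ω => ‖X net.top ω‖)
    (Xn := fun i ω => ‖X i ω‖) (R := R) (e := e) (D' := √d) (ε := ε) (a₁ := a₁) (ϖl := ϖ ^ l)
    (y₀ := ‖y‖) (q := ε / 8 * e) hε par.hε' ha₁ (pow_pos hϖ _) hsd he (norm_nonneg y) le_rfl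
    (cert.intX net.top) cert.intX cert.intR (by
      have h1 := cert.momTop
      rw [hfr] at h1
      refine h1.trans ?_
      have h2 := par.i7
      calc ‖y‖ + C * √(δ * s) * √d + C * (δ * s) * (‖y‖ + √d)
          ≤ ‖y‖ + C * √(δ * smax) * e + C * (δ * smax) * e := by (clear * - hss hC hde hs' hδ he hsm; gcongr)
        _ = ‖y‖ + (C * √(δ * smax) + C * (δ * smax)) * e := by ring
        _ ≤ ‖y‖ + ε / 8 * e := by (clear * - h2 he0; gcongr)) (by
      intro i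
      have h1 := cert.momX i
      rwa [hfr] at h1) (by
      refine cert.err.trans ?_
      have h1 := par.i6
      have h2 : (√δ) ^ p / b ≤ (√δ) ^ p / ϖ ^ (2 * mmax) :=
        div_le_div_of_nonneg_left (by (clear * - hδ; positivity)) (pow_pos hϖ _) num.bm
      have h3 : b ^ (p - 1) ≤ (ϖ ^ 2) ^ (p - 1) := pow_le_pow_left₀ num.b0.le num.b2 _
      have h4 : ϖ ^ lmax ≤ ϖ ^ l := pow_le_pow_of_le_one hϖ.le hϖ1 hl
      have h5 := num.b0
      calc C * ((√δ) ^ p / b + b ^ (p - 1)) * √d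
          ≤ C * ((√δ) ^ p / ϖ ^ (2 * mmax) + (ϖ ^ 2) ^ (p - 1)) * e := by (clear * - h2 h3 hC hde hδ hϖ; gcongr)
        _ ≤ (ε / 64 * ϖ ^ lmax) * e := by (clear * - h1 he0; gcongr)
        _ ≤ (ε / 64 * ϖ ^ l) * e := by (clear * - h4 hε he0; gcongr))
  have s4 := gs_sub_le (P := gam3 (Eu d)) mu mv bu bv (hint.1.const_mul (|w| * eta ϖ l m))
    (fun ω => hO2 ω f hlip ⟨Cf, hCf⟩)
  rw [integral_const_mul] at s4
  have s5 : |w| * eta ϖ l m * ∫ ω, (a₁ * (‖X net.top ω‖ + √d + ε / (32 * (N + 1)) *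
          (e + ∑ i, (‖X i ω‖ + √d) + R ω / ϖ ^ l) + R ω / ϖ ^ l) +
          ε / (128 * (N + 1)) * (e + ∑ i, (‖X i ω‖ + √d) + R ω / ϖ ^ l) + R ω / ϖ ^ l)
          ∂(gam3 (Eu d)) ≤ |w| * eta ϖ l m * (((1 + ε) * a₁ + 1) * e) :=
    mul_le_mul_of_nonneg_left hint.2 (by (clear * - hη; (clear * - hη; positivity)))
  rw [s3]
  rw [s2] at s1
  have s6 : LK * (eta ϖ l m * e + 0) ≤ |w| * (2 * Λ) * (eta ϖ l m * e) := by
    rw [add_zero]
    (clear * - hLK hη he0; gcongr)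
  have s7 : 0 ≤ |w| * eta ϖ l m * e := by (clear * - hη he0; (clear * - hη he0; positivity))
  refine (abs_sub_le _ _ _).trans ((add_le_add s1 (s4.trans s5)).trans ?_)
  linarith only [s6, s7]

end main

/-- The content of `NodesStatement` for given `p`, `N`, `C`. -/
def NodesAt (p N : ℕ) (C : ℝ) : Prop :=
  ∀ s θ b κ : ℝ, 0 < s → s ≤ 1 / 4 → 0 < θ → θ ≤ 1 / (8 * p) → 0 < b → b ≤ 1 / 8 →
    |κ| * √s ≤ 1 →
    ∃ net : Net N,
      net.Good s θ (C * (θ * s + |κ| * √(θ * s) + κ ^ 2 * (θ * s) / b + b))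
        (C * (κ ^ 2 * √(θ * s) / b)) (1 / (2 * p)) ∧
      ∀ (d : ℕ) (V : Eu d → ℝ) (G : Eu d → Eu d) (H : Eu d → Eu d →L[ℝ] Eu d), Pot V G H →
        1 ≤ d → ∀ y : Eu d, ∃ X Z R,
          net.Cert G (Fp V G) s θ κ (C * ((√θ) ^ p / b + b ^ (p - 1)) * √d) C y X Z R

theorem nodesAt_of (h : NodesStatement) (p : ℕ) (hp : 2 ≤ p) : ∃ N C, 1 ≤ C ∧ NodesAt p N C :=
  h p hp

/-- One step of the recursion in the level: the gate. -/
theorem evalAt_step {N p lmax mmax B D : ℕ} {C δ ϖ ε a Λ smax : ℝ}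
    (par : GPar N p C δ ϖ ε a Λ smax lmax mmax B D) (hnodes : NodesAt p N C) (hd : 1 ≤ d)
    {l m : ℕ} (hm : 2 ≤ m) (hm' : m ≤ mmax) (hl1 : 1 ≤ l) (hl : l ≤ lmax) {s : ℝ} (hs : 0 < s)
    (hs' : s ≤ smax) {a₁ Λ₁ : ℝ} {B₁ : ℕ} (ha₁ : 0 ≤ a₁) (ha₁' : a₁ ≤ a) (hΛ₁ : 0 ≤ Λ₁)
    (hΛ₁' : Λ₁ ≤ Λ)
    (hmain : EvalAt d (δ / 4) ϖ D l m ((1 - δ) * s) a₁ Λ₁ B₁)
    (hE : ∀ l' < l, ∀ s', (1 - 2 * δ) * s ≤ s' → s' ≤ s →
      EvalAt d (δ / 4) ϖ D l' (m - 2) s' a Λ B)
    (hE' : ∀ s', (1 - 2 * δ) * s ≤ s' → s' ≤ s → EvalAt d (δ / 4) ϖ D (l - 1) m s' a Λ B) :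
    EvalAt d (δ / 4) ϖ D l m s ((1 + ε) * a₁ + (2 * Λ + 3)) ((1 + ε) * Λ₁ + ε) (B₁ + 2) := by
  intro w σ hσ hw Θ _ h
  have hϖ := par.hϖ
  have hϖ1 := par.hϖ'.le
  have hδ := par.hδ
  have hC := par.hC
  have hε := par.hε
  have hε1 := par.hε'
  have hΛ := par.hΛ
  have hN0 : (0 : ℝ) < N := by exact_mod_cast par.hN
  have hp : (1 : ℝ) ≤ p := by exact_mod_cast par.hp
  have hδ8 : δ ≤ 1 / 8 := by
    refine par.hδ'.trans ?_
    rw [div_le_div_iff₀ (by (clear * - hp; positivity)) (by norm_num)]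
    linarith only [hp]
  have num := gs_num par hm hm' hs hs' hσ hw
  set κ := -2 * w / (√δ * σ) with hκ
  set b := ϖ ^ (2 * m - 2) with hb
  obtain ⟨net, hgood, hcert⟩ := hnodes s δ b κ hs (hs'.trans par.hs') hδ par.hδ' num.b0 num.b8
    num.ks
  have hgood' := gs_good_mono hgood num.W
  obtain ⟨H, Hcost, Hlip, Herr⟩ :=
    exists_nodeHandles par hd hm hm' hl hs hs' net hgood' hE Θ h
  have ctop : |w| * √((1 - δ) * s) ≤ ϖ ^ (2 * m) * (√(1 - δ / 2) * σ) := by
    rw [Real.sqrt_mul (by linarith only [hδ8])]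
    have h1 : √(1 - δ) ≤ √(1 - δ / 2) := Real.sqrt_le_sqrt (by linarith only [hδ])
    calc |w| * (√(1 - δ) * √s) = √(1 - δ) * (|w| * √s) := by ring
      _ ≤ √(1 - δ / 2) * (ϖ ^ (2 * m) * σ) := by (clear * - h1 hw hs; gcongr)
      _ = ϖ ^ (2 * m) * (√(1 - δ / 2) * σ) := by ring
  have hσt : 0 < √(1 - δ / 2) * σ := mul_pos (Real.sqrt_pos.2 (by linarith only [hδ8])) hσ
  obtain ⟨At, Atc, Atl, Ate⟩ := hmain w (√(1 - δ / 2) * σ) hσt ctop
    (Θ × Eu d × Eu d × Eu d) (fun l' => H l' net.top)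
  have hc0 : 0 ≤ √δ / 2 * σ := by (clear * - hδ hσ; (clear * - hδ hσ; positivity))
  have hwj0 : ∀ j, |√δ / 2 * σ * net.q j| ≤ √δ / 2 * σ * (C * (κ ^ 2 * √(δ * s) / b)) := by
    intro j
    rw [abs_mul, abs_of_nonneg hc0]
    exact mul_le_mul_of_nonneg_left (hgood.q_le j) hc0
  have hwj1 : ∀ j, |√δ / 2 * σ * net.q j| ≤ 2 * C * ϖ ^ 2 * |w| := fun j =>
    (hwj0 j).trans num.q1
  have hwj2 : ∀ j, |√δ / 2 * σ * net.q j| * √(net.lev j) ≤
      ϖ ^ (2 * m) * (σ * √(δ / (4 * N))) := by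
    intro j
    refine le_trans ?_ num.q2
    have h1 : √(net.lev j) ≤ √s := Real.sqrt_le_sqrt (hgood.lev_hi j)
    exact mul_le_mul (hwj0 j) h1 (Real.sqrt_nonneg _) ((abs_nonneg _).trans (hwj0 j))
  have hσj : 0 < σ * √(δ / (4 * N)) := mul_pos hσ (Real.sqrt_pos.2 (by (clear * - hδ hN0; positivity)))
  have hAj := fun j => hE' (net.lev j) (hgood.lev_lo j) (hgood.lev_hi j)
    (√δ / 2 * σ * net.q j) (σ * √(δ / (4 * N))) hσj (hwj2 j)
    (Θ × Eu d × Eu d × Eu d) (fun l' => H l' j)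
  choose Aj Ajc Ajl Aje using hAj
  obtain ⟨O, cO, lO⟩ := gs_out
    (fun t : Θ × Eu d × Eu d × Eu d => (√δ / 2 * σ) • t.2.2.1) (by (clear * -; fun_prop)) At Aj
  obtain ⟨A, cA, lA⟩ := gs_total (h l) (√(3 / 4 * (δ * s))) O
  -- the Lipschitz estimate of the inner sampler
  have Olip : ∀ V ∈ PotClass d, ∀ (θ₁ θ₂ : Θ) (c : ℝ), 0 ≤ c →
      (∀ l' ≤ l, WD ((h l').law V θ₁) ((h l').law V θ₂) c) →
      ∀ (K₁ K₂ : Eu d) (z : Eu d × Eu d), WD (O.law V (θ₁, K₁, z)) (O.law V (θ₂, K₂, z))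
        (|w| * Λ₁ * ((1 + ε / 8) * ‖K₁ - K₂‖ + ε / 8 * c) +
          |w| * (4 * N * C * Λ * ϖ ^ 2) * (c + ‖K₁ - K₂‖)) := by
    intro V hV θ₁ θ₂ c hc hh K₁ K₂ z
    obtain ⟨i1, i2⟩ := Hlip V hV θ₁ θ₂ c hc hh K₁ K₂ z.1 z.2
    exact gs_out_lip par hV (lO V hV) hwj1 (t₁ := (θ₁, K₁, z)) (t₂ := (θ₂, K₂, z)) rfl
      (ct := (1 + ε / 8) * ‖K₁ - K₂‖ + ε / 8 * c) (cj := c + ‖K₁ - K₂‖) (by (clear * - hc; (clear * - hc; positivity)))
      (Atl V hV _ _ _ fun l' hl' => i2 l' hl')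
      (fun j => Ajl j V hV _ _ _ fun l' hl' => i1 l' (by (clear * - hl1 hl'; (clear * - hl1 hl'; omega))) j)
  set G : ℝ := 4 * N * C * Λ * ϖ ^ 2 with hG
  have hG0 : 0 ≤ G := by (clear * - hN0 hC hΛ hϖ; positivity)
  have hG1 : G ≤ ε / 16 := by
    have h1 := par.i8
    have h2 : ϖ ^ 2 ≤ ϖ := by (refine le_of_not_gt fun hng_ => ?_; linarith only [mul_nonneg (sub_nonneg.2 hδ8) (le_of_lt (sub_pos.2 hng_)), mul_pos hδ (sub_pos.2 hng_), mul_nonneg (le_of_lt hϖ) (sub_nonneg.2 hϖ1)])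
    calc G ≤ 4 * N * C * Λ * ϖ := by rw [hG]; (clear * - h2 hN0 hC hΛ; gcongr)
      _ ≤ ε / 16 := by linarith only [h1]
  have hLKle : |w| * (Λ₁ * (1 + ε / 8) + G) ≤ |w| * (2 * Λ) := by
    have h1 : Λ₁ * (1 + ε / 8) ≤ Λ * (1 + 1 / 8) := by (clear * - hΛ₁' hε1 hε hΛ; gcongr)
    have h2 : Λ₁ * (1 + ε / 8) + G ≤ 2 * Λ := by linarith only [hG1, hε1, hΛ, h1]
    (clear * - h2; gcongr)
  have hO1 : ∀ V ∈ PotClass d, ∀ (θ : Θ) (K₁ K₂ : Eu d) (z : Eu d × Eu d),
      WD (O.law V (θ, K₁, z)) (O.law V (θ, K₂, z))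
        (|w| * (Λ₁ * (1 + ε / 8) + G) * ‖K₁ - K₂‖) := by
    intro V hV θ K₁ K₂ z
    refine (Olip V hV θ θ 0 le_rfl (fun l' _ => WD.refl _) K₁ K₂ z).mono (le_of_eq ?_)
    ring
  refine ⟨A, ?_, ?_, ?_⟩
  · -- cost
    intro τ hτ hc
    obtain ⟨c1, c2⟩ := Hcost τ hτ hc
    have k1 := Atc τ hτ fun l' hl' => c2 l' hl'
    have k2 : ∀ j, (Aj j).cost ≤ B * D ^ (l - 1) * (2 * τ) := fun j =>
      Ajc j (2 * τ) (by omega) fun l' hl' => c1 l' (by omega) j
    have k3 : ∑ j, (Aj j).cost ≤ N * (B * D ^ (l - 1) * (2 * τ)) := by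
      calc ∑ j, (Aj j).cost ≤ ∑ _j : Fin N, B * D ^ (l - 1) * (2 * τ) :=
            Finset.sum_le_sum fun j _ => k2 j
        _ = N * (B * D ^ (l - 1) * (2 * τ)) := by
            rw [Finset.sum_const, Finset.card_univ, Fintype.card_fin, smul_eq_mul]
    have k4 : N * (B * D ^ (l - 1) * (2 * τ)) ≤ D ^ l * τ := by
      obtain ⟨k, rfl⟩ : ∃ k, l = k + 1 := ⟨l - 1, by (clear * - hl1; omega)⟩
      rw [Nat.add_sub_cancel, pow_succ]
      calc N * (B * D ^ k * (2 * τ)) = D ^ k * (2 * N * B) * τ := by ring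
        _ ≤ D ^ k * D * τ := by
          have := par.i10
          (clear * - this; gcongr)
    have k5 := hc l le_rfl
    rw [cA, cO]
    calc (h l).cost + (At.cost + ∑ j, (Aj j).cost)
        ≤ D ^ l * τ + (B₁ * D ^ l * τ + D ^ l * τ) := by
          have := k3.trans k4
          omega
      _ = (B₁ + 2) * D ^ l * τ := by ring
  · -- Lipschitz estimate
    intro V hV θ₁ θ₂ c hc
    have hc0 : 0 ≤ c := (hc 0 (Nat.zero_le _)).nonneg
    intro f hlip bf
    obtain ⟨Cf, hCf⟩ := bf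
    have hfc : Continuous f := gs_lip_meas zero_le_one (by simpa only [one_mul] using hlip)
    have hfm := hfc.measurable
    rw [lA V hV θ₁ f hfm ⟨Cf, hCf⟩, lA V hV θ₂ f hfm ⟨Cf, hCf⟩]
    have := (h l).isProb hV θ₁
    have := (h l).isProb hV θ₂
    have hLK0 : 0 ≤ |w| * (Λ₁ * (1 + ε / 8) + G) := by (clear * - hΛ₁ hε hN0 hC hΛ hϖ; (clear * - hΛ₁ hε hN0 hC hΛ hϖ; positivity))
    have hPhi : ∀ K₁ K₂, |gsPhi O V f θ₂ K₁ - gsPhi O V f θ₂ K₂| ≤
        |w| * (Λ₁ * (1 + ε / 8) + G) * ‖K₁ - K₂‖ :=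
      fun K₁ K₂ => gsPhi_sub hV hfm hCf hlip (hO1 V hV θ₂ K₁ K₂)
    have hμ := (hc l le_rfl).cnv (WD.refl (gau (0 : Eu d) (√(3 / 4 * (δ * s)))))
    have key := gs_lip (O := O) hV hCf hlip (θ₁ := θ₁) (θ₂ := θ₂) hLK0
      (Lc := |w| * (Λ₁ * (ε / 8) + G) * c) hμ (hO1 V hV θ₁)
      (fun K z => (Olip V hV θ₁ θ₂ c hc0 hc K K z).mono (le_of_eq (by
        rw [sub_self, norm_zero]
        ring))) (gs_lip_meas hLK0 hPhi)
    refine key.trans ?_
    have h1 : Λ₁ * (1 + ε / 8) + G + (Λ₁ * (ε / 8) + G) ≤ (1 + ε) * Λ₁ + ε := by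
      have : 0 ≤ ε * Λ₁ := by (clear * - hε hΛ₁; positivity)
      linarith only [hG1, hG0, this]
    calc |w| * (Λ₁ * (1 + ε / 8) + G) * (c + 0) + |w| * (Λ₁ * (ε / 8) + G) * c
        = |w| * (Λ₁ * (1 + ε / 8) + G + (Λ₁ * (ε / 8) + G)) * c := by ring
      _ ≤ |w| * ((1 + ε) * Λ₁ + ε) * c := by (clear * - h1 hc0; gcongr)
  · -- error estimate
    intro V hV θ y e he hh
    intro f hlip bf
    obtain ⟨Cf, hCf⟩ := bf
    have hfc : Continuous f := gs_lip_meas zero_le_one (by simpa only [one_mul] using hlip)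
    have hfm := hfc.measurable
    rw [lA V hV θ f hfm ⟨Cf, hCf⟩]
    obtain ⟨X, Z, R, cert⟩ := hcert d V (gradient V) _ (PotClass.pot hV) hd y
    have hLK0 : 0 ≤ |w| * (Λ₁ * (1 + ε / 8) + G) := by (clear * - hΛ₁ hε hN0 hC hΛ hϖ; positivity)
    refine gs_err par hl hs hs' hσ ha₁ num hV he (hh l le_rfl) hLK0 hLKle (hO1 V hV θ) cert
      ?_ hlip hCf
    intro ω
    obtain ⟨j1, j2⟩ := Herr V hV θ y e he hh (fun i => X i ω) (R ω) ω.1 ω.2.1 ω.2.2 (cert.R0 ω)
      (cert.root ω) (fun i => cert.node i ω)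
    have hR := cert.R0 ω
    have he0 : 0 ≤ e := le_trans (by (clear * - hd; (clear * - hd; positivity))) he
    have hS0 : 0 ≤ ∑ i, (‖X i ω‖ + √d) := Finset.sum_nonneg fun i _ => by (clear * - hd; positivity)
    have hRl : 0 ≤ R ω / ϖ ^ l := by (clear * - hR hϖ; positivity)
    have hM0 : 0 ≤ e + ∑ i, (‖X i ω‖ + √d) + R ω / ϖ ^ l := by (clear * - he0 hd hR hϖ; (clear * - he0 hd hR hϖ; positivity))
    have hMj : ∀ j, ‖X j ω‖ + √d ≤ 2 * (e + ∑ i, (‖X i ω‖ + √d) + R ω / ϖ ^ l) := by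
      intro j
      have h1 : ‖X j ω‖ + √d ≤ ∑ i, (‖X i ω‖ + √d) :=
        Finset.single_le_sum (f := fun i => ‖X i ω‖ + √d) (fun i _ => by (clear * - hd; positivity))
          (Finset.mem_univ j)
      linarith only [hM0, he0, hRl, h1]
    have a1 := Ate V hV (θ, y + √(δ * s) • ω.1, ω.2) (X net.top ω)
      (‖X net.top ω‖ + √d + ε / (32 * (N + 1)) *
          (e + ∑ i, (‖X i ω‖ + √d) + R ω / ϖ ^ l) + R ω / ϖ ^ l) (by
        have : 0 ≤ ε / (32 * ((N : ℝ) + 1)) * (e + ∑ i, (‖X i ω‖ + √d) + R ω / ϖ ^ l) := by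
          (clear * - hε hN0 he0 hd hR hϖ; (clear * - hε hN0 he0 hd hR hϖ; positivity))
        linarith only [this, hRl]) (fun l' hl' => by
        have h1 := j2 l' hl'
        rw [hgood.top_lev] at h1
        exact h1)
    have a2 := fun j => Aje j V hV (θ, y + √(δ * s) • ω.1, ω.2) (X j ω)
      (2 * (e + ∑ i, (‖X i ω‖ + √d) + R ω / ϖ ^ l)) (hMj j)
      (fun l' hl' => j1 l' (by (clear * - hl1 hl'; omega)) j)
    refine gs_out_err par hs hs' hσ hV (lO V hV _) hwj1 hM0 hR a1 a2 ?_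
    have h1 : (√δ / 2 * σ) • ω.2.1 + (w • Fp V (gradient V) ((1 - δ) * s) (X net.top ω) +
        ∑ j, (√δ / 2 * σ * net.q j) • Fp V (gradient V) (net.lev j) (X j ω)) -
        (√δ / 2 * σ) • Z ω = (√δ / 2 * σ) • (ω.2.1 -
          κ • Fp V (gradient V) ((1 - δ) * s) (X net.top ω)
          + ∑ j, net.q j • Fp V (gradient V) (net.lev j) (X j ω) - Z ω) := by
      rw [smul_sub, smul_add, smul_sub, smul_smul, num.kw, Finset.smul_sum]
      simp only [smul_smul, neg_smul]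
      abel
    rw [h1, norm_smul, Real.norm_eq_abs, abs_of_nonneg hc0]
    calc √δ / 2 * σ * ‖ω.2.1 - κ • Fp V (gradient V) ((1 - δ) * s) (X net.top ω)
          + ∑ j, net.q j • Fp V (gradient V) (net.lev j) (X j ω) - Z ω‖
        ≤ √δ / 2 * σ * (|κ| * √s * R ω) := by
          gcongr
          exact cert.out ω
      _ = (√δ / 2 * σ * |κ|) * √s * R ω := by ring
      _ = |w| * √s * R ω := by rw [num.kw']

end Vale.Agent.P347.S
end
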