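import Vale.Agent.P347.MathlibUsed
import Vale.Agent.P347.Bdl.B3
import Vale.Agent.P347.Bdl.B4
import Vale.Agent.P347.Bdl.B2
import Vale.Agent.P347.Bdl.B1

set_option linter.all false

section

/-! Task I2 (P347): the dual entropy inequality for one ideal step against one numerical step. -/

open MeasureTheory Filter Module Set
open scoped ENNReal NNReal

namespace Vale.Agent.P347

section logint

variable {T : Type*} [MeasurableSpace T] {ν : Measure T} [IsProbabilityMeasure ν] {f : T → ℝ}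
  {C : ℝ}

theorem integrable_exp_bdd (hm : Measurable f) (hC : ∀ x, |f x| ≤ C) :
    Integrable (fun x => Real.exp (f x)) ν := by
  refine bdd_integrable (Real.measurable_exp.comp hm) (C := Real.exp C) fun x => ?_
  rw [abs_of_pos (Real.exp_pos _)]
  exact Real.exp_le_exp.2 ((le_abs_self _).trans (hC x))

theorem exp_int_bounds (hm : Measurable f) (hC : ∀ x, |f x| ≤ C) :
    Real.exp (-C) ≤ ∫ x, Real.exp (f x) ∂ν ∧ ∫ x, Real.exp (f x) ∂ν ≤ Real.exp C := by
  have hi := integrable_exp_bdd (ν := ν) hm hC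
  constructor
  · have h := integral_mono (μ := ν) (integrable_const (Real.exp (-C))) hi fun x =>
      Real.exp_le_exp.2 (abs_le.1 (hC x)).1
    simpa only [ge_iff_le, integral_const, probReal_univ, smul_eq_mul, one_mul] using h
  · have h := integral_mono (μ := ν) hi (integrable_const (Real.exp C)) fun x =>
      Real.exp_le_exp.2 (abs_le.1 (hC x)).2
    simpa only [ge_iff_le, integral_const, probReal_univ, smul_eq_mul, one_mul] using h

theorem exp_int_pos (hm : Measurable f) (hC : ∀ x, |f x| ≤ C) :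
    0 < ∫ x, Real.exp (f x) ∂ν :=
  (Real.exp_pos _).trans_le (exp_int_bounds hm hC).1

theorem log_int_bdd (hm : Measurable f) (hC : ∀ x, |f x| ≤ C) :
    |Real.log (∫ x, Real.exp (f x) ∂ν)| ≤ C := by
  obtain ⟨h1, h2⟩ := exp_int_bounds (ν := ν) hm hC
  have h0 := exp_int_pos (ν := ν) hm hC
  rw [abs_le]
  constructor
  · rw [Real.le_log_iff_exp_le h0]; exact h1
  · rw [Real.log_le_iff_le_exp h0]; exact h2

end logint

variable {E : Type*} [NormedAddCommGroup E] [InnerProductSpace ℝ E] [FiniteDimensional ℝ E]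
  [MeasurableSpace E] [BorelSpace E]

/-- The error functional of `rgo_dv`. -/
noncomputable def Rerr (F : E → E) (ε : ℝ) (g u : E) : ℝ :=
  100 * (ε ^ 2 * (finrank ℝ E : ℝ) + ε ^ 3 * (‖F u‖ ^ 2 + ‖g‖ ^ 2) + ε * ‖F u - g‖ ^ 2)

theorem Rerr_integrable {W : E → ℝ} {F : E → E} (hW : CPot W F) (ε c : ℝ) (g m : E) :
    Integrable (fun z => Rerr F ε g (m + √c • z)) (gam E) := by
  have hF := hW.contF
  have h1 : Continuous fun z : E => F (m + √c • z) := hF.comp (by (clear * -; fun_prop))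
  have hpg : PG fun z : E => F (m + √c • z) := by
    refine PG.of_lip (L := 2 * √c) fun x y => ?_
    refine (hW.lip _ _).trans (le_of_eq ?_)
    rw [add_sub_add_left_eq_sub, ← smul_sub, norm_smul, Real.norm_eq_abs,
      abs_of_nonneg (Real.sqrt_nonneg c), mul_assoc]
  refine gam_integrable ?_ ?_
  · unfold Rerr
    exact (PG.const (100 : ℝ)).mul (((PG.const (ε ^ 2 * (finrank ℝ E : ℝ))).add
      ((PG.const (ε ^ 3)).mul ((hpg.norm.pow 2).add (PG.const (‖g‖ ^ 2))))).add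
      ((PG.const ε).mul ((hpg.sub (PG.const g)).norm.pow 2)))
  · unfold Rerr
    exact Continuous.aestronglyMeasurable (by fun_prop)

/-- Sum of two independent Gaussians of variance `ε`. -/
theorem gam_double {ε : ℝ} (hε : 0 < ε) (m : E) {f : E → ℝ} (hf : Measurable f)
    (bf : ∃ C, ∀ x, |f x| ≤ C) :
    ∫ w, ∫ ζ, f (m + √ε • w + √ε • ζ) ∂(gam E) ∂(gam E) = ∫ w, f (m + √(2 * ε) • w) ∂(gam E) := by
  obtain ⟨C, hC⟩ := bf
  have h2 : √(1 / 2 : ℝ) ^ 2 + √(1 / 2 : ℝ) ^ 2 = 1 := by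
    rw [Real.sq_sqrt (by (clear * -; norm_num))]
    norm_num
  have h := gam_add_bdd h2 (f := fun x : E => f (m + √(2 * ε) • x)) (hf.comp (by (clear hε f hf C hC h2; fun_prop)))
    ⟨C, fun x => hC _⟩
  rw [← h]
  have h3 : √(2 * ε) * √(1 / 2 : ℝ) = √ε := by
    rw [← Real.sqrt_mul (by positivity)]
    congr 1
    ring
  refine integral_congr_ae (Eventually.of_forall fun w => ?_)
  refine integral_congr_ae (Eventually.of_forall fun ζ => ?_)
  simp only
  rw [smul_add, smul_smul, smul_smul, h3, add_assoc]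

/-- The dual entropy inequality for the position part. -/
theorem pos_dv {W : E → ℝ} {F : E → E} (hW : CPot W F) (ha : Adm W) {ε : ℝ} (hε : 0 < ε)
    (hε1 : ε ≤ 1 / 8) (Y1 m' g : E) {φ : E → ℝ} (hφ : Measurable φ) {C : ℝ}
    (hC : ∀ x, |φ x| ≤ C) :
    ∫ w, (∫ y', φ y' ∂(gibbs (post W ε (Y1 + √ε • w)))) ∂(gam E)
      ≤ ‖Y1 - m'‖ ^ 2 / (2 * ε) + (∫ ζ, Rerr F ε g (Y1 + √ε • ζ) ∂(gam E))
        + Real.log (∫ w, Real.exp (φ (m' - ε • g + √(2 * ε) • w)) ∂(gam E)) := by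
  set L0 : E → ℝ := fun u => Real.log (∫ z, Real.exp (φ (u - ε • g + √ε • z)) ∂(gam E)) with hL0
  have hcomp : ∀ u : E, Measurable fun z : E => φ (u - ε • g + √ε • z) := fun u =>
    hφ.comp (by (clear W F hW ha hε hε1 Y1 m' φ hφ C hC L0 hL0; fun_prop))
  have hL0m : Measurable L0 := by
    refine Real.measurable_log.comp (meas_param (ν := gam E) (f := fun q : E × E =>
      Real.exp (φ (q.1 - ε • g + √ε • q.2))) ?_)
    exact Real.measurable_exp.comp (hφ.comp (by (clear W F hW ha hε hε1 Y1 m' φ hφ C hC L0 hL0 hcomp; fun_prop)))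
  have hL0b : ∀ u, |L0 u| ≤ C := fun u => log_int_bdd (hcomp u) fun z => hC _
  have hstep : ∀ w : E, (∫ y', φ y' ∂(gibbs (post W ε (Y1 + √ε • w)))) ≤
      Rerr F ε g (Y1 + √ε • w) + L0 (Y1 + √ε • w) := fun w =>
    rgo_dv hW hε hε1 (Y1 + √ε • w) g hφ ⟨C, hC⟩
  have hi1 : Integrable (fun w : E => ∫ y', φ y' ∂(gibbs (post W ε (Y1 + √ε • w)))) (gam E) := by
    refine bdd_integrable (C := C) ?_ fun w => ?_
    · exact meas_gibbs_post ha.cont ε (u := fun w : E => Y1 + √ε • w) (by (clear W F hW ha hε hε1 m' g φ hφ C hC L0 hL0 hcomp hL0m hL0b hstep; fun_prop))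
        (f := fun q : E × E => φ q.2) (by (clear * - hφ; fun_prop))
    · have := (post_adm' ha hε (Y1 + √ε • w)).isProb
      exact bdd_integral hC
  have hi2 := Rerr_integrable hW ε ε g Y1
  have hi3 : Integrable (fun w : E => L0 (Y1 + √ε • w)) (gam E) :=
    bdd_integrable (hL0m.comp (by (clear W F hW ha hε hε1 m' g φ hφ C hC L0 hL0 hcomp hL0m hL0b hstep hi1 hi2; fun_prop))) fun w => hL0b _
  have h1 := integral_mono hi1 (hi2.add hi3) hstep
  simp only [Pi.add_apply] at h1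
  rw [integral_add hi2 hi3] at h1
  have h2 := gam_dv hε Y1 m' hL0m ⟨C, hL0b⟩
  have h3 : ∀ z : E, Real.exp (L0 (m' + √ε • z)) =
      ∫ ζ, Real.exp (φ (m' + √ε • z - ε • g + √ε • ζ)) ∂(gam E) := fun z =>
    Real.exp_log (exp_int_pos (hcomp _) fun z => hC _)
  simp_rw [h3] at h2
  have h4 := gam_double hε (m' - ε • g) (f := fun x => Real.exp (φ x))
    (Real.measurable_exp.comp hφ) ⟨Real.exp C, fun x => by
      rw [abs_of_pos (Real.exp_pos _)]
      exact Real.exp_le_exp.2 ((le_abs_self _).trans (hC x))⟩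
  have h5 : ∀ z ζ : E, m' + √ε • z - ε • g + √ε • ζ = m' - ε • g + √ε • z + √ε • ζ := by
    intro z ζ
    abel
  simp_rw [h5] at h2
  rw [h4] at h2
  linarith

/-- The dual entropy inequality for one step. -/
theorem step_dv {W : E → ℝ} {F : E → E} (hW : CPot W F) (ha : Adm W) {ε c : ℝ} (hε : 0 < ε)
    (hε1 : ε ≤ 1 / 8) (hc : 0 < c) (Y1 m' g P1 q' : E) {f : E × E → ℝ} (hf : Measurable f)
    {C : ℝ} (hC : ∀ x, |f x| ≤ C) :
    ∫ w, (∫ y', f (y', P1 + √c • w.2) ∂(gibbs (post W ε (Y1 + √ε • w.1)))) ∂((gam E).prod (gam E))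
      ≤ ‖P1 - q'‖ ^ 2 / (2 * c) + ‖Y1 - m'‖ ^ 2 / (2 * ε)
        + (∫ ζ, Rerr F ε g (Y1 + √ε • ζ) ∂(gam E))
        + Real.log (∫ w, Real.exp (f (m' - ε • g + √(2 * ε) • w.1, q' + √c • w.2))
          ∂((gam E).prod (gam E))) := by
  set B : ℝ := ‖Y1 - m'‖ ^ 2 / (2 * ε) + (∫ ζ, Rerr F ε g (Y1 + √ε • ζ) ∂(gam E)) with hB
  have hpost := fun u => (post_adm' ha hε u).isProb
  set L1 : E → ℝ := fun q => Real.log (∫ w, Real.exp (f (m' - ε • g + √(2 * ε) • w, q)) ∂(gam E))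
    with hL1
  have hcomp : ∀ q : E, Measurable fun w : E => f (m' - ε • g + √(2 * ε) • w, q) := fun q =>
    hf.comp (by (clear F hW c hε1 hc Y1 P1 q' f hf C hC B hB L1 hL1; fun_prop))
  have hL1m : Measurable L1 := by
    refine Real.measurable_log.comp (meas_param (ν := gam E) (f := fun r : E × E =>
      Real.exp (f (m' - ε • g + √(2 * ε) • r.2, r.1))) ?_)
    exact Real.measurable_exp.comp (hf.comp (by (clear F hW c hε1 hc Y1 P1 q' f hf C hC B hB L1 hL1 hcomp; fun_prop)))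
  have hL1b : ∀ q, |L1 q| ≤ C := fun q => log_int_bdd (hcomp q) fun z => hC _
  set ψ : E × E → ℝ := fun w => ∫ y', f (y', P1 + √c • w.2) ∂(gibbs (post W ε (Y1 + √ε • w.1)))
    with hψ
  have hψm : Measurable ψ := by
    refine meas_gibbs_post ha.cont ε (u := fun w : E × E => Y1 + √ε • w.1) (by (clear F hW c hε1 hc m' g P1 q' f hf C hC B hB L1 hL1 hcomp hL1m hL1b ψ hψ; fun_prop))
      (f := fun r : (E × E) × E => f (r.2, P1 + √c • r.1.2)) ?_
    exact hf.comp (by fun_prop)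
  have hψb : ∀ w, |ψ w| ≤ C := fun w => by
    have := hpost (Y1 + √ε • w.1)
    exact bdd_integral fun y => hC _
  have e1 : ∫ w, ψ w ∂((gam E).prod (gam E)) = ∫ w2, ∫ w1, ψ (w1, w2) ∂(gam E) ∂(gam E) :=
    integral_prod_symm ψ (bdd_integrable hψm hψb)
  have hstep : ∀ w2 : E, ∫ w1, ψ (w1, w2) ∂(gam E) ≤ B + L1 (P1 + √c • w2) := by
    intro w2
    exact pos_dv hW ha hε hε1 Y1 m' g (φ := fun y => f (y, P1 + √c • w2))
      (hf.comp (by fun_prop)) fun x => hC _
  have hi1 : Integrable (fun w2 : E => ∫ w1, ψ (w1, w2) ∂(gam E)) (gam E) := by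
    refine bdd_integrable (C := C) ?_ fun w2 => bdd_integral fun w1 => hψb _
    exact meas_param (ν := gam E) (f := fun r : E × E => ψ (r.2, r.1)) (hψm.comp measurable_swap)
  have hi2 : Integrable (fun w2 : E => L1 (P1 + √c • w2)) (gam E) :=
    bdd_integrable (hL1m.comp (by fun_prop)) fun w => hL1b _
  have h1 := integral_mono hi1 ((integrable_const B).add hi2) hstep
  simp only [Pi.add_apply] at h1
  rw [integral_add (integrable_const B) hi2, integral_const, probReal_univ, one_smul] at h1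
  have h2 := gam_dv hc P1 q' hL1m ⟨C, hL1b⟩
  have h3 : ∀ z : E, Real.exp (L1 (q' + √c • z)) =
      ∫ w, Real.exp (f (m' - ε • g + √(2 * ε) • w, q' + √c • z)) ∂(gam E) := fun z =>
    Real.exp_log (exp_int_pos (hcomp _) fun z => hC _)
  simp_rw [h3] at h2
  have h4 : ∫ w, Real.exp (f (m' - ε • g + √(2 * ε) • w.1, q' + √c • w.2))
          ∂((gam E).prod (gam E)) =
      ∫ z, ∫ w, Real.exp (f (m' - ε • g + √(2 * ε) • w, q' + √c • z)) ∂(gam E) ∂(gam E) :=
    integral_prod_symm (fun w : E × E => Real.exp (f (m' - ε • g + √(2 * ε) • w.1, q' + √c • w.2)))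
      (integrable_exp_bdd (hf.comp (by (clear F hW hε1 hc Y1 P1 f hf C hC B hB L1 hL1 hcomp hL1m hL1b ψ hψ hψm hψb e1 hstep hi1 hi2 h1 h3 h2; fun_prop))) fun w => hC _)
  rw [h4]
  rw [e1]
  (clear hW hε1 hc hf C hC hB hL1 hcomp hL1m hL1b hψ hψm hψb e1 hstep hi1 hi2 h3 h4; linarith)

end Vale.Agent.P347
end

section

/-! Task I2 (P347): pointwise error bounds for one step. -/

open MeasureTheory Filter Module Set
open scoped ENNReal NNReal Topology

namespace Vale.Agent.P347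

section norms

variable {E : Type*} [NormedAddCommGroup E] [NormedSpace ℝ E]

omit [NormedSpace ℝ E] in
theorem norm_add_sq_two (a b : E) : ‖a + b‖ ^ 2 ≤ 2 * ‖a‖ ^ 2 + 2 * ‖b‖ ^ 2 := by
  have h := norm_add_le a b
  have h1 := norm_nonneg (a + b)
  nlinarith [sq_nonneg (‖a‖ - ‖b‖)]

theorem norm_sub_sq_two (a b : E) : ‖a - b‖ ^ 2 ≤ 2 * ‖a‖ ^ 2 + 2 * ‖b‖ ^ 2 := by
  have h := norm_add_sq_two a (-b)
  rwa [norm_neg, ← sub_eq_add_neg] at h

end norms

variable {E : Type*} [NormedAddCommGroup E] [InnerProductSpace ℝ E] [FiniteDimensional ℝ E]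
  [MeasurableSpace E] [BorelSpace E]

variable {V : E → ℝ} {G : E → E} {H : E → E →L[ℝ] E} {s h : ℝ} {Y P : ℝ → E × E → E}

theorem W_prob {V : E → ℝ} {G : E → E} {H : E → E →L[ℝ] E} (hV : Pot V G H) {s : ℝ}
    (hs : 0 < s) : IsProbabilityMeasure (gibbs (Wp V s)) := (Wp_adm hV hs).isProb


end Vale.Agent.P347
end

section

/-! Task I (P347): the ideal chain versus the averaged numerical chain. -/

open MeasureTheory Filter Module Set
open scoped ENNReal NNReal

namespace Vale.Agent.P347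

variable {E : Type*} [NormedAddCommGroup E] [InnerProductSpace ℝ E] [FiniteDimensional ℝ E]
  [MeasurableSpace E] [BorelSpace E]

/-- Phase space target. -/
noncomputable def muPh (V : E → ℝ) (s : ℝ) : Measure (E × E) := (gibbs (Wp V s)).prod (gam E)

/-- Bounded measurable functions. -/
def BM {S : Type*} [MeasurableSpace S] (f : S → ℝ) : Prop := Measurable f ∧ ∃ C, ∀ x, |f x| ≤ C

/-- The operator applied after the flow. -/
noncomputable def Phiop (W : E → ℝ) (h : ℝ) (f : E × E → ℝ) (z : E × E) : ℝ :=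
  ∫ w, (∫ y', f (y', (1 - 2 * h) • z.2 + √(sg2 h) • w.2)
      ∂(gibbs (post W (h ^ 3) (z.1 + √(h ^ 3) • w.1)))) ∂((gam E).prod (gam E))

/-- The integrand of `Phiop`. -/
noncomputable def Psiop (W : E → ℝ) (ε a b : ℝ) (f : E × E → ℝ) (u q v : E) : ℝ :=
  ∫ y', f (y', a • q + b • v) ∂(gibbs (post W ε u))

theorem Phiop_meas {W : E → ℝ} (hW : Adm W) {h : ℝ} (hh : 0 < h) {f : E × E → ℝ}
    (hf : BM f) : BM (Phiop W h f) := by
  obtain ⟨hm, C, hC⟩ := hf
  have h3 : 0 < h ^ 3 := by positivity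
  refine ⟨?_, C, fun z => bdd_integral fun w => ?_⟩
  · unfold Phiop
    refine meas_param (ν := (gam E).prod (gam E)) (f := fun q : (E × E) × (E × E) =>
      ∫ y', f (y', (1 - 2 * h) • q.1.2 + √(sg2 h) • q.2.2)
      ∂(gibbs (post W (h ^ 3) (q.1.1 + √(h ^ 3) • q.2.1)))) ?_
    refine meas_gibbs_post hW.cont (h ^ 3) (u := fun q : (E × E) × (E × E) =>
      q.1.1 + √(h ^ 3) • q.2.1) (by (clear W hW hh f hm C hC h3; fun_prop)) (f := fun p : ((E × E) × (E × E)) × E =>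
      f (p.2, (1 - 2 * h) • p.1.1.2 + √(sg2 h) • p.1.2.2)) ?_
    exact hm.comp (by fun_prop)
  · have := (post_adm' hW h3 (z.1 + √(h ^ 3) • w.1)).isProb
    exact bdd_integral fun y => hC _

theorem Phiop_integral {W : E → ℝ} (hW : Adm W) {h : ℝ} (hh : 0 < h) (hh1 : h ≤ 1 / 8)
    {f : E × E → ℝ} (hf : BM f) :
    ∫ z, Phiop W h f z ∂((gibbs W).prod (gam E)) = ∫ z, f z ∂((gibbs W).prod (gam E)) := by
  have hPh := Phiop_meas hW hh hf
  obtain ⟨hPm, C', hPC⟩ := hPh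
  obtain ⟨hm, C, hC⟩ := hf
  have h3 : 0 < h ^ 3 := by positivity
  have hpW := hW.isProb
  have hsg : (1 - 2 * h) ^ 2 + √(sg2 h) ^ 2 = 1 := by
    have h0 : 0 ≤ sg2 h := by unfold sg2; nlinarith only [hh, hh1]
    rw [Real.sq_sqrt h0]
    unfold sg2
    ring
  set a := 1 - 2 * h with ha
  set b := √(sg2 h) with hb
  set ε := h ^ 3 with hε
  -- the inner integral over `y'`
  have hΨb : ∀ u q v, |Psiop W ε a b f u q v| ≤ C := fun u q v => by
    have := (post_adm' hW h3 u).isProb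
    exact bdd_integral fun y => hC _
  have hΨm : Measurable fun r : E × (E × E) => Psiop W ε a b f r.1 r.2.1 r.2.2 := by
    unfold Psiop
    refine meas_gibbs_post hW.cont ε (u := fun r : E × (E × E) => r.1) (by fun_prop)
      (f := fun p : (E × (E × E)) × E => f (p.2, a • p.1.2.1 + b • p.1.2.2)) ?_
    exact hm.comp (by (clear hh hh1 f hPm C' hPC hm C hC ha hsg hb ε h3 hε hΨb; fun_prop))
  set Fb : E → ℝ := fun x => ∫ q, f (x, q) ∂(gam E) with hFb
  have hFm : Measurable Fb := meas_param (ν := gam E) hm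
  have hFC : ∀ x, |Fb x| ≤ C := fun x => bdd_integral fun q => hC _
  -- integration over the momentum
  have hmom : ∀ u, ∫ p, ∫ v, Psiop W ε a b f u p v ∂(gam E) ∂(gam E) =
      ∫ x, Fb x ∂(gibbs (post W ε u)) := by
    intro u
    have := (post_adm' hW h3 u).isProb
    calc ∫ p, ∫ v, Psiop W ε a b f u p v ∂(gam E) ∂(gam E)
        = ∫ p, ∫ x, ∫ v, f (x, a • p + b • v) ∂(gam E) ∂(gibbs (post W ε u)) ∂(gam E) := by
          refine integral_congr_ae (Eventually.of_forall fun p => ?_)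
          exact swap_bdd (f := fun v x => f (x, a • p + b • v)) (hm.comp (by (clear hh hh1 f hPm C' hPC hm C hC ha hsg hb hε hΨb hΨm Fb hFb hFm hFC; fun_prop)))
            (C := C) (fun _ _ => hC _)
      _ = ∫ x, ∫ p, ∫ v, f (x, a • p + b • v) ∂(gam E) ∂(gam E) ∂(gibbs (post W ε u)) := by
          refine swap_bdd (f := fun p x => ∫ v, f (x, a • p + b • v) ∂(gam E)) ?_
            (C := C) (fun _ _ => bdd_integral fun _ => hC _)
          refine meas_param (ν := gam E) (f := fun r : (E × E) × E =>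
            f (r.1.2, a • r.1.1 + b • r.2)) (hm.comp (by (clear hh hh1 f hPm C' hPC hm C hC ha hsg hb hε hΨb hΨm Fb hFb hFm hFC; fun_prop)))
      _ = ∫ x, Fb x ∂(gibbs (post W ε u)) := by
          refine integral_congr_ae (Eventually.of_forall fun x => ?_)
          exact gam_add_bdd hsg (f := fun q => f (x, q)) (hm.comp (by fun_prop))
            ⟨C, fun q => hC _⟩
  have e1 : ∀ y p, Phiop W h f (y, p) =
      ∫ w, ∫ v, Psiop W ε a b f (y + √ε • w) p v ∂(gam E) ∂(gam E) := by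
    intro y p
    unfold Phiop
    rw [integral_prod]
    · rfl
    · refine bdd_integrable (C := C) ?_ fun w => hΨb (y + √ε • w.1) p w.2
      exact hΨm.comp (g := fun r : E × (E × E) => Psiop W ε a b f r.1 r.2.1 r.2.2)
        (f := fun w : E × E => (y + √ε • w.1, (p, w.2))) (by (clear hh hh1 f hPm C' hPC hm C hC a ha b hsg hb h3 hε hΨb hΨm Fb hFb hFm hFC hmom; fun_prop))
  rw [integral_prod _ (bdd_integrable hPm hPC), integral_prod _ (bdd_integrable hm hC)]
  change _ = ∫ x, Fb x ∂(gibbs W)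
  rw [← rgo_balance hW h3 hFm hFC]
  refine integral_congr_ae (Eventually.of_forall fun y => ?_)
  simp only
  simp_rw [e1]
  rw [swap_bdd (f := fun p w => ∫ v, Psiop W ε a b f (y + √ε • w) p v ∂(gam E)) (C := C)]
  · exact integral_congr_ae (Eventually.of_forall fun w => hmom _)
  · refine meas_param (ν := gam E) (f := fun r : (E × E) × E =>
      Psiop W ε a b f (y + √ε • r.1.2) r.1.1 r.2) ?_
    exact hΨm.comp (g := fun r : E × (E × E) => Psiop W ε a b f r.1 r.2.1 r.2.2)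
        (f := fun w : (E × E) × E => (y + √ε • w.1.2, (w.1.1, w.2))) (by (clear hh hh1 f hPm C' hPC hm C hC a ha b hsg hb h3 hε hΨb hΨm Fb hFb hFm hFC hmom e1; fun_prop))
  · exact fun p w => bdd_integral fun v => hΨb _ _ _

/-- The ideal operator leaves the target invariant. -/
theorem Pop_invariant {V : E → ℝ} {G : E → E} {H : E → E →L[ℝ] E} (hV : Pot V G H) {s h : ℝ}
    (hs : 0 < s) (hh : 0 < h) (hh1 : h ≤ 1 / 8) {Y P : ℝ → E × E → E}
    (hF : HamFlow (Fp V G s) Y P) {f : E × E → ℝ} (hf : BM f) :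
    BM (Pop (Wp V s) h Y P f) ∧
    ∫ z, Pop (Wp V s) h Y P f z ∂(muPh V s) = ∫ z, f z ∂(muPh V s) := by
  have hadm := Wp_adm hV hs
  obtain ⟨hPm, C', hPC⟩ := Phiop_meas hadm hh hf
  have hI : h ∈ Ioo (-(1 / 4) : ℝ) (1 / 4) := ⟨by linarith only [hh], by linarith only [hh1]⟩
  have hSm : Measurable fun z => (Y h z, P h z) := (hF.continuous hI).measurable
  have e : Pop (Wp V s) h Y P f = fun z => Phiop (Wp V s) h f (Y h z, P h z) := rfl
  refine ⟨⟨?_, C', fun z => ?_⟩, ?_⟩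
  · rw [e]
    exact hPm.comp hSm
  · rw [e]
    exact hPC _
  · rw [e]
    have hinv := hF.invariant (Wp_cpot hV hs) hadm (t := h) ⟨hh.le, hI.2⟩
    have h1 := integral_map (μ := muPh V s) hSm.aemeasurable
      (f := Phiop (Wp V s) h f) hPm.aestronglyMeasurable
    unfold muPh at h1 ⊢
    rw [hinv] at h1
    rw [← h1]
    exact Phiop_integral hadm hh hh1 hf

end Vale.Agent.P347
end

section

/-! Task G5-I1 (P347): measurability of the general-node operators, noise of the estimator, and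
the error of the averaged gradients at the nodes. -/

open MeasureTheory Filter Module Set
open scoped ENNReal NNReal

namespace Vale.Agent.P347

section var

variable {E : Type*} [NormedAddCommGroup E] [InnerProductSpace ℝ E] [CompleteSpace E]
  {T : Type*} [MeasurableSpace T] {μ : Measure T} [IsProbabilityMeasure μ] {X : T → E}

theorem int_sq_expand (hX : Integrable X μ) (hX2 : Integrable (fun t => ‖X t‖ ^ 2) μ) (c : E) :
    Integrable (fun t => ‖X t - c‖ ^ 2) μ ∧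
    ∫ t, ‖X t - c‖ ^ 2 ∂μ = (∫ t, ‖X t‖ ^ 2 ∂μ) - 2 * inner ℝ (∫ t, X t ∂μ) c + ‖c‖ ^ 2 := by
  have e : ∀ t, ‖X t - c‖ ^ 2 = ‖X t‖ ^ 2 - 2 * inner ℝ (X t) c + ‖c‖ ^ 2 := fun t =>
    norm_sub_sq_real _ _
  have i1 : Integrable (fun t => (inner ℝ (X t) c : ℝ)) μ := hX.inner_const c
  have i2 : Integrable (fun t => ‖X t‖ ^ 2 - 2 * inner ℝ (X t) c) μ := hX2.sub (i1.const_mul 2)
  simp_rw [e]
  refine ⟨i2.add (integrable_const _), ?_⟩
  rw [integral_add i2 (integrable_const _), integral_sub hX2 (i1.const_mul 2),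
    integral_const_mul, integral_const, probReal_univ, one_smul]
  congr 3
  simp_rw [real_inner_comm c]
  rw [integral_inner hX]

theorem norm_integral_sq_le (hX : Integrable X μ) (hX2 : Integrable (fun t => ‖X t‖ ^ 2) μ) :
    ‖∫ t, X t ∂μ‖ ^ 2 ≤ ∫ t, ‖X t‖ ^ 2 ∂μ := by
  have h1 := (int_sq_expand hX hX2 (∫ t, X t ∂μ)).2
  have h2 : 0 ≤ ∫ t, ‖X t - ∫ t, X t ∂μ‖ ^ 2 ∂μ := integral_nonneg fun t => sq_nonneg _
  rw [h1, real_inner_self_eq_norm_sq] at h2
  linarith

theorem var_le (hX : Integrable X μ) (hX2 : Integrable (fun t => ‖X t‖ ^ 2) μ) (c : E) :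
    ∫ t, ‖X t - ∫ t, X t ∂μ‖ ^ 2 ∂μ ≤ ∫ t, ‖X t - c‖ ^ 2 ∂μ := by
  have h1 := (int_sq_expand hX hX2 (∫ t, X t ∂μ)).2
  have h2 := (int_sq_expand hX hX2 c).2
  rw [h1, h2, real_inner_self_eq_norm_sq]
  have h3 := norm_sub_sq_real (∫ t, X t ∂μ) c
  have h4 := sq_nonneg ‖(∫ t, X t ∂μ) - c‖
  linarith

end var

variable {E : Type*} [NormedAddCommGroup E] [InnerProductSpace ℝ E] [FiniteDimensional ℝ E]
  [MeasurableSpace E] [BorelSpace E]

theorem measurable_mg {G : E → E} (hG : Continuous G) (s h a : ℝ) : Measurable (mg G s h a) := by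
  have hGb := measurable_Gb hG s
  have hGm := hG.measurable
  have h1 : StronglyMeasurable fun q : (E × E) × E =>
      Gb G s (node h a q.1.1 q.1.2 (G (ev G s q.1.1 q.2))) := by
    have : Measurable fun q : (E × E) × E =>
        Gb G s (node h a q.1.1 q.1.2 (G (ev G s q.1.1 q.2))) := by
      refine hGb.comp ?_
      unfold node ev
      fun_prop
    exact this.stronglyMeasurable
  exact (h1.integral_prod_right' (ν := gam E)).measurable

theorem iaux_gamN (J : ℕ) : IsProbabilityMeasure (gamN J E) := by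
  unfold gamN
  infer_instance

theorem measurable_step5 {G : E → E} (hG : Continuous G) (s h : ℝ) {J : ℕ} (c w : Fin J → ℝ) :
    Measurable fun q : (E × E) × Noise5 J E => step5 G s h c w q.1 q.2 := by
  have hGm := hG.measurable
  unfold step5 upY5 upP5 node ev
  fun_prop

theorem K5_bm' {G : E → E} (hG : Continuous G) {s h : ℝ} {J : ℕ}
    {c w : Fin J → ℝ} {f : E × E → ℝ} (hf : BM f) : BM (K5 G s h c w f) := by
  obtain ⟨hm, C, hC⟩ := hf
  have := iaux_gamN (E := E) J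
  refine ⟨?_, C, fun z => bdd_integral fun w => hC _⟩
  unfold K5
  exact meas_param (ν := gamN J E) (f := fun q : (E × E) × Noise5 J E =>
    f (step5 G s h c w q.1 q.2)) (hm.comp (measurable_step5 hG s h c w))

theorem Kb5_bm' {G : E → E} (hG : Continuous G) {s h : ℝ} {J : ℕ}
    {c w : Fin J → ℝ} {f : E × E → ℝ} (hf : BM f) : BM (Kb5 G s h c w f) := by
  obtain ⟨hm, C, hC⟩ := hf
  have h1 : ∀ a, Measurable (mg G s h a) := measurable_mg hG s h
  refine ⟨?_, C, fun z => bdd_integral fun w => hC _⟩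
  unfold Kb5
  refine meas_param (ν := (gam E).prod (gam E)) (f := fun q : (E × E) × (E × E) =>
    f (upY5 h c w q.1.1 q.1.2 (fun j => mg G s h (c j) q.1) (mg G s h 1 q.1)
        + √(2 * h ^ 3) • q.2.1,
      upP5 h w q.1.2 (fun j => mg G s h (c j) q.1) + √(sg2 h) • q.2.2)) ?_
  refine hm.comp ?_
  unfold upY5 upP5
  (clear f hm C hC; fun_prop)

variable {V : E → ℝ} {G : E → E} {H : E → E →L[ℝ] E} {s h : ℝ}

theorem gam_sq_integrable : Integrable (fun y : E => ‖y‖ ^ 2) (gam E) :=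
  gam_integrable (PG.id.norm.pow 2)
    (by fun_prop : Continuous fun y : E => ‖y‖ ^ 2).aestronglyMeasurable

omit [FiniteDimensional ℝ E] [MeasurableSpace E] [BorelSpace E] in
theorem ev_lip (hV : Pot V G H) (s : ℝ) (y z z' : E) :
    ‖G (ev G s y z) - G (ev G s y z')‖ ≤ 2 * √s * ‖z - z'‖ := by
  refine (hV.lipG _ _).trans (le_of_eq ?_)
  unfold ev
  rw [add_sub_add_left_eq_sub, ← smul_sub, norm_smul, Real.norm_eq_abs,
    abs_of_nonneg (Real.sqrt_nonneg s), mul_assoc]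

theorem est_int (hV : Pot V G H) (s : ℝ) (y : E) :
    Integrable (fun z => G (ev G s y z)) (gam E) ∧
    Integrable (fun z => ‖G (ev G s y z)‖ ^ 2) (gam E) := by
  have hG := oneaux_contG hV
  have hc : Continuous fun z : E => G (ev G s y z) := by
    unfold ev
    fun_prop
  have hpg : PG fun z : E => G (ev G s y z) := PG.of_lip (ev_lip hV s y)
  exact ⟨gam_integrable hpg hc.aestronglyMeasurable,
    gam_integrable (hpg.norm.pow 2) (hc.norm.pow 2).aestronglyMeasurable⟩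

/-- Second moment of the estimator error. -/
theorem est_noise' (hV : Pot V G H) (hs : 0 < s) (y : E) :
    ∫ z, ‖G (ev G s y z) - Gb G s y‖ ^ 2 ∂(gam E) ≤ 8 * s * (finrank ℝ E : ℝ) := by
  obtain ⟨i1, i2⟩ := est_int hV s y
  have h1 := var_le i1 i2 (G (ev G s y 0))
  have h2 := (int_sq_expand i1 i2 (G (ev G s y 0))).1
  have h3 : ∀ z : E, ‖G (ev G s y z) - G (ev G s y 0)‖ ^ 2 ≤ 4 * s * ‖z‖ ^ 2 := by
    intro z
    have := pow_le_pow_left₀ (norm_nonneg _) (ev_lip hV s y z 0) 2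
    rw [sub_zero, mul_pow, mul_pow, Real.sq_sqrt hs.le] at this
    linarith
  have h4 := integral_mono h2 ((gam_sq_integrable (E := E)).const_mul (4 * s)) h3
  rw [integral_const_mul, gam_sq] at h4
  have hn : (0 : ℝ) ≤ (finrank ℝ E : ℝ) := Nat.cast_nonneg _
  have h5 : 4 * s * (finrank ℝ E : ℝ) ≤ 8 * s * (finrank ℝ E : ℝ) := by
    have : 0 ≤ s * (finrank ℝ E : ℝ) := by (clear * - hs; positivity)
    linarith only [this]
  exact (h1.trans h4).trans h5

section flow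

variable {F : E → E} {Y P : ℝ → E × E → E}

/-- Time integral of the squared momentum. -/
noncomputable def JP (h : ℝ) (P : ℝ → E × E → E) (z : E × E) : ℝ :=
  ∫ t in (0 : ℝ)..h, ‖P t z‖ ^ 2

omit [MeasurableSpace E] [BorelSpace E] in
theorem disp_P (hF : HamFlow F Y P) {h : ℝ} (hh : 0 < h) (hh1 : h ≤ 1 / 8) (z : E × E) {t : ℝ}
    (ht : t ∈ Icc 0 h) : ‖Y t z - z.1‖ ≤ ∫ r in (0 : ℝ)..h, ‖P r z‖ := by
  have hcP := hF.contPt hh1 z
  have hsub : Icc 0 t ⊆ Icc 0 h := Icc_subset_Icc_right ht.2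
  have h1 := intervalIntegral.integral_eq_sub_of_hasDerivAt (f := fun t => Y t z)
    (f' := fun t => P t z) (a := 0) (b := t)
    (fun r hr => hF.dY z r (HamFlow.sub_Ioo hh1 (hsub (by rwa [uIcc_of_le ht.1] at hr))))
    (ContinuousOn.intervalIntegrable (by rw [uIcc_of_le ht.1]; exact hcP.mono hsub))
  simp only [hF.Y0] at h1
  rw [← h1]
  refine (intervalIntegral.norm_integral_le_integral_norm ht.1).trans ?_
  exact intervalIntegral.integral_mono_interval le_rfl ht.1 ht.2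
    (Eventually.of_forall fun r => norm_nonneg _)
    (ContinuousOn.intervalIntegrable (by rw [uIcc_of_le hh.le]; exact hcP.norm))

omit [MeasurableSpace E] [BorelSpace E] in
/-- Second order expansion of the position. -/
theorem Y_expand (hF : HamFlow F Y P) (hl : ∀ x y, ‖F x - F y‖ ≤ 2 * ‖x - y‖) {h : ℝ}
    (hh : 0 < h) (hh1 : h ≤ 1 / 8) (z : E × E) {t : ℝ} (ht : t ∈ Icc 0 h) :
    ‖Y t z - (z.1 + t • z.2 - (t ^ 2 / 2) • F z.1)‖ ^ 2 ≤ h ^ 5 * JP h P z := by
  have hc : Continuous F := by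
    have : LipschitzWith 2 F := LipschitzWith.of_dist_le_mul fun x y => by
      rw [dist_eq_norm, dist_eq_norm]; exact hl x y
    exact this.continuous
  have hY := hF.Y_eq hc ht.1 (ht.2.trans hh1) z
  have hsub : Icc 0 t ⊆ Icc 0 h := Icc_subset_Icc_right ht.2
  have hcY := (hF.contYt hh1 z).mono hsub
  set I := ∫ r in (0 : ℝ)..h, ‖P r z‖ with hI
  have hI0 : 0 ≤ I := intervalIntegral.integral_nonneg hh.le fun r _ => norm_nonneg _
  have e1 : ∫ r in (0 : ℝ)..t, (t - r) • F z.1 = (t ^ 2 / 2) • F z.1 := by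
    rw [intervalIntegral.integral_smul_const]
    congr 1
    rw [intervalIntegral.integral_sub (by simp) (by simp)]
    simp only [intervalIntegral.integral_const, sub_zero, smul_eq_mul, integral_id]
    ring
  have cc : Continuous fun r : ℝ => t - r := by fun_prop
  have e2 : Y t z - (z.1 + t • z.2 - (t ^ 2 / 2) • F z.1) =
      -∫ r in (0 : ℝ)..t, (t - r) • (F (Y r z) - F z.1) := by
    have e3 : ∀ r : ℝ, (t - r) • (F (Y r z) - F z.1) = (t - r) • F (Y r z) - (t - r) • F z.1 :=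
      fun r => smul_sub _ _ _
    simp_rw [e3]
    rw [intervalIntegral.integral_sub, e1, hY]
    · abel
    · refine ContinuousOn.intervalIntegrable ?_
      rw [uIcc_of_le ht.1]
      exact cc.continuousOn.smul (hc.comp_continuousOn hcY)
    · exact (cc.smul continuous_const).intervalIntegrable _ _
  have h1 : ‖∫ r in (0 : ℝ)..t, (t - r) • (F (Y r z) - F z.1)‖ ≤ h ^ 2 * I := by
    have h2 : ‖∫ r in (0 : ℝ)..t, (t - r) • (F (Y r z) - F z.1)‖ ≤
        ∫ r in (0 : ℝ)..t, (t - r) * (2 * I) := by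
      refine intervalIntegral.norm_integral_le_of_norm_le ht.1 (Eventually.of_forall ?_) ?_
      · intro r hr
        rw [norm_smul, Real.norm_eq_abs, abs_of_nonneg (by linarith only [hr.2])]
        refine mul_le_mul_of_nonneg_left ?_ (by linarith only [hr.2])
        refine (hl _ _).trans ?_
        have := disp_P hF hh hh1 z (t := r) ⟨hr.1.le, hr.2.trans ht.2⟩
        linarith only [this]
      · exact (cc.mul continuous_const).intervalIntegrable _ _
    refine h2.trans ?_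
    have e4 : ∫ r in (0 : ℝ)..t, (t - r) * (2 * I) = t ^ 2 * I := by
      rw [intervalIntegral.integral_mul_const, intervalIntegral.integral_sub (by simp) (by simp)]
      simp only [intervalIntegral.integral_const, sub_zero, smul_eq_mul, integral_id]
      ring
    rw [e4]
    exact mul_le_mul_of_nonneg_right (pow_le_pow_left₀ ht.1 ht.2 2) hI0
  have h3 : I ^ 2 ≤ h * JP h P z := oneaux_sq_integral_le hh (hF.contPt hh1 z).norm
  rw [e2, norm_neg]
  calc ‖∫ r in (0 : ℝ)..t, (t - r) • (F (Y r z) - F z.1)‖ ^ 2 ≤ (h ^ 2 * I) ^ 2 :=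
        pow_le_pow_left₀ (norm_nonneg _) h1 2
    _ = h ^ 4 * I ^ 2 := by ring
    _ ≤ h ^ 4 * (h * JP h P z) := mul_le_mul_of_nonneg_left h3 (by positivity)
    _ = h ^ 5 * JP h P z := by ring

end flow

theorem mg_pt (hV : Pot V G H) (hs : 0 < s) (hs1 : s ≤ 1 / 8) (hh : 0 < h) (hh1 : h ≤ 1 / 8)
    {Y P : ℝ → E × E → E} (hF : HamFlow (Fp V G s) Y P) {a : ℝ} (ha : 0 ≤ a) (ha1 : a ≤ 1)
    (z : E × E) :
    ‖Fp V G s (Y (a * h) z) - mg G s h a z‖ ^ 2 ≤
      4096 * s ^ 3 * ((finrank ℝ E : ℝ) + ‖Y (a * h) z‖ ^ 2) + 36 * h ^ 5 * JP h P z +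
      9 * h ^ 4 * (16 * s * (finrank ℝ E : ℝ) +
        4096 * s ^ 3 * ((finrank ℝ E : ℝ) + ‖z.1‖ ^ 2)) := by
  have hW := Wp_cpot hV hs
  have hG := oneaux_contG hV
  set n : ℝ := (finrank ℝ E : ℝ) with hn
  set t := a * h with htd
  have ht : t ∈ Icc 0 h := ⟨by (clear * - ha hh; positivity), by nlinarith only [hh, ha1]⟩
  set c := Fp V G s (Y t z) with hc
  set F0 := Fp V G s z.1 with hF0
  -- the averaged gradient as a mean
  have hGbc : Continuous (Gb G s) := by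
    have : LipschitzWith 3 (Gb G s) := LipschitzWith.of_dist_le_mul fun x y => by
      rw [dist_eq_norm, dist_eq_norm]; exact Gb_lip hV hs hs1 x y
    exact this.continuous
  set X : E → E := fun z0 => Gb G s (node h a z.1 z.2 (G (ev G s z.1 z0))) with hX
  have hXc : Continuous X := by
    have : Continuous fun z0 : E => node h a z.1 z.2 (G (ev G s z.1 z0)) := by
      unfold node ev
      fun_prop
    exact hGbc.comp this
  have hXl : ∀ x y, ‖X x - X y‖ ≤ (3 * ((a * h) ^ 2 / 2) * (2 * √s)) * ‖x - y‖ := by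
    intro x y
    refine (Gb_lip hV hs hs1 _ _).trans ?_
    unfold node
    rw [sub_sub_sub_cancel_left, ← smul_sub, norm_smul, Real.norm_eq_abs,
      abs_of_nonneg (by (clear * -; positivity)), norm_sub_rev]
    have := ev_lip hV s z.1 x y
    calc 3 * ((a * h) ^ 2 / 2 * ‖G (ev G s z.1 x) - G (ev G s z.1 y)‖)
        ≤ 3 * ((a * h) ^ 2 / 2 * (2 * √s * ‖x - y‖)) := by (clear * - this; gcongr)
      _ = _ := by ring
  have hXpg : PG X := PG.of_lip hXl
  have hXi : Integrable X (gam E) := gam_integrable hXpg hXc.aestronglyMeasurable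
  have hXi2 : Integrable (fun z0 => ‖X z0‖ ^ 2) (gam E) :=
    gam_integrable (hXpg.norm.pow 2) (hXc.norm.pow 2).aestronglyMeasurable
  have hmg : mg G s h a z = ∫ z0, X z0 ∂(gam E) := rfl
  obtain ⟨j1, j2⟩ := int_sq_expand hXi hXi2 c
  have hJ : ‖c - mg G s h a z‖ ^ 2 ≤ ∫ z0, ‖X z0 - c‖ ^ 2 ∂(gam E) := by
    rw [j2, hmg]
    have h1 := norm_integral_sq_le hXi hXi2
    have h2 := norm_sub_sq_real c (∫ z0, X z0 ∂(gam E))
    rw [real_inner_comm] at h2
    (clear hh hh1 P hF ha ha1 hW n hn htd ht hc F0 hF0 hX hmg j1 j2; linarith)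
  refine hJ.trans ?_
  -- pointwise bound
  obtain ⟨k1, k2⟩ := est_int hV s z.1
  have k3 := (int_sq_expand k1 k2 (Gb G s z.1)).1
  have k4 := est_noise' hV hs z.1
  have hb1 := bias_le hV hs hs1 (Y t z)
  have hb0 := bias_le hV hs hs1 z.1
  have hY := Y_expand hF hW.lip hh hh1 z ht
  have hpt : ∀ z0, ‖X z0 - c‖ ^ 2 ≤ (4096 * s ^ 3 * (n + ‖Y t z‖ ^ 2) + 36 * h ^ 5 * JP h P z +
      9 * h ^ 4 * (4096 * s ^ 3 * (n + ‖z.1‖ ^ 2))) +
      18 * h ^ 4 * ‖G (ev G s z.1 z0) - Gb G s z.1‖ ^ 2 := by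
    intro z0
    set g0 := G (ev G s z.1 z0) with hg0
    have e1 := norm_add_sq_two (X z0 - Gb G s (Y t z)) (Gb G s (Y t z) - c)
    rw [sub_add_sub_cancel] at e1
    have e2 : ‖X z0 - Gb G s (Y t z)‖ ^ 2 ≤ 9 * ‖Y t z - node h a z.1 z.2 g0‖ ^ 2 := by
      have := pow_le_pow_left₀ (norm_nonneg _)
        (Gb_lip hV hs hs1 (node h a z.1 z.2 g0) (Y t z)) 2
      rw [mul_pow, norm_sub_rev (node h a z.1 z.2 g0)] at this
      have e : ‖X z0 - Gb G s (Y t z)‖ = ‖Gb G s (node h a z.1 z.2 g0) - Gb G s (Y t z)‖ := rfl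
      rw [e]
      linarith
    have e3 : Y t z - node h a z.1 z.2 g0 = (Y t z - (z.1 + t • z.2 - (t ^ 2 / 2) • F0)) +
        (t ^ 2 / 2) • (g0 - F0) := by
      unfold node
      rw [← htd]
      module
    have e4 := norm_add_sq_two (Y t z - (z.1 + t • z.2 - (t ^ 2 / 2) • F0))
      ((t ^ 2 / 2) • (g0 - F0))
    rw [← e3, norm_smul, Real.norm_eq_abs, abs_of_nonneg (by (clear * -; positivity)),
      mul_pow (t ^ 2 / 2) ‖g0 - F0‖ 2] at e4
    have e5 := norm_add_sq_two (g0 - Gb G s z.1) (Gb G s z.1 - F0)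
    rw [sub_add_sub_cancel] at e5
    have e6 : (t ^ 2 / 2) ^ 2 ≤ h ^ 4 / 4 := by
      have : t ^ 4 ≤ h ^ 4 := pow_le_pow_left₀ ht.1 ht.2 4
      nlinarith only [this]
    have e7 : (t ^ 2 / 2) ^ 2 * ‖g0 - F0‖ ^ 2 ≤ h ^ 4 / 4 * ‖g0 - F0‖ ^ 2 :=
      mul_le_mul_of_nonneg_right e6 (sq_nonneg _)
    have e8 : h ^ 4 * ‖g0 - F0‖ ^ 2 ≤ h ^ 4 * (2 * ‖g0 - Gb G s z.1‖ ^ 2 +
        2 * (2048 * s ^ 3 * (n + ‖z.1‖ ^ 2))) :=
      mul_le_mul_of_nonneg_left (by linarith) (by positivity)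
    linarith
  have hm := integral_mono j1 ((integrable_const _).add (k3.const_mul (18 * h ^ 4))) hpt
  simp only [Pi.add_apply] at hm
  rw [integral_add (integrable_const _) (k3.const_mul (18 * h ^ 4)), integral_const,
    probReal_univ, one_smul, integral_const_mul] at hm
  have h5 : 18 * h ^ 4 * ∫ z0, ‖G (ev G s z.1 z0) - Gb G s z.1‖ ^ 2 ∂(gam E) ≤
      18 * h ^ 4 * (8 * s * n) := mul_le_mul_of_nonneg_left k4 (by positivity)
  (clear hs1 hh1 hF ha ha1 hW hG hn htd ht hc F0 hF0 hGbc hX hXc hXl hXpg hXi hXi2 hmg j1 j2 hJ k1 k2 k3 hb1 hb0 hY hpt; linarith)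

/-- The fully averaged gradient at the node `a` against the force on the exact trajectory. -/
theorem mg_err' (hV : Pot V G H)
    (hs : 0 < s) (hs1 : s ≤ 1 / 8) (hh : 0 < h) (hh1 : h ≤ 1 / 8) {Y P : ℝ → E × E → E}
    (hF : HamFlow (Fp V G s) Y P) {a : ℝ} (ha : 0 ≤ a) (ha1 : a ≤ 1) :
    ∃ r : E × E → ℝ, Integrable r (muPh V s) ∧
      (∀ z, ‖Fp V G s (Y (a * h) z) - mg G s h a z‖ ^ 2 ≤ r z) ∧
      ∫ z, r z ∂(muPh V s) ≤ 100000 * (finrank ℝ E : ℝ) * (s ^ 3 + h ^ 6) := by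
  have hW := Wp_cpot hV hs
  have hA := Wp_adm hV hs
  have hpW := W_prob hV hs
  set n : ℝ := (finrank ℝ E : ℝ) with hn
  have hn0 : 0 ≤ n := Nat.cast_nonneg _
  have hmu : muPh V s = (gibbs (Wp V s)).prod (gam E) := rfl
  have hp : IsProbabilityMeasure (muPh V s) := by rw [hmu]; infer_instance
  have ht : a * h ∈ Icc 0 h := ⟨by (clear * - ha hh; positivity), by nlinarith only [hh, ha1]⟩
  have b1 : Integrable (fun y : E => ‖y‖ ^ 2) (gibbs (Wp V s)) :=
    hA.integrable (PG.id.norm.pow 2)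
      (by fun_prop : Continuous fun y : E => ‖y‖ ^ 2).aestronglyMeasurable
  have c1 : Integrable (fun z : E × E => ‖z.1‖ ^ 2) (muPh V s) := b1.comp_fst _
  have c3 : Integrable (fun z : E × E => ‖z.2‖ ^ 2) (muPh V s) := gam_sq_integrable.comp_snd _
  have v1 : ∫ z : E × E, ‖z.1‖ ^ 2 ∂(muPh V s) ≤ 2 * n := by
    rw [hmu, integral_fun_fst (fun y : E => ‖y‖ ^ 2), probReal_univ, one_smul]
    exact moment_W hV hs (by linarith only [hs1])
  have v3 : ∫ z : E × E, ‖z.2‖ ^ 2 ∂(muPh V s) = n := by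
    rw [hmu, integral_fun_snd (fun y : E => ‖y‖ ^ 2), probReal_univ, one_smul, gam_sq]
  obtain ⟨d1, w1⟩ := flow_int hW hA hF hh1 ht c1
  obtain ⟨d2, w2⟩ := time_avg hW hA hF hh hh1 (φ := fun z : E × E => ‖z.2‖ ^ 2)
    (by fun_prop) (fun z => sq_nonneg _) c3
  rw [← hmu] at d1 w1 d2 w2
  have i0 : Integrable (fun _ : E × E => 4096 * s ^ 3 * n + 9 * h ^ 4 * (16 * s * n +
    4096 * s ^ 3 * n)) (muPh V s) := integrable_const _
  have i1 := i0.add (d1.const_mul (4096 * s ^ 3))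
  have i2 := i1.add (d2.const_mul (36 * h ^ 5))
  have i3 := i2.add (c1.const_mul (9 * h ^ 4 * (4096 * s ^ 3)))
  refine ⟨_, i3, fun z => ?_, ?_⟩
  · refine (mg_pt hV hs hs1 hh hh1 hF ha ha1 z).trans (le_of_eq ?_)
    simp only [JP, Pi.add_apply]
    ring
  · simp only [Pi.add_apply]
    rw [integral_add (by exact i2) (c1.const_mul _), integral_add (by exact i1) (d2.const_mul _),
      integral_add i0 (d1.const_mul _), integral_const, probReal_univ, one_smul,
      integral_const_mul, integral_const_mul, integral_const_mul, w1, w2, v3]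
    have y : h ^ 4 * s ≤ s ^ 3 + h ^ 6 := by
      rcases le_total s (h ^ 2) with hle | hle
      · have : h ^ 4 * s ≤ h ^ 4 * h ^ 2 := mul_le_mul_of_nonneg_left hle (by (clear * - hh; positivity))
        have h3 : 0 ≤ s ^ 3 := by positivity
        nlinarith only [this, h3]
      · have h4 : h ^ 4 ≤ s ^ 2 := by nlinarith only [hle]
        have : h ^ 4 * s ≤ s ^ 2 * s := mul_le_mul_of_nonneg_right h4 hs.le
        have h3 : 0 ≤ h ^ 6 := by positivity
        nlinarith only [this, h3]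
    have h4 : h ^ 4 ≤ 1 / 4096 := by
      have := pow_le_pow_left₀ hh.le hh1 4
      norm_num at this
      linarith only [this]
    have y2 : h ^ 4 * s ^ 3 ≤ 1 / 4096 * s ^ 3 := mul_le_mul_of_nonneg_right h4 (by positivity)
    have q1 : 4096 * s ^ 3 * ∫ z : E × E, ‖z.1‖ ^ 2 ∂(muPh V s) ≤ 4096 * s ^ 3 * (2 * n) :=
      mul_le_mul_of_nonneg_left v1 (by positivity)
    have q2 : 9 * h ^ 4 * (4096 * s ^ 3) * ∫ z : E × E, ‖z.1‖ ^ 2 ∂(muPh V s) ≤
        9 * h ^ 4 * (4096 * s ^ 3) * (2 * n) :=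
      mul_le_mul_of_nonneg_left v1 (by positivity)
    have key : 4096 * s ^ 3 * n + 9 * h ^ 4 * (16 * s * n + 4096 * s ^ 3 * n) +
        4096 * s ^ 3 * (2 * n) + 36 * h ^ 5 * (h * n) + 9 * h ^ 4 * (4096 * s ^ 3) * (2 * n) ≤
        100000 * n * (s ^ 3 + h ^ 6) := by
      have e : 4096 * s ^ 3 * n + 9 * h ^ 4 * (16 * s * n + 4096 * s ^ 3 * n) +
        4096 * s ^ 3 * (2 * n) + 36 * h ^ 5 * (h * n) + 9 * h ^ 4 * (4096 * s ^ 3) * (2 * n) =
        n * (12288 * s ^ 3 + 144 * (h ^ 4 * s) + 110592 * (h ^ 4 * s ^ 3) + 36 * h ^ 6) := by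
        ring
      rw [e]
      have h3 : 0 ≤ s ^ 3 := by positivity
      have h6 : 0 ≤ h ^ 6 := by positivity
      have : 12288 * s ^ 3 + 144 * (h ^ 4 * s) + 110592 * (h ^ 4 * s ^ 3) + 36 * h ^ 6 ≤
        100000 * (s ^ 3 + h ^ 6) := by linarith only [y, y2, h3, h6]
      nlinarith only [this, hn0]
    linarith

end Vale.Agent.P347
end

section

/-! Task G5-I2 (P347): pointwise one-step errors for the general-node scheme. -/

open MeasureTheory Filter Module Set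
open scoped ENNReal NNReal

namespace Vale.Agent.P347

section norms

variable {F : Type*} [NormedAddCommGroup F] [NormedSpace ℝ F] {J : ℕ} {w : Fin J → ℝ}

theorem norm_wsum_sq_le (hw : ∀ j, 0 ≤ w j) (h1 : ∑ j, w j = 1) {c : Fin J → ℝ}
    (hc0 : ∀ j, 0 ≤ c j) (hc1 : ∀ j, c j ≤ 1) {d : Fin J → F} {r : Fin J → ℝ}
    (hr : ∀ j, ‖d j‖ ^ 2 ≤ r j) :
    ‖∑ j, (w j * c j) • d j‖ ^ 2 ≤ ∑ j, w j * r j := by
  have h2 : ‖∑ j, (w j * c j) • d j‖ ≤ ∑ j, w j * ‖d j‖ := by
    refine (norm_sum_le _ _).trans (Finset.sum_le_sum fun j _ => ?_)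
    rw [norm_smul, Real.norm_eq_abs, abs_of_nonneg (mul_nonneg (hw j) (hc0 j))]
    refine mul_le_mul_of_nonneg_right ?_ (norm_nonneg _)
    exact mul_le_of_le_one_right (hw j) (hc1 j)
  have h3 : (∑ j, w j * ‖d j‖) ^ 2 ≤ (∑ j, w j) * ∑ j, w j * ‖d j‖ ^ 2 := by
    refine Finset.sum_sq_le_sum_mul_sum_of_sq_le_mul _ (fun j _ => hw j)
      (fun j _ => mul_nonneg (hw j) (sq_nonneg _)) fun j _ => le_of_eq ?_
    ring
  rw [h1, one_mul] at h3
  calc ‖∑ j, (w j * c j) • d j‖ ^ 2 ≤ (∑ j, w j * ‖d j‖) ^ 2 :=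
        pow_le_pow_left₀ (norm_nonneg _) h2 2
    _ ≤ ∑ j, w j * ‖d j‖ ^ 2 := h3
    _ ≤ ∑ j, w j * r j := Finset.sum_le_sum fun j _ => mul_le_mul_of_nonneg_left (hr j) (hw j)

variable {h : ℝ}

theorem P5_err (hh : 0 < h) (hh1 : h ≤ 1 / 8) (hw : ∀ j, 0 ≤ w j) (h1 : ∑ j, w j = 1)
    {p I : F} {g f : Fin J → F} {a : ℝ} {r : Fin J → ℝ}
    (hS : ‖I - h • ∑ j, w j • f j‖ ^ 2 ≤ a) (hr : ∀ j, ‖f j - g j‖ ^ 2 ≤ r j) :
    ‖(1 - 2 * h) • (p - I) - (1 - 2 * h) • (p - h • ∑ j, w j • g j)‖ ^ 2 / (2 * sg2 h) ≤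
      (2 * a + 2 * h ^ 2 * ∑ j, w j * r j) / (7 * h) := by
  set S := I - h • ∑ j, w j • f j with hSd
  set d := ∑ j, w j • (f j - g j) with hd
  have e1 : ∑ j, w j • f j = ∑ j, w j • g j + d := by
    rw [hd, ← Finset.sum_add_distrib]
    refine Finset.sum_congr rfl fun j _ => ?_
    rw [smul_sub]
    abel
  have eA : (1 - 2 * h) • (p - I) - (1 - 2 * h) • (p - h • ∑ j, w j • g j) =
      -((1 - 2 * h) • (S + h • d)) := by
    rw [hSd, e1]
    module
  have hd2 : ‖d‖ ^ 2 ≤ ∑ j, w j * r j := by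
    have := norm_wsum_sq_le hw h1 (c := fun _ => 1) (fun _ => zero_le_one) (fun _ => le_rfl) hr
    simpa only [mul_one] using this
  have hsg : 7 * h ≤ 2 * sg2 h := by unfold sg2; nlinarith only [hh, hh1]
  have hsg0 : 0 < 2 * sg2 h := by linarith only [hh, hsg]
  have hn : ‖(1 - 2 * h) • (p - I) - (1 - 2 * h) • (p - h • ∑ j, w j • g j)‖ ^ 2 ≤
      ‖S + h • d‖ ^ 2 := by
    rw [eA, norm_neg, norm_smul, mul_pow, Real.norm_eq_abs, sq_abs]
    have : (1 - 2 * h) ^ 2 ≤ 1 := by nlinarith only [hh, hh1]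
    nlinarith only [this]
  have hn2 := norm_add_sq_two S (h • d)
  rw [norm_smul, Real.norm_eq_abs, abs_of_pos hh, mul_pow] at hn2
  have h6 : h ^ 2 * ‖d‖ ^ 2 ≤ h ^ 2 * ∑ j, w j * r j :=
    mul_le_mul_of_nonneg_left hd2 (by positivity)
  have h7 : ‖(1 - 2 * h) • (p - I) - (1 - 2 * h) • (p - h • ∑ j, w j • g j)‖ ^ 2 ≤
      2 * a + 2 * h ^ 2 * ∑ j, w j * r j := by linarith only [hS, hn, hn2, h6]
  exact div_le_div₀ (le_trans (sq_nonneg _) h7) h7 (by positivity) hsg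

theorem Y5_err (hh : 0 < h) (hw : ∀ j, 0 ≤ w j) (h1 : ∑ j, w j = 1) {c : Fin J → ℝ}
    (hc0 : ∀ j, 0 ≤ c j) (hc1 : ∀ j, c j ≤ 1) {y p I ge : F} {g f : Fin J → F} {b : ℝ}
    {r : Fin J → ℝ} (hS : ‖I - h ^ 2 • ∑ j, (w j * (1 - c j)) • f j‖ ^ 2 ≤ b)
    (hr : ∀ j, ‖f j - g j‖ ^ 2 ≤ r j) :
    ‖(y + h • p - I) - (y + h • p - h ^ 2 • (∑ j, (w j * (1 - c j)) • g j) - h ^ 3 • ge +
      h ^ 3 • ge)‖ ^ 2 / (2 * h ^ 3) ≤ (2 * b + 2 * h ^ 4 * ∑ j, w j * r j) / (2 * h ^ 3) := by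
  set S := I - h ^ 2 • ∑ j, (w j * (1 - c j)) • f j with hSd
  set d := ∑ j, (w j * (1 - c j)) • (f j - g j) with hd
  have e1 : ∑ j, (w j * (1 - c j)) • f j = ∑ j, (w j * (1 - c j)) • g j + d := by
    rw [hd, ← Finset.sum_add_distrib]
    refine Finset.sum_congr rfl fun j _ => ?_
    rw [smul_sub]
    abel
  have eA : (y + h • p - I) - (y + h • p - h ^ 2 • (∑ j, (w j * (1 - c j)) • g j) -
      h ^ 3 • ge + h ^ 3 • ge) = -(S + h ^ 2 • d) := by
    rw [hSd, e1]
    module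
  have hd2 : ‖d‖ ^ 2 ≤ ∑ j, w j * r j :=
    norm_wsum_sq_le hw h1 (c := fun j => 1 - c j) (fun j => by linarith only [hc1 j])
      (fun j => by linarith only [hc0 j]) hr
  have hn2 := norm_add_sq_two S (h ^ 2 • d)
  rw [norm_smul, Real.norm_eq_abs, abs_of_pos (show 0 < h ^ 2 by positivity),
    mul_pow (h ^ 2) ‖d‖ 2] at hn2
  have h6 : (h ^ 2) ^ 2 * ‖d‖ ^ 2 ≤ (h ^ 2) ^ 2 * ∑ j, w j * r j :=
    mul_le_mul_of_nonneg_left hd2 (by positivity)
  rw [eA, norm_neg]
  refine div_le_div_of_nonneg_right ?_ (by positivity)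
  have e : (h ^ 2) ^ 2 = h ^ 4 := by ring
  rw [e] at h6 hn2
  linarith only [hS, hn2, h6]

end norms

variable {E : Type*} [NormedAddCommGroup E] [InnerProductSpace ℝ E] [FiniteDimensional ℝ E]
  [MeasurableSpace E] [BorelSpace E]

theorem R5_err {W : E → ℝ} {F : E → E} (hW : CPot W F) {h : ℝ} (hh : 0 < h) (Y1 g : E) {r : ℝ}
    (hr : ‖F Y1 - g‖ ^ 2 ≤ r) :
    ∫ ζ, Rerr F (h ^ 3) g (Y1 + √(h ^ 3) • ζ) ∂(gam E) ≤
      100 * (h ^ 6 * (finrank ℝ E : ℝ) + h ^ 9 * (4 * ‖F Y1‖ ^ 2 +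
        8 * h ^ 3 * (finrank ℝ E : ℝ) + 2 * r) + h ^ 3 * (8 * h ^ 3 * (finrank ℝ E : ℝ) +
        2 * r)) := by
  have h3 : 0 < h ^ 3 := by positivity
  set n : ℝ := (finrank ℝ E : ℝ)
  set Fh := F Y1 with hFh
  have hgb : ‖g‖ ^ 2 ≤ 2 * ‖Fh‖ ^ 2 + 2 * r := by
    have := norm_sub_sq_two Fh (Fh - g)
    rw [sub_sub_cancel] at this
    linarith only [hr, this]
  set a : ℝ := 100 * (h ^ 6 * n + h ^ 9 * (4 * ‖Fh‖ ^ 2 + 2 * r) + h ^ 3 * (2 * r)) with ha
  set b : ℝ := 800 * h ^ 12 + 800 * h ^ 6 with hb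
  have hpt : ∀ ζ : E, Rerr F (h ^ 3) g (Y1 + √(h ^ 3) • ζ) ≤ a + b * ‖ζ‖ ^ 2 := by
    intro ζ
    have hl := hW.lip (Y1 + √(h ^ 3) • ζ) Y1
    rw [add_sub_cancel_left, norm_smul, Real.norm_eq_abs, abs_of_nonneg (Real.sqrt_nonneg _)] at hl
    have hl2 : ‖F (Y1 + √(h ^ 3) • ζ) - Fh‖ ^ 2 ≤ 4 * h ^ 3 * ‖ζ‖ ^ 2 := by
      have := pow_le_pow_left₀ (norm_nonneg _) hl 2
      rw [mul_pow, mul_pow, Real.sq_sqrt h3.le] at this
      linarith only [this]
    have h1 := norm_add_sq_two (F (Y1 + √(h ^ 3) • ζ) - Fh) Fh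
    rw [sub_add_cancel] at h1
    have h2 := norm_add_sq_two (F (Y1 + √(h ^ 3) • ζ) - Fh) (Fh - g)
    rw [sub_add_sub_cancel] at h2
    unfold Rerr
    have k1 : ‖F (Y1 + √(h ^ 3) • ζ)‖ ^ 2 + ‖g‖ ^ 2 ≤
        8 * h ^ 3 * ‖ζ‖ ^ 2 + 4 * ‖Fh‖ ^ 2 + 2 * r := by linarith only [hgb, hl2, h1]
    have k2 : ‖F (Y1 + √(h ^ 3) • ζ) - g‖ ^ 2 ≤ 8 * h ^ 3 * ‖ζ‖ ^ 2 + 2 * r := by
      linarith
    have k3 := mul_le_mul_of_nonneg_left k1 (show 0 ≤ (h ^ 3) ^ 3 by positivity)
    have k4 := mul_le_mul_of_nonneg_left k2 h3.le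
    rw [ha, hb]
    calc 100 * ((h ^ 3) ^ 2 * n + (h ^ 3) ^ 3 * (‖F (Y1 + √(h ^ 3) • ζ)‖ ^ 2 + ‖g‖ ^ 2)
          + h ^ 3 * ‖F (Y1 + √(h ^ 3) • ζ) - g‖ ^ 2)
        ≤ 100 * ((h ^ 3) ^ 2 * n + (h ^ 3) ^ 3 * (8 * h ^ 3 * ‖ζ‖ ^ 2 + 4 * ‖Fh‖ ^ 2 + 2 * r) +
          h ^ 3 * (8 * h ^ 3 * ‖ζ‖ ^ 2 + 2 * r)) := by linarith only [k3, k4]
      _ = _ := by ring
  have hi1 := Rerr_integrable hW (h ^ 3) (h ^ 3) g Y1
  have hi0 := gam_sq_integrable (E := E)
  have hm := integral_mono hi1 ((integrable_const a).add (hi0.const_mul b)) hpt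
  simp only [Pi.add_apply] at hm
  rw [integral_add (integrable_const a) (hi0.const_mul b), integral_const, probReal_univ,
    one_smul, integral_const_mul, gam_sq] at hm
  refine hm.trans (le_of_eq ?_)
  rw [ha, hb]
  ring

/-- Numerical inequality for the integrated one-step error. -/
theorem onestep5_num {s h n A : ℝ} (m : ℕ) (hn : 0 ≤ n) (hA : 0 ≤ A) (hs : 0 < s)
    (hh : 0 < h) (hh1 : h ≤ 1 / 8) {R : ℝ} (hR : R = 100000 * n * (s ^ 3 + h ^ 6)) :
    100 * (h ^ 6 * n + h ^ 9 * (8 * h ^ 3 * n) + h ^ 3 * (8 * h ^ 3 * n)) +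
      36 / 7 * h ^ (2 * m) * (h * A) + 9 / 7 * h * R + (200 * h ^ 9 + 200 * h ^ 3) * R +
      400 * h ^ 9 * (4 * n) ≤
    10000000 * h * (h ^ (2 * m) * A + n * (s ^ 3 + h ^ 5)) := by
  have hp : ∀ k : ℕ, h ^ (1 + k) ≤ (1 / 8) ^ k * h := by
    intro k
    rw [pow_add, mul_comm, pow_one]
    exact mul_le_mul_of_nonneg_right (pow_le_pow_left₀ hh.le hh1 k) hh.le
  have p3 := hp 2
  have p9 := hp 8
  norm_num at p3 p9
  have hp' : ∀ k : ℕ, h ^ (6 + k) ≤ (1 / 8) ^ k * h ^ 6 := by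
    intro k
    rw [pow_add, mul_comm]
    exact mul_le_mul_of_nonneg_right (pow_le_pow_left₀ hh.le hh1 k) (by positivity)
  have q9 := hp' 3
  have q12 := hp' 6
  have q7 := hp' 1
  norm_num at q9 q12 q7
  have hR0 : 0 ≤ R := by rw [hR]; (clear * - hn hs hh; positivity)
  have a1 : (200 * h ^ 9 + 200 * h ^ 3) * R ≤ 4 * h * R := by
    refine mul_le_mul_of_nonneg_right ?_ hR0
    linarith only [hh, p3, p9]
  have a2 : 100 * (h ^ 6 * n + h ^ 9 * (8 * h ^ 3 * n) + h ^ 3 * (8 * h ^ 3 * n)) +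
      400 * h ^ 9 * (4 * n) ≤ 10000 * h ^ 6 * n := by
    have e : 100 * (h ^ 6 * n + h ^ 9 * (8 * h ^ 3 * n) + h ^ 3 * (8 * h ^ 3 * n)) +
      400 * h ^ 9 * (4 * n) = (900 * h ^ 6 + 800 * h ^ 12 + 1600 * h ^ 9) * n := by ring
    rw [e]
    refine mul_le_mul_of_nonneg_right ?_ hn
    have : 0 ≤ h ^ 6 := by positivity
    linarith only [q9, q12, this]
  have a3 : 0 ≤ h ^ (2 * m) * (h * A) := by (clear * - hh hA; positivity)
  have a4 : h * R ≤ 100000 * (h * (n * s ^ 3)) + 100000 * (h ^ 6 * n) := by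
    rw [hR]
    have : h * (n * h ^ 6) ≤ h ^ 6 * n := by
      have e : h * (n * h ^ 6) = h ^ 7 * n := by ring
      rw [e]
      refine mul_le_mul_of_nonneg_right ?_ hn
      have : 0 ≤ h ^ 6 := by positivity
      linarith only [q7, this]
    nlinarith only [this]
  have a5 : 0 ≤ h * (n * s ^ 3) := by (clear * - hh hn hs; positivity)
  have a6 : 0 ≤ h ^ 6 * n := by (clear * - hh hn; positivity)
  have e : 10000000 * h * (h ^ (2 * m) * A + n * (s ^ 3 + h ^ 5)) =
    10000000 * (h ^ (2 * m) * (h * A)) + 10000000 * (h * (n * s ^ 3)) +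
      10000000 * (h ^ 6 * n) := by ring
  rw [e]
  linarith

end Vale.Agent.P347
end

section

/-! Task I3 for the general-node scheme (P347, exponent 1/5): iteration. -/

open MeasureTheory Filter Module Set
open scoped ENNReal NNReal

namespace Vale.Agent.P347

variable {E : Type*} [NormedAddCommGroup E] [InnerProductSpace ℝ E] [FiniteDimensional ℝ E]
  [MeasurableSpace E] [BorelSpace E]

/-- The averaged numerical operator is a Markov operator. -/
theorem Kb5_markov_of {G : E → E} {s h : ℝ} {J : ℕ} {c w : Fin J → ℝ}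
    (hbm : ∀ f : E × E → ℝ, BM f → BM (Kb5 G s h c w f)) : MarkovOp (Kb5 G s h c w) := by
  have hm : ∀ z : E × E, Measurable fun ω : E × E =>
      (upY5 h c w z.1 z.2 (fun j => mg G s h (c j) z) (mg G s h 1 z) + √(2 * h ^ 3) • ω.1,
      upP5 h w z.2 (fun j => mg G s h (c j) z) + √(sg2 h) • ω.2) := fun z => by fun_prop
  have hi : ∀ (f : E × E → ℝ) (_ : BMf f) (z : E × E), Integrable (fun ω : E × E => f
      (upY5 h c w z.1 z.2 (fun j => mg G s h (c j) z) (mg G s h 1 z) + √(2 * h ^ 3) • ω.1,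
      upP5 h w z.2 (fun j => mg G s h (c j) z) + √(sg2 h) • ω.2)) ((gam E).prod (gam E)) := by
    intro f hf z
    obtain ⟨hfm, C, hC⟩ := hf
    exact Integrable.of_bound (hfm.comp (hm z)).aestronglyMeasurable C
      (Eventually.of_forall fun w => hC _)
  refine ⟨fun f hf => hbm f hf, fun f g hf hg a b x => ?_, fun f g hf hg hfg x => ?_,
    fun x => ?_⟩
  · unfold Kb5
    rw [integral_add ((hi f hf x).const_mul a) ((hi g hg x).const_mul b), integral_const_mul,
      integral_const_mul]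
  · exact integral_mono (hi f hf x) (hi g hg x) fun w => hfg _
  · unfold Kb5
    simp

/-- Iterated comparison, from the one-step comparison. -/
theorem stage1_ideal5_of {V : E → ℝ} {G : E → E} {H : E → E →L[ℝ] E} (hV : Pot V G H) {s h : ℝ}
    (hs : 0 < s) (hh : 0 < h) (hh1 : h ≤ 1 / 8) {Y P : ℝ → E × E → E}
    (hF : HamFlow (Fp V G s) Y P) {J : ℕ} {c w : Fin J → ℝ}
    (hbm : ∀ f : E × E → ℝ, BM f → BM (Kb5 G s h c w f)) {k : E × E → ℝ}
    (hk : Integrable k (muPh V s)) {B : ℝ} (hkb : ∫ z, k z ∂(muPh V s) ≤ B)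
    (hdv : ∀ f : E × E → ℝ, BM f → ∀ z,
        Pop (Wp V s) h Y P f z ≤ k z + Real.log (Kb5 G s h c w (fun z => Real.exp (f z)) z))
    (N : ℕ) {f : E × E → ℝ} (hf : Measurable f) (bf : ∀ z, 0 ≤ f z ∧ f z ≤ 1) :
    |(∫ z, f z ∂(muPh V s)) - ∫ z, (Kb5 G s h c w)^[N] f z ∂(muPh V s)| ≤ 2 * √(N * B) := by
  have hpW : IsProbabilityMeasure (gibbs (Wp V s)) := (Wp_adm hV hs).isProb
  have hp : IsProbabilityMeasure (muPh V s) := by
    unfold muPh
    infer_instance
  have key := dv_tv (μ := muPh V s) (K := Kb5 G s h c w) (P := Pop (Wp V s) h Y P)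
    (Kb5_markov_of hbm) (fun f hf => Pop_invariant hV hs hh hh1 hF hf) hk hdv N hf bf
  refine key.trans (mul_le_mul_of_nonneg_left (Real.sqrt_le_sqrt ?_) (by norm_num))
  exact mul_le_mul_of_nonneg_left hkb (Nat.cast_nonneg N)

end Vale.Agent.P347
end

section

/-! Auxiliary facts for task L (P347): the inner steps of stage 2. -/

open MeasureTheory Filter Module Set
open scoped ENNReal NNReal

namespace Vale.Agent.P347

variable {E : Type*} [NormedAddCommGroup E] [InnerProductSpace ℝ E] [FiniteDimensional ℝ E]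
  [MeasurableSpace E] [BorelSpace E]

/-- Centre of the inner step. -/
noncomputable def cen (s τ : ℝ) (y x w : E) : E :=
  (τ / (s + τ)) • y + (s / (s + τ)) • (x + √τ • w)

omit [FiniteDimensional ℝ E] [MeasurableSpace E] [BorelSpace E] in
theorem stepT_eq (G : E → E) (s τ : ℝ) (y x : E) (w : E × E) :
    stepT G s τ y x w = cen s τ y x w.1 - (s * τ / (s + τ)) • G (cen s τ y x w.1)
      + √(s * τ / (s + τ)) • w.2 := rfl

omit [FiniteDimensional ℝ E] [MeasurableSpace E] [BorelSpace E] in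
/-- The gradient step does not increase distances. -/
theorem Pot.nonexp {V : E → ℝ} {G : E → E} {H : E → E →L[ℝ] E} (hV : Pot V G H) {t : ℝ}
    (h0 : 0 ≤ t) (h1 : t ≤ 2 / 3) (c c' : E) :
    ‖(c - t • G c) - (c' - t • G c')‖ ≤ ‖c - c'‖ := by
  have h2 := hV.lipG' c c'
  have e : (c - t • G c) - (c' - t • G c') =
      (1 - 3 / 2 * t) • (c - c') - t • (G c - G c' - (3 / 2 : ℝ) • (c - c')) := by module
  rw [e]
  refine (norm_sub_le _ _).trans ?_
  rw [norm_smul, norm_smul, Real.norm_of_nonneg h0, Real.norm_of_nonneg (by linarith only [h1])]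
  have h3 := mul_le_mul_of_nonneg_left h2 h0
  have h4 := norm_nonneg (c - c')
  nlinarith only [h3, h0, h4]

theorem measurable_stepT {V : E → ℝ} {G : E → E} {H : E → E →L[ℝ] E} (hV : Pot V G H) (s τ : ℝ) :
    Measurable fun q : (E × E) × (E × E) => stepT G s τ q.1.1 q.1.2 q.2 := by
  have hG := (oneaux_contG hV).measurable
  unfold stepT
  fun_prop

/-- Joint version of `Top`. -/
noncomputable def TopJ (G : E → E) (s τ : ℝ) (g : E × E → ℝ) (q : E × E) : ℝ :=
  ∫ w, g (q.1, stepT G s τ q.1 q.2 w) ∂((gam E).prod (gam E))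

theorem TopJ_bm {V : E → ℝ} {G : E → E} {H : E → E →L[ℝ] E} (hV : Pot V G H) {s τ : ℝ}
    {g : E × E → ℝ} (hg : BM g) : BM (TopJ G s τ g) := by
  obtain ⟨hm, C, hC⟩ := hg
  refine ⟨?_, C, fun z => bdd_integral fun w => hC _⟩
  unfold TopJ
  refine meas_param (ν := (gam E).prod (gam E)) (f := fun q : (E × E) × (E × E) =>
    g (q.1.1, stepT G s τ q.1.1 q.1.2 q.2)) (hm.comp ?_)
  exact (measurable_fst.comp measurable_fst).prodMk (measurable_stepT hV s τ)

theorem TopJ_iter_bm {V : E → ℝ} {G : E → E} {H : E → E →L[ℝ] E} (hV : Pot V G H) {s τ : ℝ}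
    (m : ℕ) : ∀ {g : E × E → ℝ}, BM g → BM ((TopJ G s τ)^[m] g) := by
  induction m with
  | zero => intro g hg; exact hg
  | succ m ih =>
    intro g hg
    rw [Function.iterate_succ_apply]
    exact ih (TopJ_bm hV hg)

omit [NormedAddCommGroup E] [InnerProductSpace ℝ E] [FiniteDimensional ℝ E] [BorelSpace E] in
theorem BM.snd {f : E → ℝ} (hf : BM f) : BM (fun q : E × E => f q.2) := by
  obtain ⟨hm, C, hC⟩ := hf
  exact ⟨hm.comp measurable_snd, C, fun q => hC _⟩

theorem Top_iter_eq (G : E → E) (s τ : ℝ) (y : E) (m : ℕ) : ∀ (g : E × E → ℝ) (x : E),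
    (Top G s τ y)^[m] (fun x => g (y, x)) x = (TopJ G s τ)^[m] g (y, x) := by
  induction m with
  | zero => intro g x; rfl
  | succ m ih =>
    intro g x
    rw [Function.iterate_succ_apply, Function.iterate_succ_apply, ← ih]
    rfl

theorem Top_markov {V : E → ℝ} {G : E → E} {H : E → E →L[ℝ] E} (hV : Pot V G H) (s τ : ℝ) (y : E) :
    MarkovOp (Top G s τ y) := by
  have hm : ∀ x : E, Measurable fun w : E × E => stepT G s τ y x w := fun x =>
    (measurable_stepT hV s τ).comp (measurable_const.prodMk measurable_id : Measurable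
      fun w : E × E => ((y, x), w))
  have hi : ∀ (f : E → ℝ) (_ : BMf f) (x : E),
      Integrable (fun w : E × E => f (stepT G s τ y x w)) ((gam E).prod (gam E)) := by
    intro f hf x
    obtain ⟨hfm, C, hC⟩ := hf
    exact bdd_integrable (hfm.comp (hm x)) fun w => hC _
  refine ⟨fun f hf => ?_, fun f g hf hg a b x => ?_, fun f g hf hg hfg x => ?_, fun x => ?_⟩
  · have h1 := TopJ_bm (s := s) (τ := τ) hV (BM.snd hf)
    obtain ⟨h2, C, h3⟩ := h1
    exact ⟨h2.comp (measurable_const.prodMk measurable_id : Measurable fun x : E => (y, x)), C,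
      fun x => h3 (y, x)⟩
  · unfold Top
    rw [integral_add ((hi f hf x).const_mul a) ((hi g hg x).const_mul b), integral_const_mul,
      integral_const_mul]
  · exact integral_mono (hi f hf x) (hi g hg x) fun w => hfg _
  · unfold Top
    simp

theorem Top_unit {V : E → ℝ} {G : E → E} {H : E → E →L[ℝ] E} (hV : Pot V G H) (s τ : ℝ) (y : E)
    (m : ℕ) {f : E → ℝ} (hf : Measurable f) (bf : ∀ x, 0 ≤ f x ∧ f x ≤ 1) (x : E) :
    0 ≤ (Top G s τ y)^[m] f x ∧ (Top G s τ y)^[m] f x ≤ 1 := by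
  have hM := (Top_markov hV s τ y).iterate m
  have hbf : BMf f := ⟨hf, 1, fun x => by rw [abs_of_nonneg (bf x).1]; exact (bf x).2⟩
  constructor
  · have := hM.mono (fun _ => 0) f (BMf.const 0) hbf (fun x => (bf x).1) x
    rwa [hM.const 0 x] at this
  · have := hM.mono f (fun _ => 1) hbf (BMf.const 1) (fun x => (bf x).2) x
    rwa [hM.const 1 x] at this

section lip

variable {s τ : ℝ}

theorem tau_facts (hs : 0 < s) (hτ : 0 < τ) :
    0 < s * τ / (s + τ) ∧ s * τ / (s + τ) ≤ τ ∧ 0 ≤ τ / (s + τ) ∧ 0 ≤ s / (s + τ) ∧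
      τ / (s + τ) + s / (s + τ) = 1 := by
  have h1 : 0 < s + τ := by linarith
  refine ⟨by positivity, ?_, by positivity, by positivity, by field_simp; ring⟩
  rw [div_le_iff₀ h1]
  nlinarith only [hτ]

omit [FiniteDimensional ℝ E] [MeasurableSpace E] [BorelSpace E] in
theorem cen_sub (hs : 0 < s) (hτ : 0 < τ) (y x y' x' w : E) :
    ‖cen s τ y x w - cen s τ y' x' w‖ ≤
      (1 - s / (s + τ)) * ‖y - y'‖ + s / (s + τ) * ‖x - x'‖ := by
  obtain ⟨-, -, h1, h2, h3⟩ := tau_facts hs hτ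
  have e : cen s τ y x w - cen s τ y' x' w = (τ / (s + τ)) • (y - y') + (s / (s + τ)) • (x - x') := by
    unfold cen
    module
  rw [e]
  refine (norm_add_le _ _).trans ?_
  rw [norm_smul, norm_smul, Real.norm_of_nonneg h1, Real.norm_of_nonneg h2]
  have h4 : 1 - s / (s + τ) = τ / (s + τ) := by linarith only [h3]
  rw [h4]

/-- Lipschitz property of the iterated inner steps in both variables. -/
theorem Top_lip {V : E → ℝ} {G : E → E} {H : E → E →L[ℝ] E} (hV : Pot V G H)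
    (hs : 0 < s) (hτ : 0 < τ) (hτ1 : τ ≤ 1 / 8) {f : E → ℝ}
    (hf : Measurable f) (bf : ∀ x, 0 ≤ f x ∧ f x ≤ 1) (k : ℕ) : ∀ y x y' x' : E,
    |(Top G s τ y)^[k + 1] f x - (Top G s τ y')^[k + 1] f x'| ≤ 2 / √(s * τ / (s + τ)) *
      ((1 - (s / (s + τ)) ^ (k + 1)) * ‖y - y'‖ + (s / (s + τ)) ^ (k + 1) * ‖x - x'‖) := by
  obtain ⟨t0, t1, h1, h2, h3⟩ := tau_facts hs hτ
  have t2 : s * τ / (s + τ) ≤ 2 / 3 := by linarith
  have hc := cen_sub (E := E) hs hτ
  have hβ1 : s / (s + τ) ≤ 1 := by linarith only [h1, h3]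
  have hstep : ∀ (y x y' x' : E) (w : E × E), ‖stepT G s τ y x w - stepT G s τ y' x' w‖ ≤
      (1 - s / (s + τ)) * ‖y - y'‖ + s / (s + τ) * ‖x - x'‖ := by
    intro y x y' x' w
    rw [stepT_eq, stepT_eq, add_sub_add_right_eq_sub]
    exact (hV.nonexp t0.le t2 _ _).trans (hc _ _ _ _ _)
  have hbf : BM f := ⟨hf, 1, fun x => by rw [abs_of_nonneg (bf x).1]; exact (bf x).2⟩
  set β := s / (s + τ) with hβ
  set t := s * τ / (s + τ) with ht
  have hst : 0 < √t := Real.sqrt_pos.2 t0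
  have hms : ∀ y x : E, Measurable fun w : E × E => stepT G s τ y x w := fun y x =>
    (measurable_stepT hV s τ).comp (measurable_const.prodMk measurable_id : Measurable
      fun w : E × E => ((y, x), w))
  induction k with
  | zero =>
    intro y x y' x'
    simp only [zero_add, pow_one, Function.iterate_one]
    have hi : ∀ y x : E, Integrable (fun w : E × E => f (stepT G s τ y x w))
        ((gam E).prod (gam E)) := fun y x =>
      bdd_integrable (hf.comp (hms y x)) (C := 1)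
        fun w => by rw [abs_of_nonneg (bf _).1]; exact (bf _).2
    have hm1 : ∀ y x : E, Measurable fun w : E => ∫ z, f (stepT G s τ y x (w, z)) ∂(gam E) := by
      intro y x
      exact meas_param (ν := gam E) (f := fun q : E × E => f (stepT G s τ y x q))
        (hf.comp (hms y x))
    have hi1 : ∀ y x : E, Integrable (fun w : E => ∫ z, f (stepT G s τ y x (w, z)) ∂(gam E))
        (gam E) := fun y x => bdd_integrable (hm1 y x) (C := 1) fun w => bdd_integral fun z => by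
          rw [abs_of_nonneg (bf _).1]; exact (bf _).2
    unfold Top
    rw [integral_prod _ (hi y x), integral_prod _ (hi y' x'), ← integral_sub (hi1 y x) (hi1 y' x'),
      ← Real.norm_eq_abs]
    have hb : ∀ w : E, ‖(∫ z, f (stepT G s τ y x (w, z)) ∂(gam E)) -
        ∫ z, f (stepT G s τ y' x' (w, z)) ∂(gam E)‖ ≤
        2 / √t * ((1 - β) * ‖y - y'‖ + β * ‖x - x'‖) := by
      intro w
      rw [Real.norm_eq_abs]
      have h4 := gam_tv t0 (cen s τ y x w - t • G (cen s τ y x w))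
        (cen s τ y' x' w - t • G (cen s τ y' x' w)) hf bf
      refine h4.trans ?_
      rw [div_mul_eq_mul_div]
      have h5 := (hV.nonexp t0.le t2 (cen s τ y x w) (cen s τ y' x' w)).trans (hc y x y' x' w)
      (clear * - h5 hs hτ; gcongr)
    have h6 := norm_integral_le_of_norm_le_const (μ := gam E) (Eventually.of_forall hb)
    simpa only [Real.norm_eq_abs, ge_iff_le, probReal_univ, mul_one] using h6
  | succ k ih =>
    intro y x y' x'
    have e : ∀ y x, (Top G s τ y)^[k + 1 + 1] f x =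
        ∫ w, (Top G s τ y)^[k + 1] f (stepT G s τ y x w) ∂((gam E).prod (gam E)) := fun y x => by
      rw [Function.iterate_succ_apply']
      rfl
    rw [e, e]
    have hF : ∀ y, BM ((Top G s τ y)^[k + 1] f) := fun y =>
      (Top_markov hV s τ y).iterate_bm (k + 1) f hbf
    have hi : ∀ y x : E, Integrable (fun w : E × E => (Top G s τ y)^[k + 1] f (stepT G s τ y x w))
        ((gam E).prod (gam E)) := by
      intro y x
      obtain ⟨hm, C, hC⟩ := hF y
      exact bdd_integrable (hm.comp (hms y x)) fun w => hC _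
    rw [← integral_sub (hi y x) (hi y' x'), ← Real.norm_eq_abs]
    have hβk : 0 ≤ β ^ (k + 1) := pow_nonneg h2 _
    have hb : ∀ w : E × E, ‖(Top G s τ y)^[k + 1] f (stepT G s τ y x w) -
        (Top G s τ y')^[k + 1] f (stepT G s τ y' x' w)‖ ≤
        2 / √t * ((1 - β ^ (k + 1 + 1)) * ‖y - y'‖ + β ^ (k + 1 + 1) * ‖x - x'‖) := by
      intro w
      rw [Real.norm_eq_abs]
      refine (ih y _ y' _).trans ?_
      apply mul_le_mul_of_nonneg_left _ (by positivity)
      have h7 := mul_le_mul_of_nonneg_left (hstep y x y' x' w) hβk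
      refine (add_le_add_right h7 _).trans (le_of_eq ?_)
      ring
    have h6 := norm_integral_le_of_norm_le_const (μ := (gam E).prod (gam E))
      (Eventually.of_forall hb)
    simpa only [Function.iterate_succ, Function.comp_apply, Real.norm_eq_abs, ge_iff_le, probReal_univ,     mul_one] using h6

end lip

end Vale.Agent.P347
end

section
attribute [-instance] ProperSMul.toContinuousSMul IsTopologicalTorsor.toContinuousSMul IdemSemiring.toCanonicallyOrderedAdd IdemSemiring.toMulLeftMono IdemSemiring.toMulRightMono AddQuantale.instAddLeftMono AddQuantale.instAddRightMono Quantale.instMulLeftMono Quantale.instMulRightMono FiniteDimensional.rclike_to_real IsScalarTower.complexToReal FiniteDimensional.complexToReal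

/-! P347-Z-F4. Carriers: the linear rotation `g' = -B P`, `P' = B g` (`B` symmetric).

PROOF. Define `(g_x, P_x) = exp(x 𝒥) (g, P)` with `𝒥 (g,P) = (-B P, B g)` as a continuous linear map on
`Eu d × Eu d` (`NormedSpace.exp`, `hasDerivAt_exp_smul_const`), or by the power series. For symmetric `B`,
`‖g_x‖² + ‖P_x‖²` is constant (derivative zero); the map is linear, so it preserves `gam ⊗ gam`
(density `exp(-(‖g‖²+‖P‖²)/2)` is invariant and `|det| = 1` because the map and its inverse (`-x`) are isometries of the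
Euclidean norm `‖g‖²+‖P‖²`; e.g. work in `WithLp 2 (Eu d × Eu d)` with `LinearIsometryEquiv.measurePreserving`).
Nodes: all derivatives are explicit: `d^j/dx^j (g_x,P_x) = 𝒥^j (g_x,P_x)`, norm `≤ ‖g_x‖ + ‖P_x‖ ≤ 2(‖g‖+‖P‖)` if `‖B‖ ≤ 1`:
`InterpData.errA` for `∫ B P`, `∫ B g`, `InterpData.errβ` for `g''(0) = -B² g`.
`carrier_law`: for fixed `c` the map `(g,P) ↦ g_x(B c, g, P)` pushes `γ²` to `γ` (marginal of the rotation); Fubini. -/

open MeasureTheory Filter Module Set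
open scoped ENNReal NNReal

namespace Vale.Agent.P347.Z

variable {d : ℕ}

/-- Rotation data: `Cg x B (g,P)`, `CP x B (g,P)`. -/
structure Carrier (d : ℕ) (Cg CP : ℝ → (Eu d →L[ℝ] Eu d) → Eu d × Eu d → Eu d) : Prop where
  g0 : ∀ B z, Cg 0 B z = z.1
  P0 : ∀ B z, CP 0 B z = z.2
  dg : ∀ B z x, HasDerivAt (fun x => Cg x B z) (-B (CP x B z)) x
  dP : ∀ B z x, HasDerivAt (fun x => CP x B z) (B (Cg x B z)) x
  cg : Continuous (fun q : ℝ × (Eu d →L[ℝ] Eu d) × (Eu d × Eu d) => Cg q.1 q.2.1 q.2.2)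
  cP : Continuous (fun q : ℝ × (Eu d →L[ℝ] Eu d) × (Eu d × Eu d) => CP q.1 q.2.1 q.2.2)
  law : ∀ B : Eu d →L[ℝ] Eu d, (∀ u v, inner ℝ (B u) v = inner ℝ u (B v)) → ∀ x,
    ((gam (Eu d)).prod (gam (Eu d))).map (fun z => (Cg x B z, CP x B z))
      = (gam (Eu d)).prod (gam (Eu d))
  norm : ∀ B : Eu d →L[ℝ] Eu d, (∀ u v, inner ℝ (B u) v = inner ℝ u (B v)) → ∀ x z,
    ‖Cg x B z‖ ^ 2 + ‖CP x B z‖ ^ 2 = ‖z.1‖ ^ 2 + ‖z.2‖ ^ 2

/-- The generator of the rotation. -/
noncomputable def carJ (B : Eu d →L[ℝ] Eu d) : (Eu d × Eu d) →L[ℝ] (Eu d × Eu d) :=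
  (-(B.comp (ContinuousLinearMap.snd ℝ (Eu d) (Eu d)))).prod
    (B.comp (ContinuousLinearMap.fst ℝ (Eu d) (Eu d)))

theorem carJ_cont : Continuous (carJ (d := d)) := by
  let l : (Eu d →L[ℝ] Eu d) →ₗ[ℝ] ((Eu d × Eu d) →L[ℝ] (Eu d × Eu d)) :=
    { toFun := carJ
      map_add' := fun A B => by
        ext z <;> simp [carJ] <;> ring
      map_smul' := fun c B => by
        ext z <;> simp [carJ] }
  exact l.continuous_of_finiteDimensional

/-- The rotation. -/
noncomputable def carE (x : ℝ) (B : Eu d →L[ℝ] Eu d) : (Eu d × Eu d) →L[ℝ] (Eu d × Eu d) :=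
  NormedSpace.exp (x • carJ B)

theorem carE_zero (B : Eu d →L[ℝ] Eu d) : carE 0 B = 1 := by
  have h : (0 : ℝ) • carJ B = 0 := zero_smul ℝ (carJ B)
  unfold carE
  rw [h]
  exact NormedSpace.exp_zero

theorem carE_deriv (B : Eu d →L[ℝ] Eu d) (z : Eu d × Eu d) (x : ℝ) :
    HasDerivAt (fun x => carE x B z) (carJ B (carE x B z)) x := by
  have h1 := hasDerivAt_exp_smul_const' (𝕂 := ℝ) (carJ B) x
  exact (ContinuousLinearMap.apply ℝ (Eu d × Eu d) z).hasFDerivAt.comp_hasDerivAt x h1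

theorem carE_cont : Continuous
    (fun q : ℝ × (Eu d →L[ℝ] Eu d) × (Eu d × Eu d) => carE q.1 q.2.1 q.2.2) := by
  have h1 : Continuous (fun q : ℝ × (Eu d →L[ℝ] Eu d) × (Eu d × Eu d) => carE q.1 q.2.1) := by
    unfold carE
    let _ : NormedAlgebra ℚ ((Eu d × Eu d) →L[ℝ] (Eu d × Eu d)) :=
      NormedAlgebra.restrictScalars ℚ ℝ _
    exact (NormedSpace.exp_continuous).comp
      (continuous_fst.smul (carJ_cont.comp (continuous_fst.comp continuous_snd)))
  exact h1.clm_apply (continuous_snd.comp continuous_snd)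

theorem carE_norm (B : Eu d →L[ℝ] Eu d) (hB : ∀ u v, inner ℝ (B u) v = inner ℝ u (B v)) (x : ℝ)
    (z : Eu d × Eu d) :
    ‖(carE x B z).1‖ ^ 2 + ‖(carE x B z).2‖ ^ 2 = ‖z.1‖ ^ 2 + ‖z.2‖ ^ 2 := by
  have h1 : ∀ y, HasDerivAt (fun y => (carE y B z).1) (-B (carE y B z).2) y := fun y =>
    (ContinuousLinearMap.fst ℝ (Eu d) (Eu d)).hasFDerivAt.comp_hasDerivAt y (carE_deriv B z y)
  have h2 : ∀ y, HasDerivAt (fun y => (carE y B z).2) (B (carE y B z).1) y := fun y =>
    (ContinuousLinearMap.snd ℝ (Eu d) (Eu d)).hasFDerivAt.comp_hasDerivAt y (carE_deriv B z y)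
  have h3 : ∀ y, HasDerivAt (fun y => ‖(carE y B z).1‖ ^ 2 + ‖(carE y B z).2‖ ^ 2) 0 y := by
    intro y
    have h4 := (h1 y).norm_sq.add (h2 y).norm_sq
    refine h4.congr_deriv ?_
    rw [inner_neg_right, ← hB]
    rw [real_inner_comm (carE y B z).2 (B (carE y B z).1)]
    ring
  have h4 := is_const_of_deriv_eq_zero (fun y => (h3 y).differentiableAt)
    (fun y => (h3 y).deriv) x 0
  rw [h4, carE_zero]
  rfl

theorem carE_add (B : Eu d →L[ℝ] Eu d) (x y : ℝ) : carE (x + y) B = carE x B * carE y B := by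
  have h : (x + y) • carJ B = x • carJ B + y • carJ B := add_smul x y (carJ B)
  have hc : Commute (x • carJ B) (y • carJ B) := by
    change (x • carJ B) * (y • carJ B) = (y • carJ B) * (x • carJ B)
    refine ContinuousLinearMap.ext fun z => ?_
    change x • carJ B (y • carJ B z) = y • carJ B (x • carJ B z)
    rw [map_smul, map_smul, smul_comm]
  let _ : NormedAlgebra ℚ ((Eu d × Eu d) →L[ℝ] (Eu d × Eu d)) :=
    NormedAlgebra.restrictScalars ℚ ℝ _
  unfold carE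
  rw [h]
  exact NormedSpace.exp_add_of_commute hc

theorem carE_neg (B : Eu d →L[ℝ] Eu d) (x : ℝ) (z : Eu d × Eu d) :
    carE x B (carE (-x) B z) = z := by
  have h := carE_add B x (-x)
  rw [add_neg_cancel, carE_zero] at h
  have := congrArg (fun T : (Eu d × Eu d) →L[ℝ] (Eu d × Eu d) => T z) h
  exact this.symm

theorem carE_det (B : Eu d →L[ℝ] Eu d) (hB : ∀ u v, inner ℝ (B u) v = inner ℝ u (B v)) (x : ℝ) :
    |LinearMap.det ((carE x B : (Eu d × Eu d) →L[ℝ] (Eu d × Eu d)) :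
      (Eu d × Eu d) →ₗ[ℝ] (Eu d × Eu d))| = 1 := by
  set μ : Measure (Eu d × Eu d) := (volume : Measure (Eu d)).prod volume with hμ
  set K : Set (Eu d × Eu d) := {z | ‖z.1‖ ^ 2 + ‖z.2‖ ^ 2 ≤ 1} with hK
  have himg : (carE x B : (Eu d × Eu d) →L[ℝ] (Eu d × Eu d)) '' K = K := by
    ext z
    constructor
    · rintro ⟨y, hy, rfl⟩
      change _ ≤ (1 : ℝ)
      rw [carE_norm B hB]
      exact hy
    · intro hz
      refine ⟨carE (-x) B z, ?_, carE_neg B x z⟩
      change _ ≤ (1 : ℝ)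
      rw [carE_norm B hB]
      exact hz
  have h1 := Measure.addHaar_image_linearMap μ
    ((carE x B : (Eu d × Eu d) →L[ℝ] (Eu d × Eu d)) : (Eu d × Eu d) →ₗ[ℝ] (Eu d × Eu d)) K
  have himg' : (((carE x B : (Eu d × Eu d) →L[ℝ] (Eu d × Eu d)) :
      (Eu d × Eu d) →ₗ[ℝ] (Eu d × Eu d)) : (Eu d × Eu d) → (Eu d × Eu d)) '' K = K := himg
  rw [himg'] at h1
  have hcl : IsClosed K := by
    have : Continuous (fun z : Eu d × Eu d => ‖z.1‖ ^ 2 + ‖z.2‖ ^ 2) := by fun_prop
    exact isClosed_le this continuous_const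
  have hbd : K ⊆ Metric.closedBall 0 1 := by
    intro z hz
    have hz' : ‖z.1‖ ^ 2 + ‖z.2‖ ^ 2 ≤ 1 := hz
    rw [mem_closedBall_zero_iff, Prod.norm_def, max_le_iff]
    constructor <;> nlinarith only [hz']
  have hfin : μ K ≠ ⊤ := by
    have hc : IsCompact (Metric.closedBall (0 : Eu d × Eu d) 1) := isCompact_closedBall 0 1
    exact ((measure_mono hbd).trans_lt hc.measure_lt_top).ne
  have hpos : μ K ≠ 0 := by
    have h2 : Metric.ball (0 : Eu d × Eu d) (1 / 2) ⊆ K := by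
      intro z hz
      rw [mem_ball_zero_iff, Prod.norm_def, max_lt_iff] at hz
      change ‖z.1‖ ^ 2 + ‖z.2‖ ^ 2 ≤ 1
      nlinarith only [hz, norm_nonneg z.1, norm_nonneg z.2]
    exact ((Metric.measure_ball_pos μ 0 (by norm_num)).trans_le (measure_mono h2)).ne'
  have h3 : ENNReal.ofReal |LinearMap.det ((carE x B : (Eu d × Eu d) →L[ℝ] (Eu d × Eu d)) :
      (Eu d × Eu d) →ₗ[ℝ] (Eu d × Eu d))| = 1 := by
    have h4 : ENNReal.ofReal |LinearMap.det ((carE x B : (Eu d × Eu d) →L[ℝ] (Eu d × Eu d)) :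
      (Eu d × Eu d) →ₗ[ℝ] (Eu d × Eu d))| * μ K = 1 * μ K := by rw [one_mul]; exact h1.symm
    exact (ENNReal.mul_left_inj hpos hfin).1 h4
  rwa [ENNReal.ofReal_eq_one] at h3

theorem carE_pres (B : Eu d →L[ℝ] Eu d) (hB : ∀ u v, inner ℝ (B u) v = inner ℝ u (B v)) (x : ℝ) :
    MeasurePreserving (fun z : Eu d × Eu d => carE x B z)
      ((volume : Measure (Eu d)).prod volume) ((volume : Measure (Eu d)).prod volume) := by
  have hdet := carE_det B hB x
  refine ⟨(carE x B).continuous.measurable, ?_⟩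
  have h0 : LinearMap.det ((carE x B : (Eu d × Eu d) →L[ℝ] (Eu d × Eu d)) :
      (Eu d × Eu d) →ₗ[ℝ] (Eu d × Eu d)) ≠ 0 := by
    intro h
    rw [h, abs_zero] at hdet
    exact zero_ne_one hdet
  have h1 := Measure.map_linearMap_addHaar_eq_smul_addHaar
    ((volume : Measure (Eu d)).prod volume) h0
  rw [abs_inv, hdet, inv_one, ENNReal.ofReal_one, one_smul] at h1
  exact h1

theorem car_law {T : Eu d × Eu d → Eu d × Eu d}
    (h : MeasurePreserving T ((volume : Measure (Eu d)).prod volume)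
      ((volume : Measure (Eu d)).prod volume))
    (hn : ∀ z, ‖(T z).1‖ ^ 2 + ‖(T z).2‖ ^ 2 = ‖z.1‖ ^ 2 + ‖z.2‖ ^ 2) :
    ((gam (Eu d)).prod (gam (Eu d))).map T = (gam (Eu d)).prod (gam (Eu d)) := by
  set D : Eu d × Eu d → ℝ≥0∞ := fun z =>
      ENNReal.ofReal (Real.exp (-(‖z.1‖ ^ 2 / 2)) / ∫ x : Eu d, Real.exp (-(‖x‖ ^ 2 / 2))) *
      ENNReal.ofReal (Real.exp (-(‖z.2‖ ^ 2 / 2)) / ∫ x : Eu d, Real.exp (-(‖x‖ ^ 2 / 2))) with hD
  have hDm : Measurable D := by fun_prop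
  have hDT : ∀ z, D (T z) = D z := by
    intro z
    have h1 := hn z
    simp only [hD]
    have hc0 : 0 ≤ ∫ x : Eu d, Real.exp (-(‖x‖ ^ 2 / 2)) := gam_const_pos.le
    rw [← ENNReal.ofReal_mul (div_nonneg (Real.exp_pos _).le hc0),
      ← ENNReal.ofReal_mul (div_nonneg (Real.exp_pos _).le hc0), div_mul_div_comm,
      div_mul_div_comm, ← Real.exp_add, ← Real.exp_add]
    congr 3
    linarith only [h1]
  refine Measure.ext fun A hA => ?_
  rw [Measure.map_apply h.measurable hA, gam_prod_eq, withDensity_apply _ (h.measurable hA),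
    withDensity_apply _ hA, ← lintegral_indicator (h.measurable hA), ← lintegral_indicator hA]
  calc ∫⁻ z, (T ⁻¹' A).indicator D z ∂((volume : Measure (Eu d)).prod (volume : Measure (Eu d)))
        = ∫⁻ z, (A.indicator D) (T z) ∂((volume : Measure (Eu d)).prod
            (volume : Measure (Eu d))) := by
          refine lintegral_congr fun z => ?_
          by_cases hz : T z ∈ A
          · rw [Set.indicator_of_mem (show z ∈ T ⁻¹' A from hz), Set.indicator_of_mem hz, hDT]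
          · rw [Set.indicator_of_notMem (show z ∉ T ⁻¹' A from hz), Set.indicator_of_notMem hz]
      _ = ∫⁻ z, (A.indicator D) z ∂((volume : Measure (Eu d)).prod (volume : Measure (Eu d))) :=
          h.lintegral_comp (hDm.indicator hA)

theorem exists_carrier (d : ℕ) : ∃ Cg CP, Carrier d Cg CP := by
  refine ⟨fun x B z => (carE x B z).1, fun x B z => (carE x B z).2, ?_⟩
  refine ⟨fun B z => by rw [carE_zero]; rfl, fun B z => by rw [carE_zero]; rfl, fun B z x => ?_,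
    fun B z x => ?_, continuous_fst.comp carE_cont, continuous_snd.comp carE_cont,
    fun B hB x => ?_, fun B hB x z => carE_norm B hB x z⟩
  · exact (ContinuousLinearMap.fst ℝ (Eu d) (Eu d)).hasFDerivAt.comp_hasDerivAt x
      (carE_deriv B z x)
  · exact (ContinuousLinearMap.snd ℝ (Eu d) (Eu d)).hasFDerivAt.comp_hasDerivAt x
      (carE_deriv B z x)
  · exact car_law (carE_pres B hB x) (carE_norm B hB x)

/-- The derivatives of the rotation. -/
noncomputable def carT (Cg CP : ℝ → (Eu d →L[ℝ] Eu d) → Eu d × Eu d → Eu d)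
    (B : Eu d →L[ℝ] Eu d) (z : Eu d × Eu d) : ℕ → ℝ → Eu d × Eu d
  | 0, x => (Cg x B z, CP x B z)
  | j + 1, x => carJ B (carT Cg CP B z j x)

theorem carT_deriv {Cg CP : ℝ → (Eu d →L[ℝ] Eu d) → Eu d × Eu d → Eu d} (hC : Carrier d Cg CP)
    (B : Eu d →L[ℝ] Eu d) (z : Eu d × Eu d) (j : ℕ) (x : ℝ) :
    HasDerivAt (carT Cg CP B z j) (carT Cg CP B z (j + 1) x) x := by
  induction j with
  | zero => exact (hC.dg B z x).prodMk (hC.dP B z x)
  | succ j ih => exact (carJ B).hasFDerivAt.comp_hasDerivAt x ih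

theorem carT_norm {Cg CP : ℝ → (Eu d →L[ℝ] Eu d) → Eu d × Eu d → Eu d} (hC : Carrier d Cg CP)
    (B : Eu d →L[ℝ] Eu d) (hB : ∀ u v, inner ℝ (B u) v = inner ℝ u (B v)) (hB1 : ‖B‖ ≤ 1)
    (z : Eu d × Eu d) (j : ℕ) (x : ℝ) :
    ‖(carT Cg CP B z j x).1‖ ^ 2 + ‖(carT Cg CP B z j x).2‖ ^ 2 ≤ (‖z.1‖ + ‖z.2‖) ^ 2 := by
  induction j with
  | zero =>
    have h1 := hC.norm B hB x z
    change ‖Cg x B z‖ ^ 2 + ‖CP x B z‖ ^ 2 ≤ _
    rw [h1]
    (clear * -; nlinarith [norm_nonneg z.1, norm_nonneg z.2])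
  | succ j ih =>
    have hle : ∀ v, ‖B v‖ ^ 2 ≤ ‖v‖ ^ 2 := fun v => by
      have := B.le_of_opNorm_le hB1 v
      rw [one_mul] at this
      exact pow_le_pow_left₀ (norm_nonneg _) this 2
    change ‖-B (carT Cg CP B z j x).2‖ ^ 2 + ‖B (carT Cg CP B z j x).1‖ ^ 2 ≤ _
    rw [norm_neg]
    linarith only [ih, hle (carT Cg CP B z j x).2, hle (carT Cg CP B z j x).1]

theorem carT_fst_le {Cg CP : ℝ → (Eu d →L[ℝ] Eu d) → Eu d × Eu d → Eu d} (hC : Carrier d Cg CP)
    (B : Eu d →L[ℝ] Eu d) (hB : ∀ u v, inner ℝ (B u) v = inner ℝ u (B v)) (hB1 : ‖B‖ ≤ 1)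
    (z : Eu d × Eu d) (j : ℕ) (x : ℝ) : ‖(carT Cg CP B z j x).1‖ ≤ ‖z.1‖ + ‖z.2‖ := by
  have h1 := carT_norm hC B hB hB1 z j x
  exact abs_le_of_sq_le_sq' (by nlinarith only [h1])
    (by (clear * -; positivity)) |>.2

theorem carT_snd_le {Cg CP : ℝ → (Eu d →L[ℝ] Eu d) → Eu d × Eu d → Eu d} (hC : Carrier d Cg CP)
    (B : Eu d →L[ℝ] Eu d) (hB : ∀ u v, inner ℝ (B u) v = inner ℝ u (B v)) (hB1 : ‖B‖ ≤ 1)
    (z : Eu d × Eu d) (j : ℕ) (x : ℝ) : ‖(carT Cg CP B z j x).2‖ ≤ ‖z.1‖ + ‖z.2‖ := by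
  have h1 := carT_norm hC B hB hB1 z j x
  exact abs_le_of_sq_le_sq' (by nlinarith only [h1])
    (by (clear * -; positivity)) |>.2

theorem car_int_le {f : ℝ → Eu d} (hf : Continuous f) {R b : ℝ} (hb : 0 ≤ b)
    (h : ∀ t, ‖f t‖ ≤ R) : ∫ t in (0 : ℝ)..b, ‖f t‖ ≤ b * R := by
  have h1 := intervalIntegral.integral_mono (μ := volume) hb
    (hf.norm.intervalIntegrable 0 b) (intervalIntegrable_const (c := R)) h
  simpa only [ge_iff_le, intervalIntegral.integral_const, sub_zero, smul_eq_mul] using h1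

theorem carrier_nodes {p : ℕ} (hp : 2 ≤ p) {cA : Fin p → Fin p → ℝ} {α β : Fin (p + 1) → ℝ}
    {K : ℝ} (hI : InterpData p cA α β K) : ∃ C, 0 ≤ C ∧ ∀ (d : ℕ)
      (Cg CP : ℝ → (Eu d →L[ℝ] Eu d) → Eu d × Eu d → Eu d), Carrier d Cg CP →
      ∀ B : Eu d →L[ℝ] Eu d, (∀ u v, inner ℝ (B u) v = inner ℝ u (B v)) → ‖B‖ ≤ 1 →
      ∀ b : ℝ, 0 < b → b ≤ 1 → ∀ z : Eu d × Eu d,
        (∀ i : Fin p, ‖Cg (((i : ℝ) + 1) / p * b) B z - (z.1
          - b • ∑ j : Fin p, cA i j • B (CP (((j : ℝ) + 1) / p * b) B z))‖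
            ≤ C * b ^ (p + 1) * (‖z.1‖ + ‖z.2‖)) ∧
        (∀ i : Fin p, ‖CP (((i : ℝ) + 1) / p * b) B z - (z.2
          + b • ∑ j : Fin p, cA i j • B (Cg (((j : ℝ) + 1) / p * b) B z))‖
            ≤ C * b ^ (p + 1) * (‖z.1‖ + ‖z.2‖)) ∧
        ‖B (B z.1) + (b⁻¹) ^ 2 • (β 0 • z.1 + ∑ e : Fin p, β e.succ •
          Cg (((e : ℝ) + 1) / p * b) B z)‖ ≤ C * b ^ (p - 1) * (‖z.1‖ + ‖z.2‖) := by
  refine ⟨K, hI.K0, fun d Cg CP hC B hB hB1 b hb hb1 z => ?_⟩
  have hBle : ∀ v, ‖B v‖ ≤ ‖v‖ := fun v => by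
    have := B.le_of_opNorm_le hB1 v
    rwa [one_mul] at this
  have hd := carT_deriv hC B z
  have hd1 : ∀ j x, HasDerivAt (fun x => (carT Cg CP B z j x).1) (carT Cg CP B z (j + 1) x).1 x :=
    fun j x => (ContinuousLinearMap.fst ℝ (Eu d) (Eu d)).hasFDerivAt.comp_hasDerivAt x (hd j x)
  have hd2 : ∀ j x, HasDerivAt (fun x => (carT Cg CP B z j x).2) (carT Cg CP B z (j + 1) x).2 x :=
    fun j x => (ContinuousLinearMap.snd ℝ (Eu d) (Eu d)).hasFDerivAt.comp_hasDerivAt x (hd j x)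
  have hdB1 : ∀ j x, HasDerivAt (fun x => B (carT Cg CP B z j x).1)
      (B (carT Cg CP B z (j + 1) x).1) x := fun j x => B.hasFDerivAt.comp_hasDerivAt x (hd1 j x)
  have hdB2 : ∀ j x, HasDerivAt (fun x => B (carT Cg CP B z j x).2)
      (B (carT Cg CP B z (j + 1) x).2) x := fun j x => B.hasFDerivAt.comp_hasDerivAt x (hd2 j x)
  have hcg : Continuous (fun x => B (Cg x B z)) := continuous_iff_continuousAt.2
    fun x => (hdB1 0 x).continuousAt
  have hcP : Continuous (fun x => B (CP x B z)) := continuous_iff_continuousAt.2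
    fun x => (hdB2 0 x).continuousAt
  have hbp : b ^ p * (b * (‖z.1‖ + ‖z.2‖)) = b ^ (p + 1) * (‖z.1‖ + ‖z.2‖) := by ring
  refine ⟨fun i => ?_, fun i => ?_, ?_⟩
  · have ht : Tower b p (fun j x => B (carT Cg CP B z j x).2) :=
      ⟨fun j _ t _ => (hdB2 j t).hasDerivWithinAt,
        fun t _ => (hdB2 p t).continuousAt.continuousWithinAt⟩
    have h1 := hI.errA (Eu d) b hb _ ht i
    have h2 : ∫ t in (0 : ℝ)..(((i : ℝ) + 1) / p * b), B (carT Cg CP B z 0 t).2 =
        z.1 - Cg (((i : ℝ) + 1) / p * b) B z := by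
      have h3 := intervalIntegral.integral_eq_sub_of_hasDerivAt
        (a := 0) (b := ((i : ℝ) + 1) / p * b)
        (fun x _ => (hC.dg B z x).neg) ((by simpa only [neg_neg] using hcP : Continuous
          (fun x => - -B (CP x B z))).intervalIntegrable _ _)
      simp only [neg_neg, Pi.neg_apply] at h3
      change ∫ t in (0 : ℝ)..(((i : ℝ) + 1) / p * b), B (CP t B z) = _
      rw [h3, hC.g0]
      abel
    rw [h2] at h1
    have h4 : Cg (((i : ℝ) + 1) / p * b) B z - (z.1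
          - b • ∑ j : Fin p, cA i j • B (CP (((j : ℝ) + 1) / p * b) B z)) =
        -(z.1 - Cg (((i : ℝ) + 1) / p * b) B z
          - b • ∑ j : Fin p, cA i j • B (CP (((j : ℝ) + 1) / p * b) B z)) := by abel
    rw [h4, norm_neg]
    refine h1.trans ?_
    have h5 := car_int_le (f := fun t => B (carT Cg CP B z p t).2)
      (continuous_iff_continuousAt.2 fun x => (hdB2 p x).continuousAt) hb.le
      (R := ‖z.1‖ + ‖z.2‖) (fun t => (hBle _).trans (carT_snd_le hC B hB hB1 z p t))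
    calc K * b ^ p * _ ≤ K * b ^ p * (b * (‖z.1‖ + ‖z.2‖)) :=
          mul_le_mul_of_nonneg_left h5 (mul_nonneg hI.K0 (by positivity))
      _ = _ := by ring
  · have ht : Tower b p (fun j x => B (carT Cg CP B z j x).1) :=
      ⟨fun j _ t _ => (hdB1 j t).hasDerivWithinAt,
        fun t _ => (hdB1 p t).continuousAt.continuousWithinAt⟩
    have h1 := hI.errA (Eu d) b hb _ ht i
    have h2 : ∫ t in (0 : ℝ)..(((i : ℝ) + 1) / p * b), B (carT Cg CP B z 0 t).1 =
        CP (((i : ℝ) + 1) / p * b) B z - z.2 := by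
      have h3 := intervalIntegral.integral_eq_sub_of_hasDerivAt
        (a := 0) (b := ((i : ℝ) + 1) / p * b)
        (fun x _ => (hC.dP B z x)) (hcg.intervalIntegrable _ _)
      change ∫ t in (0 : ℝ)..(((i : ℝ) + 1) / p * b), B (Cg t B z) = _
      rw [h3, hC.P0]
    rw [h2] at h1
    have h4 : CP (((i : ℝ) + 1) / p * b) B z - (z.2
          + b • ∑ j : Fin p, cA i j • B (Cg (((j : ℝ) + 1) / p * b) B z)) =
        (CP (((i : ℝ) + 1) / p * b) B z - z.2)
          - b • ∑ j : Fin p, cA i j • B (Cg (((j : ℝ) + 1) / p * b) B z) := by abel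
    rw [h4]
    refine h1.trans ?_
    have h5 := car_int_le (f := fun t => B (carT Cg CP B z p t).1)
      (continuous_iff_continuousAt.2 fun x => (hdB1 p x).continuousAt) hb.le
      (R := ‖z.1‖ + ‖z.2‖) (fun t => (hBle _).trans (carT_fst_le hC B hB hB1 z p t))
    calc K * b ^ p * _ ≤ K * b ^ p * (b * (‖z.1‖ + ‖z.2‖)) :=
          mul_le_mul_of_nonneg_left h5 (mul_nonneg hI.K0 (by positivity))
      _ = _ := by ring
  · have ht : Tower b (p + 1) (fun j x => (carT Cg CP B z j x).1) :=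
      ⟨fun j _ t _ => (hd1 j t).hasDerivWithinAt,
        fun t _ => (hd1 (p + 1) t).continuousAt.continuousWithinAt⟩
    have h1 := hI.errβ (Eu d) b hb _ ht
    have h2 : (carT Cg CP B z 2 0).1 = -B (B z.1) := by
      change -B (B (Cg 0 B z)) = _
      rw [hC.g0]
    rw [h2, Fin.sum_univ_succ] at h1
    have h3 : (carT Cg CP B z 0 (((0 : Fin (p + 1)) : ℝ) / p * b)).1 = z.1 := by
      change Cg (((0 : Fin (p + 1)) : ℝ) / p * b) B z = _
      rw [Fin.val_zero, Nat.cast_zero, zero_div, zero_mul, hC.g0]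
    rw [h3] at h1
    have h4 : B (B z.1) + (b⁻¹) ^ 2 • (β 0 • z.1 + ∑ e : Fin p, β e.succ •
          Cg (((e : ℝ) + 1) / p * b) B z) =
        -(-B (B z.1) - (b⁻¹) ^ 2 • (β 0 • z.1 + ∑ e : Fin p, β e.succ •
          (carT Cg CP B z 0 (((e.succ : Fin (p + 1)) : ℝ) / p * b)).1)) := by
      have h5 : ∀ e : Fin p, (carT Cg CP B z 0 (((e.succ : Fin (p + 1)) : ℝ) / p * b)).1 =
          Cg (((e : ℝ) + 1) / p * b) B z := by
        intro e
        change Cg (((e.succ : Fin (p + 1)) : ℝ) / p * b) B z = _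
        rw [Fin.val_succ, Nat.cast_add, Nat.cast_one]
      simp_rw [h5]
      abel
    rw [h4, norm_neg]
    refine h1.trans ?_
    have h5 := car_int_le (f := fun t => (carT Cg CP B z (p + 1) t).1)
      (continuous_iff_continuousAt.2 fun x => (hd1 (p + 1) x).continuousAt) hb.le
      (R := ‖z.1‖ + ‖z.2‖) (fun t => carT_fst_le hC B hB hB1 z (p + 1) t)
    calc K * b ^ (p - 2) * _ ≤ K * b ^ (p - 2) * (b * (‖z.1‖ + ‖z.2‖)) :=
          mul_le_mul_of_nonneg_left h5 (mul_nonneg hI.K0 (by positivity))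
      _ = _ := by
        obtain ⟨q, rfl⟩ : ∃ q, p = q + 2 := ⟨p - 2, by omega⟩
        rw [show q + 2 - 2 = q by omega, show q + 2 - 1 = q + 1 by omega]
        ring

/-- If `(c, g, P)` has law `ρ ⊗ γ ⊗ γ` then `(c, g_x)` and `(c, P_x)` have law `ρ ⊗ γ`, where the rotation
depends measurably on `c`. -/
theorem carrier_law {Cg CP : ℝ → (Eu d →L[ℝ] Eu d) → Eu d × Eu d → Eu d} (hC : Carrier d Cg CP)
    {ρ : Measure (Eu d)} [IsProbabilityMeasure ρ] {B : Eu d → (Eu d →L[ℝ] Eu d)}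
    (hB : Measurable B) (hs : ∀ c u v, inner ℝ (B c u) v = inner ℝ u (B c v)) (x : ℝ) :
    (ρ.prod ((gam (Eu d)).prod (gam (Eu d)))).map (fun q => (q.1, Cg x (B q.1) q.2))
        = ρ.prod (gam (Eu d)) ∧
      (ρ.prod ((gam (Eu d)).prod (gam (Eu d)))).map (fun q => (q.1, CP x (B q.1) q.2))
        = ρ.prod (gam (Eu d)) := by
  have _ : ProperSpace (Eu d →L[ℝ] Eu d) := FiniteDimensional.proper_real _
  have _ : SecondCountableTopology (Eu d →L[ℝ] Eu d) := inferInstance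
  have key : ∀ G : ℝ → (Eu d →L[ℝ] Eu d) → Eu d × Eu d → Eu d,
      Continuous (fun q : ℝ × (Eu d →L[ℝ] Eu d) × (Eu d × Eu d) => G q.1 q.2.1 q.2.2) →
      (∀ c, ((gam (Eu d)).prod (gam (Eu d))).map (fun z => G x (B c) z) = gam (Eu d)) →
      (ρ.prod ((gam (Eu d)).prod (gam (Eu d)))).map (fun q => (q.1, G x (B q.1) q.2))
        = ρ.prod (gam (Eu d)) := by
    intro G hG hlaw
    have hm : Measurable (fun q : Eu d × (Eu d × Eu d) => (q.1, G x (B q.1) q.2)) := by
      have h1 : Measurable (fun q : Eu d × (Eu d × Eu d) =>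
          ((x, B q.1, q.2) : ℝ × (Eu d →L[ℝ] Eu d) × (Eu d × Eu d))) :=
        measurable_const.prodMk ((hB.comp measurable_fst).prodMk measurable_snd)
      exact measurable_fst.prodMk (hG.measurable.comp h1)
    refine Measure.ext fun s hs' => ?_
    rw [Measure.map_apply hm hs', Measure.prod_apply (hm hs'), Measure.prod_apply hs']
    refine lintegral_congr fun c => ?_
    have hmc : Measurable (fun z : Eu d × Eu d => G x (B c) z) := by
      have h1 : Continuous (fun z : Eu d × Eu d =>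
          ((x, B c, z) : ℝ × (Eu d →L[ℝ] Eu d) × (Eu d × Eu d))) := by fun_prop
      exact (hG.comp h1).measurable
    have e := congrArg (fun μ => μ (Prod.mk c ⁻¹' s)) (hlaw c)
    simp only [Measure.map_apply hmc (measurable_prodMk_left hs')] at e
    exact e
  have hmeas : ∀ c, Measurable (fun z : Eu d × Eu d => (Cg x (B c) z, CP x (B c) z)) := by
    intro c
    have h1 : Continuous (fun z : Eu d × Eu d =>
        ((x, B c, z) : ℝ × (Eu d →L[ℝ] Eu d) × (Eu d × Eu d))) := by fun_prop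
    exact (hC.cg.comp h1).measurable.prodMk (hC.cP.comp h1).measurable
  refine ⟨key Cg hC.cg fun c => ?_, key CP hC.cP fun c => ?_⟩
  · have h1 := congrArg (fun μ => Measure.map Prod.fst μ) (hC.law (B c) (hs c) x)
    simp only at h1
    rw [Measure.map_map measurable_fst (hmeas c), Measure.map_fst_prod, measure_univ,
      one_smul] at h1
    exact h1
  · have h1 := congrArg (fun μ => Measure.map Prod.snd μ) (hC.law (B c) (hs c) x)
    simp only at h1
    rw [Measure.map_map measurable_snd (hmeas c), Measure.map_snd_prod, measure_univ,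
      one_smul] at h1
    exact h1

end Vale.Agent.P347.Z
end

section

/-! Module M8 (P347, S): the sampler of the plain down step. -/

open MeasureTheory Filter Module
open scoped ENNReal NNReal
open Vale.Agent.P347.Z

namespace Vale.Agent.P347.S

variable {d : ℕ}

/-- The content of `DownStatement` for given `p`, `C` at the level `s` with the step `θ`. -/
def DownAt (p : ℕ) (C s θ : ℝ) : Prop :=
  ∃ net : DNet p, net.Good s θ (C * (θ * s)) ∧
    ∀ (d : ℕ) (V : Eu d → ℝ) (G : Eu d → Eu d) (H : Eu d → Eu d →L[ℝ] Eu d), Pot V G H →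
      1 ≤ d → ∃ c : Eu d → Eu d → Eu d, Continuous (fun z : Eu d × Eu d => c z.1 z.2) ∧
        (∀ y y' a, ‖c y a - c y' a‖ ≤ (1 - θ * s / 4) * ‖y - y'‖) ∧
        ((gibbs (Wp V s)).prod (gam (Eu d))).map (fun z => c z.1 z.2)
          = gibbs (Wp V ((1 - θ) * s)) ∧
        ∀ y, ∃ (X : Fin p → Eu d → Eu d) (R : Eu d → ℝ),
          (∀ i, Measurable (X i)) ∧ Measurable R ∧ (∀ a, 0 ≤ R a) ∧
          (∀ i a, ‖X i a - (y + net.t i • a
            + ∑ j, net.w i j • Fp V G (net.lev j) (X j a))‖ ≤ R a) ∧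
          (∀ a, ‖c y a - (y + √(θ * s) • a
            + ∑ j, net.wo j • Fp V G (net.lev j) (X j a))‖ ≤ R a) ∧
          Integrable R (gam (Eu d)) ∧ ∫ a, R a ∂(gam (Eu d)) ≤ C * (√θ) ^ p * √d ∧
          (∀ i, Integrable (fun a => ‖X i a‖) (gam (Eu d))) ∧
          (∀ i, ∫ a, ‖X i a‖ ∂(gam (Eu d)) ≤ 2 * (‖y‖ + √d))

theorem downAt_of (h : DownStatement) (p : ℕ) (hp : 2 ≤ p) : ∃ C, 1 ≤ C ∧
    ∀ s θ : ℝ, 0 < s → s ≤ 1 / 4 → 0 < θ → θ ≤ 1 / (8 * p) → DownAt p C s θ :=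
  h p hp

/-- `StepTo A V s s' c ε`: the sampler `A` (parameter `y`) approximates a kernel which maps
`gibbs (Wp V s)` to `gibbs (Wp V s')` and contracts by the factor `c`. -/
structure StepTo (A : Samp d (Eu d) (Eu d)) (V : Eu d → ℝ) (s s' c ε : ℝ)
    (Q : Eu d → Measure (Eu d)) : Prop where
  prob : ∀ y, IsProbabilityMeasure (Q y)
  meas : ∀ f : Eu d → ℝ, Measurable f → (∃ C, ∀ x, |f x| ≤ C) → Measurable fun y => ∫ x, f x ∂(Q y)
  contr : ∀ y y', WD (Q y) (Q y') (c * ‖y - y'‖)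
  inv : ∀ f : Eu d → ℝ, Measurable f → (∃ C, ∀ x, |f x| ≤ C) →
    ∫ y, (∫ x, f x ∂(Q y)) ∂(gibbs (Wp V s)) = ∫ x, f x ∂(gibbs (Wp V s'))
  err : ∀ y, WD (A.law V y) (Q y) (ε * (‖y‖ + √d))

theorem ds_eta_pos {ϖ : ℝ} (h : 0 < ϖ) (l m : ℕ) : 0 < eta ϖ l m := by
  unfold eta; (clear * - h; positivity)

theorem ds_eta_step {ϖ : ℝ} (h : 0 < ϖ) (h1 : ϖ ≤ 1) (l m : ℕ) :
    ϖ * eta ϖ l m ≤ eta ϖ (l + 1) m := by
  unfold eta
  rw [← pow_succ']
  exact pow_le_pow_of_le_one h.le h1 (by omega)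

theorem ds_eta_lo {ϖ : ℝ} (h : 0 < ϖ) (h1 : ϖ ≤ 1) {l L : ℕ} (m : ℕ) (hl : l ≤ L) :
    ϖ ^ L ≤ eta ϖ l m := by
  unfold eta
  exact pow_le_pow_of_le_one h.le h1 ((min_le_left _ _).trans hl)

theorem ds_eta_zero (ϖ : ℝ) (m : ℕ) : eta ϖ 0 m = 1 := by
  unfold eta; simp only [zero_le, inf_of_le_left, pow_zero]

theorem ds_j2 {p : ℕ} {C δ : ℝ} (hC : 1 ≤ C) (hδ : 0 < δ) (j2 : C * √(8 * p * δ) ≤ 1) :
    C ^ 2 * (8 * p * δ) ≤ 1 := by
  have h2 : (C * √(8 * p * δ)) ^ 2 ≤ 1 ^ 2 :=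
    pow_le_pow_left₀ (by (clear * - hC; (clear * - hC; positivity))) j2 2
  rw [mul_pow, Real.sq_sqrt (by (clear * - hδ; positivity))] at h2
  simpa only [ge_iff_le, one_pow] using h2

/-- The condition on the ratio class. -/
theorem ds_class {p : ℕ} (hp : 1 ≤ p) {C δ ϖ s σ wt lv : ℝ} {mm : ℕ} (hC : 1 ≤ C) (hδ : 0 < δ)
    (j2 : C * √(8 * p * δ) ≤ 1) (hs : 0 < s) (hs' : s ≤ ϖ ^ (2 * mm))
    (hw : |wt| ≤ C * (δ * s)) (hl : lv ≤ s) (hσ : 0 < σ) (h : 3 * δ * s / (16 * p) ≤ σ ^ 2) :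
    |wt| * √lv ≤ ϖ ^ (2 * mm) * σ := by
  have hp' : (0 : ℝ) < p := by exact_mod_cast hp
  have h1 := ds_j2 hC hδ j2
  have h3 : C * δ * √s ≤ σ := by
    refine (pow_le_pow_iff_left₀ (by (clear * - hC hδ hs; positivity)) hσ.le two_ne_zero).1 ?_
    refine le_trans ?_ h
    rw [mul_pow, Real.sq_sqrt hs.le, le_div_iff₀ (by (clear * - hp; positivity))]
    have h4 := mul_le_mul_of_nonneg_right h1 (mul_pos hδ hs).le
    nlinarith only [(mul_pos hδ hs), h4]
  calc |wt| * √lv ≤ (C * (δ * s)) * √s :=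
        mul_le_mul hw (Real.sqrt_le_sqrt hl) (Real.sqrt_nonneg _) (by (clear * - hC hδ hs; positivity))
    _ = s * (C * δ * √s) := by ring
    _ ≤ ϖ ^ (2 * mm) * σ := mul_le_mul hs' h3 (by positivity) (hs.le.trans hs')

/-- One node: a sum of evaluations. -/
theorem ds_node {p lmax D B mm : ℕ} {v ϖ a Λ smax : ℝ}
    (hev : ∀ l ≤ lmax, ∀ s, 0 < s → s ≤ smax → EvalAt d v ϖ D l mm s a Λ B)
    {l : ℕ} (hl : l ≤ lmax) (lev w : Fin p → ℝ) (hlev : ∀ j, 0 < lev j)
    (hlev' : ∀ j, lev j ≤ smax)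
    {σ : ℝ} (hσ : 0 < σ) (hw : ∀ j, |w j| * √(lev j) ≤ ϖ ^ (2 * mm) * σ)
    (Θ : Type) [MeasurableSpace Θ] (f : Θ → Eu d) (hf : Measurable f)
    (H : ℕ → Fin p → Samp d Θ (Eu d)) (hH : ∀ l' ≤ l, ∀ j, (H l' j).cost ≤ D ^ l') :
    ∃ A : Samp d Θ (Eu d), A.cost ≤ p * (B * D ^ l) ∧
      ∀ V ∈ PotClass d, ∀ θ (X : Fin p → Eu d) (e : ℝ), (∀ j, ‖X j‖ + √d ≤ e) →
        (∀ l' ≤ l, ∀ j, WD ((H l' j).law V θ) (gau (X j) (√(v * lev j))) (eta ϖ l' mm * e)) →
        WD (A.law V θ) (gau (f θ + ∑ j, w j • Fp V (gradient V) (lev j) (X j))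
          (√(p * σ ^ 2))) (∑ j, |w j| * a * eta ϖ l mm * e) := by
  choose A hAc _ hAe using fun j =>
    hev l hl (lev j) (hlev j) (hlev' j) (w j) σ hσ (hw j) Θ (fun l' => H l' j)
  obtain ⟨A1, hA1c, hA1⟩ := exists_sum A
  obtain ⟨A0, hA0c, hA0⟩ := exists_pure (d := d) f hf
  obtain ⟨A2, hA2c, hA2⟩ := exists_add A0 A1
  refine ⟨A2, ?_, ?_⟩
  · rw [hA2c, hA0c, hA1c, zero_add]
    calc ∑ i, (A i).cost ≤ ∑ i : Fin p, B * D ^ l :=
          Finset.sum_le_sum fun i _ => by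
            simpa only [mul_one] using hAc i 1 le_rfl (fun l' h' => by simpa using hH l' h' i)
      _ = p * (B * D ^ l) := by simp only [Finset.sum_const, Finset.card_univ, Fintype.card_fin, smul_eq_mul]
  · intro V hV θ X e he hWD
    have : ∀ j, IsProbabilityMeasure ((A j).law V θ) := fun j => (A j).isProb hV θ
    rw [hA2 V hV θ, hA0 V hV θ, hA1 V hV θ, ← gau_zero]
    have h1 := WD.cnvSum (fun j => hAe j V hV θ (X j) e (he j) (fun l' h' => hWD l' h' j))
    rw [cnvSum_gau] at h1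
    have h2 := WD.cnv (WD.refl (gau (f θ) 0)) h1
    rw [gau_cnv, zero_add] at h2
    have h3 : √(0 ^ 2 + √(∑ i : Fin p, σ ^ 2) ^ 2) = √(p * σ ^ 2) := by
      rw [Real.sq_sqrt (by (clear * - hσ; (clear * - hσ; positivity)))]
      simp only [ne_eq, OfNat.ofNat_ne_zero, not_false_eq_true, zero_pow, Finset.sum_const, Finset.card_univ, Fintype.card_fin, nsmul_eq_mul, zero_add, Nat.cast_nonneg, Real.sqrt_mul]
    rw [h3] at h2
    exact h2

/-- The sum of the weights of one node. -/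
theorem ds_wsum {p : ℕ} {C δ s a η e : ℝ} (ha : 0 ≤ a) (hη : 0 ≤ η) (he : 0 ≤ e)
    (w : Fin p → ℝ) (hw : ∀ j, |w j| ≤ C * (δ * s)) :
    ∑ j, |w j| * a * η * e ≤ p * (C * (δ * s)) * a * η * e := by
  calc ∑ j, |w j| * a * η * e ≤ ∑ _j : Fin p, C * (δ * s) * a * η * e :=
        Finset.sum_le_sum fun j _ => by
          have := hw j
          gcongr
    _ = p * (C * (δ * s)) * a * η * e := by
        rw [Finset.sum_const, Finset.card_univ, Fintype.card_fin, nsmul_eq_mul]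
        ring

/-- A Gaussian sampler with a measurable centre. -/
theorem ds_gau {Θ : Type} [MeasurableSpace Θ] (f : Θ → Eu d) (hf : Measurable f) {σ : ℝ}
    (hσ : 0 ≤ σ) : ∃ A : Samp d Θ (Eu d), A.cost = 0 ∧
      ∀ V ∈ PotClass d, ∀ θ, A.law V θ = gau (f θ) σ := by
  obtain ⟨A0, hA0c, hA0⟩ := exists_pure (d := d) f hf
  obtain ⟨A1, hA1c, hA1⟩ := exists_noise (d := d) (Θ := Θ) (gau (0 : Eu d) σ)
  obtain ⟨A2, hA2c, hA2⟩ := exists_add A0 A1
  refine ⟨A2, by rw [hA2c, hA0c, hA1c], fun V hV θ => ?_⟩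
  rw [hA2 V hV θ, hA0 V hV θ, hA1 V hV θ, ← gau_zero, gau_cnv, add_zero]
  congr 1
  simp [Real.sqrt_sq hσ]

/-- Samplers of all the nodes. -/
theorem ds_handles {p lmax mmax B D : ℕ} {C δ ϖ a Λ smax : ℝ} (hp : 1 ≤ p) (hC : 1 ≤ C)
    (hδ : 0 < δ) (hδ' : δ ≤ 1 / (8 * p)) (hϖ : 0 < ϖ) (hϖ' : ϖ < 1) (ha : 2 ≤ a)
    (hs1 : smax ≤ 1 / 4) (hmm : 1 ≤ mmax) (j1 : smax ≤ ϖ ^ (2 * mmax))
    (j2 : C * √(8 * p * δ) ≤ 1) (j3 : 8 * p * C * a * ϖ ≤ 1) (j5 : p * B ≤ D)
    (hev : ∀ l ≤ lmax, ∀ s, 0 < s → s ≤ smax → EvalAt d (δ / 4) ϖ D l mmax s a Λ B)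
    {s : ℝ} (hs : 0 < s) (hs' : s ≤ smax) (net : DNet p) (hnet : net.Good s δ (C * (δ * s)))
    (L : ℕ) (hL : L ≤ lmax) :
    ∃ H : ℕ → Fin p → Samp d (Eu d × Eu d) (Eu d), (∀ l ≤ L, ∀ i, (H l i).cost ≤ D ^ l) ∧
      ∀ V ∈ PotClass d, ∀ (y av : Eu d) (X : Fin p → Eu d) (r : ℝ), 0 ≤ r →
        (∀ i, ‖X i - (y + net.t i • av
          + ∑ j, net.w i j • Fp V (gradient V) (net.lev j) (X j))‖ ≤ r) →
        ∀ l ≤ L, ∀ i, WD ((H l i).law V (y, av)) (gau (X i) (√(δ / 4 * net.lev i)))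
          (eta ϖ l mmax * (‖y‖ + √d + ∑ j, (‖X j‖ + √d) + 2 * r / ϖ ^ lmax)) := by
  have hp' : (1 : ℝ) ≤ p := by exact_mod_cast hp
  have hj2 := ds_j2 hC hδ j2
  have hC2 : C ≤ C ^ 2 := by (refine le_of_not_gt fun hng_ => ?_; linarith only [mul_nonneg (sub_nonneg.2 hs1) (le_of_lt (sub_pos.2 hng_)), mul_nonneg (sub_nonneg.2 hs') (le_of_lt (sub_pos.2 hng_)), mul_pos hs (sub_pos.2 hng_), mul_nonneg (sub_nonneg.2 hC) (sub_nonneg.2 hC), mul_nonneg (sub_nonneg.2 hC) (sub_nonneg.2 hs'), mul_nonneg (sub_nonneg.2 hC) (sub_nonneg.2 hs1), mul_nonneg (sub_nonneg.2 hC) (le_of_lt hs)])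
  have hδ8 : δ ≤ 1 / 8 := hδ'.trans (by
    apply div_le_div_of_nonneg_left (by norm_num) (by norm_num); linarith only [hp'])
  have hCδ : C * δ ≤ 1 / 8 := by
    have h1 : C * δ ≤ C ^ 2 * (p * δ) := by
      have : C * δ ≤ C ^ 2 * δ := mul_le_mul_of_nonneg_right hC2 hδ.le
      have h2 : C ^ 2 * δ ≤ C ^ 2 * (p * δ) := by
        have : δ ≤ p * δ := by nlinarith only [hδ, hp']
        exact mul_le_mul_of_nonneg_left this (by positivity)
      linarith only [h2, this]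
    linarith only [h1, hj2]
  have hsq : s ≤ 1 / 4 := hs'.trans hs1
  have hlev0 : ∀ i, 3 / 4 * s ≤ net.lev i := fun i =>
    le_trans (by (refine le_of_not_gt fun hng_ => ?_; linarith only [mul_nonneg (sub_nonneg.2 hsq) (le_of_lt (sub_pos.2 hng_)), mul_pos hs (sub_pos.2 hng_), mul_nonneg (le_of_lt hs) (sub_nonneg.2 hδ8)])) (hnet.lev_lo i)
  have hlevp : ∀ i, 0 < net.lev i := fun i => lt_of_lt_of_le (by (clear * - hs; positivity)) (hlev0 i)
  have hpw : ∀ k : ℕ, 0 < ϖ ^ k := fun k => by positivity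
  -- the quantity `e*`
  have he0 : ∀ (y : Eu d) (X : Fin p → Eu d) (r : ℝ), 0 ≤ r →
      0 ≤ ‖y‖ + √d + ∑ j, (‖X j‖ + √d) + 2 * r / ϖ ^ lmax := fun y X r hr => by
    have : 0 ≤ ∑ j, (‖X j‖ + √d) := Finset.sum_nonneg fun j _ => by (clear * -; (clear * -; positivity))
    have := hpw lmax
    (clear * - hr hϖ; positivity)
  have heX : ∀ (y : Eu d) (X : Fin p → Eu d) (r : ℝ), 0 ≤ r → ∀ j,
      ‖X j‖ + √d ≤ ‖y‖ + √d + ∑ j, (‖X j‖ + √d) + 2 * r / ϖ ^ lmax := fun y X r hr j => by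
    have h1 : ‖X j‖ + √d ≤ ∑ j, (‖X j‖ + √d) :=
      Finset.single_le_sum (f := fun j => ‖X j‖ + √d) (fun i _ => by (clear * -; positivity))
        (Finset.mem_univ j)
    have := hpw lmax
    have : 0 ≤ 2 * r / ϖ ^ lmax := by (clear * - hr hϖ; positivity)
    have := norm_nonneg y
    have := Real.sqrt_nonneg (d : ℝ)
    (clear mmax B D C δ a Λ smax hp hC hδ hδ' hϖ' ha hs1 hmm j1 j2 j3 j5 hev s hs hs' net hnet L hL hp' hj2 hC2 hδ8 hCδ hsq hlev0 hlevp he0; linarith)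
  have her : ∀ (y : Eu d) (X : Fin p → Eu d) (r : ℝ), 0 ≤ r →
      2 * r / ϖ ^ lmax ≤ ‖y‖ + √d + ∑ j, (‖X j‖ + √d) + 2 * r / ϖ ^ lmax := fun y X r hr => by
    have : 0 ≤ ∑ j, (‖X j‖ + √d) := Finset.sum_nonneg fun j _ => by (clear * -; positivity)
    have := norm_nonneg y
    have := Real.sqrt_nonneg (d : ℝ)
    (clear mmax B D C δ a Λ smax hp hC hδ hδ' hϖ hϖ' ha hs1 hmm j1 j2 j3 j5 hev s hs hs' net hnet L hL hp' hj2 hC2 hδ8 hCδ hsq hlev0 hlevp hpw he0 heX hr; linarith)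
  induction L with
  | zero =>
    choose A hAc hA using fun i : Fin p => ds_gau (d := d) (Θ := Eu d × Eu d)
      (fun z => z.1 + net.t i • z.2) (by (clear * -; (clear * -; fun_prop))) (Real.sqrt_nonneg (δ / 4 * net.lev i))
    refine ⟨fun _ i => A i, fun l _ i => by rw [hAc]; exact Nat.zero_le _, ?_⟩
    intro V hV y av X r hr hX l hl i
    obtain rfl : l = 0 := by (clear * - hl; (clear * - hl; omega))
    rw [hA i V hV (y, av), ds_eta_zero, one_mul]
    refine WD.mono (wd_gau _ _ _) ?_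
    have h1 : ‖∑ j, net.w i j • Fp V (gradient V) (net.lev j) (X j)‖ ≤ ∑ j, (‖X j‖ + √d) := by
      refine (norm_sum_le _ _).trans (Finset.sum_le_sum fun j _ => ?_)
      rw [norm_smul, Real.norm_eq_abs]
      have h2 := Fp_norm hV (hlevp j) ((hnet.lev_hi j).trans (by linarith only [hsq])) (X j)
      have h3 := hnet.w_le i j
      have h4 : C * (δ * s) ≤ 1 / 32 := by (refine le_of_not_gt fun hng_ => ?_; linarith only [mul_nonneg (sub_nonneg.2 hsq) (le_of_lt (sub_pos.2 hng_)), mul_pos hs (sub_pos.2 hng_), mul_nonneg (le_of_lt hs) (sub_nonneg.2 hsq), mul_nonneg (le_of_lt hs) (sub_nonneg.2 hCδ), mul_nonneg (sub_nonneg.2 hsq) (sub_nonneg.2 hsq)])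
      calc |net.w i j| * ‖Fp V (gradient V) (net.lev j) (X j)‖
          ≤ (1 / 32) * (2 * (‖X j‖ + √d)) :=
            mul_le_mul (h3.trans h4) h2 (norm_nonneg _) (by norm_num)
        _ ≤ ‖X j‖ + √d := by
            have : 0 ≤ ‖X j‖ + √d := by (clear * -; positivity)
            linarith only [this]
    have h5 : ‖y + net.t i • av - X i‖ ≤ r + ∑ j, (‖X j‖ + √d) := by
      have h6 : y + net.t i • av - X i = -(X i - (y + net.t i • av
          + ∑ j, net.w i j • Fp V (gradient V) (net.lev j) (X j)))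
          - ∑ j, net.w i j • Fp V (gradient V) (net.lev j) (X j) := by abel
      rw [h6]
      refine (norm_sub_le _ _).trans ?_
      rw [norm_neg]
      exact add_le_add (hX i) h1
    refine h5.trans ?_
    have h7 : r ≤ 2 * r / ϖ ^ lmax := by
      rw [le_div_iff₀ (hpw lmax)]
      have : ϖ ^ lmax ≤ 1 := pow_le_one₀ hϖ.le hϖ'.le
      (refine le_of_not_gt fun hng_ => ?_; linarith only [mul_nonneg (sub_nonneg.2 hsq) (le_of_lt (sub_pos.2 hng_)), mul_pos hs (sub_pos.2 hng_), mul_nonneg hr (sub_nonneg.2 this), mul_nonneg (sub_nonneg.2 hsq) hr, mul_nonneg (le_of_lt hs) hr])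
    have := norm_nonneg y
    have := Real.sqrt_nonneg (d : ℝ)
    (clear mmax B D C δ a Λ hp hC hδ hδ' ha hmm j1 j2 j3 j5 hev net hnet hp' hj2 hC2 hδ8 hCδ hlev0 hlevp he0 heX her hL A hAc hA V hV av hX i hl h1 h5; linarith)
  | succ L ih =>
    obtain ⟨H, hHc, hHe⟩ := ih (by omega)
    have hcls : ∀ i j, |net.w i j| * √(net.lev j)
        ≤ ϖ ^ (2 * mmax) * √(δ / 4 * net.lev i / p) := fun i j => by
      have := hlevp i
      refine ds_class hp hC hδ j2 hs (hs'.trans j1) (hnet.w_le i j) (hnet.lev_hi j)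
        (by (clear * - hδ this hp; (clear * - hδ this hp; positivity))) ?_
      rw [Real.sq_sqrt (by (clear * - hδ this hp; positivity)), div_le_div_iff₀ (by positivity) (by positivity)]
      have h1 := hlev0 i
      have h2 : 0 < δ * p := by positivity
      nlinarith only [(mul_le_mul_of_nonneg_left h1 h2.le)]
    choose A hAc hAe using fun i : Fin p =>
      ds_node hev (l := L) (by omega) net.lev (net.w i) hlevp (fun j => (hnet.lev_hi j).trans hs')
        (σ := √(δ / 4 * net.lev i / p)) (by have := hlevp i; positivity) (hcls i)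
        (Eu d × Eu d) (fun z => z.1 + net.t i • z.2) (by (clear * -; fun_prop)) H hHc
    refine ⟨fun l i => if l ≤ L then H l i else A i, ?_, ?_⟩
    · intro l hl i
      by_cases h : l ≤ L
      · simp only [h, if_true]
        exact hHc l h i
      · obtain rfl : l = L + 1 := by omega
        simp only [h, if_false]
        refine (hAc i).trans ?_
        rw [← mul_assoc, pow_succ']
        exact Nat.mul_le_mul_right _ j5
    · intro V hV y av X r hr hX l hl i
      by_cases h : l ≤ L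
      · simp only [h, if_true]
        exact hHe V hV y av X r hr hX l h i
      · obtain rfl : l = L + 1 := by omega
        simp only [h, if_false]
        have hprev := hHe V hV y av X r hr hX
        have h0 := he0 y X r hr
        have h0X := heX y X r hr
        have h0r := her y X r hr
        set e := ‖y‖ + √d + ∑ j, (‖X j‖ + √d) + 2 * r / ϖ ^ lmax with he
        have h1 := hAe i V hV (y, av) X e h0X (fun l' hl' j => hprev l' hl' j)
        have h2 : √(p * √(δ / 4 * net.lev i / p) ^ 2) = √(δ / 4 * net.lev i) := by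
          have := hlevp i
          rw [Real.sq_sqrt (by (clear * - hδ this hp; (clear * - hδ this hp; positivity)))]
          congr 1
          (clear * - hp this hδ; field_simp)
        rw [h2] at h1
        have h3 := WD.trans h1 (wd_gau _ (X i) _)
        refine WD.mono h3 ?_
        have h4 : ‖y + net.t i • av + ∑ j, net.w i j • Fp V (gradient V) (net.lev j) (X j)
            - X i‖ ≤ r := by
          rw [norm_sub_rev]
          exact hX i
        have hη := ds_eta_pos hϖ L mmax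
        have h5 := ds_wsum (C := C) (δ := δ) (s := s) (a := a) (η := eta ϖ L mmax) (e := e)
          (by linarith only [ha]) hη.le h0 (net.w i) (hnet.w_le i)
        -- the residual
        have h6 : r ≤ 1 / 2 * (eta ϖ (L + 1) mmax * e) := by
          have h7 := ds_eta_lo hϖ hϖ'.le mmax hL
          have h8 : ϖ ^ lmax * (2 * r / ϖ ^ lmax) ≤ eta ϖ (L + 1) mmax * e :=
            mul_le_mul h7 h0r (by have := hpw lmax; (clear * - hr hϖ; (clear * - hr hϖ; positivity))) (ds_eta_pos hϖ _ _).le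
          rw [mul_div_cancel₀ _ (hpw lmax).ne'] at h8
          linarith only [h8]
        have h9 : p * (C * (δ * s)) * a ≤ ϖ / 2 := by
          have h10 : s ≤ ϖ ^ 2 := (hs'.trans j1).trans
            (pow_le_pow_of_le_one hϖ.le hϖ'.le (by omega))
          have h11 : δ * s ≤ 1 / 8 * ϖ ^ 2 :=
            mul_le_mul hδ8 h10 hs.le (by norm_num)
          have h12 : 0 ≤ p * C * a := by positivity
          have h13 := mul_le_mul_of_nonneg_left h11 h12
          have h14 : p * C * a * ϖ ≤ 1 / 8 := by linarith only [j3]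
          have h15 := mul_le_mul_of_nonneg_right h14 hϖ.le
          nlinarith only [h11, h12, h15]
        have h16 : p * (C * (δ * s)) * a * eta ϖ L mmax * e
            ≤ 1 / 2 * (eta ϖ (L + 1) mmax * e) := by
          have h17 := ds_eta_step hϖ hϖ'.le L mmax
          have h18 := mul_le_mul_of_nonneg_right h9 (mul_nonneg hη.le h0)
          have h19 := mul_le_mul_of_nonneg_right h17 h0
          nlinarith only [h18, h19]
        linarith only [h6, h4, h5, h16]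

/-- The output node. -/
theorem ds_out {p lmax mmax B D : ℕ} {C δ ϖ a Λ smax : ℝ} (hp : 1 ≤ p) (hC : 1 ≤ C)
    (hδ : 0 < δ) (hδ' : δ ≤ 1 / (8 * p)) (hϖ : 0 < ϖ) (hϖ' : ϖ < 1) (ha : 2 ≤ a)
    (hs1 : smax ≤ 1 / 4) (hmm : 1 ≤ mmax) (j1 : smax ≤ ϖ ^ (2 * mmax))
    (j2 : C * √(8 * p * δ) ≤ 1) (j3 : 8 * p * C * a * ϖ ≤ 1) (j5 : p * B ≤ D)
    (hev : ∀ l ≤ lmax, ∀ s, 0 < s → s ≤ smax → EvalAt d (δ / 4) ϖ D l mmax s a Λ B)
    {s ς : ℝ} (hs : 0 < s) (hs' : s ≤ smax) (hς : δ * s / 4 ≤ ς ^ 2) (hς0 : 0 < ς)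
    (net : DNet p) (hnet : net.Good s δ (C * (δ * s))) :
    ∃ A : Samp d (Eu d × Eu d) (Eu d), A.cost ≤ p * B * D ^ lmax ∧
      ∀ V ∈ PotClass d, ∀ (y av c : Eu d) (X : Fin p → Eu d) (r : ℝ), 0 ≤ r →
        (∀ i, ‖X i - (y + net.t i • av
          + ∑ j, net.w i j • Fp V (gradient V) (net.lev j) (X j))‖ ≤ r) →
        ‖c - (y + √(δ * s) • av
          + ∑ j, net.wo j • Fp V (gradient V) (net.lev j) (X j))‖ ≤ r →
        WD (A.law V (y, av)) (gau c ς)
          (r + p * (C * (δ * s)) * a * eta ϖ lmax mmax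
            * (‖y‖ + √d + ∑ j, (‖X j‖ + √d) + 2 * r / ϖ ^ lmax)) := by
  have hp' : (1 : ℝ) ≤ p := by exact_mod_cast hp
  obtain ⟨H, hHc, hHe⟩ := ds_handles (d := d) hp hC hδ hδ' hϖ hϖ' ha hs1 hmm j1 j2 j3 j5 hev
    hs hs' net hnet lmax le_rfl
  have hδ8 : δ ≤ 1 / 8 := hδ'.trans (by
    apply div_le_div_of_nonneg_left (by norm_num) (by (clear * -; norm_num)); linarith only [hp'])
  have hlev0 : ∀ i, 3 / 4 * s ≤ net.lev i := fun i =>
    le_trans (by (refine le_of_not_gt fun hng_ => ?_; linarith only [mul_nonneg (sub_nonneg.2 hs') (le_of_lt (sub_pos.2 hng_)), mul_nonneg (sub_nonneg.2 hs1) (le_of_lt (sub_pos.2 hng_)), mul_pos hs (sub_pos.2 hng_), mul_nonneg (le_of_lt hs) (sub_nonneg.2 hδ8)])) (hnet.lev_lo i)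
  have hlevp : ∀ i, 0 < net.lev i := fun i => lt_of_lt_of_le (by (clear * - hs; (clear * - hs; positivity))) (hlev0 i)
  have hpw : ∀ k : ℕ, 0 < ϖ ^ k := fun k => by positivity
  have hsp : (0 : ℝ) < √p := Real.sqrt_pos.2 (by linarith only [hp'])
  have hcls : ∀ j, |net.wo j| * √(net.lev j) ≤ ϖ ^ (2 * mmax) * (ς / √p) := fun j => by
    refine ds_class hp hC hδ j2 hs (hs'.trans j1) (hnet.wo_le j) (hnet.lev_hi j)
      (by (clear * - hς0 hp; positivity)) ?_
    rw [div_pow, Real.sq_sqrt (by linarith only []), div_le_div_iff₀ (by (clear * - hp; positivity)) (by positivity)]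
    nlinarith only [hς]
  obtain ⟨A, hAc, hAe⟩ := ds_node hev (l := lmax) le_rfl net.lev net.wo hlevp
    (fun j => (hnet.lev_hi j).trans hs') (σ := ς / √p) (by positivity) hcls
    (Eu d × Eu d) (fun z => z.1 + √(δ * s) • z.2) (by (clear * -; (clear * -; fun_prop))) H hHc
  refine ⟨A, by rwa [mul_assoc], ?_⟩
  intro V hV y av c X r hr hX hc
  have h0S : 0 ≤ ∑ j, (‖X j‖ + √d) := Finset.sum_nonneg fun j _ => by (clear * -; (clear * -; positivity))
  have h0 : 0 ≤ ‖y‖ + √d + ∑ j, (‖X j‖ + √d) + 2 * r / ϖ ^ lmax := by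
    have := hpw lmax
    (clear * - hr hϖ; positivity)
  have h0X : ∀ j, ‖X j‖ + √d ≤ ‖y‖ + √d + ∑ j, (‖X j‖ + √d) + 2 * r / ϖ ^ lmax := fun j => by
    have h1 : ‖X j‖ + √d ≤ ∑ j, (‖X j‖ + √d) :=
      Finset.single_le_sum (f := fun j => ‖X j‖ + √d) (fun i _ => by (clear * -; positivity))
        (Finset.mem_univ j)
    have := hpw lmax
    have : 0 ≤ 2 * r / ϖ ^ lmax := by (clear * - hr hϖ; positivity)
    have := norm_nonneg y
    have := Real.sqrt_nonneg (d : ℝ)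
    (clear mmax B D C δ a Λ smax hp hC hδ hδ' hϖ' ha hs1 hmm j1 j2 j3 j5 hev s ς hs hs' hς hς0 net hnet hp' H hHc hHe hδ8 hlev0 hlevp hsp hcls A hAc hAe V hV av c hX hc h0S h0; linarith)
  have h1 := hAe V hV (y, av) X _ h0X (fun l' hl' j => hHe V hV y av X r hr hX l' hl' j)
  have h2 : √(p * (ς / √p) ^ 2) = ς := by
    rw [div_pow, Real.sq_sqrt (by linarith only []), mul_div_cancel₀ _ (by linarith only [hp'] : (p : ℝ) ≠ 0),
      Real.sqrt_sq hς0.le]
  rw [h2] at h1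
  refine WD.mono (WD.trans h1 (wd_gau _ c _)) ?_
  have h3 := ds_wsum (C := C) (δ := δ) (s := s) (a := a) (η := eta ϖ lmax mmax)
    (by linarith only [ha]) (ds_eta_pos hϖ _ _).le h0 net.wo hnet.wo_le
  have h4 : ‖y + √(δ * s) • av + ∑ j, net.wo j • Fp V (gradient V) (net.lev j) (X j)
      - c‖ ≤ r := by
    rw [norm_sub_rev]
    exact hc
  linarith only [h4, h3]

/-- The law `c(a) + ς ξ` as an image. -/
theorem ds_Q {Ω : Type*} [MeasurableSpace Ω] {c : Ω → Eu d} (hc : Measurable c) (μ : Measure Ω)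
    [IsProbabilityMeasure μ] (ν : Measure (Eu d)) [IsProbabilityMeasure ν] :
    S.cnv (μ.map c) ν = (μ.prod ν).map (fun z => c z.1 + z.2) := by
  unfold S.cnv
  have h := Measure.map_prod_map μ ν hc measurable_id
  rw [Measure.map_id] at h
  rw [h, Measure.map_map (by (clear * -; fun_prop)) (hc.prodMap measurable_id)]
  rfl

theorem ds_Qi {Ω : Type*} [MeasurableSpace Ω] {c : Ω → Eu d} (hc : Measurable c) (μ : Measure Ω)
    [IsProbabilityMeasure μ] (ν : Measure (Eu d)) [IsProbabilityMeasure ν] {f : Eu d → ℝ}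
    (hf : Measurable f) :
    ∫ x, f x ∂(S.cnv (μ.map c) ν) = ∫ z, f (c z.1 + z.2) ∂(μ.prod ν) := by
  rw [ds_Q hc, integral_map (by (clear * - hc; (clear * - hc; fun_prop))) hf.aestronglyMeasurable]

/-- Arithmetic of the error bound. -/
theorem ds_arith {p : ℕ} {C δ s a η T IR SI Z : ℝ} (hp : 1 ≤ p) (hC : 1 ≤ C) (h0 : 0 ≤ δ * s)
    (h1 : δ * s ≤ 1) (ha : 2 ≤ a) (hη : 0 < η) (hT : 0 ≤ T) (hSI : SI ≤ p * (3 * T))
    (hZ : Z ≤ 2 * T) (hIR : IR ≤ η * T) :
    IR + p * (C * (δ * s)) * a * η * (T + SI + Z) ≤ 11 * p ^ 2 * C * a * η * T := by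
  have hp' : (1 : ℝ) ≤ p := by exact_mod_cast hp
  have h4 : T + SI + Z ≤ 6 * p * T := by nlinarith only [hT, hp', hZ, hSI]
  have h6 : p * (C * (δ * s)) * a * η * (T + SI + Z)
      ≤ p * (C * (δ * s)) * a * η * (6 * p * T) :=
    mul_le_mul_of_nonneg_left h4 (by (clear * - hp hC h0 ha hη; (clear * - hp hC h0 ha hη; positivity)))
  have h8 : p * (C * (δ * s)) * a * η * (6 * p * T) ≤ 6 * p ^ 2 * C * a * η * T := by
    have h9 : 0 ≤ 6 * p ^ 2 * C * a * η * T := by positivity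
    have h10 := mul_le_mul_of_nonneg_left h1 h9
    have h11 : p * (C * (δ * s)) * a * η * (6 * p * T)
        = 6 * p ^ 2 * C * a * η * T * (δ * s) := by ring
    rw [h11]
    linarith only [h10]
  have h10 : η * T ≤ p ^ 2 * C * a * η * T := by
    have h11 : 1 ≤ p ^ 2 * C * a := by
      have h12 : (1 : ℝ) ≤ p ^ 2 := one_le_pow₀ hp'
      have h13 : 1 ≤ p ^ 2 * C := one_le_mul_of_one_le_of_one_le h12 hC
      exact one_le_mul_of_one_le_of_one_le h13 (by linarith only [ha])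
    have h12 : 0 ≤ η * T := by positivity
    have h13 := mul_le_mul_of_nonneg_right h11 h12
    have h14 : p ^ 2 * C * a * (η * T) = p ^ 2 * C * a * η * T := by ring
    rw [h14] at h13
    linarith only [h13]
  have h13 : 0 ≤ p ^ 2 * C * a * η * T := by (clear * - hp hC ha hη hT; positivity)
  have h14 : 11 * p ^ 2 * C * a * η * T = 11 * (p ^ 2 * C * a * η * T) := by ring
  have h15 : 6 * p ^ 2 * C * a * η * T = 6 * (p ^ 2 * C * a * η * T) := by ring
  rw [h14]
  rw [h15] at h8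
  linarith only [h8, hIR, h6, h10, h13]

/-- The expectation of the error bound. -/
theorem ds_int {p : ℕ} {P : Measure (Eu d)} [IsProbabilityMeasure P] (X : Fin p → Eu d → Eu d)
    (R : Eu d → ℝ) (hRi : Integrable R P) (hXi : ∀ i, Integrable (fun a => ‖X i a‖) P)
    (c q W : ℝ) :
    ∫ av, (R av + c * (W + ∑ j, (‖X j av‖ + √d) + 2 * R av / q)) ∂P
      = ∫ av, R av ∂P + c * (W + ∑ j, ∫ av, (‖X j av‖ + √d) ∂P + 2 * (∫ av, R av ∂P) / q) := by
  have hSi : Integrable (fun av => ∑ j, (‖X j av‖ + √d)) P :=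
    integrable_finsetSum _ fun j _ => (hXi j).add (integrable_const _)
  have hA1 : Integrable (fun av => W + ∑ j, (‖X j av‖ + √d)) P :=
    (integrable_const _).add hSi
  have hA3 : Integrable (fun av => 2 * R av / q) P := (hRi.const_mul 2).div_const _
  have hei : Integrable (fun av => W + ∑ j, (‖X j av‖ + √d) + 2 * R av / q) P := hA1.add hA3
  have hA2 : ∀ j ∈ (Finset.univ : Finset (Fin p)),
      Integrable (fun av => ‖X j av‖ + √d) P :=
    fun j _ => (hXi j).add (integrable_const _)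
  rw [integral_add hRi (hei.const_mul _), integral_const_mul, integral_add hA1 hA3,
    integral_add (integrable_const _) hSi, integral_div, integral_const_mul,
    integral_finsetSum _ hA2]
  simp only [integral_const, probReal_univ, one_smul]

theorem ds_lip_meas {f : Eu d → ℝ} (hf : ∀ x y, |f x - f y| ≤ ‖x - y‖) : Measurable f := by
  have : LipschitzWith 1 f := LipschitzWith.of_dist_le_mul fun x y => by
    rw [Real.dist_eq, dist_eq_norm, NNReal.coe_one, one_mul]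
    exact hf x y
  exact this.continuous.measurable

/-- The mixture over the noise. -/
theorem ds_mix {V : Eu d → ℝ} (hV : V ∈ PotClass d) (Out : Samp d (Eu d × Eu d) (Eu d))
    (y : Eu d) (μ : Measure (Eu d)) {c : Eu d → Eu d} (hc : Measurable c) {ς : ℝ} {R : Eu d → ℝ}
    (hR : Integrable R (gam (Eu d))) (h : ∀ av, WD (Out.law V (y, av)) (gau (c av) ς) (R av))
    (hμ : ∀ f : Eu d → ℝ, Measurable f → (∃ C, ∀ x, |f x| ≤ C) →
      ∫ x, f x ∂μ = ∫ av, (∫ x, f x ∂(Out.law V (y, av))) ∂(gam (Eu d))) :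
    WD μ (S.cnv ((gam (Eu d)).map c) (gau 0 ς)) (∫ av, R av ∂(gam (Eu d))) := by
  refine wd_mix (P := gam (Eu d)) (k := fun av => Out.law V (y, av))
    (k' := fun av => gau (c av) ς) hR h ?_ ?_
  · intro f hf bf
    have hfm := ds_lip_meas hf
    refine ⟨?_, hμ f hfm bf⟩
    obtain ⟨K, hK⟩ := bf
    refine Integrable.of_bound (C := K) ?_ ?_
    · exact ((Out.meas_int hV hfm ⟨K, hK⟩).comp
        (by fun_prop : Measurable fun av : Eu d => (y, av))).aestronglyMeasurable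
    · refine Eventually.of_forall fun av => ?_
      have := Out.isProb hV (y, av)
      have h1 := norm_integral_le_of_norm_le_const (μ := Out.law V (y, av)) (C := K)
        (f := f) (Eventually.of_forall fun x => by rw [Real.norm_eq_abs]; exact hK x)
      simpa only [Real.norm_eq_abs, ge_iff_le, probReal_univ, mul_one] using h1
  · intro f hf bf
    have hfm := ds_lip_meas hf
    obtain ⟨K, hK⟩ := bf
    have h1 : Measurable (fun q : Eu d × Eu d => f (c q.1 + q.2)) :=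
      hfm.comp ((hc.comp measurable_fst).add measurable_snd)
    have h2 : Integrable (fun q : Eu d × Eu d => f (c q.1 + q.2))
        ((gam (Eu d)).prod (gau 0 ς)) :=
      Integrable.of_bound h1.aestronglyMeasurable K (Eventually.of_forall fun q => by
        rw [Real.norm_eq_abs]; exact hK _)
    have h3 : ∀ av, ∫ x, f x ∂(gau (c av) ς) = ∫ z, f (c av + z) ∂(gau 0 ς) := by
      intro av
      have h4 := gau_map (0 : Eu d) (c av) 1 ς
      simp only [one_smul, zero_add, one_mul] at h4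
      rw [← h4, integral_map (by (clear * -; fun_prop)) hfm.aestronglyMeasurable]
      simp only [add_comm]
    simp only [h3]
    refine ⟨h2.integral_prod_left, ?_⟩
    rw [ds_Qi hc _ _ hfm, integral_prod _ h2]

/-- The sampler of one step from the level `s` to the level `(1 - δ) s + ς²`. -/
theorem exists_downStep {p lmax mmax B D : ℕ} {C δ ϖ a Λ smax : ℝ} (hp : 1 ≤ p) (hC : 1 ≤ C)
    (hd : 1 ≤ d) (hδ : 0 < δ) (hδ' : δ ≤ 1 / (8 * p)) (hϖ : 0 < ϖ) (hϖ' : ϖ < 1) (ha : 2 ≤ a)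
    (hs1 : smax ≤ 1 / 4) (hmm : 1 ≤ mmax) (j1 : smax ≤ ϖ ^ (2 * mmax))
    (j2 : C * √(8 * p * δ) ≤ 1) (j3 : 8 * p * C * a * ϖ ≤ 1) (j4 : C * (√δ) ^ p ≤ ϖ ^ lmax)
    (j5 : p * B ≤ D)
    (hev : ∀ l ≤ lmax, ∀ s, 0 < s → s ≤ smax → EvalAt d (δ / 4) ϖ D l mmax s a Λ B)
    {s ς : ℝ} (hs : 0 < s) (hs' : s ≤ smax) (hς : δ * s / 4 ≤ ς ^ 2) (hς0 : 0 < ς)
    (hdown : DownAt p C s δ) :
    ∃ A : Samp d (Eu d) (Eu d), A.cost ≤ p * B * D ^ lmax ∧ ∀ V ∈ PotClass d, ∃ Q,
      StepTo A V s ((1 - δ) * s + ς ^ 2) (1 - δ * s / 4)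
        (11 * p ^ 2 * C * a * eta ϖ lmax mmax) Q := by
  obtain ⟨net, hnet, hall⟩ := hdown
  obtain ⟨Out, hOc, hOe⟩ := ds_out (d := d) hp hC hδ hδ' hϖ hϖ' ha hs1 hmm j1 j2 j3 j5 hev
    hs hs' hς hς0 net hnet
  obtain ⟨N, hNc, hN⟩ := exists_noise (d := d) (Θ := Eu d) (gam (Eu d))
  obtain ⟨A, hAc, hA⟩ := exists_bind N Out
  refine ⟨A, by rw [hAc, hNc, zero_add]; exact hOc, fun V hV => ?_⟩
  obtain ⟨c, hcc, hcl, hcm, hcX⟩ := hall d V _ _ (PotClass.pot hV) hd
  have hp' : (1 : ℝ) ≤ p := by exact_mod_cast hp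
  have hδ8 : δ ≤ 1 / 8 := hδ'.trans (by
    apply div_le_div_of_nonneg_left (by norm_num) (by norm_num); linarith only [hp'])
  have hcm1 : ∀ y, Measurable (c y) := fun y =>
    (hcc.comp (by fun_prop : Continuous fun a : Eu d => (y, a))).measurable
  have hprob : ∀ y, IsProbabilityMeasure ((gam (Eu d)).map (c y)) := fun y =>
    Measure.isProbabilityMeasure_map (hcm1 y).aemeasurable
  refine ⟨fun y => S.cnv ((gam (Eu d)).map (c y)) (gau 0 ς), ?_, ?_, ?_, ?_, ?_⟩
  · intro y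
    exact cnv_prob
  · intro f hf bf
    simp only [fun y => ds_Qi (hcm1 y) (gam (Eu d)) (gau 0 ς) hf]
    have h1 : Measurable (fun q : Eu d × (Eu d × Eu d) => f (c q.1 q.2.1 + q.2.2)) :=
      hf.comp ((hcc.measurable.comp
        (by fun_prop : Measurable fun q : Eu d × (Eu d × Eu d) => (q.1, q.2.1))).add
        (by fun_prop))
    exact (h1.stronglyMeasurable.integral_prod_right').measurable
  · intro y y'
    have h1 : WD ((gam (Eu d)).map (c y)) ((gam (Eu d)).map (c y'))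
        (∫ _ω : Eu d, (1 - δ * s / 4) * ‖y - y'‖ ∂(gam (Eu d))) :=
      wd_coupling (hcm1 y) (hcm1 y') (integrable_const _) (fun ω => hcl y y' ω)
    have h2 := WD.cnv h1 (WD.refl (gau 0 ς))
    simpa only [integral_const, probReal_univ, smul_eq_mul, one_mul, add_zero] using h2
  · intro f hf bf
    have hs1' : 0 < (1 - δ) * s := mul_pos (by linarith only [hδ8]) hs
    have hpr : IsProbabilityMeasure (gibbs (Wp V s)) := gibbs_Wp_prob hV hs
    rw [← gibbs_Wp_add hV hs1', ← hcm, ds_Qi hcc.measurable _ _ hf]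
    simp only [fun y => ds_Qi (hcm1 y) (gam (Eu d)) (gau 0 ς) hf]
    obtain ⟨K, hK⟩ := bf
    have h1 : Measurable (fun q : Eu d × (Eu d × Eu d) => f (c q.1 q.2.1 + q.2.2)) :=
      hf.comp ((hcc.measurable.comp
        (by fun_prop : Measurable fun q : Eu d × (Eu d × Eu d) => (q.1, q.2.1))).add
        (by fun_prop))
    have h2 : Integrable (fun q : Eu d × (Eu d × Eu d) => f (c q.1 q.2.1 + q.2.2))
        ((gibbs (Wp V s)).prod ((gam (Eu d)).prod (gau 0 ς))) :=
      Integrable.of_bound h1.aestronglyMeasurable K (Eventually.of_forall fun q => by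
        rw [Real.norm_eq_abs]; exact hK _)
    rw [← integral_prod _ h2, ← Measure.prodAssoc_prod,
      integral_map (MeasurableEquiv.measurable _).aemeasurable h1.aestronglyMeasurable]
    rfl
  · intro y
    obtain ⟨X, R, hXm, hRm, hR0, hXn, hcn, hRi, hRb, hXi, hXb⟩ := hcX y
    have hη := ds_eta_pos hϖ lmax mmax
    have hpw : 0 < ϖ ^ lmax := by positivity
    have hSi : Integrable (fun av => ∑ j, (‖X j av‖ + √d)) (gam (Eu d)) :=
      integrable_finsetSum _ fun j _ => (hXi j).add (integrable_const _)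
    have hei : Integrable (fun av => ‖y‖ + √d + ∑ j, (‖X j av‖ + √d) + 2 * R av / ϖ ^ lmax)
        (gam (Eu d)) := ((integrable_const _).add hSi).add ((hRi.const_mul 2).div_const _)
    have hmix := ds_mix hV Out y (A.law V y) (hcm1 y) (ς := ς) (hRi.add (hei.const_mul _))
      (fun av => hOe V hV y av (c y av) (fun j => X j av) (R av) (hR0 av)
          (fun i => hXn i av) (hcn av))
      (fun f hf bf => by rw [hA V hV y f hf bf, hN V hV y])
    refine WD.mono hmix ?_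
    have hint := ds_int (P := gam (Eu d)) X R hRi hXi
      (p * (C * (δ * s)) * a * eta ϖ lmax mmax) (ϖ ^ lmax) (‖y‖ + √d)
    refine le_trans (le_of_eq hint) ?_
    have h1 : ∑ j, ∫ av, (‖X j av‖ + √d) ∂(gam (Eu d)) ≤ p * (3 * (‖y‖ + √d)) := by
      calc ∑ j, ∫ av, (‖X j av‖ + √d) ∂(gam (Eu d))
          ≤ ∑ _j : Fin p, 3 * (‖y‖ + √d) := Finset.sum_le_sum fun j _ => by
            rw [integral_add (hXi j) (integrable_const _)]
            have := hXb j
            have := norm_nonneg y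
            simp only [integral_const, probReal_univ, one_smul]
            (clear lmax mmax B D C δ ϖ a Λ smax hp hC hd hδ hδ' hϖ hϖ' ha hs1 hmm j1 j2 j3 j4 j5 hev s ς hs hs' hς hς0 net hnet hall Out hOc hOe N hNc hN A hAc hA V hV hcl hcm hcX hp' hδ8 R hXm hRm hR0 hXn hcn hRi hRb hXi hη hpw hSi hei hmix hint; linarith)
        _ = p * (3 * (‖y‖ + √d)) := by simp only [Finset.sum_const, Finset.card_univ, Fintype.card_fin, nsmul_eq_mul]
    have h2 : ∫ a, R a ∂(gam (Eu d)) ≤ ϖ ^ lmax * √d :=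
      hRb.trans (mul_le_mul_of_nonneg_right j4 (Real.sqrt_nonneg _))
    have hlo := ds_eta_lo hϖ hϖ'.le mmax (le_refl lmax)
    have hy := norm_nonneg y
    have hsd := Real.sqrt_nonneg (d : ℝ)
    refine ds_arith hp hC (by positivity) (by (refine le_of_not_gt fun hng_ => ?_; linarith only [mul_nonneg (le_of_lt (sub_pos.2 hng_)) (sub_nonneg.2 (hs'.trans hs1)), mul_pos hs (sub_pos.2 hng_), mul_nonneg (sub_nonneg.2 (hs'.trans hs1)) (sub_nonneg.2 (hs'.trans hs1)), mul_nonneg (le_of_lt hs) (sub_nonneg.2 (hs'.trans hs1)), mul_nonneg (le_of_lt hs) (sub_nonneg.2 hδ8)])) ha hη (by (clear * - hd; (clear * - hd; positivity)))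
      h1 ?_ ?_
    · rw [div_le_iff₀ hpw]
      (refine le_of_not_gt fun hng_ => ?_; linarith only [mul_nonneg (sub_nonneg.2 hs1) (le_of_lt (sub_pos.2 hng_)), mul_pos hs (sub_pos.2 hng_), mul_nonneg (sub_nonneg.2 hs') (le_of_lt (sub_pos.2 hng_)), mul_nonneg (le_of_lt hpw) hy, mul_nonneg (sub_nonneg.2 hs1) (sub_nonneg.2 h2), mul_nonneg (sub_nonneg.2 hs') (sub_nonneg.2 h2), mul_nonneg (le_of_lt hs) (sub_nonneg.2 h2)])
    · exact h2.trans (mul_le_mul hlo (by linarith only [hy]) hsd hη.le)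

end Vale.Agent.P347.S
end

section

/-! Module M9 (P347, S): the chain of down steps. -/

open MeasureTheory Filter Module
open scoped ENNReal NNReal
open Vale.Agent.P347.Z

namespace Vale.Agent.P347.S

variable {d : ℕ}

/-- First moments from a Wasserstein bound. -/
lemma ch_mom {μ π : Measure (Eu d)} [IsProbabilityMeasure μ] [IsProbabilityMeasure π] {u m : ℝ}
    (h : WD μ π u) (hi : Integrable (fun x => ‖x‖) π) (hm : ∫ x, ‖x‖ ∂π ≤ m) :
    Integrable (fun x => ‖x‖) μ ∧ ∫ x, ‖x‖ ∂μ ≤ m + u := by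
  have hu := h.nonneg
  have hm0 : 0 ≤ m := (integral_nonneg fun x => norm_nonneg x).trans hm
  have key : ∀ M : ℕ, ∫ x, min ‖x‖ (M : ℝ) ∂μ ≤ m + u := by
    intro M
    have h1 := h (fun x => min ‖x‖ (M : ℝ)) (fun x y => by
      have h2 := abs_min_sub_min_le_max ‖x‖ (M : ℝ) ‖y‖ (M : ℝ)
      rw [sub_self, abs_zero, max_eq_left (abs_nonneg _)] at h2
      exact h2.trans (abs_norm_sub_norm_le x y)) ⟨M, fun x => by
        rw [abs_of_nonneg (le_min (norm_nonneg _) (Nat.cast_nonneg _))]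
        exact min_le_right _ _⟩
    have h3 : ∫ x, min ‖x‖ (M : ℝ) ∂π ≤ ∫ x, ‖x‖ ∂π := by
      refine integral_mono_of_nonneg (Eventually.of_forall fun x =>
        le_min (norm_nonneg _) (Nat.cast_nonneg _)) hi (Eventually.of_forall fun x =>
        min_le_left _ _)
    have h4 := (abs_le.1 h1).2
    linarith only [h3, hm, h4]
  have hmeas : Measurable fun x : Eu d => ‖x‖ := measurable_norm
  have hlin : ∫⁻ x, ENNReal.ofReal ‖x‖ ∂μ ≤ ENNReal.ofReal (m + u) := by
    have h5 : ∀ x : Eu d, ENNReal.ofReal ‖x‖ = ⨆ M : ℕ, ENNReal.ofReal (min ‖x‖ (M : ℝ)) := by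
      intro x
      refine le_antisymm ?_ (iSup_le fun M => ENNReal.ofReal_le_ofReal (min_le_left _ _))
      obtain ⟨M, hM⟩ := exists_nat_ge ‖x‖
      refine le_iSup_of_le M ?_
      rw [min_eq_left hM]
    simp_rw [h5]
    rw [lintegral_iSup]
    · refine iSup_le fun M => ?_
      rw [← ofReal_integral_eq_lintegral_ofReal]
      · exact ENNReal.ofReal_le_ofReal (key M)
      · exact wda_integrable (hmeas.min measurable_const) (C := (M : ℝ)) fun x => by
          rw [abs_of_nonneg (le_min (norm_nonneg _) (Nat.cast_nonneg _))]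
          exact min_le_right _ _
      · exact Eventually.of_forall fun x => le_min (norm_nonneg _) (Nat.cast_nonneg _)
    · exact fun M => (hmeas.min measurable_const).ennreal_ofReal
    · intro M M' hMM x
      exact ENNReal.ofReal_le_ofReal (min_le_min_left _ (by exact_mod_cast hMM))
  have hint : Integrable (fun x => ‖x‖) μ := by
    refine ⟨hmeas.aestronglyMeasurable, ?_⟩
    rw [hasFiniteIntegral_iff_ofReal (Eventually.of_forall fun x => norm_nonneg x)]
    exact hlin.trans_lt ENNReal.ofReal_lt_top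
  refine ⟨hint, ?_⟩
  rw [integral_eq_lintegral_of_nonneg_ae (Eventually.of_forall fun x => norm_nonneg x)
    hmeas.aestronglyMeasurable]
  exact ENNReal.toReal_le_of_le_ofReal (by linarith only [hm0, hu]) hlin

/-- One step of the chain. -/
lemma ch_step {A : Samp d (Eu d) (Eu d)} {V : Eu d → ℝ} (hV : V ∈ PotClass d)
    {s s' c ε u : ℝ} {Q : Eu d → Measure (Eu d)} (hs : 0 < s) (hs1 : s ≤ 1) (hc : 0 ≤ c)
    (hε : 0 ≤ ε) (hQ : StepTo A V s s' c ε Q) {μ μ' : Measure (Eu d)}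
    [IsProbabilityMeasure μ] (h : WD μ (gibbs (Wp V s)) u)
    (hμ' : ∀ f : Eu d → ℝ, Measurable f → (∃ C, ∀ x, |f x| ≤ C) →
      ∫ x, f x ∂μ' = ∫ y, (∫ x, f x ∂(A.law V y)) ∂μ) :
    WD μ' (gibbs (Wp V s')) (c * u + ε * (u + 3 * √d)) := by
  have := gibbs_Wp_prob hV hs
  obtain ⟨i1, h1⟩ := gibbs_Wp_mom hV hs hs1
  obtain ⟨i2, h2⟩ := ch_mom h i1 h1
  intro f hf bf
  have hfc := wda_cont hf
  have hfm := hfc.measurable
  obtain ⟨C, hC⟩ := bf
  rw [hμ' f hfm ⟨C, hC⟩, ← hQ.inv f hfm ⟨C, hC⟩]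
  have bA : ∀ y, |∫ x, f x ∂(A.law V y)| ≤ C := fun y => by
    have := A.isProb hV y
    exact wda_bound hC
  have bQ : ∀ y, |∫ x, f x ∂(Q y)| ≤ C := fun y => by
    have := hQ.prob y
    exact wda_bound hC
  have mA := A.meas_int hV hfm ⟨C, hC⟩
  have mQ := hQ.meas f hfm ⟨C, hC⟩
  have iA : Integrable (fun y => ∫ x, f x ∂(A.law V y)) μ := wda_integrable mA bA
  have iQ : Integrable (fun y => ∫ x, f x ∂(Q y)) μ := wda_integrable mQ bQ
  have e1 : |∫ y, (∫ x, f x ∂(A.law V y)) ∂μ - ∫ y, (∫ x, f x ∂(Q y)) ∂μ| ≤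
      ε * (u + 3 * √d) := by
    rw [← integral_sub iA iQ]
    refine (abs_integral_le_integral_abs).trans ?_
    have i3 : Integrable (fun y : Eu d => ε * (‖y‖ + √d)) μ :=
      (i2.add (integrable_const _)).const_mul _
    refine (integral_mono_of_nonneg (Eventually.of_forall fun y => abs_nonneg _) i3
      (Eventually.of_forall fun y => hQ.err y f hf ⟨C, hC⟩)).trans ?_
    rw [integral_const_mul, integral_add i2 (integrable_const _), integral_const, probReal_univ,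
      one_smul]
    refine mul_le_mul_of_nonneg_left ?_ hε
    linarith only [h2]
  have e2 : |∫ y, (∫ x, f x ∂(Q y)) ∂μ - ∫ y, (∫ x, f x ∂(Q y)) ∂(gibbs (Wp V s))| ≤ c * u :=
    h.lip hc (f := fun y => ∫ x, f x ∂(Q y))
      (fun y y' => hQ.contr y y' f hf ⟨C, hC⟩) ⟨C, bQ⟩
  have e3 := abs_sub_le (∫ y, (∫ x, f x ∂(A.law V y)) ∂μ) (∫ y, (∫ x, f x ∂(Q y)) ∂μ)
    (∫ y, (∫ x, f x ∂(Q y)) ∂(gibbs (Wp V s)))
  linarith only [e2, e1, e3]

/-- Composition with a sampler whose parameter is the current point. -/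
lemma ch_bind (A : Samp d Unit (Eu d)) (B : Samp d (Eu d) (Eu d)) :
    ∃ A' : Samp d Unit (Eu d), A'.cost = A.cost + B.cost ∧ ∀ V ∈ PotClass d,
      ∀ f : Eu d → ℝ, Measurable f → (∃ C, ∀ x, |f x| ≤ C) →
        ∫ x, f x ∂(A'.law V ()) = ∫ y, (∫ x, f x ∂(B.law V y)) ∂(A.law V ()) := by
  obtain ⟨B', c1, l1⟩ := exists_comap B (fun p : Unit × Eu d => p.2) measurable_snd
  obtain ⟨A', c2, l2⟩ := exists_bind A B'
  refine ⟨A', by rw [c2, c1], fun V hV f hf bf => ?_⟩
  rw [l2 V hV () f hf bf]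
  refine integral_congr_ae (Eventually.of_forall fun x => ?_)
  simp only
  rw [l1 V hV]

/-- The first level of the noise. -/
lemma ch_last {V : Eu d → ℝ} (hV : V ∈ PotClass d) {s : ℝ} (hs : 0 < s) :
    WD (gibbs (Wp V s)) (gibbs V) (√(s * d)) := by
  have := gibbs_prob hV
  obtain ⟨i1, h1⟩ := gau_mom (0 : Eu d) (√s)
  have hX : Measurable fun p : Eu d × Eu d => p.1 + p.2 := wda_add
  have hR : Integrable (fun p : Eu d × Eu d => ‖p.2‖) ((gibbs V).prod (gau 0 (√s))) :=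
    i1.comp_snd _
  have h2 := wd_coupling (P := (gibbs V).prod (gau 0 (√s))) hX measurable_fst
    (R := fun p => ‖p.2‖) hR (fun ω => le_of_eq (by rw [add_sub_cancel_left]))
  have e1 : ((gibbs V).prod (gau 0 (√s))).map (fun p : Eu d × Eu d => p.1 + p.2) =
      gibbs (Wp V s) := (gibbs_Wp_eq hV hs).symm
  have e2 : ((gibbs V).prod (gau 0 (√s))).map (Prod.fst : Eu d × Eu d → Eu d) = gibbs V := by
    rw [Measure.map_fst_prod, measure_univ, one_smul]
  have e3 : ∫ p : Eu d × Eu d, ‖p.2‖ ∂((gibbs V).prod (gau 0 (√s))) = ∫ x, ‖x‖ ∂(gau (0 : Eu d) (√s)) := by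
    rw [integral_fun_snd (fun x : Eu d => ‖x‖), probReal_univ, one_smul]
  rw [e1, e2, e3] at h2
  refine h2.mono (h1.trans ?_)
  rw [norm_zero, zero_add, abs_of_nonneg (Real.sqrt_nonneg _), finrank_euclideanSpace_fin,
    Real.sqrt_mul hs.le]

/-- Iterating approximate steps: `N₁` steps at the level `s`, then `K` steps with decreasing
levels. -/
theorem exists_chain {c₀ N₁ K : ℕ} {δ s ε e : ℝ} (hd : 1 ≤ d) (hδ : 0 < δ) (hδ' : δ ≤ 1 / 8)
    (hs : 0 < s) (hs' : s ≤ 1 / 4) (hε : 0 ≤ ε) (hε1 : ε ≤ δ * s / 8) (hKε : K * ε ≤ 1)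
    (hmain : ∃ A : Samp d (Eu d) (Eu d), A.cost ≤ c₀ ∧ ∀ V ∈ PotClass d, ∃ Q,
      StepTo A V s s (1 - δ * s / 4) ε Q)
    (hdesc : ∀ k < K, ∃ A : Samp d (Eu d) (Eu d), A.cost ≤ c₀ ∧ ∀ V ∈ PotClass d, ∃ Q,
      StepTo A V ((1 - δ / 2) ^ k * s) ((1 - δ / 2) ^ (k + 1) * s) 1 ε Q)
    (he : 2 * √d * (1 - δ * s / 4) ^ N₁ + ε * √d * (6 * N₁ + 20 * K)
      + √((1 - δ / 2) ^ K * s * d) ≤ e) :
    ∃ A : Samp d Unit (Eu d), A.cost ≤ (N₁ + K) * c₀ ∧ ∀ V ∈ PotClass d,
      WD (A.law V ()) (gibbs V) e := by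
  have hD : 0 ≤ √(d : ℝ) := Real.sqrt_nonneg _
  have hδs : δ * s ≤ 1 / 32 := by (refine le_of_not_gt fun hng_ => ?_; linarith only [mul_pos hs (sub_pos.2 hng_), mul_nonneg (sub_nonneg.2 hs') (sub_nonneg.2 hε1), mul_nonneg (sub_nonneg.2 hδ') (le_of_lt hs), mul_nonneg (sub_nonneg.2 hs') hε])
  have hc0 : 0 ≤ 1 - δ * s / 4 := by linarith only [hδs]
  have hc1 : 1 - δ * s / 4 ≤ 1 := by linarith only [hε, hε1]
  -- main chain
  have main : ∀ n : ℕ, ∃ A : Samp d Unit (Eu d), A.cost ≤ n * c₀ ∧ ∀ V ∈ PotClass d,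
      ∃ u, WD (A.law V ()) (gibbs (Wp V s)) u ∧ u ≤ 3 * √d ∧
        u ≤ 2 * √d * (1 - δ * s / 4) ^ n + ε * √d * (6 * n) := by
    intro n
    induction n with
    | zero =>
      obtain ⟨A, h1, h2⟩ := exists_pure (d := d) (fun _ : Unit => (0 : Eu d)) measurable_const
      refine ⟨A, by simp [h1], fun V hV => ⟨2 * √d, ?_, by linarith only [hD], by simp⟩⟩
      have := gibbs_Wp_prob hV hs
      obtain ⟨i1, m1⟩ := gibbs_Wp_mom hV hs (by linarith only [hs'])
      rw [h2 V hV]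
      intro f hf bf
      obtain ⟨C, hC⟩ := bf
      have hfc := wda_cont hf
      rw [integral_dirac]
      have i2 : Integrable f (gibbs (Wp V s)) := wda_integrable hfc.measurable hC
      have e1 : f 0 - ∫ x, f x ∂(gibbs (Wp V s)) = ∫ x, (f 0 - f x) ∂(gibbs (Wp V s)) := by
        rw [integral_sub (integrable_const _) i2, integral_const, probReal_univ, one_smul]
      rw [e1]
      refine (abs_integral_le_integral_abs).trans ?_
      refine (integral_mono_of_nonneg (Eventually.of_forall fun x => abs_nonneg _) i1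
        (Eventually.of_forall fun x => ?_)).trans m1
      have h3 := hf 0 x
      rwa [zero_sub, norm_neg] at h3
    | succ n ih =>
      obtain ⟨A, hA, ih⟩ := ih
      obtain ⟨B, hB, hQ⟩ := hmain
      obtain ⟨A', c1, l1⟩ := ch_bind A B
      refine ⟨A', by rw [c1, add_mul, one_mul]; exact add_le_add hA hB, fun V hV => ?_⟩
      obtain ⟨u, w1, w2, w3⟩ := ih V hV
      obtain ⟨Q, hQ⟩ := hQ V hV
      have := A.isProb hV ()
      have hst := ch_step hV hs (by linarith only [hs']) hc0 hε hQ w1 (l1 V hV)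
      have hu := w1.nonneg
      refine ⟨_, hst, ?_, ?_⟩
      · have h4 : ε * (u + 3 * √d) ≤ δ * s / 8 * (6 * √d) :=
          mul_le_mul hε1 (by linarith only [w2]) (by linarith only [hu, w2]) (by positivity)
        have h5 : (1 - δ * s / 4) * u ≤ (1 - δ * s / 4) * (3 * √d) :=
          mul_le_mul_of_nonneg_left w2 hc0
        linarith only [h5, h4]
      · have h4 : ε * (u + 3 * √d) ≤ ε * (6 * √d) :=
          mul_le_mul_of_nonneg_left (by linarith only [w2]) hε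
        have h5 : (1 - δ * s / 4) * u ≤
            (1 - δ * s / 4) * (2 * √d * (1 - δ * s / 4) ^ n + ε * √d * (6 * n)) :=
          mul_le_mul_of_nonneg_left w3 hc0
        have h6 : (1 - δ * s / 4) * (ε * √d * (6 * n)) ≤ ε * √d * (6 * n) :=
          mul_le_of_le_one_left (by (clear * - hε hd; (clear * - hε hd; positivity))) hc1
        rw [pow_succ]
        push_cast
        linarith only [h5, h4, h6]
  -- descending chain
  have hr0 : 0 < 1 - δ / 2 := by linarith only [hδ']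
  have hr1 : 1 - δ / 2 ≤ 1 := by linarith only [hδ]
  have desc : ∀ k : ℕ, k ≤ K → ∃ A : Samp d Unit (Eu d), A.cost ≤ (N₁ + k) * c₀ ∧
      ∀ V ∈ PotClass d, ∃ u, WD (A.law V ()) (gibbs (Wp V ((1 - δ / 2) ^ k * s))) u ∧
        u + 3 * √d ≤ (1 + ε) ^ k * (6 * √d) ∧
        u ≤ 2 * √d * (1 - δ * s / 4) ^ N₁ + ε * √d * (6 * N₁ + 20 * k) := by
    intro k
    induction k with
    | zero =>
      intro _
      obtain ⟨A, hA, h⟩ := main N₁
      refine ⟨A, by simpa only [add_zero] using hA, fun V hV => ?_⟩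
      obtain ⟨u, w1, w2, w3⟩ := h V hV
      refine ⟨u, by simpa using w1, by rw [pow_zero, one_mul]; linarith only [w2], ?_⟩
      push_cast
      linarith only [w3]
    | succ k ih =>
      intro hk
      obtain ⟨A, hA, ih⟩ := ih (by (clear * - hmain hk; omega))
      obtain ⟨B, hB, hQ⟩ := hdesc k (by omega)
      obtain ⟨A', c1, l1⟩ := ch_bind A B
      refine ⟨A', by
        rw [c1]
        calc A.cost + B.cost ≤ (N₁ + k) * c₀ + c₀ := add_le_add hA hB
          _ = (N₁ + (k + 1)) * c₀ := by ring, fun V hV => ?_⟩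
      obtain ⟨u, w1, w2, w3⟩ := ih V hV
      obtain ⟨Q, hQ⟩ := hQ V hV
      have := A.isProb hV ()
      have hp0 : 0 < (1 - δ / 2) ^ k * s := by (clear * - hr0 hs; (clear * - hr0 hs; positivity))
      have hp1 : (1 - δ / 2) ^ k * s ≤ 1 := by
        have := mul_le_mul (pow_le_one₀ (n := k) hr0.le hr1) hs' hs.le zero_le_one
        linarith only [this]
      have hst := ch_step hV hp0 hp1 zero_le_one hε hQ w1 (l1 V hV)
      have hu := w1.nonneg
      have hpow : (1 + ε) ^ k ≤ 3 := by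
        have h7 : (1 + ε) ^ k ≤ Real.exp (k * ε) := by
          rw [Real.exp_nat_mul]
          have := Real.add_one_le_exp ε
          exact pow_le_pow_left₀ (by linarith only [hε]) (by linarith only [this]) k
        have h8 : (k : ℝ) * ε ≤ 1 := by
          have : (k : ℝ) ≤ K := by exact_mod_cast (by omega : k ≤ K)
          exact (mul_le_mul_of_nonneg_right this hε).trans hKε
        have h9 := Real.exp_le_exp.2 h8
        have h10 := Real.exp_one_lt_d9
        linarith only [h9, h7, h10]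
      refine ⟨_, hst, ?_, ?_⟩
      · rw [pow_succ]
        have h11 : (1 + ε) * (u + 3 * √d) ≤ (1 + ε) * ((1 + ε) ^ k * (6 * √d)) :=
          mul_le_mul_of_nonneg_left w2 (by linarith only [hε])
        linarith only [h11]
      · have h12 : ε * (u + 3 * √d) ≤ ε * (20 * √d) := by
          refine mul_le_mul_of_nonneg_left (w2.trans ?_) hε
          have := mul_le_mul_of_nonneg_right hpow (show (0 : ℝ) ≤ 6 * √d by positivity)
          linarith only [hu, w2, this]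
        push_cast
        linarith only [h12, w3]
  obtain ⟨A, hA, h⟩ := desc K le_rfl
  refine ⟨A, hA, fun V hV => ?_⟩
  obtain ⟨u, w1, w2, w3⟩ := h V hV
  have hp0 : 0 < (1 - δ / 2) ^ K * s := by (clear * - hr0 hs; positivity)
  refine (w1.trans (ch_last hV hp0)).mono ?_
  linarith only [w3, he]

end Vale.Agent.P347.S
end
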