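import Vale.Agent.P347.Bdl.B3
import Vale.Agent.P347.Bdl.B4
import Vale.Agent.P347.Bdl.B1
import Vale.Agent.P347.MathlibUsed

set_option linter.all false

section

/-! Quadrature of any order for the general-node scheme (P347, exponent 1/5): Taylor remainder
estimates and existence of positive quadrature rules. -/

open MeasureTheory Filter Module Set intervalIntegral

namespace Vale.Agent.P347

section taylor

variable {F : Type*} [NormedAddCommGroup F] [NormedSpace ℝ F] [CompleteSpace F]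

/-- Taylor polynomial of degree `j` at `0` of the chain `f k, f (k+1), …`. -/
noncomputable def tayP (f : ℕ → ℝ → F) (k j : ℕ) (t : ℝ) : F :=
  ∑ i ∈ Finset.range (j + 1), (t ^ i / (i.factorial : ℝ)) • f (k + i) 0

theorem tayP_deriv (f : ℕ → ℝ → F) (k j : ℕ) (t : ℝ) :
    HasDerivAt (tayP f k (j + 1)) (tayP f (k + 1) j t) t := by
  have e : tayP f k (j + 1) = fun t => (∑ i ∈ Finset.range (j + 1),
      (t ^ (i + 1) / ((i + 1).factorial : ℝ)) • f (k + (i + 1)) 0) + f k 0 := by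
    ext t
    unfold tayP
    rw [Finset.sum_range_succ' _ (j + 1)]
    simp
  rw [e]
  have h1 : ∀ i ∈ Finset.range (j + 1), HasDerivAt
      (fun t : ℝ => (t ^ (i + 1) / ((i + 1).factorial : ℝ)) • f (k + (i + 1)) 0)
      ((t ^ i / (i.factorial : ℝ)) • f (k + 1 + i) 0) t := by
    intro i _
    have h2 := ((hasDerivAt_pow (i + 1) t).div_const ((i + 1).factorial : ℝ)).smul_const
      (f (k + (i + 1)) 0)
    have e1 : k + 1 + i = k + (i + 1) := by ring
    have e2 : ((i + 1 : ℕ) : ℝ) * t ^ (i + 1 - 1) / ((i + 1).factorial : ℝ)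
        = t ^ i / (i.factorial : ℝ) := by
      rw [Nat.factorial_succ, Nat.add_sub_cancel]
      push_cast
      have : (i.factorial : ℝ) ≠ 0 := by positivity
      field_simp
    rw [e2] at h2
    rw [e1]
    exact h2
  have h3 := (HasDerivAt.fun_sum h1).add_const (f k 0)
  exact h3

theorem tayP_zero (f : ℕ → ℝ → F) (k j : ℕ) : tayP f k j 0 = f k 0 := by
  unfold tayP
  rw [Finset.sum_range_succ']
  simp

theorem taylor_gen {f : ℕ → ℝ → F} {h : ℝ} (hh : 0 < h) {m : ℕ}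
    (d : ∀ k < m, ∀ t ∈ Icc 0 h, HasDerivAt (f k) (f (k + 1) t) t)
    (cm : ContinuousOn (f m) (Icc 0 h)) :
    ∀ j k, k + j + 1 = m → ∀ t ∈ Icc 0 h, ‖f k t - tayP f k j t‖
      ≤ (∫ t in (0 : ℝ)..h, ‖f m t‖) * (t ^ j / (j.factorial : ℝ)) := by
  set J := ∫ t in (0 : ℝ)..h, ‖f m t‖ with hJ
  intro j
  induction j with
  | zero =>
    intro k hk t ht
    have hsub : Set.uIcc 0 t ⊆ Icc 0 h := by
      rw [Set.uIcc_of_le ht.1]; exact Icc_subset_Icc le_rfl ht.2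
    have hkm : k + 1 = m := by omega
    have i3 : IntervalIntegrable (f m) volume 0 t := (cm.mono hsub).intervalIntegrable
    have e := integral_eq_sub_of_hasDerivAt (f := f k) (f' := f m)
      (fun x hx => by rw [← hkm]; exact d k (by omega) x (hsub hx)) i3
    have e2 : tayP f k 0 t = f k 0 := by simp [tayP]
    rw [e2, ← e]
    simp only [pow_zero, Nat.factorial_zero, Nat.cast_one, div_one, mul_one]
    refine (intervalIntegral.norm_integral_le_integral_norm ht.1).trans ?_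
    rw [hJ]
    have i4 : IntervalIntegrable (fun t => ‖f m t‖) volume 0 h := by
      refine ContinuousOn.intervalIntegrable ?_
      rw [Set.uIcc_of_le hh.le]; exact cm.norm
    refine integral_mono_interval le_rfl ht.1 ht.2 ?_ i4
    exact Eventually.of_forall fun x => norm_nonneg _
  | succ j ih =>
    intro k hk
    have hd : ∀ t ∈ Icc 0 h, HasDerivAt (fun t => f k t - tayP f k (j + 1) t)
        (f (k + 1) t - tayP f (k + 1) j t) t := fun t ht =>
      (d k (by omega) t ht).sub (tayP_deriv f k j t)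
    refine image_norm_le_of_norm_deriv_right_le_deriv_boundary (a := 0) (b := h)
      (f := fun t => f k t - tayP f k (j + 1) t)
      (f' := fun t => f (k + 1) t - tayP f (k + 1) j t)
      (B := fun t => J * (t ^ (j + 1) / ((j + 1).factorial : ℝ)))
      (B' := fun t => J * (t ^ j / (j.factorial : ℝ))) ?_ ?_ ?_ ?_ ?_
    · exact fun t ht => (hd t ht).continuousAt.continuousWithinAt
    · exact fun t ht => (hd t (Ico_subset_Icc_self ht)).hasDerivWithinAt
    · simp [tayP_zero]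
    · intro t
      have h2 := ((hasDerivAt_pow (j + 1) t).div_const ((j + 1).factorial : ℝ)).const_mul J
      have e2 : ((j + 1 : ℕ) : ℝ) * t ^ (j + 1 - 1) / ((j + 1).factorial : ℝ)
          = t ^ j / (j.factorial : ℝ) := by
        rw [Nat.factorial_succ, Nat.add_sub_cancel]
        push_cast
        have : (j.factorial : ℝ) ≠ 0 := by positivity
        field_simp
      rw [e2] at h2
      exact h2
    · intro t ht
      exact ih (k + 1) (by omega) t (Ico_subset_Icc_self ht)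

theorem tayP_cont (f : ℕ → ℝ → F) (k j : ℕ) : Continuous (tayP f k j) := by
  unfold tayP
  fun_prop

/-- General quadrature estimates. -/
theorem quad_err {m J : ℕ} {c w : Fin J → ℝ} (hq : QN m c w) {f : ℕ → ℝ → F} {h : ℝ}
    (hh : 0 < h) (hm : 0 < m)
    (d : ∀ k < m, ∀ t ∈ Icc 0 h, HasDerivAt (f k) (f (k + 1) t) t)
    (cm : ContinuousOn (f m) (Icc 0 h)) :
    ‖(∫ t in (0 : ℝ)..h, f 0 t) - h • ∑ j, w j • f 0 (c j * h)‖
        ≤ 2 * h ^ m * ∫ t in (0 : ℝ)..h, ‖f m t‖ ∧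
    ‖(∫ t in (0 : ℝ)..h, (h - t) • f 0 t) - h ^ 2 • ∑ j, (w j * (1 - c j)) • f 0 (c j * h)‖
        ≤ 2 * h ^ (m + 1) * ∫ t in (0 : ℝ)..h, ‖f m t‖ := by
  obtain ⟨m', rfl⟩ : ∃ m', m = m' + 1 := ⟨m - 1, by omega⟩
  set I := ∫ t in (0 : ℝ)..h, ‖f (m' + 1) t‖ with hI
  have I0 : 0 ≤ I := intervalIntegral.integral_nonneg hh.le fun t _ => norm_nonneg _
  set T : ℝ → F := tayP f 0 m' with hT
  have cT : Continuous T := tayP_cont f 0 m'
  have hR : ∀ t ∈ Icc 0 h, ‖f 0 t - T t‖ ≤ I * h ^ m' := by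
    intro t ht
    refine (taylor_gen hh d cm m' 0 (by omega) t ht).trans ?_
    refine mul_le_mul_of_nonneg_left ?_ I0
    have h1 : t ^ m' ≤ h ^ m' := pow_le_pow_left₀ ht.1 ht.2 m'
    have h2 : (1 : ℝ) ≤ (m'.factorial : ℝ) := by exact_mod_cast Nat.one_le_iff_ne_zero.2 (Nat.factorial_ne_zero m')
    have h3 : 0 ≤ t ^ m' := pow_nonneg ht.1 _
    exact (div_le_self h3 h2).trans h1
  have cont0 : ContinuousOn (f 0) (Icc 0 h) := fun t ht =>
    (d 0 (by omega) t ht).continuousAt.continuousWithinAt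
  have iR : IntervalIntegrable (fun t => f 0 t - T t) volume 0 h := by
    refine ContinuousOn.intervalIntegrable ?_
    rw [Set.uIcc_of_le hh.le]; exact cont0.sub cT.continuousOn
  have iRw : IntervalIntegrable (fun t => (h - t) • (f 0 t - T t)) volume 0 h := by
    refine ContinuousOn.intervalIntegrable ?_
    rw [Set.uIcc_of_le hh.le]
    exact (by fun_prop : Continuous fun t : ℝ => h - t).continuousOn.smul
      (cont0.sub cT.continuousOn)
  have iT : IntervalIntegrable T volume 0 h := cT.intervalIntegrable _ _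
  have iTw : IntervalIntegrable (fun t => (h - t) • T t) volume 0 h :=
    (by fun_prop : Continuous fun t => (h - t) • T t).intervalIntegrable _ _
  have hcj : ∀ j, c j * h ∈ Icc 0 h := fun j =>
    ⟨mul_nonneg (hq.c0 j) hh.le, by nlinarith [hq.c1 j]⟩
  have w1 : ∑ j, w j = 1 := by
    have := hq.mom 0 (Nat.zero_le _)
    simpa using this
  -- exactness on the Taylor polynomial
  have ex1 : ∫ t in (0 : ℝ)..h, T t = h • ∑ j, w j • T (c j * h) := by
    have e1 : ∫ t in (0 : ℝ)..h, T t = ∑ i ∈ Finset.range (m' + 1),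
        (h ^ (i + 1) / ((i + 1) * (i.factorial : ℝ))) • f (0 + i) 0 := by
      rw [hT]
      unfold tayP
      rw [intervalIntegral.integral_finsetSum fun i _ =>
        (by fun_prop : Continuous fun t : ℝ => (t ^ i / (i.factorial : ℝ)) • f (0 + i) 0).intervalIntegrable _ _]
      refine Finset.sum_congr rfl fun i _ => ?_
      rw [intervalIntegral.integral_smul_const, intervalIntegral.integral_div, integral_pow]
      congr 1
      simp
      field_simp
    rw [e1, hT]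
    unfold tayP
    simp only [Finset.smul_sum]
    rw [Finset.sum_comm]
    refine Finset.sum_congr rfl fun i hi => ?_
    have hi' := Finset.mem_range.1 hi
    simp only [smul_smul, ← Finset.sum_smul]
    congr 1
    have h1 := hq.mom i (by omega)
    have e2 : ∀ j, h * (w j * ((c j * h) ^ i / (i.factorial : ℝ)))
        = (h ^ (i + 1) / (i.factorial : ℝ)) * (w j * c j ^ i) := by
      intro j; rw [mul_pow]; ring
    simp only [e2]
    rw [← Finset.mul_sum, h1]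
    field_simp
  have ex2 : ∫ t in (0 : ℝ)..h, (h - t) • T t
      = h ^ 2 • ∑ j, (w j * (1 - c j)) • T (c j * h) := by
    have e1 : ∫ t in (0 : ℝ)..h, (h - t) • T t = ∑ i ∈ Finset.range (m' + 1),
        (h ^ (i + 2) / (i.factorial : ℝ) * (1 / (i + 1) - 1 / (i + 2))) • f (0 + i) 0 := by
      rw [hT]
      unfold tayP
      simp only [Finset.smul_sum, smul_smul]
      rw [intervalIntegral.integral_finsetSum fun i _ =>
        (by fun_prop : Continuous fun t : ℝ =>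
          ((h - t) * (t ^ i / (i.factorial : ℝ))) • f (0 + i) 0).intervalIntegrable _ _]
      refine Finset.sum_congr rfl fun i _ => ?_
      rw [intervalIntegral.integral_smul_const]
      congr 1
      have e3 : ∀ t : ℝ, (h - t) * (t ^ i / (i.factorial : ℝ))
          = (h / (i.factorial : ℝ)) * t ^ i - (1 / (i.factorial : ℝ)) * t ^ (i + 1) := by
        intro t; rw [pow_succ]; ring
      simp only [e3]
      rw [intervalIntegral.integral_sub
        ((by fun_prop : Continuous fun t : ℝ => (h / (i.factorial : ℝ)) * t ^ i).intervalIntegrable _ _)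
        ((by fun_prop : Continuous fun t : ℝ => (1 / (i.factorial : ℝ)) * t ^ (i + 1)).intervalIntegrable _ _),
        intervalIntegral.integral_const_mul, intervalIntegral.integral_const_mul, integral_pow,
        integral_pow]
      have : (i.factorial : ℝ) ≠ 0 := by positivity
      have h5 : ((i : ℝ) + 1) ≠ 0 := by positivity
      have h6 : ((i : ℝ) + 2) ≠ 0 := by positivity
      have h7 : ((i : ℝ) + 1 + 1) ≠ 0 := by positivity
      simp only [ne_eq, Nat.add_eq_zero_iff, one_ne_zero, and_false, not_false_eq_true, zero_pow,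
        sub_zero]
      push_cast
      field_simp
      ring
    rw [e1, hT]
    unfold tayP
    simp only [Finset.smul_sum]
    rw [Finset.sum_comm]
    refine Finset.sum_congr rfl fun i hi => ?_
    have hi' := Finset.mem_range.1 hi
    simp only [smul_smul, ← Finset.sum_smul]
    congr 1
    have h1 := hq.mom i (by omega)
    have h2 := hq.mom (i + 1) (by omega)
    have e2 : ∀ j, h ^ 2 * (w j * (1 - c j) * ((c j * h) ^ i / (i.factorial : ℝ)))
        = (h ^ (i + 2) / (i.factorial : ℝ)) * (w j * c j ^ i - w j * c j ^ (i + 1)) := by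
      intro j; rw [mul_pow]; ring
    simp only [e2]
    rw [← Finset.mul_sum, Finset.sum_sub_distrib, h1, h2]
    congr 2
    push_cast
    ring
  constructor
  · have key : (∫ t in (0 : ℝ)..h, f 0 t) - h • ∑ j, w j • f 0 (c j * h) =
        (∫ t in (0 : ℝ)..h, (f 0 t - T t)) - h • ∑ j, w j • (f 0 (c j * h) - T (c j * h)) := by
      have e1 : ∫ t in (0 : ℝ)..h, f 0 t
          = (∫ t in (0 : ℝ)..h, (f 0 t - T t)) + ∫ t in (0 : ℝ)..h, T t := by
        rw [← integral_add iR iT]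
        refine integral_congr fun t _ => ?_
        simp
      rw [e1, ex1]
      simp only [smul_sub, Finset.sum_sub_distrib]
      abel
    rw [key]
    have b1 : ‖∫ t in (0 : ℝ)..h, (f 0 t - T t)‖ ≤ (I * h ^ m') * |h - 0| :=
      intervalIntegral.norm_integral_le_of_norm_le_const fun t ht => by
        rw [Set.uIoc_of_le hh.le] at ht
        exact hR t ⟨ht.1.le, ht.2⟩
    rw [sub_zero, abs_of_pos hh] at b1
    have b2 : ‖h • ∑ j, w j • (f 0 (c j * h) - T (c j * h))‖ ≤ h * (I * h ^ m') := by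
      rw [norm_smul, Real.norm_of_nonneg hh.le]
      refine mul_le_mul_of_nonneg_left ?_ hh.le
      refine (norm_sum_le _ _).trans ?_
      calc ∑ j, ‖w j • (f 0 (c j * h) - T (c j * h))‖ ≤ ∑ j, w j * (I * h ^ m') := by
            refine Finset.sum_le_sum fun j _ => ?_
            rw [norm_smul, Real.norm_of_nonneg (hq.w0 j)]
            exact mul_le_mul_of_nonneg_left (hR _ (hcj j)) (hq.w0 j)
        _ = I * h ^ m' := by rw [← Finset.sum_mul, w1, one_mul]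
    refine (norm_sub_le _ _).trans ((add_le_add b1 b2).trans (le_of_eq ?_))
    rw [pow_succ]; ring
  · have key : (∫ t in (0 : ℝ)..h, (h - t) • f 0 t)
          - h ^ 2 • ∑ j, (w j * (1 - c j)) • f 0 (c j * h) =
        (∫ t in (0 : ℝ)..h, (h - t) • (f 0 t - T t))
          - h ^ 2 • ∑ j, (w j * (1 - c j)) • (f 0 (c j * h) - T (c j * h)) := by
      have e1 : ∫ t in (0 : ℝ)..h, (h - t) • f 0 t
          = (∫ t in (0 : ℝ)..h, (h - t) • (f 0 t - T t)) + ∫ t in (0 : ℝ)..h, (h - t) • T t := by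
        rw [← integral_add iRw iTw]
        refine integral_congr fun t _ => ?_
        simp only [← smul_add]
        congr 1
        abel
      rw [e1, ex2]
      simp only [smul_sub, Finset.sum_sub_distrib]
      abel
    rw [key]
    have b1 : ‖∫ t in (0 : ℝ)..h, (h - t) • (f 0 t - T t)‖ ≤ (h * (I * h ^ m')) * |h - 0| :=
      intervalIntegral.norm_integral_le_of_norm_le_const fun t ht => by
        rw [Set.uIoc_of_le hh.le] at ht
        rw [norm_smul, Real.norm_of_nonneg (by linarith [ht.2])]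
        exact mul_le_mul (by linarith [ht.1]) (hR t ⟨ht.1.le, ht.2⟩) (norm_nonneg _) hh.le
    rw [sub_zero, abs_of_pos hh] at b1
    have b2 : ‖h ^ 2 • ∑ j, (w j * (1 - c j)) • (f 0 (c j * h) - T (c j * h))‖
        ≤ h ^ 2 * (I * h ^ m') := by
      rw [norm_smul, Real.norm_of_nonneg (by positivity)]
      refine mul_le_mul_of_nonneg_left ?_ (by positivity)
      refine (norm_sum_le _ _).trans ?_
      calc ∑ j, ‖(w j * (1 - c j)) • (f 0 (c j * h) - T (c j * h))‖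
          ≤ ∑ j, w j * (I * h ^ m') := by
            refine Finset.sum_le_sum fun j _ => ?_
            have h1 : 0 ≤ w j * (1 - c j) := mul_nonneg (hq.w0 j) (by linarith [hq.c1 j])
            have h2 : w j * (1 - c j) ≤ w j := by nlinarith [hq.w0 j, hq.c0 j]
            rw [norm_smul, Real.norm_of_nonneg h1]
            exact mul_le_mul h2 (hR _ (hcj j)) (norm_nonneg _) (hq.w0 j)
        _ = I * h ^ m' := by rw [← Finset.sum_mul, w1, one_mul]
    refine (norm_sub_le _ _).trans ((add_le_add b1 b2).trans (le_of_eq ?_))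
    rw [pow_succ, pow_succ]; ring

end taylor

section tchakaloff

/-- Moment curve. -/
noncomputable def momC (m : ℕ) (t : ℝ) : Fin (m + 1) → ℝ := fun k => t ^ (k : ℕ)

theorem momC_cont (m : ℕ) : Continuous (momC m) := by
  unfold momC
  fun_prop

/-- The convex hull of the moment curve as the image of a compact set. -/
theorem hull_eq (m : ℕ) : convexHull ℝ (momC m '' Icc 0 1) =
    (fun q : (Fin (m + 2) → ℝ) × (Fin (m + 2) → ℝ) => ∑ i, q.1 i • momC m (q.2 i)) ''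
      (stdSimplex ℝ (Fin (m + 2)) ×ˢ (Set.pi univ fun _ => Icc (0 : ℝ) 1)) := by
  apply Subset.antisymm
  · intro x hx
    obtain ⟨ι, hι, z, w, hz, hai, hw, hw1, hx'⟩ := eq_pos_convex_span_of_mem_convexHull hx
    have hcard : Fintype.card ι ≤ Fintype.card (Fin (m + 2)) := by
      have h1 := hai.card_le_finrank_succ
      have h2 : Module.finrank ℝ (vectorSpan ℝ (Set.range z)) ≤ Module.finrank ℝ (Fin (m + 1) → ℝ) :=
        Submodule.finrank_le _
      rw [Module.finrank_fin_fun] at h2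
      rw [Fintype.card_fin]
      omega
    obtain ⟨e⟩ := Function.Embedding.nonempty_of_card_le hcard
    have ht : ∀ i, ∃ t ∈ Icc (0 : ℝ) 1, momC m t = z i := fun i => hz ⟨i, rfl⟩
    choose t ht1 ht2 using ht
    have ei := e.injective
    refine ⟨(Function.extend e w (fun _ => 0), Function.extend e t (fun _ => 0)), ⟨⟨?_, ?_⟩, ?_⟩, ?_⟩
    · intro i
      by_cases hi : ∃ k, e k = i
      · obtain ⟨k, rfl⟩ := hi
        simp only [ei.extend_apply]
        exact (hw k).le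
      · simp only [Function.extend_apply' _ _ _ hi]
        exact le_rfl
    · simp only
      rw [← hw1]
      symm
      refine Finset.sum_of_injOn e ei.injOn (by simp) ?_ ?_
      · intro i _ hi
        have hi' : ¬ ∃ k, e k = i := by simpa using hi
        simp only [Function.extend_apply' _ _ _ hi']
      · intro i _
        simp only [ei.extend_apply]
    · intro i _
      by_cases hi : ∃ k, e k = i
      · obtain ⟨k, rfl⟩ := hi
        simp only [ei.extend_apply]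
        exact ht1 k
      · simp only [Function.extend_apply' _ _ _ hi]
        exact ⟨le_rfl, zero_le_one⟩
    · simp only
      rw [← hx']
      symm
      refine Finset.sum_of_injOn e ei.injOn (by simp) ?_ ?_
      · intro i _ hi
        have hi' : ¬ ∃ k, e k = i := by simpa using hi
        simp only [Function.extend_apply' _ _ _ hi', zero_smul]
      · intro i _
        simp only [ei.extend_apply]
        rw [ht2]
  · rintro x ⟨⟨w, t⟩, ⟨⟨hw0, hw1⟩, ht⟩, rfl⟩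
    exact (convex_convexHull ℝ _).sum_mem (fun i _ => hw0 i) hw1
      (fun i _ => subset_convexHull ℝ _ ⟨t i, ht i trivial, rfl⟩)

theorem hull_compact (m : ℕ) : IsCompact (convexHull ℝ (momC m '' Icc 0 1)) := by
  rw [hull_eq]
  refine ((isCompact_stdSimplex ℝ (Fin (m + 2))).prod
    (isCompact_univ_pi fun _ => isCompact_Icc)).image ?_
  have := momC_cont m
  fun_prop

/-- Positive quadrature of any order. -/
theorem exists_QN (m : ℕ) : ∃ (J : ℕ) (c w : Fin J → ℝ), QN m c w := by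
  set μ : Measure ℝ := volume.restrict (Icc 0 1) with hμ
  have hprob : IsProbabilityMeasure μ := ⟨by rw [hμ]; simp⟩
  have hint : Integrable (momC m) μ :=
    (momC_cont m).continuousOn.integrableOn_compact isCompact_Icc
  have hmem : ∫ t, momC m t ∂μ ∈ convexHull ℝ (momC m '' Icc 0 1) := by
    refine (convex_convexHull ℝ _).integral_mem (hull_compact m).isClosed ?_ hint
    rw [hμ]
    refine (ae_restrict_iff' measurableSet_Icc).2 (Eventually.of_forall fun t ht => ?_)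
    exact subset_convexHull ℝ _ ⟨t, ht, rfl⟩
  rw [hull_eq] at hmem
  obtain ⟨⟨w, c⟩, ⟨⟨hw0, hw1⟩, hc⟩, hx⟩ := hmem
  refine ⟨m + 2, c, w, ⟨fun j => (hc j trivial).1, fun j => (hc j trivial).2, hw0, ?_⟩⟩
  intro k hk
  have h1 := congrFun hx ⟨k, by omega⟩
  have h2 : (∫ t, momC m t ∂μ) ⟨k, by omega⟩ = ∫ t, t ^ k ∂μ := by
    have := eval_integral (μ := μ) (f := momC m) (i := (⟨k, by omega⟩ : Fin (m + 1)))
      (fun i => ((continuous_apply i).comp (momC_cont m)).continuousOn.integrableOn_compact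
        isCompact_Icc)
    rw [this]
    rfl
  rw [h2] at h1
  simp only [Finset.sum_apply, Pi.smul_apply, smul_eq_mul, momC] at h1
  rw [h1, hμ, integral_Icc_eq_integral_Ioc, ← intervalIntegral.integral_of_le zero_le_one,
    integral_pow]
  simp

end tchakaloff

end Vale.Agent.P347
end

section

/-! General-order derivative bounds (P347): derivatives of posterior expectations of all orders
via Appell functions. -/

open MeasureTheory Filter Module Set Topology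
open scoped ContDiff

namespace Vale.Agent.P347.Gen

variable {E : Type*} [NormedAddCommGroup E] [InnerProductSpace ℝ E] [FiniteDimensional ℝ E]
  [MeasurableSpace E] [BorelSpace E]

/-! ### Smoothness of posterior expectations -/

/-- Unnormalised posterior density. -/
noncomputable def wt (V : E → ℝ) (s : ℝ) (y x : E) : ℝ := Real.exp (-post V s y x)

/-- Unnormalised posterior expectation. -/
noncomputable def Nm (V : E → ℝ) (s : ℝ) (m : E → ℝ) (y : E) : ℝ := ∫ x, wt V s y x * m x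

/-- Posterior expectation. -/
noncomputable def Ph (V : E → ℝ) (s : ℝ) (m : E → ℝ) (y : E) : ℝ := ∫ x, m x ∂(gibbs (post V s y))

variable {V : E → ℝ} {s : ℝ}

theorem wt_pos (y x : E) : 0 < wt V s y x := Real.exp_pos _

theorem wt_le (hs : 0 < s) (y x : E) : wt V s y x ≤ Real.exp (-V x) := by
  unfold wt post
  apply Real.exp_le_exp.2
  have : 0 ≤ ‖x - y‖ ^ 2 / (2 * s) := by positivity
  linarith

theorem vol_int (hA : Adm V) {f : E → ℝ} (hf : CP f) :
    Integrable (fun x => Real.exp (-V x) * f x) (volume : Measure E) := by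
  have h := hA.integrable hf.2 hf.1.aestronglyMeasurable
  unfold gibbs at h
  rw [integrable_tilted_iff hA.integrable_exp] at h
  exact h

theorem wt_cont (hA : Adm V) (y : E) : Continuous (wt V s y) := by
  have := hA.cont
  unfold wt post
  fun_prop

theorem wt_int (hA : Adm V) (hs : 0 < s) {f : E → ℝ} (hf : CP f) (y : E) :
    Integrable (fun x => wt V s y x * f x) (volume : Measure E) := by
  have hf' : CP (fun x => |f x|) := ⟨hf.1.abs, hf.2.norm⟩
  refine (vol_int hA hf').mono' ((wt_cont hA y).mul hf.1).aestronglyMeasurable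
    (Eventually.of_forall fun x => ?_)
  rw [norm_mul, Real.norm_eq_abs, abs_of_pos (wt_pos y x), Real.norm_eq_abs]
  exact mul_le_mul_of_nonneg_right (wt_le hs y x) (abs_nonneg _)

theorem wt_fderiv (hs : 0 < s) (x y : E) :
    HasFDerivAt (fun y => wt V s y x) (wt V s y x • ((1 / s) • innerSL ℝ (x - y))) y := by
  have h1 : HasFDerivAt (fun y : E => x - y) (-(ContinuousLinearMap.id ℝ E)) y := by
    simpa using (hasFDerivAt_id (𝕜 := ℝ) y).const_sub x
  have h2 := h1.norm_sq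
  have h3 : HasFDerivAt (fun y : E => -post V s y x) ((1 / s) • innerSL ℝ (x - y)) y := by
    have h4 := ((h2.mul_const (1 / (2 * s))).const_add (V x)).neg
    have e : (fun y : E => -post V s y x) = fun y => -(V x + ‖x - y‖ ^ 2 * (1 / (2 * s))) := by
      ext y; unfold post; ring
    rw [e]
    refine h4.congr_fderiv ?_
    ext w
    simp
    field_simp
    ring
  exact h3.exp

theorem Nm_fderiv (hA : Adm V) (hs : 0 < s) {m : E → ℝ} (hm : CP m) (y : E) :
    HasFDerivAt (Nm V s m) (∫ x, (m x * wt V s y x) • ((1 / s) • innerSL ℝ (x - y))) y := by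
  have hmc := hm.1
  have hbnd : CP (fun x : E => |m x| * ((1 / s) * (‖x‖ + (‖y‖ + 1)))) := by
    refine ⟨by fun_prop, ?_⟩
    exact (hm.2.norm).mul ((PG.const (1 / s)).mul ((PG.id.norm).add (PG.const (‖y‖ + 1))))
  have e0 : Nm V s m = fun y => ∫ x, wt V s y x * m x := rfl
  rw [e0]
  refine hasFDerivAt_integral_of_dominated_of_fderiv_le (s := Metric.ball y 1)
    (bound := fun x => Real.exp (-V x) * (|m x| * ((1 / s) * (‖x‖ + (‖y‖ + 1)))))
    (F' := fun y x => (m x * wt V s y x) • ((1 / s) • innerSL ℝ (x - y)))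
    (Metric.ball_mem_nhds y one_pos) ?_ (wt_int hA hs hm y) ?_ ?_ (vol_int hA hbnd) ?_
  · exact Eventually.of_forall fun y => (wt_int hA hs hm y).aestronglyMeasurable
  · refine Continuous.aestronglyMeasurable ?_
    have := wt_cont (s := s) hA y
    have h2 : Continuous fun x : E => innerSL ℝ (x - y) :=
      (innerSL ℝ).continuous.comp (continuous_id.sub continuous_const)
    exact (hmc.mul this).smul (h2.const_smul (1 / s))
  · refine Eventually.of_forall fun x y' hy' => ?_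
    rw [norm_smul, norm_smul, innerSL_apply_norm, norm_mul, Real.norm_eq_abs, Real.norm_eq_abs,
      Real.norm_eq_abs, abs_of_pos (wt_pos y' x), abs_of_pos (by positivity : 0 < 1 / s)]
    have h1 : ‖x - y'‖ ≤ ‖x‖ + (‖y‖ + 1) := by
      have h2 : ‖y'‖ ≤ ‖y‖ + 1 := by
        have h3 : ‖y' - y‖ < 1 := by simpa [dist_eq_norm] using hy'
        have h4 := norm_add_le (y' - y) y
        rw [sub_add_cancel] at h4
        linarith
      exact (norm_sub_le _ _).trans (by linarith)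
    have h5 := wt_le (V := V) hs y' x
    have h6 : 0 ≤ |m x| := abs_nonneg _
    calc |m x| * wt V s y' x * (1 / s * ‖x - y'‖)
        ≤ |m x| * Real.exp (-V x) * (1 / s * (‖x‖ + (‖y‖ + 1))) := by
          gcongr
      _ = _ := by ring
  · refine Eventually.of_forall fun x y' _ => ?_
    have := (wt_fderiv (V := V) hs x y').mul_const (m x)
    refine this.congr_fderiv ?_
    rw [smul_smul]

theorem CP.inn (u : E) : CP (fun x : E => (inner ℝ x u : ℝ)) := by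
  simpa using CP.affine u 0

theorem Nm_fderiv_apply (hA : Adm V) (hs : 0 < s) {m : E → ℝ} (hm : CP m) (y u : E) :
    fderiv ℝ (Nm V s m) y u
      = (1 / s) * (Nm V s (fun x => m x * inner ℝ x u) y - inner ℝ y u * Nm V s m y) := by
  rw [(Nm_fderiv hA hs hm y).fderiv]
  have hmc := hm.1
  have hint : Integrable (fun x : E => (m x * wt V s y x) • ((1 / s) • innerSL ℝ (x - y))) := by
    have hb : CP (fun x : E => |m x| * ((1 / s) * (‖x‖ + ‖y‖))) := by
      refine ⟨by fun_prop, ?_⟩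
      exact (hm.2.norm).mul ((PG.const (1 / s)).mul ((PG.id.norm).add (PG.const ‖y‖)))
    refine (wt_int hA hs hb y).mono' ?_ (Eventually.of_forall fun x => ?_)
    · refine Continuous.aestronglyMeasurable ?_
      have := wt_cont (s := s) hA y
      have h2 : Continuous fun x : E => innerSL ℝ (x - y) :=
        (innerSL ℝ).continuous.comp (continuous_id.sub continuous_const)
      exact (hmc.mul this).smul (h2.const_smul (1 / s))
    · rw [norm_smul, norm_smul, innerSL_apply_norm, norm_mul, Real.norm_eq_abs, Real.norm_eq_abs,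
        Real.norm_eq_abs, abs_of_pos (wt_pos y x), abs_of_pos (by positivity : 0 < 1 / s)]
      have h6 : 0 ≤ |m x| := abs_nonneg _
      have h7 := (wt_pos (V := V) (s := s) y x).le
      calc |m x| * wt V s y x * (1 / s * ‖x - y‖)
          ≤ |m x| * wt V s y x * (1 / s * (‖x‖ + ‖y‖)) := by
            gcongr
            exact norm_sub_le _ _
        _ = _ := by ring
  rw [ContinuousLinearMap.integral_apply hint]
  unfold Nm
  rw [← integral_const_mul, ← integral_sub (wt_int hA hs (hm.mul (CP.inn u)) y)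
    ((wt_int hA hs hm y).const_mul _), ← integral_const_mul]
  congr 1
  ext x
  simp only [_root_.smul_apply, innerSL_apply_apply, inner_sub_left, smul_eq_mul]
  ring

theorem Nm_contDiff_nat (hA : Adm V) (hs : 0 < s) (k : ℕ) :
    ∀ {m : E → ℝ}, CP m → ContDiff ℝ k (Nm V s m) := by
  induction k with
  | zero =>
    intro m hm
    have : Differentiable ℝ (Nm V s m) := fun y => (Nm_fderiv hA hs hm y).differentiableAt
    exact contDiff_zero.2 this.continuous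
  | succ k ih =>
    intro m hm
    have hd : Differentiable ℝ (Nm V s m) := fun y => (Nm_fderiv hA hs hm y).differentiableAt
    push_cast
    rw [contDiff_succ_iff_fderiv_apply]
    refine ⟨hd, by simp, fun u => ?_⟩
    have e : (fun y => fderiv ℝ (Nm V s m) y u) = fun y =>
        (1 / s) * (Nm V s (fun x => m x * inner ℝ x u) y - inner ℝ y u * Nm V s m y) := by
      ext y; exact Nm_fderiv_apply hA hs hm y u
    rw [e]
    have h1 := ih (hm.mul (CP.inn u))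
    have h2 := ih hm
    have h3 : ContDiff ℝ k (fun y : E => (inner ℝ y u : ℝ)) := contDiff_id.inner ℝ contDiff_const
    exact contDiff_const.mul (h1.sub (h3.mul h2))

theorem Nm_contDiff (hA : Adm V) (hs : 0 < s) {m : E → ℝ} (hm : CP m) :
    ContDiff ℝ ∞ (Nm V s m) := contDiff_infty.2 fun k => Nm_contDiff_nat hA hs k hm

theorem Nm_one_pos (hA : Adm V) (hs : 0 < s) (y : E) : 0 < Nm V s (fun _ => 1) y := by
  have h := wt_int hA hs (CP.const 1) y
  simp only [mul_one] at h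
  have h2 := MeasureTheory.integral_exp_pos (μ := (volume : Measure E))
    (f := fun x => -post V s y x) h
  unfold Nm wt
  simpa using h2

theorem Ph_eq (m : E → ℝ) (y : E) : Ph V s m y = Nm V s m y / Nm V s (fun _ => 1) y := by
  unfold Ph Nm wt
  rw [gibbs_integral]
  simp only [mul_one, smul_eq_mul]
  rw [div_eq_inv_mul]

theorem Ph_contDiff (hA : Adm V) (hs : 0 < s) {m : E → ℝ} (hm : CP m) :
    ContDiff ℝ ∞ (Ph V s m) := by
  have e : Ph V s m = fun y => Nm V s m y / Nm V s (fun _ => 1) y := by ext y; exact Ph_eq m y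
  rw [e]
  exact (Nm_contDiff hA hs hm).div (Nm_contDiff hA hs (CP.const 1))
    fun y => (Nm_one_pos hA hs y).ne'

/-- The derivative of a posterior expectation. -/
theorem Ph_dd (hA : Adm V) (hs : 0 < s) {m : E → ℝ} (hm : CP m) (u y : E) :
    dd u (Ph V s m) y = (1 / s) * (Ph V s (fun x => m x * inner ℝ x u) y
      - Ph V s m y * Ph V s (fun x => inner ℝ x u) y) := by
  have hp := (Nm_one_pos hA hs y).ne'
  have e : Nm V s m = fun y => Ph V s m y * Nm V s (fun _ => 1) y := by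
    ext y
    rw [Ph_eq, div_mul_cancel₀ _ (Nm_one_pos hA hs y).ne']
  have h1 := congrFun (dd_mul (Ph_contDiff hA hs hm) (Nm_contDiff hA hs (CP.const 1)) u) y
  rw [← e] at h1
  simp only [dd_apply] at h1 ⊢
  rw [Nm_fderiv_apply hA hs hm, Nm_fderiv_apply hA hs (CP.const (E := E) 1)] at h1
  simp only [one_mul] at h1
  have h2 : ∀ f : E → ℝ, Nm V s f y = Ph V s f y * Nm V s (fun _ => 1) y := by
    intro f
    rw [Ph_eq, div_mul_cancel₀ _ hp]
  rw [h2 (fun x => m x * inner ℝ x u), h2 m, h2 (fun x => inner ℝ x u)] at h1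
  apply mul_right_cancel₀ hp
  linarith

/-! ### Classes of functions of `(y, x)` -/

/-- Polynomial functions. -/
inductive Poly : (E → ℝ) → Prop
  | const (c : ℝ) : Poly (fun _ => c)
  | lin (u : E) : Poly (fun x => inner ℝ x u)
  | add {f g : E → ℝ} : Poly f → Poly g → Poly (fun x => f x + g x)
  | mul {f g : E → ℝ} : Poly f → Poly g → Poly (fun x => f x * g x)

omit [FiniteDimensional ℝ E] [MeasurableSpace E] [BorelSpace E] in
theorem Poly.sm {f : E → ℝ} (hf : Poly f) : ContDiff ℝ ∞ f := by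
  induction hf with
  | const c => exact contDiff_const
  | lin u => exact contDiff_id.inner ℝ contDiff_const
  | add _ _ h1 h2 => exact h1.add h2
  | mul _ _ h1 h2 => exact h1.mul h2

theorem Poly.cp {f : E → ℝ} (hf : Poly f) : CP f := by
  induction hf with
  | const c => exact CP.const c
  | lin u => exact CP.inn u
  | add _ _ h1 h2 => exact h1.add h2
  | mul _ _ h1 h2 => exact h1.mul h2

omit [FiniteDimensional ℝ E] [MeasurableSpace E] [BorelSpace E] in
theorem dd_lin (e u : E) : dd e (fun x : E => (inner ℝ x u : ℝ)) = fun _ => inner ℝ e u := by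
  ext x
  have h : HasFDerivAt (fun x : E => (inner ℝ x u : ℝ)) (innerSL ℝ u) x := by
    simpa [real_inner_comm] using (innerSL ℝ u).hasFDerivAt (x := x)
  rw [dd_apply, h.fderiv]
  simp [real_inner_comm]

omit [FiniteDimensional ℝ E] [MeasurableSpace E] [BorelSpace E] in
theorem Poly.dd {f : E → ℝ} (hf : Poly f) (e : E) : Poly (dd e f) := by
  induction hf with
  | const c => rw [dd_const]; exact Poly.const 0
  | lin u => rw [dd_lin]; exact Poly.const _
  | add h1 h2 i1 i2 => rw [dd_add h1.sm h2.sm]; exact i1.add i2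
  | mul h1 h2 i1 i2 => rw [dd_mul h1.sm h2.sm]; exact (i1.mul h2).add (h1.mul i2)

/-- Finite sums of products `c y * m x` with `c` smooth and `m` in the class `Q`. -/
inductive PP (Q : (E → ℝ) → Prop) : (E → E → ℝ) → Prop
  | base (c m : E → ℝ) : ContDiff ℝ ∞ c → Q m → PP Q (fun y x => c y * m x)
  | add (f g : E → E → ℝ) : PP Q f → PP Q g → PP Q (fun y x => f y x + g y x)

theorem PP.cp {Q : (E → ℝ) → Prop} (hQ : ∀ m, Q m → CP m) {f : E → E → ℝ} (hf : PP Q f) (y : E) :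
    CP (f y) := by
  induction hf with
  | base c m hc hm => exact (CP.const (c y)).mul (hQ m hm)
  | add f g _ _ h1 h2 => exact h1.add h2

omit [FiniteDimensional ℝ E] [MeasurableSpace E] [BorelSpace E] in
theorem PP.smy {Q : (E → ℝ) → Prop} {f : E → E → ℝ} (hf : PP Q f) (x : E) :
    ContDiff ℝ ∞ (fun y => f y x) := by
  induction hf with
  | base c m hc hm => exact hc.mul contDiff_const
  | add f g _ _ h1 h2 => exact h1.add h2

omit [FiniteDimensional ℝ E] [MeasurableSpace E] [BorelSpace E] in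
theorem PP.mulx {Q Q' : (E → ℝ) → Prop} {g : E → ℝ} (hg : ∀ m, Q m → Q' (fun x => g x * m x))
    {f : E → E → ℝ} (hf : PP Q f) : PP Q' (fun y x => g x * f y x) := by
  induction hf with
  | base c m hc hm =>
    have := PP.base (Q := Q') c (fun x => g x * m x) hc (hg m hm)
    convert this using 3
    ring
  | add f f' _ _ h1 h2 =>
    have := PP.add _ _ h1 h2
    convert this using 3
    ring

omit [FiniteDimensional ℝ E] [MeasurableSpace E] [BorelSpace E] in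
theorem PP.muly {Q : (E → ℝ) → Prop} {c : E → ℝ} (hc : ContDiff ℝ ∞ c)
    {f : E → E → ℝ} (hf : PP Q f) : PP Q (fun y x => c y * f y x) := by
  induction hf with
  | base c' m hc' hm =>
    have := PP.base (Q := Q) (fun y => c y * c' y) m (hc.mul hc') hm
    convert this using 3
    ring
  | add f f' _ _ h1 h2 =>
    have := PP.add _ _ h1 h2
    convert this using 3
    ring

/-- Derivative in the first variable. -/
noncomputable def dy (u : E) (f : E → E → ℝ) : E → E → ℝ := fun y x => dd u (fun y => f y x) y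

/-- Derivative in the second variable. -/
noncomputable def dx (e : E) (f : E → E → ℝ) : E → E → ℝ := fun y => dd e (f y)

omit [FiniteDimensional ℝ E] [MeasurableSpace E] [BorelSpace E] in
theorem dy_add {Q : (E → ℝ) → Prop} {f g : E → E → ℝ} (hf : PP Q f) (hg : PP Q g) (u : E) :
    dy u (fun y x => f y x + g y x) = fun y x => dy u f y x + dy u g y x := by
  ext y x
  exact congrFun (dd_add (hf.smy x) (hg.smy x) u) y

omit [FiniteDimensional ℝ E] [MeasurableSpace E] [BorelSpace E] in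
theorem dy_base {c m : E → ℝ} (hc : ContDiff ℝ ∞ c) (u : E) :
    dy u (fun y x => c y * m x) = fun y x => dd u c y * m x := by
  ext y x
  have := congrFun (dd_mul hc (contDiff_const (c := m x)) u) y
  simp only [dd_const, mul_zero, add_zero] at this
  exact this

omit [FiniteDimensional ℝ E] [MeasurableSpace E] [BorelSpace E] in
theorem PP.dy {Q : (E → ℝ) → Prop} {f : E → E → ℝ} (hf : PP Q f) (u : E) : PP Q (dy u f) := by
  induction hf with
  | base c m hc hm => rw [dy_base hc]; exact PP.base _ _ (smDd hc u) hm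
  | add f g hf hg h1 h2 => rw [dy_add hf hg]; exact PP.add _ _ h1 h2

omit [FiniteDimensional ℝ E] [MeasurableSpace E] [BorelSpace E] in
theorem PP.smx {f : E → E → ℝ} (hf : PP Poly f) (y : E) : ContDiff ℝ ∞ (f y) := by
  induction hf with
  | base c m hc hm => exact contDiff_const.mul hm.sm
  | add f g _ _ h1 h2 => exact h1.add h2

omit [FiniteDimensional ℝ E] [MeasurableSpace E] [BorelSpace E] in
theorem dx_add {f g : E → E → ℝ} (hf : PP Poly f) (hg : PP Poly g) (e : E) :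
    dx e (fun y x => f y x + g y x) = fun y x => dx e f y x + dx e g y x := by
  ext y x
  exact congrFun (dd_add (hf.smx y) (hg.smx y) e) x

omit [FiniteDimensional ℝ E] [MeasurableSpace E] [BorelSpace E] in
theorem dx_base {c m : E → ℝ} (hm : ContDiff ℝ ∞ m) (e : E) :
    dx e (fun y x => c y * m x) = fun y x => c y * dd e m x := by
  ext y x
  exact congrFun (dd_cmul hm (c y) e) x

omit [FiniteDimensional ℝ E] [MeasurableSpace E] [BorelSpace E] in
theorem PP.dx {f : E → E → ℝ} (hf : PP Poly f) (e : E) : PP Poly (dx e f) := by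
  induction hf with
  | base c m hc hm => rw [dx_base hm.sm]; exact PP.base _ _ hc (hm.dd e)
  | add f g hf hg h1 h2 => rw [dx_add hf hg]; exact PP.add _ _ h1 h2

omit [FiniteDimensional ℝ E] [MeasurableSpace E] [BorelSpace E] in
theorem dx_dy {f : E → E → ℝ} (hf : PP Poly f) (e u : E) : dx e (dy u f) = dy u (dx e f) := by
  induction hf with
  | base c m hc hm => rw [dy_base hc, dx_base hm.sm, dx_base hm.sm, dy_base hc]
  | add f g hf hg h1 h2 =>
    rw [dy_add hf hg, dx_add (hf.dy u) (hg.dy u), h1, h2, dx_add hf hg,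
      dy_add (hf.dx e) (hg.dx e)]

/-- The operator which represents a `y`-derivative under the posterior expectation. -/
noncomputable def Du (V : E → ℝ) (s : ℝ) (u : E) (f : E → E → ℝ) : E → E → ℝ :=
  fun y x => dy u f y x + (1 / s) * ((inner ℝ x u - Ph V s (fun x => inner ℝ x u) y) * f y x)

theorem PP.Du {Q : (E → ℝ) → Prop} (hQ : ∀ (u : E) m, Q m → Q (fun x => inner ℝ x u * m x))
    (hA : Adm V) (hs : 0 < s) {f : E → E → ℝ} (hf : PP Q f) (u : E) : PP Q (Du V s u f) := by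
  have h1 := hf.dy u
  have h2 := (hf.mulx (hQ u)).muly (contDiff_const (c := 1 / s))
  have h3 := hf.muly (c := fun y => -(1 / s) * Ph V s (fun x => inner ℝ x u) y)
    (contDiff_const.mul (Ph_contDiff hA hs (CP.inn u)))
  have h4 := PP.add _ _ h1 (PP.add _ _ h2 h3)
  convert h4 using 3
  unfold Gen.Du
  ring

theorem CP.hQ : ∀ (u : E) (m : E → ℝ), CP m → CP (fun x => inner ℝ x u * m x) :=
  fun u _ hm => (CP.inn u).mul hm

omit [FiniteDimensional ℝ E] [MeasurableSpace E] [BorelSpace E] in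
theorem Poly.hQ : ∀ (u : E) (m : E → ℝ), Poly m → Poly (fun x => inner ℝ x u * m x) :=
  fun u _ hm => (Poly.lin u).mul hm

theorem Ph_add (hA' : ∀ y, Adm (post V s y)) {f g : E → ℝ} (hf : CP f) (hg : CP g) (y : E) :
    Ph V s (fun x => f x + g x) y = Ph V s f y + Ph V s g y :=
  integral_add ((hA' y).integrable hf.2 hf.1.aestronglyMeasurable)
    ((hA' y).integrable hg.2 hg.1.aestronglyMeasurable)

theorem Ph_cmul (c : ℝ) (f : E → ℝ) (y : E) :
    Ph V s (fun x => c * f x) y = c * Ph V s f y := integral_const_mul _ _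

/-- Derivative of `y ↦ E_{ρ_y} f(y, ·)`. -/
theorem Ph_PP (hA : Adm V) (hA' : ∀ y, Adm (post V s y)) (hs : 0 < s) {f : E → E → ℝ}
    (hf : PP CP f) :
    ContDiff ℝ ∞ (fun y => Ph V s (f y) y) ∧
    ∀ u y, dd u (fun y => Ph V s (f y) y) y = Ph V s (Du V s u f y) y := by
  induction hf with
  | base c m hc hm =>
    have e : (fun y => Ph V s (fun x => c y * m x) y) = fun y => c y * Ph V s m y := by
      ext y; exact Ph_cmul _ _ _
    have hP := Ph_contDiff hA hs hm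
    rw [e]
    refine ⟨hc.mul hP, fun u y => ?_⟩
    have h1 := congrFun (dd_mul hc hP u) y
    rw [h1, Ph_dd hA hs hm]
    have e2 : Du V s u (fun y x => c y * m x) y = fun x =>
        (dd u c y - (1 / s) * c y * Ph V s (fun x => inner ℝ x u) y) * m x
          + ((1 / s) * c y) * (m x * inner ℝ x u) := by
      ext x
      unfold Du
      rw [dy_base hc]
      ring
    rw [e2, Ph_add hA' ((CP.const _).mul hm) ((CP.const _).mul (hm.mul (CP.inn u))), Ph_cmul,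
      Ph_cmul]
    ring
  | add f g hf hg h1 h2 =>
    have cf : ∀ y, CP (f y) := hf.cp fun _ h => h
    have cg : ∀ y, CP (g y) := hg.cp fun _ h => h
    have e : (fun y => Ph V s (fun x => f y x + g y x) y)
        = fun y => Ph V s (f y) y + Ph V s (g y) y := by
      ext y; exact Ph_add hA' (cf y) (cg y) y
    rw [e]
    refine ⟨h1.1.add h2.1, fun u y => ?_⟩
    rw [congrFun (dd_add h1.1 h2.1 u) y, h1.2, h2.2]
    have e2 : Du V s u (fun y x => f y x + g y x) y = fun x => Du V s u f y x + Du V s u g y x := by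
      ext x
      unfold Du
      rw [dy_add hf hg]
      ring
    rw [e2]
    exact (Ph_add hA' ((hf.Du CP.hQ hA hs u).cp (fun _ h => h) y)
      ((hg.Du CP.hQ hA hs u).cp (fun _ h => h) y) y).symm

end Vale.Agent.P347.Gen
end

section

/-! General-order derivative bounds (P347): the commutator induction. -/

open MeasureTheory Filter Module
open scoped ContDiff

namespace Vale.Agent.P347.Gen

variable {X : Type*} [NormedAddCommGroup X] [NormedSpace ℝ X]
variable {B : Type} [Fintype B] {vec : B → X}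

/-- Coefficients of the (scaled) Hamiltonian vector field. -/
def zet (h : B → X → ℝ) (J : B → B) (ε : B → ℝ) (b : B) : X → ℝ := fun z => ε b * h (J b) z

/-- The (scaled) Liouville operator. -/
noncomputable def Lh (vec : B → X) (h : B → X → ℝ) (J : B → B) (ε : B → ℝ) (u : X → ℝ) : X → ℝ :=
  fun z => ∑ b, zet h J ε b z * dd (vec b) u z

/-- The abstract setting: `h b = ∂_b H`, `μ ∝ exp (-H)`. -/
structure Ctx [MeasurableSpace X] (vec : B → X) (μ : Measure X) (h : B → X → ℝ) (J : B → B)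
    (ε : B → ℝ) (K : ℕ → ℝ) : Prop where
  integ : ∀ f : X → ℝ, Continuous f → PG f → Integrable f μ
  tm : ∀ b, Tm vec (h b)
  ibp : ∀ f, Tm vec f → ∀ b, ∫ z, f z * h b z ∂μ = ∫ z, dd (vec b) f z ∂μ
  JJ : ∀ b, J (J b) = b
  εJ : ∀ b, ε (J b) = -ε b
  ε2 : ∀ b, ε b ^ 2 = 1
  hess : ∀ (z : X) (q : B → ℝ), ∑ b, ∑ c, q b * q c * dd (vec b) (h c) z ≤ 2 * ∑ b, q b ^ 2
  Kmono : Monotone K
  K0 : 0 ≤ K 0
  zb : ∀ (k : ℕ) (c : B → ℝ) (z : X),
    HS vec (k + 1) (fun z => ∑ b, c b * zet h J ε b z) z ≤ K k * ∑ b, c b ^ 2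

namespace Ctx

variable [MeasurableSpace X] {μ : Measure X} {h : B → X → ℝ} {J : B → B} {ε : B → ℝ} {K : ℕ → ℝ}

theorem int (C : Ctx vec μ h J ε K) {u : X → ℝ} (hu : Tm vec u) : Integrable u μ :=
  C.integ u hu.cont hu.pg0

theorem tz (C : Ctx vec μ h J ε K) (b : B) : Tm vec (zet h J ε b) :=
  (Tm.const (ε b)).mul (C.tm (J b))

theorem tL (C : Ctx vec μ h J ε K) {u : X → ℝ} (hu : Tm vec u) : Tm vec (Lh vec h J ε u) :=
  Tm.sum _ fun b _ => (C.tz b).mul (hu.dd b)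

/-- The divergence free representation. -/
noncomputable def q (vec : B → X) (J : B → B) (ε : B → ℝ) (u : X → ℝ) (c : B) : X → ℝ :=
  fun z => ε (J c) * dd (vec (J c)) u z

theorem tq {u : X → ℝ} (hu : Tm vec u) (c : B) : Tm vec (q vec J ε u c) :=
  (Tm.const (ε (J c))).mul (hu.dd (J c))

/-- The involution as an equivalence. -/
def Je (C : Ctx vec μ h J ε K) : B ≃ B := ⟨J, J, C.JJ, C.JJ⟩

theorem Lh_eq (C : Ctx vec μ h J ε K) (u : X → ℝ) (z : X) :
    Lh vec h J ε u z = ∑ c, q vec J ε u c z * h c z := by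
  unfold Lh q zet
  rw [← Equiv.sum_comp C.Je]
  refine Finset.sum_congr rfl fun c _ => ?_
  have : C.Je c = J c := rfl
  rw [this, C.JJ]
  ring

theorem div_q (C : Ctx vec μ h J ε K) {u : X → ℝ} (hu : Tm vec u) (z : X) :
    ∑ c, dd (vec c) (q vec J ε u c) z = 0 := by
  have e : ∀ c, dd (vec c) (q vec J ε u c) z = ε (J c) * dd (vec c) (dd (vec (J c)) u) z := by
    intro c
    unfold q
    rw [dd_cmul (smDd hu.sm _)]
  simp only [e]
  have h1 : ∑ c, ε (J c) * dd (vec c) (dd (vec (J c)) u) z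
      = ∑ c, -(ε (J c) * dd (vec c) (dd (vec (J c)) u) z) := by
    rw [← Equiv.sum_comp C.Je (fun c => ε (J c) * dd (vec c) (dd (vec (J c)) u) z)]
    refine Finset.sum_congr rfl fun c _ => ?_
    have : C.Je c = J c := rfl
    rw [this, C.JJ, dd_comm hu.sm, C.εJ]
    ring
  rw [Finset.sum_neg_distrib] at h1
  linarith

theorem lemmaA (C : Ctx vec μ h J ε K) {u : X → ℝ} (hu : Tm vec u) :
    ∫ z, (Lh vec h J ε u z) ^ 2 ∂μ
      ≤ (∫ z, HS vec 2 u z ∂μ) + 2 * ∫ z, HS vec 1 u z ∂μ := by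
  classical
  set L := Lh vec h J ε u with hL
  have tL : Tm vec L := C.tL hu
  have tq : ∀ c, Tm vec (q vec J ε u c) := fun c => Ctx.tq hu c
  set Q := q vec J ε u with hQ
  -- step 1
  have s1 : ∫ z, (L z) ^ 2 ∂μ = ∫ z, ∑ c, Q c z * dd (vec c) L z ∂μ := by
    have e1 : ∀ z, (L z) ^ 2 = ∑ c, (Q c z * L z) * h c z := by
      intro z
      have e0 : L z = ∑ c, Q c z * h c z := C.Lh_eq u z
      calc (L z) ^ 2 = (∑ c, Q c z * h c z) * L z := by rw [← e0, pow_two]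
        _ = _ := by
          rw [Finset.sum_mul]
          exact Finset.sum_congr rfl fun c _ => by ring
    simp only [e1]
    rw [integral_finsetSum _ fun c _ => C.int (((tq c).mul tL).mul (C.tm c))]
    have e2 : ∀ c, ∫ z, (Q c z * L z) * h c z ∂μ
        = (∫ z, dd (vec c) (Q c) z * L z ∂μ) + ∫ z, Q c z * dd (vec c) L z ∂μ := by
      intro c
      rw [C.ibp _ ((tq c).mul tL), dd_mul (tq c).sm tL.sm]
      exact integral_add (C.int (((tq c).dd c).mul tL)) (C.int ((tq c).mul (tL.dd c)))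
    simp only [e2]
    rw [Finset.sum_add_distrib, ← integral_finsetSum _ fun c _ => C.int (((tq c).dd c).mul tL),
      ← integral_finsetSum _ fun c _ => C.int ((tq c).mul (tL.dd c))]
    have e3 : ∀ z, ∑ c, dd (vec c) (Q c) z * L z = 0 := by
      intro z
      rw [← Finset.sum_mul, C.div_q hu, zero_mul]
    simp [e3]
  -- derivative of L
  have dL : ∀ c z, dd (vec c) L z
      = (∑ d, dd (vec c) (Q d) z * h d z) + ∑ d, Q d z * dd (vec c) (h d) z := by
    intro c z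
    have e : L = fun z => ∑ d, Q d z * h d z := by ext z; exact C.Lh_eq u z
    rw [e, dd_sum _ (fun d _ => ((tq d).mul (C.tm d)).sm), ← Finset.sum_add_distrib]
    refine Finset.sum_congr rfl fun d _ => ?_
    rw [dd_mul (tq d).sm (C.tm d).sm]
  have s2 : ∫ z, ∑ c, Q c z * dd (vec c) L z ∂μ
      = (∑ c, ∑ d, ∫ z, (Q c z * dd (vec c) (Q d) z) * h d z ∂μ)
        + ∫ z, ∑ c, ∑ d, Q c z * Q d z * dd (vec c) (h d) z ∂μ := by
    have i1 : ∀ c d, Integrable (fun z => (Q c z * dd (vec c) (Q d) z) * h d z) μ :=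
      fun c d => C.int (((tq c).mul ((tq d).dd c)).mul (C.tm d))
    have i2 : ∀ c d, Integrable (fun z => Q c z * Q d z * dd (vec c) (h d) z) μ :=
      fun c d => C.int (((tq c).mul (tq d)).mul ((C.tm d).dd c))
    have e : ∀ z, ∑ c, Q c z * dd (vec c) L z
        = (∑ c, ∑ d, (Q c z * dd (vec c) (Q d) z) * h d z)
          + ∑ c, ∑ d, Q c z * Q d z * dd (vec c) (h d) z := by
      intro z
      rw [← Finset.sum_add_distrib]
      refine Finset.sum_congr rfl fun c _ => ?_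
      rw [dL, mul_add, Finset.mul_sum, Finset.mul_sum]
      congr 1
      · refine Finset.sum_congr rfl fun d _ => ?_
        ring
      · refine Finset.sum_congr rfl fun d _ => ?_
        ring
    simp only [e]
    rw [integral_add (integrable_finsetSum _ fun c _ => integrable_finsetSum _ fun d _ => i1 c d)
      (integrable_finsetSum _ fun c _ => integrable_finsetSum _ fun d _ => i2 c d)]
    congr 1
    rw [integral_finsetSum _ fun c _ => integrable_finsetSum _ fun d _ => i1 c d]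
    refine Finset.sum_congr rfl fun c _ => ?_
    rw [integral_finsetSum _ fun d _ => i1 c d]
  have s3 : ∑ c, ∑ d, ∫ z, (Q c z * dd (vec c) (Q d) z) * h d z ∂μ
      = ∫ z, ∑ c, ∑ d, dd (vec d) (Q c) z * dd (vec c) (Q d) z ∂μ := by
    have i1 : ∀ c d, Integrable (fun z => dd (vec d) (Q c) z * dd (vec c) (Q d) z) μ :=
      fun c d => C.int (((tq c).dd d).mul ((tq d).dd c))
    have i2 : ∀ c d, Integrable (fun z => Q c z * dd (vec d) (dd (vec c) (Q d)) z) μ :=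
      fun c d => C.int ((tq c).mul (((tq d).dd c).dd d))
    have e : ∀ c d, ∫ z, (Q c z * dd (vec c) (Q d) z) * h d z ∂μ
        = (∫ z, dd (vec d) (Q c) z * dd (vec c) (Q d) z ∂μ)
          + ∫ z, Q c z * dd (vec d) (dd (vec c) (Q d)) z ∂μ := by
      intro c d
      rw [C.ibp _ ((tq c).mul ((tq d).dd c)), dd_mul (tq c).sm ((tq d).dd c).sm]
      exact integral_add (i1 c d) (i2 c d)
    simp only [e]
    have z2 : ∀ c, ∑ d, ∫ z, Q c z * dd (vec d) (dd (vec c) (Q d)) z ∂μ = 0 := by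
      intro c
      rw [← integral_finsetSum _ fun d _ => i2 c d]
      have : ∀ z, ∑ d, Q c z * dd (vec d) (dd (vec c) (Q d)) z = 0 := by
        intro z
        rw [← Finset.mul_sum]
        have e4 : ∑ d, dd (vec d) (dd (vec c) (Q d)) z = 0 := by
          have e5 : ∀ d, dd (vec d) (dd (vec c) (Q d)) z = dd (vec c) (dd (vec d) (Q d)) z := by
            intro d; rw [dd_comm (tq d).sm]
          simp only [e5]
          have e6 := congrFun (dd_sum Finset.univ (f := fun d => dd (vec d) (Q d))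
            (fun d _ => ((tq d).dd d).sm) (vec c)) z
          rw [← e6]
          have e7 : (fun z => ∑ d, dd (vec d) (Q d) z) = fun _ => 0 := by
            ext z; exact C.div_q hu z
          rw [e7, dd_const]
        rw [e4, mul_zero]
      simp [this]
    simp only [Finset.sum_add_distrib, z2, add_zero]
    rw [integral_finsetSum _ fun c _ => integrable_finsetSum _ fun d _ => i1 c d]
    refine Finset.sum_congr rfl fun c _ => ?_
    rw [integral_finsetSum _ fun d _ => i1 c d]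
  rw [s1, s2, s3, ← integral_const_mul]
  refine add_le_add ?_ ?_
  · -- Hilbert-Schmidt bound
    refine integral_mono (integrable_finsetSum _ fun c _ => integrable_finsetSum _ fun d _ =>
      C.int (((tq c).dd d).mul ((tq d).dd c))) (C.int (HS_tm 2 hu)) fun z => ?_
    have e1 : HS vec 2 u z = ∑ c, ∑ d, dd (vec d) (Q c) z ^ 2 := by
      have : HS vec 2 u z = ∑ b, ∑ d, dd (vec d) (dd (vec b) u) z ^ 2 := rfl
      rw [this, ← Equiv.sum_comp C.Je]
      refine Finset.sum_congr rfl fun c _ => ?_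
      refine Finset.sum_congr rfl fun d _ => ?_
      have e2 : C.Je c = J c := rfl
      have e3 : dd (vec d) (Q c) z = ε (J c) * dd (vec d) (dd (vec (J c)) u) z := by
        rw [hQ]
        unfold q
        rw [dd_cmul (smDd hu.sm _)]
      rw [e2, e3, mul_pow, C.ε2, one_mul]
    have e2 : HS vec 2 u z = ∑ c, ∑ d, dd (vec c) (Q d) z ^ 2 := by
      rw [e1, Finset.sum_comm]
    have : ∑ c, ∑ d, dd (vec d) (Q c) z * dd (vec c) (Q d) z
        ≤ ∑ c, ∑ d, (dd (vec d) (Q c) z ^ 2 / 2 + dd (vec c) (Q d) z ^ 2 / 2) := by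
      refine Finset.sum_le_sum fun c _ => Finset.sum_le_sum fun d _ => ?_
      nlinarith [sq_nonneg (dd (vec d) (Q c) z - dd (vec c) (Q d) z)]
    refine this.trans (le_of_eq ?_)
    simp only [Finset.sum_add_distrib, ← Finset.sum_div]
    rw [← e1, ← e2]
    ring
  · refine integral_mono (integrable_finsetSum _ fun c _ => integrable_finsetSum _ fun d _ =>
      C.int (((tq c).mul (tq d)).mul ((C.tm d).dd c))) ((C.int (HS_tm 1 hu)).const_mul 2)
      fun z => ?_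
    refine (C.hess z (fun c => Q c z)).trans (le_of_eq ?_)
    have : HS vec 1 u z = ∑ b, dd (vec b) u z ^ 2 := rfl
    simp only [this]
    rw [← Equiv.sum_comp C.Je (fun b => dd (vec b) u z ^ 2)]
    congr 1
    refine Finset.sum_congr rfl fun c _ => ?_
    have e2 : C.Je c = J c := rfl
    rw [hQ]
    unfold q
    rw [e2, mul_pow, C.ε2, one_mul]

/-! ### Norms of derivatives of order `r` and the commutator lemma -/

/-- `Mn r u = ∑ ∫ (∂^r u)²`. -/
noncomputable def Mn (vec : B → X) (μ : Measure X) (r : ℕ) (u : X → ℝ) : ℝ :=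
  ∫ z, HS vec r u z ∂μ

/-- `Sn n u = ∑_{1 ≤ k ≤ n} Mn k u`. -/
noncomputable def Sn (vec : B → X) (μ : Measure X) (n : ℕ) (u : X → ℝ) : ℝ :=
  ∑ k ∈ Finset.range n, Mn vec μ (k + 1) u

theorem Mn_nonneg (r : ℕ) (u : X → ℝ) : 0 ≤ Mn vec μ r u :=
  integral_nonneg fun z => HS_nonneg r u z

theorem Mn_succ (C : Ctx vec μ h J ε K) (r : ℕ) {u : X → ℝ} (hu : Tm vec u) :
    Mn vec μ (r + 1) u = ∑ b, Mn vec μ r (dd (vec b) u) := by
  unfold Mn
  rw [← integral_finsetSum _ fun b _ => C.int (HS_tm r (hu.dd b))]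
  rfl

theorem Sn_mono {n m : ℕ} (hnm : n ≤ m) (u : X → ℝ) : Sn vec μ n u ≤ Sn vec μ m u := by
  unfold Sn
  exact Finset.sum_le_sum_of_subset_of_nonneg (Finset.range_mono hnm)
    fun k _ _ => Mn_nonneg (k + 1) u

theorem dd_Lh (C : Ctx vec μ h J ε K) {u : X → ℝ} (hu : Tm vec u) (c : B) :
    dd (vec c) (Lh vec h J ε u) = fun z => Lh vec h J ε (dd (vec c) u) z
      + ∑ b, dd (vec c) (zet h J ε b) z * dd (vec b) u z := by
  have e : Lh vec h J ε u = fun z => ∑ b, zet h J ε b z * dd (vec b) u z := rfl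
  rw [e, dd_sum _ (fun b _ => ((C.tz b).mul (hu.dd b)).sm)]
  ext z
  unfold Lh
  rw [← Finset.sum_add_distrib]
  refine Finset.sum_congr rfl fun b _ => ?_
  rw [dd_mul (C.tz b).sm (hu.dd b).sm, dd_comm hu.sm (vec c) (vec b)]
  ring

/-- Constants of the commutator lemma. -/
noncomputable def cB (K : ℕ → ℝ) : ℕ → ℝ
  | 0 => 2
  | r + 1 => 2 * cB K r + 2 * (4 ^ r * K r)

theorem Kpos (C : Ctx vec μ h J ε K) (r : ℕ) : 0 ≤ K r := C.K0.trans (C.Kmono (Nat.zero_le r))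

theorem cB_nonneg (C : Ctx vec μ h J ε K) (r : ℕ) : 0 ≤ cB K r := by
  induction r with
  | zero => norm_num [cB]
  | succ r ih =>
    have := C.Kpos r
    simp only [cB]
    positivity

theorem lemmaB (C : Ctx vec μ h J ε K) (r : ℕ) : ∀ {u : X → ℝ}, Tm vec u →
    Mn vec μ r (Lh vec h J ε u) ≤ cB K r * Sn vec μ (r + 2) u := by
  induction r with
  | zero =>
    intro u hu
    have h1 := C.lemmaA hu
    have e0 : Mn vec μ 0 (Lh vec h J ε u) = ∫ z, (Lh vec h J ε u z) ^ 2 ∂μ := rfl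
    have e1 : Sn vec μ (0 + 2) u = (∫ z, HS vec 1 u z ∂μ) + ∫ z, HS vec 2 u z ∂μ := by
      simp [Sn, Mn, Finset.sum_range_succ]
    have n2 : 0 ≤ ∫ z, HS vec 2 u z ∂μ := Mn_nonneg 2 u
    rw [e0, e1]
    simp only [cB]
    linarith
  | succ r ih =>
    intro u hu
    have tdz : ∀ c b, Tm vec (dd (vec c) (zet h J ε b)) := fun c b => (C.tz b).dd c
    have tS : ∀ c, Tm vec (fun z => ∑ b, dd (vec c) (zet h J ε b) z * dd (vec b) u z) :=
      fun c => Tm.sum _ fun b _ => (tdz c b).mul (hu.dd b)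
    have tLc : ∀ c, Tm vec (Lh vec h J ε (dd (vec c) u)) := fun c => C.tL (hu.dd c)
    rw [C.Mn_succ r (C.tL hu)]
    -- first splitting
    have b1 : ∀ c, Mn vec μ r (dd (vec c) (Lh vec h J ε u))
        ≤ 2 * Mn vec μ r (Lh vec h J ε (dd (vec c) u))
          + 2 * Mn vec μ r (fun z => ∑ b, dd (vec c) (zet h J ε b) z * dd (vec b) u z) := by
      intro c
      rw [C.dd_Lh hu c]
      unfold Mn
      rw [← integral_const_mul, ← integral_const_mul,
        ← integral_add ((C.int (HS_tm r (tLc c))).const_mul 2)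
          ((C.int (HS_tm r (tS c))).const_mul 2)]
      refine integral_mono (C.int (HS_tm r ((tLc c).add (tS c)))) ?_ fun z =>
        HS_add_le r (tLc c).sm (tS c).sm z
      exact ((C.int (HS_tm r (tLc c))).const_mul 2).add ((C.int (HS_tm r (tS c))).const_mul 2)
    -- second term
    have b2 : ∑ c, Mn vec μ r (fun z => ∑ b, dd (vec c) (zet h J ε b) z * dd (vec b) u z)
        ≤ 4 ^ r * K r * Sn vec μ (r + 1) u := by
      have e1 : ∑ c, Mn vec μ r (fun z => ∑ b, dd (vec c) (zet h J ε b) z * dd (vec b) u z)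
          = ∫ z, ∑ c, HS vec r (fun z => ∑ b, dd (vec c) (zet h J ε b) z * dd (vec b) u z) z ∂μ := by
        unfold Mn
        rw [integral_finsetSum _ fun c _ => C.int (HS_tm r (tS c))]
      have e2 : Sn vec μ (r + 1) u = ∫ z, ∑ k ∈ Finset.range (r + 1), HS vec (k + 1) u z ∂μ := by
        unfold Sn Mn
        rw [integral_finsetSum _ fun k _ => C.int (HS_tm (k + 1) hu)]
      rw [e1, e2, ← integral_const_mul]
      refine integral_mono (integrable_finsetSum _ fun c _ => C.int (HS_tm r (tS c)))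
        ((integrable_finsetSum _ fun k _ => C.int (HS_tm (k + 1) hu)).const_mul _) fun z => ?_
      have hp := HS_prod (vec := vec) r (fun c b => dd (vec c) (zet h J ε b))
        (fun b => dd (vec b) u) (K r) z (C.Kpos r) (fun c b => (tdz c b).sm)
        (fun b => (hu.dd b).sm) (by
          intro k hk c
          have h1 := C.zb k c z
          have h2 : K k ≤ K r := C.Kmono hk
          have h3 : 0 ≤ ∑ b, c b ^ 2 := Finset.sum_nonneg fun b _ => sq_nonneg _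
          refine le_trans (le_of_eq ?_) (h1.trans (mul_le_mul_of_nonneg_right h2 h3))
          rw [HS_succ]
          refine Finset.sum_congr rfl fun a _ => ?_
          congr 1
          rw [dd_sum _ (fun b _ => contDiff_const.mul (C.tz b).sm)]
          ext z
          refine Finset.sum_congr rfl fun b _ => ?_
          rw [dd_cmul (C.tz b).sm])
      refine hp.trans (le_of_eq ?_)
      congr 1
      rw [Finset.sum_comm]
      refine Finset.sum_congr rfl fun k _ => ?_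
      rw [HS_succ]
    have b3 : ∑ c, Mn vec μ r (Lh vec h J ε (dd (vec c) u)) ≤ cB K r * Sn vec μ (r + 3) u := by
      have e1 : ∑ c, Sn vec μ (r + 2) (dd (vec c) u) ≤ Sn vec μ (r + 3) u := by
        unfold Sn
        rw [Finset.sum_comm, Finset.sum_range_succ' _ (r + 2)]
        have : ∀ k, ∑ c, Mn vec μ (k + 1) (dd (vec c) u) = Mn vec μ (k + 1 + 1) u :=
          fun k => (C.Mn_succ (k + 1) hu).symm
        simp only [this]
        linarith [Mn_nonneg (vec := vec) (μ := μ) (0 + 1) u]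
      calc _ ≤ ∑ c, cB K r * Sn vec μ (r + 2) (dd (vec c) u) :=
            Finset.sum_le_sum fun c _ => ih (hu.dd c)
        _ = cB K r * ∑ c, Sn vec μ (r + 2) (dd (vec c) u) := by rw [Finset.mul_sum]
        _ ≤ _ := mul_le_mul_of_nonneg_left e1 (C.cB_nonneg r)
    have b4 : Sn vec μ (r + 1) u ≤ Sn vec μ (r + 3) u := Sn_mono (by omega) u
    have c0 : 0 ≤ 4 ^ r * K r := by have := C.Kpos r; positivity
    have b5 := mul_le_mul_of_nonneg_left b4 c0
    calc _ ≤ ∑ c, (2 * Mn vec μ r (Lh vec h J ε (dd (vec c) u))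
          + 2 * Mn vec μ r (fun z => ∑ b, dd (vec c) (zet h J ε b) z * dd (vec b) u z)) :=
          Finset.sum_le_sum fun c _ => b1 c
      _ = 2 * (∑ c, Mn vec μ r (Lh vec h J ε (dd (vec c) u)))
          + 2 * ∑ c, Mn vec μ r (fun z => ∑ b, dd (vec c) (zet h J ε b) z * dd (vec b) u z) := by
          rw [Finset.sum_add_distrib, Finset.mul_sum, Finset.mul_sum]
      _ ≤ 2 * (cB K r * Sn vec μ (r + 3) u) + 2 * (4 ^ r * K r * Sn vec μ (r + 3) u) := by
          linarith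
      _ = _ := by simp only [cB]; ring

/-- Constants for `Sn`. -/
noncomputable def dB (K : ℕ → ℝ) (n : ℕ) : ℝ := ∑ k ∈ Finset.range n, cB K (k + 1)

theorem dB_nonneg (C : Ctx vec μ h J ε K) (n : ℕ) : 0 ≤ dB K n :=
  Finset.sum_nonneg fun k _ => C.cB_nonneg (k + 1)

theorem Sn_Lh (C : Ctx vec μ h J ε K) (n : ℕ) {u : X → ℝ} (hu : Tm vec u) :
    Sn vec μ n (Lh vec h J ε u) ≤ dB K n * Sn vec μ (n + 2) u := by
  unfold dB
  rw [Finset.sum_mul]
  conv_lhs => unfold Sn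
  refine Finset.sum_le_sum fun k hk => ?_
  refine (C.lemmaB (k + 1) hu).trans (mul_le_mul_of_nonneg_left ?_ (C.cB_nonneg _))
  have := Finset.mem_range.1 hk
  exact Sn_mono (by omega) u

/-- Constants for the iteration. -/
noncomputable def cI (K : ℕ → ℝ) : ℕ → ℕ → ℝ
  | _, 0 => 1
  | n, m + 1 => cI K n m * dB K (n + 2 * m)

theorem cI_nonneg (C : Ctx vec μ h J ε K) (n m : ℕ) : 0 ≤ cI K n m := by
  induction m with
  | zero => norm_num [cI]
  | succ m ih => exact mul_nonneg ih (C.dB_nonneg _)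

theorem iter_tm (C : Ctx vec μ h J ε K) (m : ℕ) {u : X → ℝ} (hu : Tm vec u) :
    Tm vec ((Lh vec h J ε)^[m] u) := by
  induction m generalizing u with
  | zero => exact hu
  | succ m ih => rw [Function.iterate_succ_apply]; exact ih (C.tL hu)

theorem Sn_iter (C : Ctx vec μ h J ε K) (n m : ℕ) : ∀ {u : X → ℝ}, Tm vec u →
    Sn vec μ n ((Lh vec h J ε)^[m] u) ≤ cI K n m * Sn vec μ (n + 2 * m) u := by
  induction m with
  | zero => intro u hu; simp [cI]
  | succ m ih =>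
    intro u hu
    rw [Function.iterate_succ_apply]
    refine (ih (C.tL hu)).trans ?_
    have h1 := C.Sn_Lh (n + 2 * m) hu
    calc _ ≤ cI K n m * (dB K (n + 2 * m) * Sn vec μ (n + 2 * m + 2) u) :=
          mul_le_mul_of_nonneg_left h1 (C.cI_nonneg n m)
      _ = _ := by
          have : n + 2 * m + 2 = n + 2 * (m + 1) := by ring
          rw [this]
          simp only [cI]
          ring

/-- The final constant of the abstract theorem. -/
noncomputable def cT (K : ℕ → ℝ) (m : ℕ) : ℝ := 2 * cI K 2 m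

/-- The abstract theorem: `∫ (L^{m+1} u)² ≤ C_m ∑_{1 ≤ k ≤ 2m+2} ∑ ∫ (∂^k u)²`. -/
theorem main (C : Ctx vec μ h J ε K) (m : ℕ) {u : X → ℝ} (hu : Tm vec u) :
    ∫ z, ((Lh vec h J ε)^[m + 1] u z) ^ 2 ∂μ ≤ cT K m * Sn vec μ (2 * m + 2) u := by
  rw [Function.iterate_succ_apply']
  have h1 := C.lemmaB 0 (C.iter_tm m hu)
  have h2 := C.Sn_iter 2 m hu
  have e0 : Mn vec μ 0 (Lh vec h J ε ((Lh vec h J ε)^[m] u))
      = ∫ z, (Lh vec h J ε ((Lh vec h J ε)^[m] u) z) ^ 2 ∂μ := rfl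
  rw [e0] at h1
  simp only [cB, zero_add] at h1
  unfold cT
  have : 2 + 2 * m = 2 * m + 2 := by ring
  rw [this] at h2
  linarith

end Ctx

end Vale.Agent.P347.Gen
end

section

/-! Node times (P347, analytic half). -/

namespace Vale.Agent.P347.Z

/-- Node times. -/
noncomputable def nt (p : ℕ) (T : ℝ) (i : Fin p) : ℝ := ((i : ℝ) + 1) / p * T

end Vale.Agent.P347.Z
end

section

/-! Definitions for the assembly of the network at unit scale (P347, analytic half). -/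

open MeasureTheory Filter Module Set
open scoped ENNReal NNReal

namespace Vale.Agent.P347.Z

/-- Directions in which Jacobian vector products are taken: `none` is `g_i`, `some (false, e)` is the rotated
`g`, `some (true, e)` the rotated `P`, at angle `(e+1)/p b`. -/
abbrev Vv (p : ℕ) := Option (Bool × Fin p)

/-- Nodes: `none` is the root, `some (inl i)` is `c_i`, `some (inr (i, v, f))` is the `f`-th node of the plain flow
from centre `c_i` with base point `v`. -/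
abbrev Nd (p : ℕ) := Option (Fin p ⊕ (Fin p × Vv p × Fin p))

/-- Linear forms in `Y, a, g, P` and the values `F(X_n)`. -/
abbrev LF (p : ℕ) := Fin 4 ⊕ Nd p → ℝ

open Classical in
/-- Unit linear form. -/
noncomputable def ef {p : ℕ} (i : Fin 4 ⊕ Nd p) : LF p := fun j => if j = i then 1 else 0

/-- Value of a linear form. -/
noncomputable def ev {p : ℕ} {E : Type} [AddCommGroup E] [Module ℝ E] (L : LF p)
    (x : Fin 4 ⊕ Nd p → E) : E := ∑ i, L i • x i

/-- Parameters. -/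
structure Par (p : ℕ) where
  cA : Fin p → Fin p → ℝ
  α : Fin (p + 1) → ℝ
  β : Fin (p + 1) → ℝ
  T : ℝ
  b : ℝ
  κ : ℝ
  lam : ℝ

namespace Par

variable {p : ℕ} (P : Par p)

/-- The node `c_i`. -/
def nc (i : Fin p) : Nd p := some (Sum.inl i)

/-- The node `(i, v, f)`. -/
def nj (i : Fin p) (v : Vv p) (f : Fin p) : Nd p := some (Sum.inr (i, v, f))

/-- `κ B0(c_i) v`. -/
noncomputable def JV (i : Fin p) (v : Vv p) : LF p :=
  P.T⁻¹ • (P.α 0 • ef (Sum.inr (nc i)) + ∑ f : Fin p, P.α f.succ • ef (Sum.inr (nj i v f)))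

/-- `B0(c_i)² g_i`. -/
noncomputable def LBB (i : Fin p) : LF p :=
  (P.b * P.κ)⁻¹ • ∑ e : Fin p, ∑ j : Fin p, (P.β e.succ * P.cA e j) • P.JV i (some (true, j))

/-- `a_i`. -/
noncomputable def La (i : Fin p) : LF p :=
  ef (Sum.inl 1) - P.T • ∑ j, P.cA i j • ef (Sum.inr (nc j))
    + (P.lam * P.T) • ∑ j, P.cA i j • P.JV j none

/-- `g_i`. -/
noncomputable def Lg (i : Fin p) : LF p :=
  ef (Sum.inl 2) - P.lam • (ef (Sum.inr (nc i)) - ef (Sum.inr none))
    + ((P.lam * P.κ) ^ 2 * P.T) • ∑ j, (P.cA i j * nt p P.T j) • P.LBB j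

/-- The directions. -/
noncomputable def Lv (i : Fin p) : Vv p → LF p
  | none => P.Lg i
  | some (false, e) => P.Lg i - (P.b / P.κ) • ∑ j, P.cA e j • P.JV i (some (true, j))
  | some (true, e) => ef (Sum.inl 3) + (P.b / P.κ) • ∑ j, P.cA e j • P.JV i (some (false, j))

/-- The nodes. -/
noncomputable def Ln : Nd p → LF p
  | none => ef (Sum.inl 0)
  | some (Sum.inl i) => ef (Sum.inl 0) + nt p P.T i • P.La i
  | some (Sum.inr (i, v, f)) => ef (Sum.inl 0) + nt p P.T i • P.La i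
      + nt p P.T f • (P.Lv i v - P.T • ∑ f' : Fin p, P.cA f f' • ef (Sum.inr (nj i v f')))

/-- The correction term of the output. -/
noncomputable def Lq (i : Fin p) : LF p :=
  ((P.lam * P.κ) ^ 2 * P.T) • ∑ j, (P.cA i j * nt p P.T j) • P.LBB j

/-- The levels. -/
noncomputable def lv : Nd p → ℝ
  | none => 1
  | some (Sum.inl i) => 1 - nt p P.T i ^ 2
  | some (Sum.inr (i, _, f)) => 1 - nt p P.T i ^ 2 - nt p P.T f ^ 2

/-- Numbering of the nodes. -/
noncomputable def num (p : ℕ) : Nd p ≃ Fin (Fintype.card (Nd p)) := Fintype.equivFin _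

/-- The network; `l` is the last index. -/
noncomputable def net (l : Fin p) : Net (Fintype.card (Nd p)) where
  t k := P.Ln ((num p).symm k) (Sum.inl 1)
  cg k := P.Ln ((num p).symm k) (Sum.inl 2)
  cP k := P.Ln ((num p).symm k) (Sum.inl 3)
  lev k := P.lv ((num p).symm k)
  w k m := P.Ln ((num p).symm k) (Sum.inr ((num p).symm m))
  q m := P.Lq l (Sum.inr ((num p).symm m))
  top := num p (nc l)
  root := num p none

end Par

variable {d : ℕ}

/-- The certificate at unit scale. -/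
structure Net.CertU {N : ℕ} (net : Net N) (F : ℝ → Eu d → Eu d) (θ κ lam err C : ℝ) (y : Eu d)
    (X : Fin N → Eu d × Eu d × Eu d → Eu d) (Z : Eu d × Eu d × Eu d → Eu d)
    (R : Eu d × Eu d × Eu d → ℝ) : Prop where
  measX : ∀ i, Measurable (X i)
  measZ : Measurable Z
  measR : Measurable R
  R0 : ∀ ω, 0 ≤ R ω
  root : ∀ ω, X net.root ω = y
  node : ∀ i ω, ‖X i ω - (y + net.t i • ω.1 + net.cg i • ω.2.1 + net.cP i • ω.2.2
      + ∑ j, net.w i j • F (net.lev j) (X j ω))‖ ≤ R ω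
  law : (gam3 (Eu d)).map (fun ω => Z ω + lam • F 1 y) = gam (Eu d)
  out : ∀ ω, ‖ω.2.1 - lam • F (1 - θ) (X net.top ω)
      + ∑ j, net.q j • F (net.lev j) (X j ω) - Z ω‖ ≤ |lam| * κ * R ω
  intR : Integrable R (gam3 (Eu d))
  err : ∫ ω, R ω ∂(gam3 (Eu d)) ≤ err
  intX : ∀ i, Integrable (fun ω => ‖X i ω‖) (gam3 (Eu d))
  momX : ∀ i, ∫ ω, ‖X i ω‖ ∂(gam3 (Eu d)) ≤ 2 * (‖y‖ + √d)
  momTop : ∫ ω, ‖X net.top ω‖ ∂(gam3 (Eu d)) ≤ ‖y‖ + C * √θ * √d + C * θ * κ * (‖y‖ + √d)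

/-- The exact random vectors. -/
structure Fam (d p : ℕ) where
  w : ℝ × Eu d → ℝ
  κ : ℝ
  lam : ℝ
  T : ℝ
  b : ℝ
  Y : Eu d
  A : ℝ → Eu d × (Eu d × Eu d) → Eu d
  Q : ℝ → Eu d × (Eu d × Eu d) → Eu d
  Ap : Fin p → ℝ → Eu d × Eu d → Eu d
  Cg : ℝ → (Eu d →L[ℝ] Eu d) → Eu d × Eu d → Eu d
  CP : ℝ → (Eu d →L[ℝ] Eu d) → Eu d × Eu d → Eu d

namespace Fam

variable {p : ℕ} (S : Fam d p)

/-- The point `c_i`. -/
noncomputable def cp (i : Fin p) (ω : Eu d × Eu d × Eu d) : Eu d :=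
  S.Y + nt p S.T i • S.A (nt p S.T i) (S.Y, (ω.1, ω.2.1))

/-- The vector `g_i`. -/
noncomputable def gp (i : Fin p) (ω : Eu d × Eu d × Eu d) : Eu d :=
  S.Q (nt p S.T i) (S.Y, (ω.1, ω.2.1))

/-- The directions. -/
noncomputable def vx (i : Fin p) : Vv p → Eu d × Eu d × Eu d → Eu d
  | none => S.gp i
  | some (false, e) => fun ω => S.Cg (((e : ℝ) + 1) / p * S.b)
      (B0L S.κ S.w (1 - nt p S.T i ^ 2, S.cp i ω)) (S.gp i ω, ω.2.2)
  | some (true, e) => fun ω => S.CP (((e : ℝ) + 1) / p * S.b)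
      (B0L S.κ S.w (1 - nt p S.T i ^ 2, S.cp i ω)) (S.gp i ω, ω.2.2)

/-- The nodes. -/
noncomputable def Xn : Nd p → Eu d × Eu d × Eu d → Eu d
  | none => fun _ => S.Y
  | some (Sum.inl i) => S.cp i
  | some (Sum.inr (i, v, f)) => fun ω =>
      S.cp i ω + nt p S.T f • S.Ap i (nt p S.T f) (S.cp i ω, S.vx i v ω)

/-- The values of the basic linear forms. -/
noncomputable def xe (P : Par p) (ω : Eu d × Eu d × Eu d) : Fin 4 ⊕ Nd p → Eu d
  | Sum.inl 0 => S.Y
  | Sum.inl 1 => ω.1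
  | Sum.inl 2 => ω.2.1
  | Sum.inl 3 => ω.2.2
  | Sum.inr n => Fv S.w (P.lv n, S.Xn n ω)

/-- All ingredients are what they should be. -/
structure Ok (S : Fam d p) : Prop where
  heat : Heat S.κ S.w
  κ0 : 0 < S.κ
  κ1 : S.κ ≤ 1
  hlam : |S.lam| * S.κ ≤ 2
  T0 : 0 < S.T
  T1 : S.T ^ 2 ≤ 1 / 8
  b0 : 0 < S.b
  b1 : S.b ≤ 1 / 8
  lfl : LFl S.w S.κ 1 S.lam S.A S.Q
  pfl : ∀ i, PFl S.w (1 - nt p S.T i ^ 2) (S.Ap i)

end Fam

end Vale.Agent.P347.Z
end

section
attribute [-instance] ProperSMul.toContinuousSMul IsTopologicalTorsor.toContinuousSMul IdemSemiring.toCanonicallyOrderedAdd IdemSemiring.toMulLeftMono IdemSemiring.toMulRightMono AddQuantale.instAddLeftMono AddQuantale.instAddRightMono Quantale.instMulLeftMono Quantale.instMulRightMono FiniteDimensional.rclike_to_real IsScalarTower.complexToReal FiniteDimensional.complexToReal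

/-! P347-Z-C0. Elementary consequences of `Heat κ w`. -/

open MeasureTheory Filter Module Set
open scoped ENNReal NNReal

namespace Vale.Agent.P347.Z

variable {d : ℕ} {κ : ℝ} {w : ℝ × Eu d → ℝ}

/-! ### Auxiliary facts -/

theorem ha_hasFDerivAt {f : ℝ × Eu d → ℝ} (hf : CG (Ioi 0) f) {p : ℝ × Eu d} (hp : 0 < p.1) :
    HasFDerivAt f (fderiv ℝ f p) p :=
  ((hf.diff p ⟨hp, trivial⟩).differentiableAt
    ((isOpen_Ioi.prod isOpen_univ).mem_nhds ⟨hp, trivial⟩)).hasFDerivAt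

theorem ha_congr {f g : ℝ × Eu d → ℝ} (hfg : ∀ p : ℝ × Eu d, 0 < p.1 → g p = f p)
    {p : ℝ × Eu d} (hp : 0 < p.1) : fderiv ℝ g p = fderiv ℝ f p :=
  cgl_fderiv_congr isOpen_Ioi (fun p hp => hfg p hp.1) ⟨hp, trivial⟩

theorem ha_comm {f : ℝ × Eu d → ℝ} (hf : CG (Ioi 0) f) (i j : Fin d) {p : ℝ × Eu d}
    (hp : 0 < p.1) : dy i (dy j f) p = dy j (dy i f) p :=
  hf.comm isOpen_Ioi _ _ ⟨hp, trivial⟩

theorem ha_comm_lev {f : ℝ × Eu d → ℝ} (hf : CG (Ioi 0) f) (i : Fin d) {p : ℝ × Eu d}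
    (hp : 0 < p.1) : dy i (dlev f) p = dlev (dy i f) p :=
  hf.comm isOpen_Ioi _ _ ⟨hp, trivial⟩

theorem ha_comm3 {f : ℝ × Eu d → ℝ} (hf : CG (Ioi 0) f) (i k : Fin d) {p : ℝ × Eu d}
    (hp : 0 < p.1) : dy i (dy k (dy k f)) p = dy k (dy k (dy i f)) p := by
  rw [ha_comm (hf.dy k) i k hp]
  show fderiv ℝ (dy i (dy k f)) p _ = fderiv ℝ (dy k (dy i f)) p _
  rw [ha_congr (fun q hq => ha_comm hf i k hq) hp]

/-- Derivative of `P g`. -/
theorem ha_dy_Pf (hw : CG (Ioi 0) w) {g : ℝ × Eu d → ℝ} (hg : CG (Ioi 0) g) (i : Fin d)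
    {p : ℝ × Eu d} (hp : 0 < p.1) :
    dy i (Pf w g) p = Pf w (dy i g) p - ∑ k, dy i (dy k w) p * dy k g p := by
  have h1 := (ha_hasFDerivAt hg.dlev hp).fun_neg
  have h2 : HasFDerivAt (fun q => (1 / 2 : ℝ) * ∑ k, dy k (dy k g) q)
      ((1 / 2 : ℝ) • ∑ k, fderiv ℝ (dy k (dy k g)) p) p :=
    (HasFDerivAt.fun_sum fun k _ => ha_hasFDerivAt ((hg.dy k).dy k) hp).const_mul (1 / 2 : ℝ)
  have h3 : HasFDerivAt (fun q => ∑ k, dy k w q * dy k g q)
      (∑ k, (dy k w p • fderiv ℝ (dy k g) p + dy k g p • fderiv ℝ (dy k w) p)) p :=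
    HasFDerivAt.fun_sum fun k _ => (ha_hasFDerivAt (hw.dy k) hp).mul (ha_hasFDerivAt (hg.dy k) hp)
  have h4 := (h1.add h2).sub h3
  have h5 : HasFDerivAt (Pf w g) _ p := h4
  have h6 : dy i (Pf w g) p = -(dy i (dlev g) p) + (1 / 2) * ∑ k, dy i (dy k (dy k g)) p -
      ∑ k, (dy k w p * dy i (dy k g) p + dy k g p * dy i (dy k w) p) := by
    show fderiv ℝ (Pf w g) p (0, ek i) = _
    rw [h5.fderiv]
    simp only [_root_.sub_apply, _root_.add_apply, _root_.neg_apply, _root_.smul_apply,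
      ContinuousLinearMap.sum_apply, smul_eq_mul]
    rfl
  rw [h6, ha_comm_lev hg i hp]
  show _ = (-dlev (dy i g) p + (1 / 2) * ∑ k, dy k (dy k (dy i g)) p
    - ∑ k, dy k w p * dy k (dy i g) p) - ∑ k, dy i (dy k w) p * dy k g p
  have h7 : ∑ k, (dy k w p * dy i (dy k g) p + dy k g p * dy i (dy k w) p) =
      ∑ k, dy k w p * dy k (dy i g) p + ∑ k, dy i (dy k w) p * dy k g p := by
    rw [← Finset.sum_add_distrib]
    refine Finset.sum_congr rfl fun k _ => ?_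
    rw [ha_comm hg i k hp, mul_comm (dy k g p)]
  have h8 : ∑ k, dy i (dy k (dy k g)) p = ∑ k, dy k (dy k (dy i g)) p :=
    Finset.sum_congr rfl fun k _ => ha_comm3 hg i k hp
  rw [h7, h8]
  ring

/-- `P F = 0`. -/
theorem Pf_F (hw : Heat κ w) (k : Fin d) {p : ℝ × Eu d} (hp : 0 < p.1) :
    Pf w (dy k w) p = 0 := by
  have h1 := ha_dy_Pf hw.cg hw.cg k hp
  have h2 : ∀ q : ℝ × Eu d, 0 < q.1 → Pf w w q = (-(1 / 2) : ℝ) * ∑ j, (dy j w q) ^ 2 := by
    intro q hq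
    have := hw.pde q hq
    unfold Pf
    rw [this]
    have h3 : ∑ j, dy j w q * dy j w q = ∑ j, (dy j w q) ^ 2 :=
      Finset.sum_congr rfl fun j _ => by ring
    rw [h3]
    ring
  have h3 : HasFDerivAt (fun q => (-(1 / 2) : ℝ) * ∑ j, (dy j w q) ^ 2)
      ((-(1 / 2) : ℝ) • ∑ j, ((2 * dy j w p) • fderiv ℝ (dy j w) p)) p := by
    refine (HasFDerivAt.fun_sum fun j _ => ?_).const_mul (-(1 / 2) : ℝ)
    have h4 := (ha_hasFDerivAt (hw.cg.dy j) hp).pow 2
    simpa using h4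
  have h4 : dy k (Pf w w) p = - ∑ j, dy k (dy j w) p * dy j w p := by
    show fderiv ℝ (Pf w w) p (0, ek k) = _
    rw [ha_congr h2 hp, h3.fderiv]
    simp only [_root_.smul_apply, ContinuousLinearMap.sum_apply, smul_eq_mul]
    rw [Finset.mul_sum, ← Finset.sum_neg_distrib]
    refine Finset.sum_congr rfl fun j _ => ?_
    show -(1 / 2) * (2 * dy j w p * dy k (dy j w) p) = _
    ring
  rw [h4] at h1
  linarith

/-- `P F1 = F1²`. -/
theorem PM_F1 (hw : Heat κ w) (i j : Fin d) {p : ℝ × Eu d} (hp : 0 < p.1) :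
    PM w (F1 w) i j p = mulM (F1 w) (F1 w) i j p := by
  have h1 := ha_dy_Pf hw.cg (hw.cg.dy j) i hp
  have h2 : dy i (Pf w (dy j w)) p = 0 := by
    show fderiv ℝ (Pf w (dy j w)) p (0, ek i) = _
    rw [ha_congr (f := fun _ => (0 : ℝ)) (fun q hq => Pf_F hw j hq) hp]
    simp
  rw [h2] at h1
  show Pf w (dy i (dy j w)) p = ∑ k, dy i (dy k w) p * dy k (dy j w) p
  linarith

theorem F1_symm (hw : Heat κ w) (i j : Fin d) {p : ℝ × Eu d} (hp : 0 < p.1) :
    F1 w i j p = F1 w j i p :=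
  ha_comm hw.cg i j hp

/-- Expansion of a directional derivative. -/
theorem ha_expand (f : ℝ × Eu d → ℝ) (p : ℝ × Eu d) (v : Eu d) :
    fderiv ℝ f p (0, v) = ∑ j, v j * dy j f p := by
  have h4 : v = ∑ k, v k • ek k := by
    have h5 := (EuclideanSpace.basisFun (Fin d) ℝ).sum_repr v
    simpa using h5.symm
  have h7 : ContinuousLinearMap.inr ℝ ℝ (Eu d) v =
      ∑ k, v k • ContinuousLinearMap.inr ℝ ℝ (Eu d) (ek k) := by
    conv_lhs => rw [h4]
    rw [map_sum]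
    simp only [map_smul]
  show (fderiv ℝ f p) (ContinuousLinearMap.inr ℝ ℝ (Eu d) v) = _
  rw [h7, map_sum]
  refine Finset.sum_congr rfl fun k _ => ?_
  rw [map_smul, smul_eq_mul]
  rfl

/-- The Hessian as a continuous linear map. -/
noncomputable def haH (w : ℝ × Eu d → ℝ) (p : ℝ × Eu d) : Eu d →L[ℝ] Eu d :=
  ((EuclideanSpace.equiv (Fin d) ℝ).symm : (Fin d → ℝ) →L[ℝ] Eu d).comp
    (ContinuousLinearMap.pi fun k => (fderiv ℝ (dy k w) p).comp (ContinuousLinearMap.inr ℝ ℝ (Eu d)))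

theorem haH_apply (w : ℝ × Eu d → ℝ) (p : ℝ × Eu d) (v : Eu d) (k : Fin d) :
    haH w p v k = ∑ j, v j * F1 w j k p := by
  show fderiv ℝ (dy k w) p (0, v) = _
  rw [ha_expand]
  rfl

theorem ha_hasFDerivAt_Fv (hw : Heat κ w) {l : ℝ} (hl : 0 < l) (y : Eu d) :
    HasFDerivAt (fun y => Fv w (l, y)) (haH w (l, y)) y := by
  rw [← hasFDerivWithinAt_univ, hasFDerivWithinAt_euclidean]
  intro k
  rw [hasFDerivWithinAt_univ]
  have h1 : HasFDerivAt (fun y : Eu d => ((l, y) : ℝ × Eu d)) (ContinuousLinearMap.inr ℝ ℝ (Eu d)) y :=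
    hasFDerivAt_prodMk_right l y
  have h2 := (ha_hasFDerivAt (hw.cg.dy k) (p := (l, y)) hl).comp y h1
  exact h2

theorem ha_inner_eq (w : ℝ × Eu d → ℝ) (p : ℝ × Eu d) (u v : Eu d) :
    inner ℝ (haH w p u) v = ∑ i, ∑ j, v i * u j * F1 w j i p := by
  rw [PiLp.inner_apply]
  refine Finset.sum_congr rfl fun i _ => ?_
  rw [haH_apply]
  show v i * (∑ j, u j * F1 w j i p) = _
  rw [Finset.mul_sum]
  exact Finset.sum_congr rfl fun j _ => by ring

theorem haH_symm (hw : Heat κ w) {p : ℝ × Eu d} (hp : 0 < p.1) (u v : Eu d) :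
    inner ℝ (haH w p u) v = inner ℝ u (haH w p v) := by
  rw [ha_inner_eq, real_inner_comm, ha_inner_eq, Finset.sum_comm]
  refine Finset.sum_congr rfl fun i _ => Finset.sum_congr rfl fun j _ => ?_
  rw [F1_symm hw i j hp]
  ring

theorem haH_lo (hw : Heat κ w) {p : ℝ × Eu d} (hp : 0 < p.1) (v : Eu d) :
    0 ≤ inner ℝ (haH w p v) v := by
  rw [ha_inner_eq]
  have h := hw.lo p hp (fun i => v i)
  refine h.trans (le_of_eq ?_)
  refine Finset.sum_congr rfl fun i _ => Finset.sum_congr rfl fun j _ => ?_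
  rw [← F1_symm hw i j hp]
  rfl

theorem haH_hi (hw : Heat κ w) {p : ℝ × Eu d} (hp : 0 < p.1) (v : Eu d) :
    inner ℝ (haH w p v) v ≤ κ * ‖v‖ ^ 2 := by
  rw [ha_inner_eq]
  have h := hw.hi p hp (fun i => v i)
  have h2 : ‖v‖ ^ 2 = ∑ i, (v i) ^ 2 := by
    rw [EuclideanSpace.norm_sq_eq]
    exact Finset.sum_congr rfl fun i _ => by rw [Real.norm_eq_abs, sq_abs]
  rw [h2]
  refine (le_of_eq ?_).trans h
  refine Finset.sum_congr rfl fun i _ => Finset.sum_congr rfl fun j _ => ?_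
  rw [← F1_symm hw i j hp]
  rfl

theorem haH_norm (hw : Heat κ w) (h0 : 0 ≤ κ) {p : ℝ × Eu d} (hp : 0 < p.1) :
    ‖haH w p‖ ≤ κ := by
  refine norm_le_of_quad h0 (haH_symm hw hp) fun v => ?_
  rw [abs_of_nonneg (haH_lo hw hp v)]
  exact haH_hi hw hp v

theorem Heat.lip (hw : Heat κ w) (h0 : 0 ≤ κ) (h1 : κ ≤ 1) {l : ℝ} (hl : 0 < l) (x y : Eu d) :
    ‖Fv w (l, x) - Fv w (l, y)‖ ≤ κ * ‖x - y‖ :=
  Convex.norm_image_sub_le_of_norm_hasFDerivWithin_le (𝕜 := ℝ) (s := univ)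
    (f := fun y => Fv w (l, y)) (f' := fun y => haH w (l, y)) (C := κ)
    (fun y _ => (ha_hasFDerivAt_Fv hw hl y).hasFDerivWithinAt)
    (fun y _ => haH_norm hw h0 (p := (l, y)) hl) convex_univ (mem_univ y) (mem_univ x)

theorem ha_grad (hw : Heat κ w) {l : ℝ} (hl : 0 < l) (y : Eu d) :
    HasFDerivAt (fun y => w (l, y)) (innerSL ℝ (Fv w (l, y))) y := by
  have h1 : HasFDerivAt (fun y : Eu d => ((l, y) : ℝ × Eu d)) (ContinuousLinearMap.inr ℝ ℝ (Eu d)) y :=
    hasFDerivAt_prodMk_right l y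
  have h2 := (ha_hasFDerivAt hw.cg (p := (l, y)) hl).comp y h1
  refine h2.congr_fderiv ?_
  ext v
  show fderiv ℝ w (l, y) (0, v) = inner ℝ (Fv w (l, y)) v
  rw [ha_expand, PiLp.inner_apply]
  exact Finset.sum_congr rfl fun i _ => rfl

theorem Heat.cpot (hw : Heat κ w) (h0 : 0 ≤ κ) (h1 : κ ≤ 1) {l : ℝ} (hl : 0 < l) :
    CPot (fun y => w (l, y)) (fun y => Fv w (l, y)) where
  grad := fun x => ha_grad hw hl x
  mono := fun x y => by
    have hg : ∀ t : ℝ, HasDerivAt (fun t : ℝ => inner ℝ (Fv w (l, y + t • (x - y))) (x - y))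
        (inner ℝ (haH w (l, y + t • (x - y)) (x - y)) (x - y)) t := by
      intro t
      have e1 : HasDerivAt (fun t : ℝ => y + t • (x - y)) (x - y) t := by
        have := ((hasDerivAt_id t).smul_const (x - y)).const_add y
        simpa using this
      have e2 := (ha_hasFDerivAt_Fv hw hl (y + t • (x - y))).comp_hasDerivAt t e1
      have e3 := e2.inner ℝ (hasDerivAt_const t (x - y))
      simpa using e3
    obtain ⟨c, -, hc⟩ := exists_hasDerivAt_eq_slope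
      (fun t : ℝ => inner ℝ (Fv w (l, y + t • (x - y))) (x - y))
      (fun t : ℝ => inner ℝ (haH w (l, y + t • (x - y)) (x - y)) (x - y)) (zero_lt_one' ℝ)
      (fun t _ => (hg t).continuousAt.continuousWithinAt) (fun t _ => hg t)
    have h2 := haH_lo hw (p := (l, y + c • (x - y))) hl (x - y)
    rw [hc] at h2
    have e4 : y + (1 : ℝ) • (x - y) = x := by rw [one_smul]; abel
    have e5 : y + (0 : ℝ) • (x - y) = y := by rw [zero_smul, add_zero]
    rw [e4, e5, sub_zero, div_one] at h2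
    rw [inner_sub_left]
    exact h2
  lip := fun x y => (hw.lip h0 h1 hl x y).trans
    (mul_le_mul_of_nonneg_right (h1.trans (by norm_num)) (norm_nonneg _))

theorem Heat.norm_Fv (hw : Heat κ w) (h0 : 0 ≤ κ) {l : ℝ} (hl : 0 < l) (hl1 : l ≤ 1) (y : Eu d) :
    ‖Fv w (l, y)‖ ≤ κ * (‖y‖ + √d) := by
  have h1 := hw.gr (l, y) hl hl1
  have h2 : ‖Fv w (l, y)‖ ^ 2 = ∑ k, (dy k w (l, y)) ^ 2 := by
    rw [EuclideanSpace.norm_sq_eq]
    exact Finset.sum_congr rfl fun i _ => by rw [Real.norm_eq_abs, sq_abs]; rfl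
  have h3 : 0 ≤ κ * (‖y‖ + √d) := by positivity
  refine le_of_sq_le_sq ?_ h3
  rw [h2, mul_pow]
  exact h1

/-- The Hessian has operator norm at most `κ`. -/
theorem F1_op (hw : Heat κ w) (h0 : 0 ≤ κ) (S : Set ℝ) (hS : S ⊆ Ioi 0) : opB S κ (F1 w) := by
  intro l hl y x
  have hl' : 0 < l := hS hl
  set v : Eu d := WithLp.toLp 2 x with hv
  have h1 := (haH w (l, y)).le_of_opNorm_le (haH_norm hw h0 (p := (l, y)) hl') v
  have h2 : ‖haH w (l, y) v‖ ^ 2 = ∑ k, (∑ i, F1 w k i (l, y) * x i) ^ 2 := by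
    rw [EuclideanSpace.norm_sq_eq]
    refine Finset.sum_congr rfl fun k _ => ?_
    rw [Real.norm_eq_abs, sq_abs, haH_apply]
    congr 1
    refine Finset.sum_congr rfl fun i _ => ?_
    rw [F1_symm hw k i (p := (l, y)) hl', mul_comm]
  have h3 : ‖v‖ ^ 2 = ∑ i, (x i) ^ 2 := by
    rw [EuclideanSpace.norm_sq_eq]
    exact Finset.sum_congr rfl fun i _ => by rw [Real.norm_eq_abs, sq_abs]
  rw [← h2, ← h3, ← mul_pow]
  exact pow_le_pow_left₀ (norm_nonneg _) h1 2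

end Vale.Agent.P347.Z
end

section
attribute [-instance] ProperSMul.toContinuousSMul IsTopologicalTorsor.toContinuousSMul IdemSemiring.toCanonicallyOrderedAdd IdemSemiring.toMulLeftMono IdemSemiring.toMulRightMono AddQuantale.instAddLeftMono AddQuantale.instAddRightMono Quantale.instMulLeftMono Quantale.instMulRightMono FiniteDimensional.rclike_to_real IsScalarTower.complexToReal FiniteDimensional.complexToReal

/-! P347-Z-C0/C1. The conditional laws `ν_τ = gibbs (|a|²/2 + w(l0-τ², Y+τ a))`.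

PROOFS. By `Heat.cpot` (HeatA.lean) the potential `nuU` is continuous with quadratic lower growth
(tangent line at 0). IBP: `gibbs_ibp` (all functions and
derivatives have polynomial growth by `CG.growth`). `nu_hasDerivAt`: `gibbs_hasDerivAt` gives
`d/dτ ∫ u dν_τ = ∫ ∂_τ u - Cov(u, ∂_τ nuU)`, and by the PDE
`∂_τ nuU = -2τ ∂_l w + F·a = -τ Δw + τ|F|² + F·a = ∑_k (-∂_{a_k} F_k + (a_k + τ F_k) F_k) = ∇*·F`, hence by IBP
`∫ u ∂_τ nuU = ∫ F·∇u` and `∫ ∂_τ nuU = 0`.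
`nu_expect`: for `u (τ,a) = f(l0-τ²,Y+τa)`: `∂_τ u - F·∇_a u = ∇*·(Df) + 2τ (P f)`:
`∂_τ u = -2τ ∂_l f + a·Df`, `F·∇_a u = τ F·Df`, `∇*·Df = -τ Δf + (a+τF)·Df`. The mean of `∇*` is zero. Integrate
over `[0,τ]`; at `τ = 0` the integral is `f(l0,Y)`.
`nu_mean`: `P (dy k w) = 0` (derivative of the PDE) so `∫ F_k dν_τ = F_k(l0,Y)`, and `∫ (a_k+τF_k) dν_τ = 0`.
`nu_sq`: Poincare inequality (`nuU` is 1-strongly midconvex) for linear functions. -/

open MeasureTheory Filter Module Set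
open scoped ENNReal NNReal

namespace Vale.Agent.P347.Z

variable {d : ℕ} {κ : ℝ} {w : ℝ × Eu d → ℝ}

/-- Gradient of `nuU`. -/
noncomputable def nuG (w : ℝ × Eu d → ℝ) (l0 : ℝ) (Y : Eu d) (τ : ℝ) (a : Eu d) : Eu d :=
  a + τ • Fv w (l0 - τ ^ 2, Y + τ • a)

theorem nuU_grad (hw : Heat κ w) (h0 : 0 ≤ κ) (h1 : κ ≤ 1) {l0 τ : ℝ} (hl : 0 < l0 - τ ^ 2)
    (Y a : Eu d) : HasFDerivAt (nuU w l0 Y τ) (innerSL ℝ (nuG w l0 Y τ a)) a := by
  have e1 : HasFDerivAt (fun a : Eu d => Y + τ • a) (τ • ContinuousLinearMap.id ℝ (Eu d)) a :=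
    ((hasFDerivAt_id a).const_smul τ).const_add Y
  have e2 := ((hw.cpot h0 h1 hl).grad (Y + τ • a)).comp a e1
  have e3 := (gam_fderiv a).add e2
  refine e3.congr_fderiv ?_
  ext v
  simp only [add_apply, innerSL_apply_apply, ContinuousLinearMap.comp_apply, smul_apply, ContinuousLinearMap.id_apply, inner_smul_right, nuG, inner_add_left, real_inner_smul_left]

theorem nuG_mono (hw : Heat κ w) (h0 : 0 ≤ κ) (h1 : κ ≤ 1) {l0 τ : ℝ} (hl : 0 < l0 - τ ^ 2)
    (Y a b : Eu d) : 1 * ‖a - b‖ ^ 2 ≤ inner ℝ (nuG w l0 Y τ a - nuG w l0 Y τ b) (a - b) := by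
  have e1 := (hw.cpot h0 h1 hl).mono (Y + τ • a) (Y + τ • b)
  have e2 : Y + τ • a - (Y + τ • b) = τ • (a - b) := by module
  rw [e2, inner_smul_right] at e1
  have e3 : nuG w l0 Y τ a - nuG w l0 Y τ b = (a - b) +
      τ • (Fv w (l0 - τ ^ 2, Y + τ • a) - Fv w (l0 - τ ^ 2, Y + τ • b)) := by
    unfold nuG; module
  rw [e3, inner_add_left, real_inner_self_eq_norm_sq, real_inner_smul_left]
  linarith only [e1]

theorem nuG_pg_F (hw : Heat κ w) (h0 : 0 ≤ κ) (h1 : κ ≤ 1) {l0 τ : ℝ} (hl : 0 < l0 - τ ^ 2)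
    (Y : Eu d) : PG (fun a : Eu d => Fv w (l0 - τ ^ 2, Y + τ • a)) := by
  refine PG.of_lip (L := 2 * |τ|) fun a b => ?_
  have e1 := (hw.cpot h0 h1 hl).lip (Y + τ • a) (Y + τ • b)
  have e2 : Y + τ • a - (Y + τ • b) = τ • (a - b) := by module
  rw [e2, norm_smul, Real.norm_eq_abs] at e1
  rw [mul_assoc]
  exact e1

theorem nuG_cont_F (hw : Heat κ w) (h0 : 0 ≤ κ) (h1 : κ ≤ 1) {l0 τ : ℝ} (hl : 0 < l0 - τ ^ 2)
    (Y : Eu d) : Continuous (fun a : Eu d => Fv w (l0 - τ ^ 2, Y + τ • a)) :=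
  (hw.cpot h0 h1 hl).contF.comp (by fun_prop : Continuous fun a : Eu d => Y + τ • a)

theorem nuG_cont (hw : Heat κ w) (h0 : 0 ≤ κ) (h1 : κ ≤ 1) {l0 τ : ℝ} (hl : 0 < l0 - τ ^ 2)
    (Y : Eu d) : Continuous (nuG w l0 Y τ) :=
  continuous_id.add ((nuG_cont_F hw h0 h1 hl Y).const_smul τ)

theorem nuG_pg (hw : Heat κ w) (h0 : 0 ≤ κ) (h1 : κ ≤ 1) {l0 τ : ℝ} (hl : 0 < l0 - τ ^ 2)
    (Y : Eu d) : PG (nuG w l0 Y τ) :=
  PG.id.add ((PG.const τ).smul (nuG_pg_F hw h0 h1 hl Y))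

theorem nuU_low (hw : Heat κ w) (h0 : 0 ≤ κ) (h1 : κ ≤ 1) {l0 τ : ℝ} (hl : 0 < l0 - τ ^ 2)
    (Y a : Eu d) :
    1 / 4 * ‖a‖ ^ 2 - (‖τ • Fv w (l0 - τ ^ 2, Y)‖ ^ 2 - w (l0 - τ ^ 2, Y)) ≤ nuU w l0 Y τ a := by
  have e1 := tangent_le (fun x => nuU_grad hw h0 h1 hl Y x) (m := 1)
    (fun x y => nuG_mono hw h0 h1 hl Y x y) a 0
  have e2 : nuG w l0 Y τ 0 = τ • Fv w (l0 - τ ^ 2, Y) := by simp [nuG]
  have e3 : nuU w l0 Y τ 0 = w (l0 - τ ^ 2, Y) := by simp [nuU]
  rw [e2, e3, sub_zero] at e1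
  have e4 := (abs_le.1 (abs_real_inner_le_norm (τ • Fv w (l0 - τ ^ 2, Y)) a)).1
  (refine le_of_not_gt fun hng_ => ?_; linarith only [mul_nonneg (le_of_lt (sub_pos.2 hng_)) (sq_nonneg (‖τ • Fv w (l0 - τ ^ 2, Y)‖ - ‖a‖ / 2)), mul_nonneg (sub_nonneg.2 e1) (le_of_lt (sub_pos.2 hng_)), mul_nonneg (sub_nonneg.2 e4) (le_of_lt (sub_pos.2 hng_)), mul_pos (sub_pos.2 hng_) (sub_pos.2 hng_)])

theorem nuU_cont (hw : Heat κ w) (h0 : 0 ≤ κ) (h1 : κ ≤ 1) {l0 τ : ℝ} (hl : 0 < l0 - τ ^ 2)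
    (Y : Eu d) : Continuous (nuU w l0 Y τ) :=
  continuous_iff_continuousAt.2 fun x => (nuU_grad hw h0 h1 hl Y x).continuousAt

theorem nuU_adm (hw : Heat κ w) (h0 : 0 ≤ κ) (h1 : κ ≤ 1) {l0 τ : ℝ} (hl : 0 < l0 - τ ^ 2)
    (Y : Eu d) : Adm (nuU w l0 Y τ) :=
  ⟨nuU_cont hw h0 h1 hl Y, 1 / 4, by norm_num, _, fun x => nuU_low hw h0 h1 hl Y x⟩

/-- `nuU - |a|²/2` is convex. -/
theorem nuU_midSC (hw : Heat κ w) (h0 : 0 ≤ κ) (h1 : κ ≤ 1) {l0 τ : ℝ} (hl : 0 < l0 - τ ^ 2)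
    (Y : Eu d) : MidSC 1 (nuU w l0 Y τ) := fun x y =>
  midSC_of_mono (fun x => nuU_grad hw h0 h1 hl Y x) (fun x y => nuG_mono hw h0 h1 hl Y x y) x y

/-! ### Change of variables -/

theorem nuc_vol {F : Type*} [NormedAddCommGroup F] [NormedSpace ℝ F] (τ : ℝ) (Y : Eu d)
    (f : Eu d → F) :
    ∫ z, f (Y + τ • z) = |(τ ^ finrank ℝ (Eu d))⁻¹| • ∫ x, f x := by
  rw [← integral_add_left_eq_self f Y]
  exact Measure.integral_comp_smul volume (fun z => f (Y + z)) τ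

theorem nuc_gibbs {F : Type*} [NormedAddCommGroup F] [NormedSpace ℝ F] {τ : ℝ} (hτ : 0 < τ)
    (Y : Eu d) (U : Eu d → ℝ) (f : Eu d → F) :
    ∫ z, f (Y + τ • z) ∂(gibbs fun a => U (Y + τ • a)) = ∫ x, f x ∂(gibbs U) := by
  rw [gibbs_integral, gibbs_integral]
  rw [nuc_vol τ Y fun x => Real.exp (-U x), nuc_vol τ Y fun x => Real.exp (-U x) • f x]
  set c := |(τ ^ finrank ℝ (Eu d))⁻¹| with hc
  have hc0 : c ≠ 0 := by
    rw [hc]
    positivity
  rw [smul_smul, smul_eq_mul, mul_inv]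
  congr 1
  field_simp

/-- `ν_τ` is the law of `a` when `Y + τ a` is a posterior sample. -/
theorem nu_post (hw : Heat κ w) (h0 : 0 ≤ κ) (h1 : κ ≤ 1) {l0 τ : ℝ} (hτ : 0 < τ)
    (hl : 0 < l0 - τ ^ 2) (Y : Eu d) :
    (nu w l0 Y τ).map (fun a => Y + τ • a)
      = gibbs (post (fun y => w (l0 - τ ^ 2, y)) (τ ^ 2) Y) := by
  have i1 : IsProbabilityMeasure (nu w l0 Y τ) := (nuU_adm hw h0 h1 hl Y).isProb
  have i2 : IsProbabilityMeasure (gibbs (post (fun y => w (l0 - τ ^ 2, y)) (τ ^ 2) Y)) :=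
    ((hw.cpot h0 h1 hl).post_adm (by positivity) Y).isProb
  have hm : Measurable (fun a : Eu d => Y + τ • a) := by fun_prop
  have i3 : IsProbabilityMeasure ((nu w l0 Y τ).map (fun a => Y + τ • a)) :=
    Measure.isProbabilityMeasure_map hm.aemeasurable
  have e1 : nu w l0 Y τ = gibbs fun a => post (fun y => w (l0 - τ ^ 2, y)) (τ ^ 2) Y (Y + τ • a) := by
    unfold nu
    congr 1
    funext a
    unfold nuU post
    rw [add_sub_cancel_left, norm_smul, Real.norm_eq_abs, abs_of_pos hτ]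
    have e2 : (τ * ‖a‖) ^ 2 / (2 * τ ^ 2) = ‖a‖ ^ 2 / 2 := by
      (clear * - hτ; field_simp)
    rw [e2, add_comm]
  refine Measure.ext fun s hs => ?_
  rw [← measureReal_eq_measureReal_iff]
  have e3 := nuc_gibbs hτ Y (post (fun y => w (l0 - τ ^ 2, y)) (τ ^ 2) Y)
    (s.indicator fun _ => (1 : ℝ))
  rw [← e1, ← integral_map (φ := fun a => Y + τ • a) hm.aemeasurable
    (measurable_const.indicator hs).aestronglyMeasurable,
    integral_indicator_const _ hs, integral_indicator_const _ hs, smul_eq_mul, smul_eq_mul,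
    mul_one, mul_one] at e3
  exact e3


/-! ### Slices of functions of the class `CG` -/

section slice

variable {J : Set ℝ} {u v : ℝ × Eu d → ℝ}

theorem nuc_cont (hu : CG J u) {t : ℝ} (ht : t ∈ J) : Continuous fun a => u (t, a) :=
  hu.cont.comp_continuous (by fun_prop) fun a => ⟨ht, trivial⟩

theorem nuc_pg (hu : CG J u) {t : ℝ} (ht : t ∈ J) : PG fun a => u (t, a) := hu.growth ht

theorem nuc_contDiff (hJ : IsOpen J) (hu : CG J u) {t : ℝ} (ht : t ∈ J) :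
    ContDiff ℝ 1 fun a => u (t, a) := by
  have h1 := hu.contDiffOn hJ 1
  rw [Nat.cast_one] at h1
  exact h1.comp_contDiff (f := fun a : Eu d => (t, a)) (by fun_prop) fun a => ⟨ht, trivial⟩

theorem nuc_diffAt (hJ : IsOpen J) (hu : CG J u) {t : ℝ} (ht : t ∈ J) (a : Eu d) :
    DifferentiableAt ℝ u (t, a) :=
  (hu.diff (t, a) ⟨ht, trivial⟩).differentiableAt ((hJ.prod isOpen_univ).mem_nhds ⟨ht, trivial⟩)

theorem nuc_fderiv (hJ : IsOpen J) (hu : CG J u) {t : ℝ} (ht : t ∈ J) (a : Eu d) (k : Fin d) :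
    fderiv ℝ (fun a => u (t, a)) a (ek k) = dy k u (t, a) := by
  have h1 := (nuc_diffAt hJ hu ht a).hasFDerivAt.comp a (hasFDerivAt_prodMk_right (𝕜 := ℝ) t a)
  have h2 : HasFDerivAt (fun a => u (t, a)) _ a := h1
  rw [h2.fderiv]
  rfl

theorem nuc_hasDerivAt (hJ : IsOpen J) (hu : CG J u) {t : ℝ} (ht : t ∈ J) (a : Eu d) :
    HasDerivAt (fun t => u (t, a)) (dlev u (t, a)) t :=
  (nuc_diffAt hJ hu ht a).hasFDerivAt.comp_hasDerivAt t
    ((hasDerivAt_id t).prodMk (hasDerivAt_const t a))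

/-- Composition with `(τ, a) ↦ (l0 - τ², Y + τ a)`. -/
def nuu (l0 : ℝ) (Y : Eu d) (f : ℝ × Eu d → ℝ) : ℝ × Eu d → ℝ :=
  fun p => f (l0 - p.1 ^ 2, Y + p.1 • p.2)

theorem nuu_cg (hJ : IsOpen J) {l0 : ℝ} (hl : ∀ t ∈ J, 0 < l0 - t ^ 2) (Y : Eu d)
    {f : ℝ × Eu d → ℝ} (hf : CG (Ioi 0) f) : CG J (nuu l0 Y f) :=
  CG.comp_up hJ hf isOpen_Ioi (ContinuousLinearMap.id ℝ (Eu d)) l0 Y hl

theorem nuc_sum_ek (a : Eu d) : a = ∑ k, a k • ek k := by
  have h5 := (EuclideanSpace.basisFun (Fin d) ℝ).sum_repr a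
  simpa only [EuclideanSpace.basisFun_repr, EuclideanSpace.basisFun_apply] using h5.symm

theorem nuu_dy {l0 : ℝ} (Y : Eu d) {f : ℝ × Eu d → ℝ} (hf : CG (Ioi 0) f) (k : Fin d)
    {p : ℝ × Eu d} (hp : 0 < l0 - p.1 ^ 2) :
    dy k (nuu l0 Y f) p = p.1 * dy k f (l0 - p.1 ^ 2, Y + p.1 • p.2) := by
  have h1 := cgl_fderiv_up (W := Eu d) (W' := Eu d) isOpen_Ioi hf.diff
    (ContinuousLinearMap.id ℝ (Eu d)) l0 Y (p := p) hp (0, ek k)
  have h2 : dy k (nuu l0 Y f) p = fderiv ℝ (fun p : ℝ × Eu d =>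
      f (l0 - p.1 ^ 2, Y + p.1 • (ContinuousLinearMap.id ℝ (Eu d)) p.2)) p (0, ek k) := rfl
  rw [h2, h1]
  have h3 : ((-(2 * p.1) * 0, p.1 • (ContinuousLinearMap.id ℝ (Eu d)) (ek k) +
      (0 : ℝ) • (ContinuousLinearMap.id ℝ (Eu d)) p.2) : ℝ × Eu d)
      = p.1 • ((0 : ℝ), ek k) := by
    ext <;> simp
  show (fderiv ℝ f (l0 - p.1 ^ 2, Y + p.1 • p.2))
    ((-(2 * p.1) * 0, p.1 • (ContinuousLinearMap.id ℝ (Eu d)) (ek k) +
      (0 : ℝ) • (ContinuousLinearMap.id ℝ (Eu d)) p.2) : ℝ × Eu d) = _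
  rw [h3, map_smul]
  rfl

theorem nuu_dlev {l0 : ℝ} (Y : Eu d) {f : ℝ × Eu d → ℝ} (hf : CG (Ioi 0) f)
    {p : ℝ × Eu d} (hp : 0 < l0 - p.1 ^ 2) :
    dlev (nuu l0 Y f) p = -2 * p.1 * dlev f (l0 - p.1 ^ 2, Y + p.1 • p.2)
      + ∑ k, p.2 k * dy k f (l0 - p.1 ^ 2, Y + p.1 • p.2) := by
  have h1 := cgl_fderiv_up (W := Eu d) (W' := Eu d) isOpen_Ioi hf.diff
    (ContinuousLinearMap.id ℝ (Eu d)) l0 Y (p := p) hp (1, 0)
  have h2 : dlev (nuu l0 Y f) p = fderiv ℝ (fun p : ℝ × Eu d =>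
      f (l0 - p.1 ^ 2, Y + p.1 • (ContinuousLinearMap.id ℝ (Eu d)) p.2)) p (1, 0) := rfl
  rw [h2, h1]
  have h3 : ((-(2 * p.1) * 1, p.1 • (ContinuousLinearMap.id ℝ (Eu d)) (0 : Eu d) +
      (1 : ℝ) • (ContinuousLinearMap.id ℝ (Eu d)) p.2) : ℝ × Eu d)
      = (-2 * p.1) • ((1 : ℝ), (0 : Eu d)) + ContinuousLinearMap.inr ℝ ℝ (Eu d) p.2 := by
    ext <;> simp
  have h6 : (fderiv ℝ f (l0 - p.1 ^ 2, Y + p.1 • p.2))
      (ContinuousLinearMap.inr ℝ ℝ (Eu d) p.2)
      = ∑ k, p.2 k * dy k f (l0 - p.1 ^ 2, Y + p.1 • p.2) := by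
    have h7 : ContinuousLinearMap.inr ℝ ℝ (Eu d) p.2 =
        ∑ k, p.2 k • ContinuousLinearMap.inr ℝ ℝ (Eu d) (ek k) := by
      conv_lhs => rw [nuc_sum_ek p.2]
      rw [map_sum]
      simp only [map_smul]
    rw [h7, map_sum]
    refine Finset.sum_congr rfl fun k _ => ?_
    rw [map_smul, smul_eq_mul]
    rfl
  show (fderiv ℝ f (l0 - p.1 ^ 2, Y + p.1 • p.2))
    ((-(2 * p.1) * 1, p.1 • (ContinuousLinearMap.id ℝ (Eu d)) (0 : Eu d) +
      (1 : ℝ) • (ContinuousLinearMap.id ℝ (Eu d)) p.2) : ℝ × Eu d) = _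
  rw [h3, map_add, map_smul, h6]
  rfl

end slice

/-- Coordinates. -/
theorem nuc_coord {J : Set ℝ} (hJ : IsOpen J) (k : Fin d) : CG J (fun p : ℝ × Eu d => p.2 k) :=
  CG.lin hJ ((EuclideanSpace.proj k : Eu d →L[ℝ] ℝ).comp (ContinuousLinearMap.snd ℝ ℝ (Eu d)))

theorem nuc_time {J : Set ℝ} (hJ : IsOpen J) : CG J (fun p : ℝ × Eu d => p.1) :=
  CG.lin hJ (ContinuousLinearMap.fst ℝ ℝ (Eu d))

/-- Integrability of functions of the class `CG`. -/
theorem nuc_int (hw : Heat κ w) (h0 : 0 ≤ κ) (h1 : κ ≤ 1) {l0 : ℝ} {J : Set ℝ}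
    (hl : ∀ t ∈ J, 0 < l0 - t ^ 2) (Y : Eu d) {u : ℝ × Eu d → ℝ} (hu : CG J u) {τ : ℝ}
    (hτ : τ ∈ J) : Integrable (fun a => u (τ, a)) (nu w l0 Y τ) :=
  (nuU_adm hw h0 h1 (hl τ hτ) Y).integrable (nuc_pg hu hτ) (nuc_cont hu hτ).aestronglyMeasurable

/-! ### Integration by parts -/

/-- Integration by parts. -/
theorem nu_ibp (hw : Heat κ w) (h0 : 0 ≤ κ) (h1 : κ ≤ 1) {l0 τ : ℝ} (hl : 0 < l0 - τ ^ 2)
    (Y : Eu d) {u v : Eu d → ℝ} (hu : ContDiff ℝ 1 u) (hv : ContDiff ℝ 1 v) (pu : PG u) (pv : PG v)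
    (k : Fin d) (pu' : PG (fun a => fderiv ℝ u a (ek k))) (pv' : PG (fun a => fderiv ℝ v a (ek k))) :
    ∫ a, (-fderiv ℝ u a (ek k) + (a k + τ * dy k w (l0 - τ ^ 2, Y + τ • a)) * u a) * v a
        ∂(nu w l0 Y τ)
      = ∫ a, u a * fderiv ℝ v a (ek k) ∂(nu w l0 Y τ) := by
  have hA := nuU_adm hw h0 h1 hl Y
  have hg : ∀ a, nuG w l0 Y τ a k = a k + τ * dy k w (l0 - τ ^ 2, Y + τ • a) := fun a => by
    simp [nuG, Fv]
  have hgin : ∀ a, inner ℝ (nuG w l0 Y τ a) (ek k) = nuG w l0 Y τ a k := fun a => by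
    rw [EuclideanSpace.inner_single_right]
    simp
  have du : Differentiable ℝ u := hu.differentiable one_ne_zero
  have dv : Differentiable ℝ v := hv.differentiable one_ne_zero
  have cu' : Continuous (fun a => fderiv ℝ u a (ek k)) :=
    (hu.continuous_fderiv one_ne_zero).clm_apply continuous_const
  have cv' : Continuous (fun a => fderiv ℝ v a (ek k)) :=
    (hv.continuous_fderiv one_ne_zero).clm_apply continuous_const
  have cg : Continuous (fun a => nuG w l0 Y τ a k) := by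
    have := nuG_cont hw h0 h1 hl Y
    fun_prop
  have pg : PG (fun a => nuG w l0 Y τ a k) := by
    refine (nuG_pg hw h0 h1 hl Y).of_le fun a => ?_
    exact PiLp.norm_apply_le _ _
  have hI : ∀ {f : Eu d → ℝ}, PG f → Continuous f →
      Integrable (fun a => Real.exp (-nuU w l0 Y τ a) * f a) := fun {f} pf cf => by
    have := hA.integrable pf cf.aestronglyMeasurable
    unfold gibbs at this
    rwa [integrable_tilted_iff hA.integrable_exp] at this
  have hexp : ∀ a, HasFDerivAt (fun a => Real.exp (-nuU w l0 Y τ a))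
      (Real.exp (-nuU w l0 Y τ a) • -(innerSL ℝ (nuG w l0 Y τ a))) a :=
    fun a => ((nuU_grad hw h0 h1 hl Y a).neg).exp
  have e1 : ∀ a, fderiv ℝ (fun a => Real.exp (-nuU w l0 Y τ a)) a (ek k)
      = -(Real.exp (-nuU w l0 Y τ a) * nuG w l0 Y τ a k) := fun a => by
    rw [(hexp a).fderiv]
    simp only [_root_.smul_apply, _root_.neg_apply, innerSL_apply_apply, smul_eq_mul, hgin]
    ring
  have e2 : ∀ a, fderiv ℝ (fun a => u a * v a) a (ek k)
      = u a * fderiv ℝ v a (ek k) + v a * fderiv ℝ u a (ek k) := fun a => by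
    rw [fderiv_fun_mul (du a) (dv a)]
    rfl
  have key := integral_mul_fderiv_eq_neg_fderiv_mul_of_integrable (μ := (volume : Measure (Eu d)))
    (f := fun a => u a * v a) (g := fun a => Real.exp (-nuU w l0 Y τ a)) (v := ek k) ?_ ?_ ?_
    (fun a _ => (du a).mul (dv a)) (fun a _ => (hexp a).differentiableAt)
  · simp_rw [e1, e2] at key
    unfold nu
    rw [gibbs_integral, gibbs_integral]
    congr 1
    have k1 : ∫ a, u a * v a * -(Real.exp (-nuU w l0 Y τ a) * nuG w l0 Y τ a k)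
        = -∫ a, Real.exp (-nuU w l0 Y τ a) * (nuG w l0 Y τ a k * u a * v a) := by
      rw [← integral_neg]
      congr 1
      funext a
      ring
    have k2 : ∫ a, (u a * fderiv ℝ v a (ek k) + v a * fderiv ℝ u a (ek k))
          * Real.exp (-nuU w l0 Y τ a)
        = ∫ a, Real.exp (-nuU w l0 Y τ a) * (u a * fderiv ℝ v a (ek k) + v a * fderiv ℝ u a (ek k)) := by
      congr 1
      funext a
      ring
    rw [k1, k2] at key
    have i1 := hI ((pg.mul pu).mul pv) ((cg.mul hu.continuous).mul hv.continuous)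
    have i2 := hI (pu.mul pv') (hu.continuous.mul cv')
    have i3 := hI (pv.mul pu') (hv.continuous.mul cu')
    have k3 : ∫ a, Real.exp (-nuU w l0 Y τ a) * (u a * fderiv ℝ v a (ek k) + v a * fderiv ℝ u a (ek k))
        = (∫ a, Real.exp (-nuU w l0 Y τ a) * (u a * fderiv ℝ v a (ek k)))
          + ∫ a, Real.exp (-nuU w l0 Y τ a) * (v a * fderiv ℝ u a (ek k)) := by
      rw [← integral_add i2 i3]
      congr 1
      funext a
      ring
    have k4 : ∫ a, Real.exp (-nuU w l0 Y τ a) • ((-fderiv ℝ u a (ek k)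
          + (a k + τ * dy k w (l0 - τ ^ 2, Y + τ • a)) * u a) * v a)
        = (∫ a, Real.exp (-nuU w l0 Y τ a) * (nuG w l0 Y τ a k * u a * v a))
          - ∫ a, Real.exp (-nuU w l0 Y τ a) * (v a * fderiv ℝ u a (ek k)) := by
      rw [← integral_sub i1 i3]
      congr 1
      funext a
      rw [smul_eq_mul, hg a]
      ring
    rw [k4]
    simp only [smul_eq_mul]
    rw [k3] at key
    linarith only [key]
  · refine (hI ((pu.mul pv').add (pv.mul pu'))
      ((hu.continuous.mul cv').add (hv.continuous.mul cu'))).congr (Eventually.of_forall fun a => ?_)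
    simp only [e2]
    ring
  · refine (hI ((pu.mul pv).mul pg).neg
      ((hu.continuous.mul hv.continuous).mul cg).neg).congr (Eventually.of_forall fun a => ?_)
    simp only [e1]
    ring
  · refine (hI (pu.mul pv) (hu.continuous.mul hv.continuous)).congr
      (Eventually.of_forall fun a => ?_)
    simp only
    ring

/-- Integration by parts for the class `CG`. -/
theorem nuc_ibp (hw : Heat κ w) (h0 : 0 ≤ κ) (h1 : κ ≤ 1) {l0 : ℝ} {J : Set ℝ}
    (hJ : IsOpen J) (hl : ∀ t ∈ J, 0 < l0 - t ^ 2) (Y : Eu d) {u v : ℝ × Eu d → ℝ} (hu : CG J u)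
    (hv : CG J v) {τ : ℝ} (hτ : τ ∈ J) (k : Fin d) :
    ∫ a, (-dy k u (τ, a) + (a k + τ * dy k w (l0 - τ ^ 2, Y + τ • a)) * u (τ, a)) * v (τ, a)
        ∂(nu w l0 Y τ)
      = ∫ a, u (τ, a) * dy k v (τ, a) ∂(nu w l0 Y τ) := by
  have e1 := nu_ibp hw h0 h1 (hl τ hτ) Y (nuc_contDiff hJ hu hτ) (nuc_contDiff hJ hv hτ)
    (nuc_pg hu hτ) (nuc_pg hv hτ) k
    (by simp_rw [nuc_fderiv hJ hu hτ]; exact nuc_pg (hu.dy k) hτ)
    (by simp_rw [nuc_fderiv hJ hv hτ]; exact nuc_pg (hv.dy k) hτ)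
  simp_rw [nuc_fderiv hJ hu hτ, nuc_fderiv hJ hv hτ] at e1
  exact e1

/-- The adjoint of `dy k` as a function of the class `CG`. -/
noncomputable def nuds (w : ℝ × Eu d → ℝ) (l0 : ℝ) (Y : Eu d) (k : Fin d) (u : ℝ × Eu d → ℝ) :
    ℝ × Eu d → ℝ :=
  fun p => -dy k u p + (p.2 k + p.1 * dy k w (l0 - p.1 ^ 2, Y + p.1 • p.2)) * u p

theorem nuds_cg (hw : Heat κ w) {l0 : ℝ} {J : Set ℝ}
    (hJ : IsOpen J) (hl : ∀ t ∈ J, 0 < l0 - t ^ 2) (Y : Eu d) {u : ℝ × Eu d → ℝ} (hu : CG J u)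
    (k : Fin d) : CG J (nuds w l0 Y k u) :=
  CG.add hJ (CG.neg hJ (hu.dy k)) (CG.mul hJ (CG.add hJ (nuc_coord hJ k)
    (CG.mul hJ (nuc_time hJ) (nuu_cg hJ hl Y (hw.cg.dy k)))) hu)

/-- Sum version of the integration by parts. -/
theorem nuds_sum (hw : Heat κ w) (h0 : 0 ≤ κ) (h1 : κ ≤ 1) {l0 : ℝ} {J : Set ℝ}
    (hJ : IsOpen J) (hl : ∀ t ∈ J, 0 < l0 - t ^ 2) (Y : Eu d) {u : Fin d → ℝ × Eu d → ℝ}
    (hu : ∀ k, CG J (u k)) {v : ℝ × Eu d → ℝ} (hv : CG J v) {τ : ℝ} (hτ : τ ∈ J) :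
    ∫ a, (∑ k, nuds w l0 Y k (u k) (τ, a)) * v (τ, a) ∂(nu w l0 Y τ)
      = ∫ a, ∑ k, u k (τ, a) * dy k v (τ, a) ∂(nu w l0 Y τ) := by
  simp_rw [Finset.sum_mul]
  rw [integral_finsetSum _ fun k _ =>
      nuc_int hw h0 h1 hl Y (CG.mul hJ (nuds_cg hw hJ hl Y (hu k) k) hv) hτ,
    integral_finsetSum _ fun k _ => nuc_int hw h0 h1 hl Y (CG.mul hJ (hu k) (hv.dy k)) hτ]
  exact Finset.sum_congr rfl fun k _ => nuc_ibp hw h0 h1 hJ hl Y (hu k) hv hτ k

theorem nuds_sum_zero (hw : Heat κ w) (h0 : 0 ≤ κ) (h1 : κ ≤ 1) {l0 : ℝ} {J : Set ℝ}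
    (hJ : IsOpen J) (hl : ∀ t ∈ J, 0 < l0 - t ^ 2) (Y : Eu d) {u : Fin d → ℝ × Eu d → ℝ}
    (hu : ∀ k, CG J (u k)) {τ : ℝ} (hτ : τ ∈ J) :
    ∫ a, (∑ k, nuds w l0 Y k (u k) (τ, a)) ∂(nu w l0 Y τ) = 0 := by
  have h2 := nuds_sum hw h0 h1 hJ hl Y hu (CG.const hJ (1 : ℝ)) hτ
  have h3 : ∀ (k : Fin d) (p : ℝ × Eu d), dy k (fun _ : ℝ × Eu d => (1 : ℝ)) p = 0 := fun k p => by
    simp [dy]
  simp_rw [h3, mul_one, mul_zero] at h2
  rw [h2]
  simp only [Finset.sum_const_zero, integral_zero]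

/-- The time derivative of the potential is `∇* · F`. -/
theorem nuc_dU (hw : Heat κ w) {l0 : ℝ} (Y : Eu d) {p : ℝ × Eu d} (hp : 0 < l0 - p.1 ^ 2) :
    dlev (nuu l0 Y w) p = ∑ k, nuds w l0 Y k (nuu l0 Y (dy k w)) p := by
  rw [nuu_dlev Y hw.cg hp, hw.pde _ hp]
  have e1 : ∀ k, nuds w l0 Y k (nuu l0 Y (dy k w)) p
      = -(p.1 * dy k (dy k w) (l0 - p.1 ^ 2, Y + p.1 • p.2))
        + (p.2 k * dy k w (l0 - p.1 ^ 2, Y + p.1 • p.2)
        + p.1 * (dy k w (l0 - p.1 ^ 2, Y + p.1 • p.2)) ^ 2) := fun k => by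
    unfold nuds
    rw [nuu_dy Y (hw.cg.dy k) k hp]
    unfold nuu
    ring
  simp_rw [e1]
  rw [Finset.sum_add_distrib, Finset.sum_add_distrib, Finset.sum_neg_distrib, ← Finset.mul_sum,
    ← Finset.mul_sum]
  ring

theorem nuc_bound {J : Set ℝ} {u : ℝ × Eu d → ℝ} (hu : CG J u) {K : Set ℝ} (hK : K ⊆ J)
    (hKc : IsCompact K) : ∃ (C : ℝ) (k : ℕ), 0 ≤ C ∧ ∀ t ∈ K, ∀ x, |u (t, x)| ≤ C * (1 + ‖x‖) ^ k := by
  obtain ⟨C, k, h⟩ := hu.pg K hK hKc
  refine ⟨|C|, k, abs_nonneg _, fun t ht x => (h t ht x).trans ?_⟩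
  have := le_abs_self C
  (clear * - this; gcongr)

/-- Time derivative of expectations. -/
theorem nu_hasDerivAt (hw : Heat κ w) (h0 : 0 ≤ κ) (h1 : κ ≤ 1) {l0 : ℝ} {J : Set ℝ}
    (hJ : IsOpen J) (hl : ∀ t ∈ J, 0 < l0 - t ^ 2) (Y : Eu d) {u : ℝ × Eu d → ℝ} (hu : CG J u)
    {τ : ℝ} (hτ : τ ∈ J) :
    HasDerivAt (fun t => ∫ a, u (t, a) ∂(nu w l0 Y t))
      (∫ a, (dlev u (τ, a) - ∑ k, dy k w (l0 - τ ^ 2, Y + τ • a) * dy k u (τ, a))
        ∂(nu w l0 Y τ)) τ := by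
  obtain ⟨r0, hr0, hrJ⟩ := Metric.isOpen_iff.1 hJ τ hτ
  obtain ⟨K, hKdef⟩ : ∃ K, K = Metric.closedBall τ (r0 / 2) := ⟨_, rfl⟩
  have hKJ : K ⊆ J := by
    rw [hKdef]
    exact (Metric.closedBall_subset_ball (by linarith only [hr0])).trans hrJ
  have hKc : IsCompact K := by
    rw [hKdef]
    exact isCompact_closedBall τ (r0 / 2)
  have hK : ∀ t, |t - τ| < r0 / 2 → t ∈ K := fun t ht => by
    rw [hKdef, Metric.mem_closedBall, Real.dist_eq]
    exact ht.le
  have cgU : CG J (nuu l0 Y w) := nuu_cg hJ hl Y hw.cg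
  obtain ⟨C1, k1, hC1, b1⟩ := nuc_bound cgU.dlev hKJ hKc
  obtain ⟨C2, k2, hC2, b2⟩ := nuc_bound hu hKJ hKc
  obtain ⟨C3, k3, hC3, b3⟩ := nuc_bound hu.dlev hKJ hKc
  -- uniform lower bound
  have hcF : ContinuousOn (fun t : ℝ => ‖t • Fv w (l0 - t ^ 2, Y)‖ ^ 2 - w (l0 - t ^ 2, Y)) J := by
    have hmap : MapsTo (fun t : ℝ => ((l0 - t ^ 2, Y) : ℝ × Eu d)) J (Ioi 0 ×ˢ univ) :=
      fun t ht => ⟨hl t ht, trivial⟩
    have hc : ContinuousOn (fun t : ℝ => ((l0 - t ^ 2, Y) : ℝ × Eu d)) J := by fun_prop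
    have c1 : ContinuousOn (fun t : ℝ => w (l0 - t ^ 2, Y)) J := hw.cg.cont.comp hc hmap
    have c2 : ContinuousOn (fun t : ℝ => Fv w (l0 - t ^ 2, Y)) J := by
      refine (PiLp.continuous_toLp 2 _).comp_continuousOn (continuousOn_pi.2 fun k => ?_)
      exact (hw.cg.dy k).cont.comp hc hmap
    exact ((continuousOn_id.smul c2).norm.pow 2).sub c1
  obtain ⟨b, hb⟩ := hKc.exists_bound_of_continuousOn (hcF.mono hKJ)
  obtain ⟨C, hCdef⟩ : ∃ C, C = C1 + C2 + C3 := ⟨_, rfl⟩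
  obtain ⟨k, hkdef⟩ : ∃ k, k = k1 + k2 + k3 := ⟨_, rfl⟩
  have hup : ∀ (C' : ℝ) (k' : ℕ), 0 ≤ C' → C' ≤ C → k' ≤ k → ∀ x : Eu d,
      C' * (1 + ‖x‖) ^ k' ≤ C * (1 + ‖x‖) ^ k := fun C' k' h2 h3 h4 x => by
    have h5 : 1 ≤ 1 + ‖x‖ := one_le_one_add_norm x
    have h6 : (1 + ‖x‖) ^ k' ≤ (1 + ‖x‖) ^ k := pow_le_pow_right₀ h5 h4
    exact mul_le_mul h3 h6 (by positivity) (h2.trans h3)
  have hUder : ∀ t ∈ J, ∀ x : Eu d,
      HasDerivAt (fun t => nuU w l0 Y t x) (dlev (nuu l0 Y w) (t, x)) t := fun t ht x => by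
    have h2 := (nuc_hasDerivAt hJ cgU ht x).const_add (‖x‖ ^ 2 / 2)
    exact h2
  have key := gibbs_hasDerivAt (E := Eu d) (F := ℝ) (U := nuU w l0 Y)
    (U' := fun t x => dlev (nuu l0 Y w) (t, x))
    (h := fun t x => u (t, x)) (h' := fun t x => dlev u (t, x)) (t0 := τ) (r := r0 / 2) (a := 1 / 4)
    (b := b) (C := C) (k := k) (by linarith only [hr0]) (by norm_num)
    (fun t ht x => hUder t (hKJ (hK t ht)) x)
    (fun t ht x => nuc_hasDerivAt hJ hu (hKJ (hK t ht)) x)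
    (fun t ht => nuU_cont hw h0 h1 (hl t (hKJ (hK t ht))) Y)
    (fun t ht => nuc_cont cgU.dlev (hKJ (hK t ht)))
    (fun t ht => nuc_cont hu (hKJ (hK t ht)))
    (fun t ht => nuc_cont hu.dlev (hKJ (hK t ht)))
    (fun t ht x => by
      have h2 := nuU_low hw h0 h1 (hl t (hKJ (hK t ht))) Y x
      have h3 := (le_abs_self _).trans (hb t (hK t ht))
      linarith only [h3, h2])
    (fun t ht x => (b1 t (hK t ht) x).trans (hup C1 k1 hC1 (by linarith only [hC3, hC2, hCdef]) (by omega) x))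
    (fun t ht x => (b2 t (hK t ht) x).trans (hup C2 k2 hC2 (by linarith only [hC3, hC1, hCdef]) (by omega) x))
    (fun t ht x => (b3 t (hK t ht) x).trans (hup C3 k3 hC3 (by linarith only [hC2, hC1, hCdef]) (by omega) x))
  refine key.congr_deriv ?_
  have cF : ∀ k, CG J (nuu l0 Y (dy k w)) := fun k => nuu_cg hJ hl Y (hw.cg.dy k)
  have e1 : ∫ x, dlev (nuu l0 Y w) (τ, x) • u (τ, x) ∂(gibbs (nuU w l0 Y τ))
      = ∫ a, ∑ k, nuu l0 Y (dy k w) (τ, a) * dy k u (τ, a) ∂(nu w l0 Y τ) := by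
    rw [← nuds_sum hw h0 h1 hJ hl Y cF hu hτ]
    unfold nu
    congr 1
    funext a
    rw [nuc_dU hw Y (p := (τ, a)) (hl τ hτ), smul_eq_mul]
  have e2 : ∫ x, dlev (nuu l0 Y w) (τ, x) ∂(gibbs (nuU w l0 Y τ)) = 0 := by
    rw [← nuds_sum_zero hw h0 h1 hJ hl Y cF hτ]
    unfold nu
    congr 1
    funext a
    rw [nuc_dU hw Y (p := (τ, a)) (hl τ hτ)]
  rw [e1, e2, zero_smul, sub_zero]
  rw [← nu, ← integral_sub (nuc_int hw h0 h1 hl Y hu.dlev hτ)
    (nuc_int hw h0 h1 hl Y (CG.sum hJ Finset.univ fun k _ => CG.mul hJ (cF k) (hu.dy k)) hτ)]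
  rfl

theorem nuc_isOpen (l0 : ℝ) : IsOpen {t : ℝ | 0 < l0 - t ^ 2} :=
  isOpen_lt continuous_const (by fun_prop)

/-- The class `CG` is stable under `P`. -/
theorem nuc_Pf (hw : Heat κ w) {f : ℝ × Eu d → ℝ} (hf : CG (Ioi 0) f) : CG (Ioi 0) (Pf w f) :=
  CG.sub isOpen_Ioi (CG.add isOpen_Ioi (CG.neg isOpen_Ioi hf.dlev)
    (CG.mul isOpen_Ioi (CG.const isOpen_Ioi (1 / 2))
      (CG.sum isOpen_Ioi Finset.univ fun k _ => (hf.dy k).dy k)))
    (CG.sum isOpen_Ioi Finset.univ fun k _ => CG.mul isOpen_Ioi (hw.cg.dy k) (hf.dy k))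

/-- Derivative of the expectation of a function of `(l, y)`. -/
theorem nuc_expect_deriv (hw : Heat κ w) (h0 : 0 ≤ κ) (h1 : κ ≤ 1) {l0 τ : ℝ}
    (hl : 0 < l0 - τ ^ 2) (Y : Eu d) {f : ℝ × Eu d → ℝ} (hf : CG (Ioi 0) f) :
    HasDerivAt (fun t => ∫ a, f (l0 - t ^ 2, Y + t • a) ∂(nu w l0 Y t))
      (2 * τ * ∫ a, Pf w f (l0 - τ ^ 2, Y + τ • a) ∂(nu w l0 Y τ)) τ := by
  obtain ⟨J, hJdef⟩ : ∃ J, J = {t : ℝ | 0 < l0 - t ^ 2} := ⟨_, rfl⟩
  have hJ : IsOpen J := by rw [hJdef]; exact nuc_isOpen l0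
  have hlJ : ∀ t ∈ J, 0 < l0 - t ^ 2 := fun t ht => by rw [hJdef] at ht; exact ht
  have hτ : τ ∈ J := by rw [hJdef]; exact hl
  have key := nu_hasDerivAt hw h0 h1 hJ hlJ Y (nuu_cg hJ hlJ Y hf) hτ
  refine key.congr_deriv ?_
  have cF : ∀ k, CG J (nuu l0 Y (dy k f)) := fun k => nuu_cg hJ hlJ Y (hf.dy k)
  have cP : CG J (nuu l0 Y (Pf w f)) := nuu_cg hJ hlJ Y (nuc_Pf hw hf)
  have e1 : ∀ a : Eu d, dlev (nuu l0 Y f) (τ, a)
      - ∑ k, dy k w (l0 - τ ^ 2, Y + τ • a) * dy k (nuu l0 Y f) (τ, a)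
      = ∑ k, nuds w l0 Y k (nuu l0 Y (dy k f)) (τ, a) + 2 * τ * nuu l0 Y (Pf w f) (τ, a) := by
    intro a
    rw [nuu_dlev Y hf (p := (τ, a)) hl]
    have e2 : ∀ k, dy k w (l0 - τ ^ 2, Y + τ • a) * dy k (nuu l0 Y f) (τ, a)
        = τ * (dy k w (l0 - τ ^ 2, Y + τ • a) * dy k f (l0 - τ ^ 2, Y + τ • a)) := fun k => by
      rw [nuu_dy Y hf k (p := (τ, a)) hl]
      ring
    have e3 : ∀ k, nuds w l0 Y k (nuu l0 Y (dy k f)) (τ, a)
        = -(τ * dy k (dy k f) (l0 - τ ^ 2, Y + τ • a))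
          + (a k * dy k f (l0 - τ ^ 2, Y + τ • a)
          + τ * (dy k w (l0 - τ ^ 2, Y + τ • a) * dy k f (l0 - τ ^ 2, Y + τ • a))) := fun k => by
      unfold nuds
      rw [nuu_dy Y (hf.dy k) k (p := (τ, a)) hl]
      unfold nuu
      ring
    simp_rw [e2, e3]
    rw [Finset.sum_add_distrib, Finset.sum_add_distrib, Finset.sum_neg_distrib, ← Finset.mul_sum,
      ← Finset.mul_sum]
    unfold nuu Pf
    ring
  simp_rw [e1]
  rw [integral_add (nuc_int hw h0 h1 hlJ Y (CG.sum hJ Finset.univ fun k _ =>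
      nuds_cg hw hJ hlJ Y (cF k) k) hτ)
    ((nuc_int hw h0 h1 hlJ Y cP hτ).const_mul _), nuds_sum_zero hw h0 h1 hJ hlJ Y cF hτ, zero_add,
    integral_const_mul]
  rfl

/-- Representation of `f(l0, Y)` by the lower levels. -/
theorem nu_expect (hw : Heat κ w) (h0 : 0 ≤ κ) (h1 : κ ≤ 1) {l0 T : ℝ} (hT : 0 ≤ T)
    (hl : 0 < l0 - T ^ 2) (Y : Eu d) {f : ℝ × Eu d → ℝ} (hf : CG (Ioi 0) f) :
    f (l0, Y) = ∫ a, f (l0 - T ^ 2, Y + T • a) ∂(nu w l0 Y T)
      - ∫ t in (0 : ℝ)..T, 2 * t * ∫ a, Pf w f (l0 - t ^ 2, Y + t • a) ∂(nu w l0 Y t) := by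
  have hlt : ∀ t ∈ uIcc 0 T, 0 < l0 - t ^ 2 := fun t ht => by
    rw [uIcc_of_le hT] at ht
    have := ht.1
    have := ht.2
    nlinarith
  have hcont : ContinuousOn (fun t => 2 * t * ∫ a, Pf w f (l0 - t ^ 2, Y + t • a) ∂(nu w l0 Y t))
      (uIcc 0 T) := fun t ht =>
    ((continuousAt_const.mul continuousAt_id).mul
      (nuc_expect_deriv hw h0 h1 (hlt t ht) Y (nuc_Pf hw hf)).continuousAt).continuousWithinAt
  have e1 := intervalIntegral.integral_eq_sub_of_hasDerivAt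
    (fun t ht => nuc_expect_deriv hw h0 h1 (hlt t ht) Y hf) hcont.intervalIntegrable
  have hp : IsProbabilityMeasure (nu w l0 Y 0) := by
    have := hlt 0 left_mem_uIcc
    exact (nuU_adm hw h0 h1 this Y).isProb
  have e2 : ∫ a, f (l0 - (0 : ℝ) ^ 2, Y + (0 : ℝ) • a) ∂(nu w l0 Y 0) = f (l0, Y) := by
    simp
  rw [e1, e2]
  ring

theorem nuc_mean_F (hw : Heat κ w) (h0 : 0 ≤ κ) (h1 : κ ≤ 1) {l0 τ : ℝ} (hτ : 0 ≤ τ)
    (hl : 0 < l0 - τ ^ 2) (Y : Eu d) (k : Fin d) :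
    ∫ a, dy k w (l0 - τ ^ 2, Y + τ • a) ∂(nu w l0 Y τ) = dy k w (l0, Y) := by
  have e1 := nu_expect hw h0 h1 hτ hl Y (hw.cg.dy k)
  have e2 : ∫ t in (0 : ℝ)..τ, 2 * t * ∫ a, Pf w (dy k w) (l0 - t ^ 2, Y + t • a) ∂(nu w l0 Y t)
      = 0 := by
    have h5 : ∫ t in (0 : ℝ)..τ, 2 * t * ∫ a, Pf w (dy k w) (l0 - t ^ 2, Y + t • a)
        ∂(nu w l0 Y t) = ∫ _t in (0 : ℝ)..τ, (0 : ℝ) := by
      refine intervalIntegral.integral_congr fun t ht => ?_
      rw [uIcc_of_le hτ] at ht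
      have h3 : 0 < l0 - t ^ 2 := by
        have := ht.1
        have := ht.2
        nlinarith
      have h4 : ∀ a : Eu d, Pf w (dy k w) (l0 - t ^ 2, Y + t • a) = 0 := fun a => Pf_F hw k h3
      simp only [h4, integral_zero, mul_zero]
    rw [h5, intervalIntegral.integral_zero]
  rw [e2, sub_zero] at e1
  exact e1.symm

theorem nu_mean (hw : Heat κ w) (h0 : 0 ≤ κ) (h1 : κ ≤ 1) {l0 τ : ℝ} (hτ : 0 ≤ τ)
    (hl : 0 < l0 - τ ^ 2) (Y : Eu d) : ∫ a, a ∂(nu w l0 Y τ) = -τ • Fv w (l0, Y) := by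
  have hA := nuU_adm hw h0 h1 hl Y
  have e1 := gibbs_mean_grad hA (fun x => nuU_grad hw h0 h1 hl Y x) (nuG_cont hw h0 h1 hl Y)
    (nuG_pg hw h0 h1 hl Y)
  have i1 : Integrable (fun a : Eu d => a) (gibbs (nuU w l0 Y τ)) :=
    hA.integrable PG.id continuous_id.aestronglyMeasurable
  have i2 : Integrable (fun a : Eu d => Fv w (l0 - τ ^ 2, Y + τ • a)) (gibbs (nuU w l0 Y τ)) :=
    hA.integrable (nuG_pg_F hw h0 h1 hl Y) (nuG_cont_F hw h0 h1 hl Y).aestronglyMeasurable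
  have e2 : ∫ a, Fv w (l0 - τ ^ 2, Y + τ • a) ∂(gibbs (nuU w l0 Y τ)) = Fv w (l0, Y) := by
    ext k
    have e3 := (EuclideanSpace.proj k : Eu d →L[ℝ] ℝ).integral_comp_comm i2
    have e4 : (EuclideanSpace.proj k : Eu d →L[ℝ] ℝ)
        (∫ a, Fv w (l0 - τ ^ 2, Y + τ • a) ∂(gibbs (nuU w l0 Y τ)))
        = (∫ a, Fv w (l0 - τ ^ 2, Y + τ • a) ∂(gibbs (nuU w l0 Y τ))) k := rfl
    rw [← e4, ← e3]
    exact nuc_mean_F hw h0 h1 hτ hl Y k
  have i3 : Integrable (fun a : Eu d => τ • Fv w (l0 - τ ^ 2, Y + τ • a))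
      (gibbs (nuU w l0 Y τ)) := i2.smul τ
  unfold nuG at e1
  rw [integral_add i1 i3, integral_smul, e2] at e1
  rw [neg_smul]
  exact eq_neg_of_add_eq_zero_left e1

theorem nu_sq (hw : Heat κ w) (h0 : 0 ≤ κ) (h1 : κ ≤ 1) {l0 τ : ℝ} (hτ : 0 ≤ τ)
    (hl : 0 < l0 - τ ^ 2) (Y : Eu d) :
    ∫ a, ‖a‖ ^ 2 ∂(nu w l0 Y τ) ≤ d + τ ^ 2 * ‖Fv w (l0, Y)‖ ^ 2 := by
  have hA := nuU_adm hw h0 h1 hl Y
  have hP := hA.isProb
  have hm := nu_mean hw h0 h1 hτ hl Y
  have i1 : Integrable (fun a : Eu d => a) (gibbs (nuU w l0 Y τ)) :=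
    hA.integrable PG.id continuous_id.aestronglyMeasurable
  have pgk : ∀ k : Fin d, PG (fun a : Eu d => a k) := fun k =>
    PG.id.of_le fun a => PiLp.norm_apply_le _ _
  have e1 : ∀ k : Fin d, ∫ a : Eu d, a k ∂(gibbs (nuU w l0 Y τ)) = -τ * dy k w (l0, Y) := fun k => by
    have e3 := (EuclideanSpace.proj k : Eu d →L[ℝ] ℝ).integral_comp_comm i1
    have e4 : (EuclideanSpace.proj k : Eu d →L[ℝ] ℝ) (∫ a, a ∂(gibbs (nuU w l0 Y τ)))
        = (-τ • Fv w (l0, Y)) k := by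
      rw [← nu, hm]
      rfl
    rw [e4] at e3
    exact e3
  have e2 : ∀ k : Fin d, ∫ a : Eu d, (a k) ^ 2 ∂(gibbs (nuU w l0 Y τ))
      ≤ 1 + τ ^ 2 * (dy k w (l0, Y)) ^ 2 := fun k => by
    have h2 := poincare one_pos hA (nuU_midSC hw h0 h1 hl Y) (f := fun a => a k)
      (g := fun _ => ek k) (fun x => by
        have h3 : innerSL ℝ (ek k : Eu d) = (EuclideanSpace.proj k : Eu d →L[ℝ] ℝ) := by
          ext v
          rw [innerSL_apply_apply, EuclideanSpace.inner_single_left]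
          simp
        rw [h3]
        exact (EuclideanSpace.proj k : Eu d →L[ℝ] ℝ).hasFDerivAt) continuous_const (pgk k)
      (PG.const _)
    rw [e1 k] at h2
    have h4 : ∫ a : Eu d, ‖(ek k : Eu d)‖ ^ 2 ∂(gibbs (nuU w l0 Y τ)) = 1 := by
      simp
    rw [h4] at h2
    (refine le_of_not_gt fun hng_ => ?_; linarith only [mul_pos (sub_pos.2 hng_) (sub_pos.2 hng_), mul_nonneg (sub_nonneg.2 h2) (le_of_lt (sub_pos.2 hng_))])
  have i2 : ∀ k : Fin d, Integrable (fun a : Eu d => (a k) ^ 2) (gibbs (nuU w l0 Y τ)) := fun k =>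
    hA.integrable ((pgk k).pow 2) (by fun_prop : Continuous fun a : Eu d => (a k) ^ 2).aestronglyMeasurable
  have e5 : ∫ a, ‖a‖ ^ 2 ∂(nu w l0 Y τ) = ∑ k, ∫ a : Eu d, (a k) ^ 2 ∂(gibbs (nuU w l0 Y τ)) := by
    rw [← integral_finsetSum _ fun k _ => i2 k]
    unfold nu
    congr 1
    funext a
    rw [EuclideanSpace.real_norm_sq_eq]
  rw [e5]
  refine (Finset.sum_le_sum fun k _ => e2 k).trans (le_of_eq ?_)
  rw [Finset.sum_add_distrib, ← Finset.mul_sum, EuclideanSpace.real_norm_sq_eq]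
  simp only [Finset.sum_const, Finset.card_univ, Fintype.card_fin, nsmul_eq_mul, mul_one, Fv]

end Vale.Agent.P347.Z
end

section
attribute [-instance] ProperSMul.toContinuousSMul IsTopologicalTorsor.toContinuousSMul IdemSemiring.toCanonicallyOrderedAdd IdemSemiring.toMulLeftMono IdemSemiring.toMulRightMono AddQuantale.instAddLeftMono AddQuantale.instAddRightMono Quantale.instMulLeftMono Quantale.instMulRightMono FiniteDimensional.rclike_to_real IsScalarTower.complexToReal FiniteDimensional.complexToReal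

/-! P347-Z-C2. The measures `μ_τ = ν_τ ⊗ γ` on `(a, g)` : integrability and integration by parts.

PROOF. `ν_τ = gibbs (nuU ..)` is a probability measure for which polynomially growing continuous
functions are integrable (`Adm.integrable`, `nuU_adm`), `γ = gam`; for the product use
`‖(a,g)‖ = max ≤ ‖a‖ + ‖g‖` and `(1+‖a‖+‖g‖)^k ≤ (1+‖a‖)^k (1+‖g‖)^k`, `Integrable.mul_prod`. IBP in an `a`-slot:
Fubini and `nu_ibp` for fixed `g`; in a `g`-slot: Fubini and `gibbs_ibp` for the Gaussian (or `nu_ibp` style). -/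

open MeasureTheory Filter Module Set
open scoped ENNReal NNReal

namespace Vale.Agent.P347.Z

variable {d : ℕ} {D : Dat d}

theorem mu_prob (hD : D.Ok) {τ : ℝ} (hτ : τ ∈ JT) : IsProbabilityMeasure (D.mu τ) := by
  have h1 : IsProbabilityMeasure (nu D.w D.l0 D.Y τ) :=
    (nuU_adm hD.heat hD.κ0.le hD.κ1 (hD.lev_pos hτ) D.Y).isProb
  unfold Dat.mu
  infer_instance

/-- Continuity of a slice. -/
theorem cg_slice_cont {u : ZS d → ℝ} (hu : CG JT u) {τ : ℝ} (hτ : τ ∈ JT) :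
    Continuous (fun z => u (τ, z)) := by
  have h := hu.cont
  have h2 : ContinuousOn (fun z : Eu d × Eu d => ((τ, z) : ZS d)) univ := by fun_prop
  have h3 := h.comp h2 (fun z _ => ⟨hτ, trivial⟩)
  exact continuousOn_univ.1 h3

theorem mu_int_aux (hD : D.Ok) {τ : ℝ} (hτ : τ ∈ JT) {f : Eu d × Eu d → ℝ} (hc : Continuous f)
    (hg : ∃ (C : ℝ) (k : ℕ), ∀ x, |f x| ≤ C * (1 + ‖x‖) ^ k) :
    Integrable f (D.mu τ) := by
  obtain ⟨C, k, hC⟩ := hg
  have hadm := nuU_adm hD.heat hD.κ0.le hD.κ1 (hD.lev_pos hτ) D.Y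
  have hnu : IsProbabilityMeasure (nu D.w D.l0 D.Y τ) := hadm.isProb
  have hpg : PG (fun x : Eu d => (1 + ‖x‖) ^ k) := ⟨1, k, fun x => by
    rw [Real.norm_of_nonneg (by (clear * -; positivity)), one_mul]⟩
  have hcont : Continuous (fun x : Eu d => (1 + ‖x‖) ^ k) := by fun_prop
  have h1 : Integrable (fun x : Eu d => (1 + ‖x‖) ^ k) (nu D.w D.l0 D.Y τ) :=
    hadm.integrable hpg hcont.aestronglyMeasurable
  have h2 : Integrable (fun x : Eu d => (1 + ‖x‖) ^ k) (gam (Eu d)) :=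
    gam_integrable hpg hcont.aestronglyMeasurable
  have h3 := (h1.mul_prod h2).const_mul |C|
  refine h3.mono' hc.aestronglyMeasurable (Eventually.of_forall fun x => ?_)
  rw [Real.norm_eq_abs, ← mul_pow]
  have hx : 1 + ‖x‖ ≤ (1 + ‖x.1‖) * (1 + ‖x.2‖) := by
    rw [Prod.norm_def]
    have h4 := norm_nonneg x.1
    have h5 := norm_nonneg x.2
    have h6 := mul_nonneg h4 h5
    rcases le_total ‖x.1‖ ‖x.2‖ with h | h
    · rw [max_eq_right h]; linarith only [h4, h6]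
    · rw [max_eq_left h]; linarith only [h5, h6]
  calc |f x| ≤ C * (1 + ‖x‖) ^ k := hC x
    _ ≤ |C| * (1 + ‖x‖) ^ k := mul_le_mul_of_nonneg_right (le_abs_self C) (by (clear * -; positivity))
    _ ≤ |C| * ((1 + ‖x.1‖) * (1 + ‖x.2‖)) ^ k :=
      mul_le_mul_of_nonneg_left (pow_le_pow_left₀ (by positivity) hx k) (abs_nonneg C)

theorem mu_integrable (hD : D.Ok) {τ : ℝ} (hτ : τ ∈ JT) {u : ZS d → ℝ} (hu : CG JT u) :
    Integrable (fun z => u (τ, z)) (D.mu τ) :=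
  mu_int_aux hD hτ (cg_slice_cont hu hτ) (hu.growth hτ)

theorem mu_lin_g (k : Fin d) : CG JT (fun p : ZS d => p.2.2 k) :=
  CG.lin isOpen_JT ((EuclideanSpace.proj k : Eu d →L[ℝ] ℝ).comp
    ((ContinuousLinearMap.snd ℝ (Eu d) (Eu d)).comp (ContinuousLinearMap.snd ℝ ℝ (Eu d × Eu d))))

theorem mu_lin_a (k : Fin d) : CG JT (fun p : ZS d => p.2.1 k) :=
  CG.lin isOpen_JT ((EuclideanSpace.proj k : Eu d →L[ℝ] ℝ).comp
    ((ContinuousLinearMap.fst ℝ (Eu d) (Eu d)).comp (ContinuousLinearMap.snd ℝ ℝ (Eu d × Eu d))))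

theorem mu_lin_t : CG JT (fun p : ZS d => p.1) :=
  CG.lin isOpen_JT (ContinuousLinearMap.fst ℝ ℝ (Eu d × Eu d))

theorem bb_cg (hD : D.Ok) (m : Sl d) : CG JT (D.bb m) := by
  obtain ⟨b, k⟩ := m
  cases b with
  | true => exact mu_lin_g k
  | false =>
    exact CG.add isOpen_JT (mu_lin_a k)
      (CG.mul isOpen_JT mu_lin_t (hD.up_cg (hD.heat.cg.dy k)))

theorem ds_cg (hD : D.Ok) (m : Sl d) {u : ZS d → ℝ} (hu : CG JT u) : CG JT (D.ds m u) :=
  CG.add isOpen_JT (CG.neg isOpen_JT (hu.dz m)) (CG.mul isOpen_JT (bb_cg hD m) hu)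

/-- Derivative of a slice in the `a`-variable. -/
theorem slice_a {u : ZS d → ℝ} (hu : CG JT u) {τ : ℝ} (hτ : τ ∈ JT) (a g : Eu d) :
    HasFDerivAt (fun a => u (τ, (a, g)))
      ((fderiv ℝ u (τ, (a, g))).comp ((ContinuousLinearMap.inr ℝ ℝ (Eu d × Eu d)).comp
        (ContinuousLinearMap.inl ℝ (Eu d) (Eu d)))) a := by
  have h1 : HasFDerivAt u (fderiv ℝ u (τ, (a, g))) (τ, (a, g)) :=
    ((hu.diff (τ, (a, g)) ⟨hτ, trivial⟩).differentiableAt
      ((isOpen_JT.prod isOpen_univ).mem_nhds ⟨hτ, trivial⟩)).hasFDerivAt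
  have h2 : HasFDerivAt (fun a : Eu d => ((τ, (a, g)) : ZS d))
      ((ContinuousLinearMap.inr ℝ ℝ (Eu d × Eu d)).comp
        (ContinuousLinearMap.inl ℝ (Eu d) (Eu d))) a := by
    have h3 : HasFDerivAt (fun a : Eu d => (a, g)) (ContinuousLinearMap.inl ℝ (Eu d) (Eu d)) a :=
      hasFDerivAt_prodMk_left a g
    have h4 : HasFDerivAt (fun z : Eu d × Eu d => ((τ, z) : ZS d))
      (ContinuousLinearMap.inr ℝ ℝ (Eu d × Eu d)) (a, g) := hasFDerivAt_prodMk_right τ (a, g)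
    exact h4.comp a h3
  exact h1.comp a h2

/-- Derivative of a slice in the `g`-variable. -/
theorem slice_g {u : ZS d → ℝ} (hu : CG JT u) {τ : ℝ} (hτ : τ ∈ JT) (a g : Eu d) :
    HasFDerivAt (fun g => u (τ, (a, g)))
      ((fderiv ℝ u (τ, (a, g))).comp ((ContinuousLinearMap.inr ℝ ℝ (Eu d × Eu d)).comp
        (ContinuousLinearMap.inr ℝ (Eu d) (Eu d)))) g := by
  have h1 : HasFDerivAt u (fderiv ℝ u (τ, (a, g))) (τ, (a, g)) :=
    ((hu.diff (τ, (a, g)) ⟨hτ, trivial⟩).differentiableAt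
      ((isOpen_JT.prod isOpen_univ).mem_nhds ⟨hτ, trivial⟩)).hasFDerivAt
  have h2 : HasFDerivAt (fun g : Eu d => ((τ, (a, g)) : ZS d))
      ((ContinuousLinearMap.inr ℝ ℝ (Eu d × Eu d)).comp
        (ContinuousLinearMap.inr ℝ (Eu d) (Eu d))) g := by
    have h3 : HasFDerivAt (fun g : Eu d => (a, g)) (ContinuousLinearMap.inr ℝ (Eu d) (Eu d)) g :=
      hasFDerivAt_prodMk_right a g
    have h4 : HasFDerivAt (fun z : Eu d × Eu d => ((τ, z) : ZS d))
      (ContinuousLinearMap.inr ℝ ℝ (Eu d × Eu d)) (a, g) := hasFDerivAt_prodMk_right τ (a, g)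
    exact h4.comp g h3
  exact h1.comp g h2

theorem slice_cd {u : ZS d → ℝ} (hu : CG JT u) {τ : ℝ} (hτ : τ ∈ JT) :
    ContDiff ℝ 1 (fun z => u (τ, z)) := by
  have h := hu.contDiffOn isOpen_JT 1
  have h2 : ContDiffOn ℝ 1 (fun z : Eu d × Eu d => ((τ, z) : ZS d)) univ := by fun_prop
  have h3 := h.comp h2 (fun z _ => ⟨hτ, trivial⟩)
  exact contDiffOn_univ.1 h3

theorem pg_a {f : Eu d × Eu d → ℝ} (hg : ∃ (C : ℝ) (k : ℕ), ∀ x, |f x| ≤ C * (1 + ‖x‖) ^ k)
    (g : Eu d) : PG (fun a => f (a, g)) := by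
  obtain ⟨C, k, hC⟩ := hg
  refine ⟨|C| * (1 + ‖g‖) ^ k, k, fun a => ?_⟩
  have hx : 1 + ‖((a, g) : Eu d × Eu d)‖ ≤ (1 + ‖g‖) * (1 + ‖a‖) := by
    rw [Prod.norm_def]
    have h4 := norm_nonneg a
    have h5 := norm_nonneg g
    have h6 := mul_nonneg h4 h5
    rcases le_total ‖a‖ ‖g‖ with h | h
    · rw [max_eq_right h]; linarith only [h4, h6]
    · rw [max_eq_left h]; linarith only [h5, h6]
  rw [Real.norm_eq_abs, mul_assoc, ← mul_pow]
  calc |f (a, g)| ≤ C * (1 + ‖((a, g) : Eu d × Eu d)‖) ^ k := hC _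
    _ ≤ |C| * (1 + ‖((a, g) : Eu d × Eu d)‖) ^ k :=
      mul_le_mul_of_nonneg_right (le_abs_self C) (by positivity)
    _ ≤ _ := mul_le_mul_of_nonneg_left (pow_le_pow_left₀ (by positivity) hx k) (abs_nonneg C)

theorem pg_g {f : Eu d × Eu d → ℝ} (hg : ∃ (C : ℝ) (k : ℕ), ∀ x, |f x| ≤ C * (1 + ‖x‖) ^ k)
    (a : Eu d) : PG (fun g => f (a, g)) := by
  obtain ⟨C, k, hC⟩ := hg
  refine ⟨|C| * (1 + ‖a‖) ^ k, k, fun g => ?_⟩
  have hx : 1 + ‖((a, g) : Eu d × Eu d)‖ ≤ (1 + ‖a‖) * (1 + ‖g‖) := by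
    rw [Prod.norm_def]
    have h4 := norm_nonneg a
    have h5 := norm_nonneg g
    have h6 := mul_nonneg h4 h5
    rcases le_total ‖a‖ ‖g‖ with h | h
    · rw [max_eq_right h]; linarith only [h4, h6]
    · rw [max_eq_left h]; linarith only [h5, h6]
  rw [Real.norm_eq_abs, mul_assoc, ← mul_pow]
  calc |f (a, g)| ≤ C * (1 + ‖((a, g) : Eu d × Eu d)‖) ^ k := hC _
    _ ≤ |C| * (1 + ‖((a, g) : Eu d × Eu d)‖) ^ k :=
      mul_le_mul_of_nonneg_right (le_abs_self C) (by positivity)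
    _ ≤ _ := mul_le_mul_of_nonneg_left (pow_le_pow_left₀ (by positivity) hx k) (abs_nonneg C)

/-- The zero potential. -/
theorem heat_zero : Heat 1 (fun _ : ℝ × Eu d => (0 : ℝ)) := by
  have h0 : ∀ (f : ℝ × Eu d → ℝ), f = (fun _ => 0) → ∀ v p, fderiv ℝ f p v = 0 := by
    intro f hf v p; rw [hf]; simp only [fderiv_fun_const, Pi.zero_apply, zero_apply]
  have h1 : ∀ k : Fin d, dy k (fun _ : ℝ × Eu d => (0 : ℝ)) = fun _ => 0 := by
    intro k; funext p; exact h0 _ rfl _ _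
  have h2 : dlev (fun _ : ℝ × Eu d => (0 : ℝ)) = fun _ => 0 := by
    funext p; exact h0 _ rfl _ _
  refine ⟨CG.const isOpen_Ioi 0, fun p _ => ?_, fun p _ x => ?_, fun p _ x => ?_, fun p _ _ => ?_⟩
  · simp only [h2, one_div, h1, Finset.sum_const_zero, mul_zero, ne_eq, OfNat.ofNat_ne_zero, not_false_eq_true, zero_pow, sub_self]
  · simp only [h1, mul_zero, Finset.sum_const_zero, Std.le_refl]
  · simp only [h1, mul_zero, Finset.sum_const_zero, one_mul]
    exact Finset.sum_nonneg fun i _ => sq_nonneg _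
  · simp only [h1]
    rw [Finset.sum_eq_zero (fun _ _ => by norm_num)]
    (clear * -; positivity)

theorem gam_eq_nu (l0 : ℝ) (Y : Eu d) (τ : ℝ) :
    gam (Eu d) = nu (fun _ : ℝ × Eu d => (0 : ℝ)) l0 Y τ := by
  unfold gam nu nuU
  simp

theorem gam_ibp' {u v : Eu d → ℝ} (hu : ContDiff ℝ 1 u) (hv : ContDiff ℝ 1 v) (pu : PG u) (pv : PG v)
    (k : Fin d) (pu' : PG (fun a => fderiv ℝ u a (ek k))) (pv' : PG (fun a => fderiv ℝ v a (ek k))) :
    ∫ a, (-fderiv ℝ u a (ek k) + a k * u a) * v a ∂(gam (Eu d))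
      = ∫ a, u a * fderiv ℝ v a (ek k) ∂(gam (Eu d)) := by
  have h := nu_ibp (w := fun _ : ℝ × Eu d => (0 : ℝ)) heat_zero zero_le_one le_rfl (l0 := 1) (τ := 0)
    (by norm_num) 0 hu hv pu pv k pu' pv'
  rw [← gam_eq_nu] at h
  simpa only [ne_eq, OfNat.ofNat_ne_zero, not_false_eq_true, zero_pow, sub_zero, zero_smul, add_zero,     zero_mul] using h

theorem slice_a_dz {u : ZS d → ℝ} (hu : CG JT u) {τ : ℝ} (hτ : τ ∈ JT) (a g : Eu d) (k : Fin d) :
    fderiv ℝ (fun a => u (τ, (a, g))) a (ek k) = dz (false, k) u (τ, (a, g)) := by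
  rw [(slice_a hu hτ a g).fderiv]
  rfl

theorem slice_g_dz {u : ZS d → ℝ} (hu : CG JT u) {τ : ℝ} (hτ : τ ∈ JT) (a g : Eu d) (k : Fin d) :
    fderiv ℝ (fun g => u (τ, (a, g))) g (ek k) = dz (true, k) u (τ, (a, g)) := by
  rw [(slice_g hu hτ a g).fderiv]
  rfl

theorem mu_ibp (hD : D.Ok) {τ : ℝ} (hτ : τ ∈ JT) {u v : ZS d → ℝ} (hu : CG JT u) (hv : CG JT v)
    (m : Sl d) :
    ∫ z, D.ds m u (τ, z) * v (τ, z) ∂(D.mu τ) = ∫ z, u (τ, z) * dz m v (τ, z) ∂(D.mu τ) := by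
  have hadm := nuU_adm hD.heat hD.κ0.le hD.κ1 (hD.lev_pos hτ) D.Y
  have hnu : IsProbabilityMeasure (nu D.w D.l0 D.Y τ) := hadm.isProb
  have i1 : Integrable (fun z => D.ds m u (τ, z) * v (τ, z)) (D.mu τ) :=
    mu_integrable hD hτ (CG.mul isOpen_JT (ds_cg hD m hu) hv)
  have i2 : Integrable (fun z => u (τ, z) * dz m v (τ, z)) (D.mu τ) :=
    mu_integrable hD hτ (CG.mul isOpen_JT hu (hv.dz m))
  obtain ⟨b, k⟩ := m
  unfold Dat.mu at i1 i2 ⊢
  cases b with
  | false =>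
    rw [integral_prod_symm _ i1, integral_prod_symm _ i2]
    refine integral_congr_ae (Eventually.of_forall fun g => ?_)
    have hu1 : ContDiff ℝ 1 (fun a => u (τ, (a, g))) :=
      (slice_cd hu hτ).comp (by fun_prop : ContDiff ℝ 1 (fun a : Eu d => (a, g)))
    have hv1 : ContDiff ℝ 1 (fun a => v (τ, (a, g))) :=
      (slice_cd hv hτ).comp (by fun_prop : ContDiff ℝ 1 (fun a : Eu d => (a, g)))
    have pu : PG (fun a => fderiv ℝ (fun a => u (τ, (a, g))) a (ek k)) := by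
      simp only [slice_a_dz hu hτ]
      exact pg_a ((hu.dz (false, k)).growth hτ) g
    have pv : PG (fun a => fderiv ℝ (fun a => v (τ, (a, g))) a (ek k)) := by
      simp only [slice_a_dz hv hτ]
      exact pg_a ((hv.dz (false, k)).growth hτ) g
    have h := nu_ibp hD.heat hD.κ0.le hD.κ1 (hD.lev_pos hτ) D.Y hu1 hv1 (pg_a (hu.growth hτ) g)
      (pg_a (hv.growth hτ) g) k pu pv
    simp only [slice_a_dz hu hτ, slice_a_dz hv hτ] at h
    exact h
  | true =>
    rw [integral_prod _ i1, integral_prod _ i2]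
    refine integral_congr_ae (Eventually.of_forall fun a => ?_)
    have hu1 : ContDiff ℝ 1 (fun g => u (τ, (a, g))) :=
      (slice_cd hu hτ).comp (by fun_prop : ContDiff ℝ 1 (fun g : Eu d => (a, g)))
    have hv1 : ContDiff ℝ 1 (fun g => v (τ, (a, g))) :=
      (slice_cd hv hτ).comp (by fun_prop : ContDiff ℝ 1 (fun g : Eu d => (a, g)))
    have pu : PG (fun g => fderiv ℝ (fun g => u (τ, (a, g))) g (ek k)) := by
      simp only [slice_g_dz hu hτ]
      exact pg_g ((hu.dz (true, k)).growth hτ) a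
    have pv : PG (fun g => fderiv ℝ (fun g => v (τ, (a, g))) g (ek k)) := by
      simp only [slice_g_dz hv hτ]
      exact pg_g ((hv.dz (true, k)).growth hτ) a
    have h := gam_ibp' hu1 hv1 (pg_g (hu.growth hτ) a) (pg_g (hv.growth hτ) a) k pu pv
    simp only [slice_g_dz hu hτ, slice_g_dz hv hτ] at h
    exact h

theorem cg_hasFDerivAt {u : ZS d → ℝ} (hu : CG JT u) {p : ZS d} (hp : p.1 ∈ JT) :
    HasFDerivAt u (fderiv ℝ u p) p :=
  ((hu.diff p ⟨hp, trivial⟩).differentiableAt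
    ((isOpen_JT.prod isOpen_univ).mem_nhds ⟨hp, trivial⟩)).hasFDerivAt

theorem dz_mul {u v : ZS d → ℝ} (hu : CG JT u) (hv : CG JT v) (n : Sl d) {p : ZS d}
    (hp : p.1 ∈ JT) : dz n (fun q => u q * v q) p = dz n u p * v p + u p * dz n v p := by
  have h := (cg_hasFDerivAt hu hp).mul (cg_hasFDerivAt hv hp)
  have h2 : HasFDerivAt (fun q => u q * v q) _ p := h
  show fderiv ℝ (fun q => u q * v q) p _ = _
  rw [h2.fderiv]
  show u p * dz n v p + v p * dz n u p = _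
  ring

theorem dz_add {u v : ZS d → ℝ} (hu : CG JT u) (hv : CG JT v) (n : Sl d) {p : ZS d}
    (hp : p.1 ∈ JT) : dz n (fun q => u q + v q) p = dz n u p + dz n v p := by
  have h := (cg_hasFDerivAt hu hp).add (cg_hasFDerivAt hv hp)
  have h2 : HasFDerivAt (fun q => u q + v q) _ p := h
  show fderiv ℝ (fun q => u q + v q) p _ = _
  rw [h2.fderiv]
  rfl

theorem dz_neg {u : ZS d → ℝ} (n : Sl d) {p : ZS d} : dz n (fun q => -u q) p = -dz n u p := by
  show fderiv ℝ (fun q => -u q) p _ = _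
  rw [fderiv_fun_neg]
  rfl

theorem dz_lin (L : ZS d →L[ℝ] ℝ) (n : Sl d) (p : ZS d) :
    dz n (fun q => L q) p = L (0, if n.1 then (0, ek n.2) else (ek n.2, 0)) := by
  show fderiv ℝ (fun q => L q) p _ = _
  have h : fderiv ℝ (fun q => L q) p = L := L.fderiv
  rw [h]

theorem dz_bb (hD : D.Ok) (m n : Sl d) {p : ZS d} (hp : p.1 ∈ JT) :
    dz n (D.bb m) p = (if m = n then 1 else 0)
      + (if m.1 = false ∧ n.1 = false then p.1 ^ 2 * D.up (F1 D.w n.2 m.2) p else 0) := by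
  obtain ⟨b, k⟩ := m
  obtain ⟨b', j⟩ := n
  have hk : ∀ i k : Fin d, (ek i : Eu d) k = if k = i then 1 else 0 := by
    intro i k
    exact PiLp.single_apply 2 ℝ i (1 : ℝ) k
  have hg : ∀ n : Sl d, dz n (fun p : ZS d => p.2.2 k) p = if n.1 then (if k = n.2 then 1 else 0) else 0 := by
    intro n
    have h := dz_lin ((EuclideanSpace.proj k : Eu d →L[ℝ] ℝ).comp
      ((ContinuousLinearMap.snd ℝ (Eu d) (Eu d)).comp
        (ContinuousLinearMap.snd ℝ ℝ (Eu d × Eu d)))) n p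
    have h2 : dz n (fun p : ZS d => p.2.2 k) p =
      (if n.1 then ((0, ek n.2) : Eu d × Eu d) else (ek n.2, 0)).2 k := h
    rw [h2]
    cases n.1 with
    | true => simp
    | false => simp
  have ha : ∀ n : Sl d, dz n (fun p : ZS d => p.2.1 k) p = if n.1 then 0 else (if k = n.2 then 1 else 0) := by
    intro n
    have h := dz_lin ((EuclideanSpace.proj k : Eu d →L[ℝ] ℝ).comp
      ((ContinuousLinearMap.fst ℝ (Eu d) (Eu d)).comp
        (ContinuousLinearMap.snd ℝ ℝ (Eu d × Eu d)))) n p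
    have h2 : dz n (fun p : ZS d => p.2.1 k) p =
      (if n.1 then ((0, ek n.2) : Eu d × Eu d) else (ek n.2, 0)).1 k := h
    rw [h2]
    cases n.1 with
    | true => simp
    | false => simp
  have ht : ∀ n : Sl d, dz n (fun p : ZS d => p.1) p = 0 := by
    intro n
    have h := dz_lin (ContinuousLinearMap.fst ℝ ℝ (Eu d × Eu d)) n p
    exact h
  cases b with
  | true =>
    have h1 : dz (b', j) (D.bb (true, k)) p = dz (b', j) (fun p : ZS d => p.2.2 k) p := rfl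
    rw [h1, hg]
    cases b' with
    | true => simp
    | false => simp
  | false =>
    have h1 : dz (b', j) (D.bb (false, k)) p =
        dz (b', j) (fun p : ZS d => p.2.1 k + p.1 * D.up (dy k D.w) p) p := rfl
    rw [h1, dz_add (mu_lin_a k) (CG.mul isOpen_JT mu_lin_t (hD.up_cg (hD.heat.cg.dy k))) _ hp,
      dz_mul mu_lin_t (hD.up_cg (hD.heat.cg.dy k)) _ hp, ha, ht, hD.dz_up (hD.heat.cg.dy k) _ hp]
    cases b' with
    | true => simp
    | false =>
      simp only [Bool.false_eq_true, if_false, Prod.mk.injEq, true_and, and_self, if_true, zero_mul,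
        zero_add]
      rw [← mul_assoc, ← pow_two]
      rfl

/-- Commutator of `dz` and `ds`: the Hessian `1 + τ² F1` (in the `a`-directions). -/
theorem dz_ds (hD : D.Ok) {u : ZS d → ℝ} (hu : CG JT u) (m n : Sl d) {p : ZS d} (hp : p.1 ∈ JT) :
    dz n (D.ds m u) p = D.ds m (dz n u) p + (if m = n then u p else 0)
      + (if m.1 = false ∧ n.1 = false then p.1 ^ 2 * D.up (F1 D.w n.2 m.2) p * u p else 0) := by
  have h1 : dz n (D.ds m u) p = dz n (fun q => -dz m u q + D.bb m q * u q) p := rfl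
  have h2 : D.ds m (dz n u) p = -dz m (dz n u) p + D.bb m p * dz n u p := rfl
  have h3 : dz n (dz m u) p = dz m (dz n u) p := hu.comm isOpen_JT _ _ ⟨hp, trivial⟩
  rw [h1, h2, dz_add (CG.neg isOpen_JT (hu.dz m)) (CG.mul isOpen_JT (bb_cg hD m) hu) _ hp, dz_neg,
    dz_mul (bb_cg hD m) hu _ hp, dz_bb hD m n hp, h3]
  split_ifs <;> ring

theorem cg_ite (c : Prop) [Decidable c] {f : ZS d → ℝ} (hf : CG JT f) :
    CG JT (fun p => if c then f p else 0) := by
  split_ifs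
  · exact hf
  · exact CG.const isOpen_JT 0

theorem divT_pair (hD : D.Ok) {τ : ℝ} (hτ : τ ∈ JT) {um un : ZS d → ℝ} (hm : CG JT um)
    (hn : CG JT un) (m n : Sl d) :
    ∫ z, D.ds m um (τ, z) * D.ds n un (τ, z) ∂(D.mu τ) =
      ∫ z, (dz m un (τ, z) * dz n um (τ, z) + (if n = m then un (τ, z) else 0) * um (τ, z) +
        (if n.1 = false ∧ m.1 = false then τ ^ 2 * D.up (F1 D.w m.2 n.2) (τ, z) * un (τ, z)
          else 0) * um (τ, z)) ∂(D.mu τ) := by
  rw [mu_ibp hD hτ hm (ds_cg hD n hn) m]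
  have hF : CG JT (D.up (F1 D.w m.2 n.2)) := hD.up_cg ((hD.heat.cg.dy _).dy _)
  have i1 : Integrable (fun z => D.ds n (dz m un) (τ, z) * um (τ, z)) (D.mu τ) :=
    mu_integrable hD hτ (CG.mul isOpen_JT (ds_cg hD n (hn.dz m)) hm)
  have i2 : Integrable (fun z => (if n = m then un (τ, z) else 0) * um (τ, z)) (D.mu τ) :=
    mu_integrable hD hτ (CG.mul isOpen_JT (cg_ite (n = m) hn) hm)
  have i3 : Integrable (fun z => (if n.1 = false ∧ m.1 = false then
      τ ^ 2 * D.up (F1 D.w m.2 n.2) (τ, z) * un (τ, z) else 0) * um (τ, z)) (D.mu τ) :=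
    mu_integrable hD hτ (CG.mul isOpen_JT (cg_ite (n.1 = false ∧ m.1 = false)
      (CG.mul isOpen_JT (CG.mul isOpen_JT (CG.const isOpen_JT (τ ^ 2)) hF) hn)) hm)
  have i4 : Integrable (fun z => dz m un (τ, z) * dz n um (τ, z)) (D.mu τ) :=
    mu_integrable hD hτ (CG.mul isOpen_JT (hn.dz m) (hm.dz n))
  have e1 : ∀ z, um (τ, z) * dz m (D.ds n un) (τ, z) =
      (D.ds n (dz m un) (τ, z) * um (τ, z) + (if n = m then un (τ, z) else 0) * um (τ, z)) +
        (if n.1 = false ∧ m.1 = false then τ ^ 2 * D.up (F1 D.w m.2 n.2) (τ, z) * un (τ, z)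
          else 0) * um (τ, z) := by
    intro z
    rw [dz_ds hD hn n m (p := (τ, z)) hτ]
    ring
  simp only [e1]
  have f1 := integral_add (i1.add i2) i3
  have f2 := integral_add i1 i2
  have f3 := integral_add (i4.add i2) i3
  have f4 := integral_add i4 i2
  simp only [Pi.add_apply] at f1 f3
  rw [f1, f2, f3, f4, mu_ibp hD hτ (hn.dz m) hm n]

theorem F1_quad (hD : D.Ok) {τ : ℝ} (hτ : τ ∈ IT) (z : Eu d × Eu d) (x : Sl d → ℝ) :
    ∑ m : Sl d, ∑ n : Sl d, (if n.1 = false ∧ m.1 = false then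
      τ ^ 2 * D.up (F1 D.w m.2 n.2) (τ, z) * x n else 0) * x m ≤ (1 / 4) * ∑ m, (x m) ^ 2 := by
  have hJ := IT_subset_JT hτ
  have hpos := hD.lev_pos hJ
  simp only [Fintype.sum_prod_type, Fintype.sum_bool, Bool.true_eq_false, false_and, and_false,
    if_false, zero_mul, Finset.sum_const_zero, zero_add, and_self, if_true]
  have h1 := hD.heat.hi (D.l0 - τ ^ 2, D.Y + τ • z.1) hpos (fun k => x (false, k))
  have h2 : ∑ i, ∑ j, τ ^ 2 * D.up (F1 D.w i j) (τ, z) * x (false, j) * x (false, i) =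
      τ ^ 2 * ∑ i, ∑ j, x (false, i) * x (false, j) *
        dy i (dy j D.w) (D.l0 - τ ^ 2, D.Y + τ • z.1) := by
    rw [Finset.mul_sum]
    refine Finset.sum_congr rfl fun i _ => ?_
    rw [Finset.mul_sum]
    refine Finset.sum_congr rfl fun j _ => ?_
    show τ ^ 2 * dy i (dy j D.w) (D.l0 - τ ^ 2, D.Y + τ • z.1) * x (false, j) * x (false, i) = _
    ring
  rw [h2]
  have h3 : 0 ≤ ∑ k, (x (false, k)) ^ 2 := Finset.sum_nonneg fun _ _ => sq_nonneg _
  have h4 : 0 ≤ ∑ k, (x (true, k)) ^ 2 := Finset.sum_nonneg fun _ _ => sq_nonneg _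
  have h5 : τ ^ 2 ≤ 1 / 4 := by
    obtain ⟨ha, hb⟩ := hτ
    linarith only [mul_nonneg (sub_nonneg.2 hb) (sub_nonneg.2 hb), mul_nonneg ha (sub_nonneg.2 hb)]
  have h6 := hD.κ1
  have h7 : D.κ * ∑ k, (x (false, k)) ^ 2 ≤ ∑ k, (x (false, k)) ^ 2 := by linarith only [mul_nonneg h3 (sub_nonneg.2 h6)]
  have h8 := mul_le_mul_of_nonneg_left (h1.trans h7) (sq_nonneg τ)
  have h9 := mul_le_mul_of_nonneg_right h5 h3
  linarith only [h8, h4, h9]

/-- `‖∇* u‖² ≤ ‖∇ u‖² + 2 ‖u‖²`. -/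
theorem L2B_divT (hD : D.Ok) {τ : ℝ} (hτ : τ ∈ IT) {I : Type} [Fintype I] {u : TF d (Sl d × I)}
    (hu : ∀ i, CG JT (u i)) {c : ℝ} (hc : 0 ≤ c) (h : HB D τ 1 c u) :
    L2B D τ (2 * c) (D.divT u) := by
  have hJ := IT_subset_JT hτ
  have hA : ∫ z, ∑ i, (u i (τ, z)) ^ 2 ∂(D.mu τ) ≤ c ^ 2 := h.1
  have hB : ∫ z, ∑ i, (gradT u i (τ, z)) ^ 2 ∂(D.mu τ) ≤ c ^ 2 := h.2
  have e1 : ∫ z, ∑ i, (D.divT u i (τ, z)) ^ 2 ∂(D.mu τ) =
      ∑ i, ∑ m, ∑ n, ∫ z, D.ds m (u (m, i)) (τ, z) * D.ds n (u (n, i)) (τ, z) ∂(D.mu τ) := by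
    have i0 : ∀ i m n, Integrable (fun z => D.ds m (u (m, i)) (τ, z) * D.ds n (u (n, i)) (τ, z))
        (D.mu τ) := fun i m n => mu_integrable hD hJ
          (CG.mul isOpen_JT (ds_cg hD m (hu _)) (ds_cg hD n (hu _)))
    have e2 : ∀ z i, (D.divT u i (τ, z)) ^ 2 =
        ∑ m, ∑ n, D.ds m (u (m, i)) (τ, z) * D.ds n (u (n, i)) (τ, z) := by
      intro z i
      show (∑ m, D.ds m (u (m, i)) (τ, z)) ^ 2 = _
      rw [pow_two, Finset.sum_mul_sum]
    simp only [e2]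
    rw [integral_finsetSum _ fun i _ => integrable_finsetSum _ fun m _ =>
      integrable_finsetSum _ fun n _ => i0 i m n]
    refine Finset.sum_congr rfl fun i _ => ?_
    rw [integral_finsetSum _ fun m _ => integrable_finsetSum _ fun n _ => i0 i m n]
    refine Finset.sum_congr rfl fun m _ => ?_
    rw [integral_finsetSum _ fun n _ => i0 i m n]
  have iG : ∀ i m n, Integrable (fun z => (dz m (u (n, i)) (τ, z) * dz n (u (m, i)) (τ, z) +
        (if n = m then u (n, i) (τ, z) else 0) * u (m, i) (τ, z) +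
        (if n.1 = false ∧ m.1 = false then τ ^ 2 * D.up (F1 D.w m.2 n.2) (τ, z) * u (n, i) (τ, z)
          else 0) * u (m, i) (τ, z))) (D.mu τ) := by
    intro i m n
    have hF : CG JT (D.up (F1 D.w m.2 n.2)) := hD.up_cg ((hD.heat.cg.dy _).dy _)
    exact mu_integrable hD hJ (CG.add isOpen_JT (CG.add isOpen_JT
      (CG.mul isOpen_JT ((hu (n, i)).dz m) ((hu (m, i)).dz n))
      (CG.mul isOpen_JT (cg_ite (n = m) (hu (n, i))) (hu (m, i))))
      (CG.mul isOpen_JT (cg_ite (n.1 = false ∧ m.1 = false)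
      (CG.mul isOpen_JT (CG.mul isOpen_JT (CG.const isOpen_JT (τ ^ 2)) hF) (hu (n, i)))) (hu (m, i))))
  have e3 : ∫ z, ∑ i, (D.divT u i (τ, z)) ^ 2 ∂(D.mu τ) =
      ∫ z, ∑ i, ∑ m, ∑ n, (dz m (u (n, i)) (τ, z) * dz n (u (m, i)) (τ, z) +
        (if n = m then u (n, i) (τ, z) else 0) * u (m, i) (τ, z) +
        (if n.1 = false ∧ m.1 = false then τ ^ 2 * D.up (F1 D.w m.2 n.2) (τ, z) * u (n, i) (τ, z)
          else 0) * u (m, i) (τ, z)) ∂(D.mu τ) := by
    rw [e1, integral_finsetSum _ fun i _ => integrable_finsetSum _ fun m _ =>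
      integrable_finsetSum _ fun n _ => iG i m n]
    refine Finset.sum_congr rfl fun i _ => ?_
    rw [integral_finsetSum _ fun m _ => integrable_finsetSum _ fun n _ => iG i m n]
    refine Finset.sum_congr rfl fun m _ => ?_
    rw [integral_finsetSum _ fun n _ => iG i m n]
    refine Finset.sum_congr rfl fun n _ => ?_
    exact divT_pair hD hJ (hu (m, i)) (hu (n, i)) m n
  have hpt : ∀ z, ∑ i, ∑ m, ∑ n, (dz m (u (n, i)) (τ, z) * dz n (u (m, i)) (τ, z) +
        (if n = m then u (n, i) (τ, z) else 0) * u (m, i) (τ, z) +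
        (if n.1 = false ∧ m.1 = false then τ ^ 2 * D.up (F1 D.w m.2 n.2) (τ, z) * u (n, i) (τ, z)
          else 0) * u (m, i) (τ, z)) ≤
      ∑ i, (gradT u i (τ, z)) ^ 2 + (5 / 4) * ∑ i, (u i (τ, z)) ^ 2 := by
    intro z
    have g1 : ∑ i, (gradT u i (τ, z)) ^ 2 = ∑ i, ∑ m, ∑ n, (dz m (u (n, i)) (τ, z)) ^ 2 := by
      have : ∑ i, (gradT u i (τ, z)) ^ 2 = ∑ m, ∑ n, ∑ i, (dz m (u (n, i)) (τ, z)) ^ 2 := by
        rw [Fintype.sum_prod_type]
        refine Finset.sum_congr rfl fun m _ => ?_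
        rw [Fintype.sum_prod_type]
        rfl
      rw [this]
      have h1 : ∀ m : Sl d, ∑ n, ∑ i, (dz m (u (n, i)) (τ, z)) ^ 2 =
          ∑ i, ∑ n, (dz m (u (n, i)) (τ, z)) ^ 2 := fun m => Finset.sum_comm
      simp only [h1]
      exact Finset.sum_comm
    have g2 : ∑ i, (u i (τ, z)) ^ 2 = ∑ i, ∑ m, (u (m, i) (τ, z)) ^ 2 := by
      rw [Fintype.sum_prod_type]
      exact Finset.sum_comm
    rw [g1, g2, Finset.mul_sum, ← Finset.sum_add_distrib]
    refine Finset.sum_le_sum fun i _ => ?_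
    simp only [Finset.sum_add_distrib]
    have g3 : ∑ m, ∑ n, dz m (u (n, i)) (τ, z) * dz n (u (m, i)) (τ, z) ≤
        ∑ m, ∑ n, (dz m (u (n, i)) (τ, z)) ^ 2 := by
      have h1 : ∑ m, ∑ n, dz m (u (n, i)) (τ, z) * dz n (u (m, i)) (τ, z) ≤
          ∑ m, ∑ n, ((1 / 2) * (dz m (u (n, i)) (τ, z)) ^ 2 +
            (1 / 2) * (dz n (u (m, i)) (τ, z)) ^ 2) :=
        Finset.sum_le_sum fun m _ => Finset.sum_le_sum fun n _ => by
          (refine le_of_not_gt fun hng_ => ?_; linarith only [mul_nonneg (le_of_lt (sub_pos.2 hng_)) (sq_nonneg (dz m (u (n, i)) (τ, z) - dz n (u (m, i)) (τ, z))), mul_pos (sub_pos.2 hng_) (sub_pos.2 hng_)])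
      refine h1.trans (le_of_eq ?_)
      simp only [Finset.sum_add_distrib, ← Finset.mul_sum]
      have h2 : ∑ m, ∑ n, (dz n (u (m, i)) (τ, z)) ^ 2 = ∑ m, ∑ n, (dz m (u (n, i)) (τ, z)) ^ 2 :=
        Finset.sum_comm
      rw [h2]
      ring
    have g4 : ∑ m, ∑ n, (if n = m then u (n, i) (τ, z) else 0) * u (m, i) (τ, z) =
        ∑ m, (u (m, i) (τ, z)) ^ 2 := by
      refine Finset.sum_congr rfl fun m _ => ?_
      simp only [ite_mul, zero_mul, Finset.sum_ite_eq', Finset.mem_univ, if_true]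
      ring
    have g5 := F1_quad hD hτ z (fun m => u (m, i) (τ, z))
    linarith
  have iu : Integrable (fun z => ∑ i, (u i (τ, z)) ^ 2) (D.mu τ) := by
    refine integrable_finsetSum _ fun i _ => ?_
    have := mu_integrable hD hJ (CG.mul isOpen_JT (hu i) (hu i))
    simpa only [pow_two] using this
  have ig : Integrable (fun z => ∑ i, (gradT u i (τ, z)) ^ 2) (D.mu τ) := by
    refine integrable_finsetSum _ fun i _ => ?_
    have h20 := mu_integrable hD hJ (CG.mul isOpen_JT ((hu i.2).dz i.1) ((hu i.2).dz i.1))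
    have h21 : (fun z => (gradT u i (τ, z)) ^ 2) =
        fun z => dz i.1 (u i.2) (τ, z) * dz i.1 (u i.2) (τ, z) := by
      funext z
      exact pow_two _
    rw [h21]
    exact h20
  show ∫ z, ∑ i, (D.divT u i (τ, z)) ^ 2 ∂(D.mu τ) ≤ (2 * c) ^ 2
  rw [e3]
  refine (integral_mono (integrable_finsetSum _ fun i _ => integrable_finsetSum _ fun m _ =>
      integrable_finsetSum _ fun n _ => iG i m n) (ig.add (iu.const_mul (5 / 4))) hpt).trans ?_
  have h10 := integral_add ig (iu.const_mul (5 / 4))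
  simp only [Pi.add_apply]
  rw [h10, integral_const_mul]
  nlinarith only [hA, hB]

/-- Minkowski. -/
theorem L2B_add (hD : D.Ok) {τ : ℝ} (hτ : τ ∈ IT) {I : Type} [Fintype I] {u v : TF d I}
    (hu : ∀ i, CG JT (u i)) (hv : ∀ i, CG JT (v i)) {c c' : ℝ} (hc : 0 ≤ c) (hc' : 0 ≤ c')
    (h : L2B D τ c u) (h' : L2B D τ c' v) : L2B D τ (c + c') (addT u v) := by
  have hJ := IT_subset_JT hτ
  have hA : ∫ z, ∑ i, (u i (τ, z)) ^ 2 ∂(D.mu τ) ≤ c ^ 2 := h
  have hB : ∫ z, ∑ i, (v i (τ, z)) ^ 2 ∂(D.mu τ) ≤ c' ^ 2 := h'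
  have iu : Integrable (fun z => ∑ i, (u i (τ, z)) ^ 2) (D.mu τ) := by
    refine integrable_finsetSum _ fun i _ => ?_
    have := mu_integrable hD hJ (CG.mul isOpen_JT (hu i) (hu i))
    simpa only [pow_two] using this
  have iv : Integrable (fun z => ∑ i, (v i (τ, z)) ^ 2) (D.mu τ) := by
    refine integrable_finsetSum _ fun i _ => ?_
    have := mu_integrable hD hJ (CG.mul isOpen_JT (hv i) (hv i))
    simpa only [pow_two] using this
  have iuv : Integrable (fun z => ∑ i, (addT u v i (τ, z)) ^ 2) (D.mu τ) := by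
    refine integrable_finsetSum _ fun i _ => ?_
    have := mu_integrable hD hJ (CG.mul isOpen_JT (CG.add isOpen_JT (hu i) (hv i))
      (CG.add isOpen_JT (hu i) (hv i)))
    have h2 : (fun z => (addT u v i (τ, z)) ^ 2) =
      fun z => (u i (τ, z) + v i (τ, z)) * (u i (τ, z) + v i (τ, z)) := by
      funext z
      show (u i (τ, z) + v i (τ, z)) ^ 2 = _
      ring
    rw [h2]
    exact this
  have key : ∀ s t : ℝ, 0 < s → 0 < t → ∫ z, ∑ i, (addT u v i (τ, z)) ^ 2 ∂(D.mu τ) ≤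
      (1 + t / s) * c ^ 2 + (1 + s / t) * c' ^ 2 := by
    intro s t hs ht
    have h1 : ∀ z, ∑ i, (addT u v i (τ, z)) ^ 2 ≤
        (1 + t / s) * ∑ i, (u i (τ, z)) ^ 2 + (1 + s / t) * ∑ i, (v i (τ, z)) ^ 2 := by
      intro z
      rw [Finset.mul_sum, Finset.mul_sum, ← Finset.sum_add_distrib]
      refine Finset.sum_le_sum fun i _ => ?_
      show (u i (τ, z) + v i (τ, z)) ^ 2 ≤ _
      have h3 : 0 ≤ (t * u i (τ, z) - s * v i (τ, z)) ^ 2 / (s * t) := by (clear * - hs ht; positivity)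
      have h4 : (t * u i (τ, z) - s * v i (τ, z)) ^ 2 / (s * t) =
          t / s * u i (τ, z) ^ 2 + s / t * v i (τ, z) ^ 2 - 2 * u i (τ, z) * v i (τ, z) := by
        field_simp
        ring
      rw [h4] at h3
      linarith
    have h2 := integral_mono iuv ((iu.const_mul (1 + t / s)).add (iv.const_mul (1 + s / t))) h1
    simp only [Pi.add_apply] at h2
    rw [integral_add (iu.const_mul (1 + t / s)) (iv.const_mul (1 + s / t)), integral_const_mul,
      integral_const_mul] at h2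
    have h5 : 0 ≤ t / s := by (clear * - ht hs; positivity)
    have h6 : 0 ≤ s / t := by positivity
    nlinarith only [hA, hB, h2, h5, h6]
  show ∫ z, ∑ i, (addT u v i (τ, z)) ^ 2 ∂(D.mu τ) ≤ (c + c') ^ 2
  refine le_of_forall_pos_le_add fun ε hε => ?_
  set δ : ℝ := min 1 (ε / (2 * (c + c' + 1) + 1)) with hδ
  have hδ0 : 0 < δ := lt_min one_pos (by (clear * - hε hc hc'; positivity))
  have hk := key (c + δ) (c' + δ) (by linarith only [hc, hδ0]) (by linarith)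
  have h1 : (1 + (c' + δ) / (c + δ)) * c ^ 2 + (1 + (c + δ) / (c' + δ)) * c' ^ 2 ≤
      (c + δ + (c' + δ)) ^ 2 - (c + δ) ^ 2 - (c' + δ) ^ 2 + c ^ 2 + c' ^ 2 := by
    have h2 : (c' + δ) / (c + δ) * c ^ 2 ≤ (c' + δ) * (c + δ) := by
      rw [div_mul_eq_mul_div, div_le_iff₀ (by linarith only [hc, hδ0])]
      have : c ^ 2 ≤ (c + δ) ^ 2 := by nlinarith only [hc, hδ0]
      (refine le_of_not_gt fun hng_ => ?_; linarith only [mul_nonneg (le_of_lt (sub_pos.2 hng_)) (sub_nonneg.2 (mul_le_mul_of_nonneg_left this (by linarith : 0 ≤ c' + δ))), mul_pos (sub_pos.2 hng_) (sub_pos.2 hng_)])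
    have h3 : (c + δ) / (c' + δ) * c' ^ 2 ≤ (c' + δ) * (c + δ) := by
      rw [div_mul_eq_mul_div, div_le_iff₀ (by linarith only [hδ0, hc'])]
      have : c' ^ 2 ≤ (c' + δ) ^ 2 := by (refine le_of_not_gt fun hng_ => ?_; linarith only [mul_nonneg (mul_self_nonneg (1)) (le_of_lt (sub_pos.2 hng_)), mul_pos hδ0 hδ0, mul_nonneg hc' (le_of_lt hδ0)])
      (refine le_of_not_gt fun hng_ => ?_; linarith only [mul_nonneg (le_of_lt (sub_pos.2 hng_)) (sub_nonneg.2 (mul_le_mul_of_nonneg_left this (by linarith : 0 ≤ c + δ))), mul_pos (sub_pos.2 hng_) (sub_pos.2 hng_)])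
    linarith only [h2, h3]
  have h4 : (c + δ + (c' + δ)) ^ 2 - (c + δ) ^ 2 - (c' + δ) ^ 2 + c ^ 2 + c' ^ 2 =
      (c + c') ^ 2 + δ * (2 * (c + c') + 2 * δ) := by ring
  have h5 : δ * (2 * (c + c') + 2 * δ) ≤ ε := by
    have h6 : δ ≤ 1 := min_le_left _ _
    have h7 : δ ≤ ε / (2 * (c + c' + 1) + 1) := min_le_right _ _
    rw [le_div_iff₀ (by (clear * - hc hc'; positivity))] at h7
    (refine le_of_not_gt fun hng_ => ?_; linarith only [mul_pos hδ0 (sub_pos.2 hng_), mul_nonneg (sub_nonneg.2 h6) (le_of_lt (sub_pos.2 hng_)), mul_pos hδ0 hδ0, mul_nonneg (le_of_lt hδ0) (sub_nonneg.2 h7), mul_nonneg (le_of_lt hδ0) (sub_nonneg.2 h6), mul_nonneg (sub_nonneg.2 h6) (sub_nonneg.2 h7)])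
  linarith only [h1, hk, h5]

end Vale.Agent.P347.Z
end

section

/-! P347-Z-D1. Commutation identities (all pointwise, at times in `JT`).

PROOFS. `Dat.Ok.dz_up`, `Dat.Ok.dtau_up` (CGLib), product rules, commuting mixed derivatives (`CG.comm`).
* `up_Dt`: `D_t (f∘) = ∑_k ∇*_k ((∂_k f)∘) + 2 τ (P f)∘`.
* `Dt_dz`: `D_t ∂_{a_k} u = ∂_{a_k} D_t u + τ ∑_j F1 k j ∂_{a_j} u`, `D_t ∂_{g_k} u = ∂_{g_k} D_t u`.
* `Dt_ds`: `D_t ∇*_m u = ∇*_m D_t u + [D_t, ∇*_m] u`, with `D_t b_k = F_k + τ D_t F_k - F_k = τ ∇*·F1_k`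
  (`D_t a_k = -F_k`, `D_t (τ F_k) = F_k + τ D_t F_k`, and `D_t F_k = ∑_j ∇*_j F1 j k` as `P F = 0`), so that
  `D_t ∇*_{a_k} u = ∇*_{a_k} D_t u + τ ∑_j ∇*_{a_j}(F1 j k u)`. -/

open MeasureTheory Filter Module Set
open scoped ENNReal NNReal

set_option linter.unusedVariables false

namespace Vale.Agent.P347.Z

variable {d : ℕ} {D : Dat d}

/-! ### Pointwise calculus -/

theorem cm_dAt {u : ZS d → ℝ} (hu : CG JT u) {p : ZS d} (hp : p.1 ∈ JT) :
    DifferentiableAt ℝ u p :=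
  (hu.diff p ⟨hp, trivial⟩).differentiableAt ((isOpen_JT.prod isOpen_univ).mem_nhds ⟨hp, trivial⟩)

theorem cm_fd_congr {u v : ZS d → ℝ} (h : ∀ q : ZS d, q.1 ∈ JT → u q = v q) {p : ZS d}
    (hp : p.1 ∈ JT) : fderiv ℝ u p = fderiv ℝ v p :=
  cgl_fderiv_congr isOpen_JT (fun q hq => h q hq.1) ⟨hp, trivial⟩

theorem cm_dz_congr {u v : ZS d → ℝ} (h : ∀ q : ZS d, q.1 ∈ JT → u q = v q) (m : Sl d)
    {p : ZS d} (hp : p.1 ∈ JT) : dz m u p = dz m v p := by
  unfold dz; rw [cm_fd_congr h hp]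

theorem cm_dz_add {u v : ZS d → ℝ} (hu : CG JT u) (hv : CG JT v) (m : Sl d) {p : ZS d}
    (hp : p.1 ∈ JT) : dz m (fun q => u q + v q) p = dz m u p + dz m v p := by
  unfold dz
  rw [fderiv_fun_add (cm_dAt hu hp) (cm_dAt hv hp)]
  rfl

theorem cm_dtau_add {u v : ZS d → ℝ} (hu : CG JT u) (hv : CG JT v) {p : ZS d}
    (hp : p.1 ∈ JT) : dtau (fun q => u q + v q) p = dtau u p + dtau v p := by
  unfold dtau
  rw [fderiv_fun_add (cm_dAt hu hp) (cm_dAt hv hp)]
  rfl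

theorem cm_dz_sub {u v : ZS d → ℝ} (hu : CG JT u) (hv : CG JT v) (m : Sl d) {p : ZS d}
    (hp : p.1 ∈ JT) : dz m (fun q => u q - v q) p = dz m u p - dz m v p := by
  unfold dz
  rw [fderiv_fun_sub (cm_dAt hu hp) (cm_dAt hv hp)]
  rfl

theorem cm_dz_neg {u : ZS d → ℝ} (m : Sl d) {p : ZS d} :
    dz m (fun q => -u q) p = -dz m u p := by
  unfold dz
  rw [fderiv_fun_neg]
  rfl

theorem cm_dtau_neg {u : ZS d → ℝ} {p : ZS d} : dtau (fun q => -u q) p = -dtau u p := by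
  unfold dtau
  rw [fderiv_fun_neg]
  rfl

theorem cm_fd_mul {u v : ZS d → ℝ} (hu : CG JT u) (hv : CG JT v) (x : ZS d) {p : ZS d}
    (hp : p.1 ∈ JT) : fderiv ℝ (fun q => u q * v q) p x =
      u p * fderiv ℝ v p x + v p * fderiv ℝ u p x := by
  rw [fderiv_fun_mul (cm_dAt hu hp) (cm_dAt hv hp)]
  rfl

theorem cm_dz_mul {u v : ZS d → ℝ} (hu : CG JT u) (hv : CG JT v) (m : Sl d) {p : ZS d}
    (hp : p.1 ∈ JT) : dz m (fun q => u q * v q) p = dz m u p * v p + u p * dz m v p := by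
  unfold dz
  rw [cm_fd_mul hu hv _ hp]
  ring

theorem cm_dtau_mul {u v : ZS d → ℝ} (hu : CG JT u) (hv : CG JT v) {p : ZS d}
    (hp : p.1 ∈ JT) : dtau (fun q => u q * v q) p = dtau u p * v p + u p * dtau v p := by
  unfold dtau
  rw [cm_fd_mul hu hv _ hp]
  ring

theorem cm_dz_cmul {u : ZS d → ℝ} (hu : CG JT u) (c : ℝ) (m : Sl d) {p : ZS d}
    (hp : p.1 ∈ JT) : dz m (fun q => c * u q) p = c * dz m u p := by
  unfold dz
  rw [fderiv_const_mul (cm_dAt hu hp)]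
  rfl

theorem cm_dtau_cmul {u : ZS d → ℝ} (hu : CG JT u) (c : ℝ) {p : ZS d}
    (hp : p.1 ∈ JT) : dtau (fun q => c * u q) p = c * dtau u p := by
  unfold dtau
  rw [fderiv_const_mul (cm_dAt hu hp)]
  rfl

theorem cm_dz_zero (m : Sl d) (p : ZS d) : dz m (fun _ => (0 : ℝ)) p = 0 := by
  unfold dz
  rw [fderiv_fun_const]
  rfl

theorem cm_dz_sum {ι : Type} (s : Finset ι) {u : ι → ZS d → ℝ} (hu : ∀ i ∈ s, CG JT (u i))
    (m : Sl d) {p : ZS d} (hp : p.1 ∈ JT) :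
    dz m (fun q => ∑ i ∈ s, u i q) p = ∑ i ∈ s, dz m (u i) p := by
  unfold dz
  rw [fderiv_fun_sum fun i hi => cm_dAt (hu i hi) hp, sum_apply]

theorem cm_dtau_sum {ι : Type} (s : Finset ι) {u : ι → ZS d → ℝ} (hu : ∀ i ∈ s, CG JT (u i))
    {p : ZS d} (hp : p.1 ∈ JT) :
    dtau (fun q => ∑ i ∈ s, u i q) p = ∑ i ∈ s, dtau (u i) p := by
  unfold dtau
  rw [fderiv_fun_sum fun i hi => cm_dAt (hu i hi) hp, sum_apply]

theorem cm_dz_dz {u : ZS d → ℝ} (hu : CG JT u) (m m' : Sl d) {p : ZS d} (hp : p.1 ∈ JT) :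
    dz m (dz m' u) p = dz m' (dz m u) p :=
  hu.comm isOpen_JT _ _ ⟨hp, trivial⟩

theorem cm_dz_dtau {u : ZS d → ℝ} (hu : CG JT u) (m : Sl d) {p : ZS d} (hp : p.1 ∈ JT) :
    dz m (dtau u) p = dtau (dz m u) p :=
  hu.comm isOpen_JT _ _ ⟨hp, trivial⟩

/-! ### Coordinates -/

/-- The coordinate `a_k`. -/
noncomputable def cmA (k : Fin d) : ZS d →L[ℝ] ℝ :=
  (EuclideanSpace.proj k : Eu d →L[ℝ] ℝ).comp ((ContinuousLinearMap.fst ℝ (Eu d) (Eu d)).comp
    (ContinuousLinearMap.snd ℝ ℝ (Eu d × Eu d)))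

/-- The coordinate `g_k`. -/
noncomputable def cmG (k : Fin d) : ZS d →L[ℝ] ℝ :=
  (EuclideanSpace.proj k : Eu d →L[ℝ] ℝ).comp ((ContinuousLinearMap.snd ℝ (Eu d) (Eu d)).comp
    (ContinuousLinearMap.snd ℝ ℝ (Eu d × Eu d)))

theorem cmA_apply (k : Fin d) (p : ZS d) : cmA k p = p.2.1 k := rfl

theorem cmG_apply (k : Fin d) (p : ZS d) : cmG k p = p.2.2 k := rfl

theorem cm_cgA (k : Fin d) : CG JT (fun p : ZS d => p.2.1 k) := CG.lin isOpen_JT (cmA k)

theorem cm_cgG (k : Fin d) : CG JT (fun p : ZS d => p.2.2 k) := CG.lin isOpen_JT (cmG k)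

theorem cm_cgT : CG JT (fun p : ZS d => p.1) :=
  CG.lin isOpen_JT (ContinuousLinearMap.fst ℝ ℝ (Eu d × Eu d))

theorem cm_dz_lin (L : ZS d →L[ℝ] ℝ) (m : Sl d) (p : ZS d) :
    dz m (fun q => L q) p = L (0, if m.1 then (0, ek m.2) else (ek m.2, 0)) := by
  unfold dz
  have h : fderiv ℝ (fun q => L q) p = L := L.fderiv
  rw [h]

theorem cm_dtau_lin (L : ZS d →L[ℝ] ℝ) (p : ZS d) : dtau (fun q => L q) p = L (1, 0) := by
  unfold dtau
  have h : fderiv ℝ (fun q => L q) p = L := L.fderiv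
  rw [h]

theorem cm_dz_A (k : Fin d) (m : Sl d) (p : ZS d) :
    dz m (fun q : ZS d => q.2.1 k) p = if m = (false, k) then 1 else 0 := by
  have h := cm_dz_lin (cmA k) m p
  have h' : dz m (fun q : ZS d => q.2.1 k) p = dz m (fun q => cmA k q) p := rfl
  rw [h', h, cmA_apply]
  obtain ⟨b, j⟩ := m
  cases b with
  | false =>
    simp only [Bool.false_eq_true, if_false, PiLp.single_apply, Prod.mk.injEq, true_and]
    by_cases hj : k = j
    · rw [if_pos hj, if_pos hj.symm]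
    · rw [if_neg hj, if_neg (Ne.symm hj)]
  | true =>
    simp only [if_true, Prod.mk.injEq, Bool.true_eq_false, false_and, if_false]
    rfl

theorem cm_dz_G (k : Fin d) (m : Sl d) (p : ZS d) :
    dz m (fun q : ZS d => q.2.2 k) p = if m = (true, k) then 1 else 0 := by
  have h := cm_dz_lin (cmG k) m p
  have h' : dz m (fun q : ZS d => q.2.2 k) p = dz m (fun q => cmG k q) p := rfl
  rw [h', h, cmG_apply]
  obtain ⟨b, j⟩ := m
  cases b with
  | true =>
    simp only [if_true, PiLp.single_apply, Prod.mk.injEq, true_and]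
    by_cases hj : k = j
    · rw [if_pos hj, if_pos hj.symm]
    · rw [if_neg hj, if_neg (Ne.symm hj)]
  | false =>
    simp only [Bool.false_eq_true, if_false, Prod.mk.injEq, false_and]
    rfl

theorem cm_dz_T (m : Sl d) (p : ZS d) : dz m (fun q : ZS d => q.1) p = 0 :=
  cm_dz_lin (ContinuousLinearMap.fst ℝ ℝ (Eu d × Eu d)) m p

theorem cm_dtau_A (k : Fin d) (p : ZS d) : dtau (fun q : ZS d => q.2.1 k) p = 0 :=
  cm_dtau_lin (cmA k) p

theorem cm_dtau_G (k : Fin d) (p : ZS d) : dtau (fun q : ZS d => q.2.2 k) p = 0 :=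
  cm_dtau_lin (cmG k) p

theorem cm_dtau_T (p : ZS d) : dtau (fun q : ZS d => q.1) p = 1 :=
  cm_dtau_lin (ContinuousLinearMap.fst ℝ ℝ (Eu d × Eu d)) p

theorem cm_dz_timeMul {u : ZS d → ℝ} (hu : CG JT u) (m : Sl d) {p : ZS d} (hp : p.1 ∈ JT) :
    dz m (fun q => q.1 * u q) p = p.1 * dz m u p := by
  rw [cm_dz_mul cm_cgT hu m hp, cm_dz_T, zero_mul, zero_add]

/-! ### The drift -/

theorem cm_upF_cg (hD : D.Ok) (k : Fin d) : CG JT (D.up (dy k D.w)) := hD.up_cg (hD.heat.cg.dy k)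

theorem cm_bb_cg (hD : D.Ok) (m : Sl d) : CG JT (D.bb m) := by
  obtain ⟨b, k⟩ := m
  cases b with
  | false => exact CG.add isOpen_JT (cm_cgA k) (CG.mul isOpen_JT cm_cgT (cm_upF_cg hD k))
  | true => exact cm_cgG k

theorem cm_ds_cg (hD : D.Ok) (m : Sl d) {u : ZS d → ℝ} (hu : CG JT u) : CG JT (D.ds m u) :=
  CG.add isOpen_JT (CG.neg isOpen_JT (hu.dz m)) (CG.mul isOpen_JT (cm_bb_cg hD m) hu)

theorem cm_bb_false (k : Fin d) :
    D.bb (false, k) = fun p => p.2.1 k + p.1 * D.up (dy k D.w) p := rfl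

theorem cm_bb_true (k : Fin d) : D.bb (true, k) = fun p => p.2.2 k := rfl

theorem cm_dz_upF (hD : D.Ok) (k : Fin d) (m : Sl d) {p : ZS d} (hp : p.1 ∈ JT) :
    dz m (D.up (dy k D.w)) p = if m.1 then 0 else p.1 * D.up (F1 D.w m.2 k) p :=
  hD.dz_up (hD.heat.cg.dy k) m hp

theorem cm_dz_bb (hD : D.Ok) (m' m : Sl d) {p : ZS d} (hp : p.1 ∈ JT) :
    dz m' (D.bb m) p = (if m' = m then 1 else 0) +
      if m'.1 = false ∧ m.1 = false then p.1 * (p.1 * D.up (F1 D.w m'.2 m.2) p) else 0 := by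
  obtain ⟨b, k⟩ := m
  obtain ⟨b', k'⟩ := m'
  cases b with
  | false =>
    rw [cm_bb_false, cm_dz_add (cm_cgA k) (CG.mul isOpen_JT cm_cgT (cm_upF_cg hD k)) _ hp,
      cm_dz_timeMul (cm_upF_cg hD k) _ hp, cm_dz_A, cm_dz_upF hD _ _ hp]
    cases b' <;> simp
  | true =>
    rw [cm_bb_true, cm_dz_G]
    cases b' <;> simp

theorem cm_up_symm (hD : D.Ok) (i j : Fin d) {p : ZS d} (hp : p.1 ∈ JT) :
    D.up (F1 D.w i j) p = D.up (F1 D.w j i) p :=
  F1_symm hD.heat i j (hD.lev_pos hp)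

theorem cm_F1_cg (hD : D.Ok) (i j : Fin d) : CG (Ioi 0) (F1 D.w i j) :=
  (hD.heat.cg.dy j).dy i

theorem cm_upF1_cg (hD : D.Ok) (i j : Fin d) : CG JT (D.up (F1 D.w i j)) :=
  hD.up_cg (cm_F1_cg hD i j)

/-! ### The operators `Dt` and `ds` -/

theorem Dt_up (hD : D.Ok) {f : ℝ × Eu d → ℝ} (hf : CG (Ioi 0) f) {p : ZS d} (hp : p.1 ∈ JT) :
    D.Dt (D.up f) p = ∑ k, D.ds (false, k) (D.up (dy k f)) p + 2 * p.1 * D.up (Pf D.w f) p := by
  have h1 : ∀ k : Fin d, D.ds (false, k) (D.up (dy k f)) p =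
      -(p.1 * D.up (dy k (dy k f)) p) +
        (p.2.1 k + p.1 * D.up (dy k D.w) p) * D.up (dy k f) p := by
    intro k
    show -dz (false, k) (D.up (dy k f)) p + _ = _
    rw [hD.dz_up (hf.dy k) _ hp]
    rfl
  have h2 : D.Dt (D.up f) p = -2 * p.1 * D.up (dlev f) p + ∑ k, p.2.1 k * D.up (dy k f) p -
      ∑ k, D.up (dy k D.w) p * (p.1 * D.up (dy k f) p) := by
    show dtau (D.up f) p - _ = _
    rw [hD.dtau_up hf hp]
    congr 1
    refine Finset.sum_congr rfl fun k _ => ?_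
    rw [hD.dz_up hf _ hp]
    rfl
  have h3 : D.up (Pf D.w f) p = -D.up (dlev f) p + (1 / 2) * ∑ k, D.up (dy k (dy k f)) p
      - ∑ k, D.up (dy k D.w) p * D.up (dy k f) p := rfl
  rw [h2, h3, Finset.sum_congr rfl fun k _ => h1 k, Finset.sum_add_distrib]
  have h4 : ∑ k, -(p.1 * D.up (dy k (dy k f)) p) = -(p.1 * ∑ k, D.up (dy k (dy k f)) p) := by
    rw [Finset.sum_neg_distrib, Finset.mul_sum]
  have h5 : ∑ k, (p.2.1 k + p.1 * D.up (dy k D.w) p) * D.up (dy k f) p =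
      ∑ k, p.2.1 k * D.up (dy k f) p + p.1 * ∑ k, D.up (dy k D.w) p * D.up (dy k f) p := by
    rw [Finset.mul_sum, ← Finset.sum_add_distrib]
    exact Finset.sum_congr rfl fun k _ => by ring
  have h6 : ∑ k, D.up (dy k D.w) p * (p.1 * D.up (dy k f) p) =
      p.1 * ∑ k, D.up (dy k D.w) p * D.up (dy k f) p := by
    rw [Finset.mul_sum]
    exact Finset.sum_congr rfl fun k _ => by ring
  rw [h4, h5, h6]
  ring

theorem Dt_mul (hD : D.Ok) {u v : ZS d → ℝ} (hu : CG JT u) (hv : CG JT v) {p : ZS d}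
    (hp : p.1 ∈ JT) : D.Dt (fun q => u q * v q) p = D.Dt u p * v p + u p * D.Dt v p := by
  unfold Dat.Dt
  rw [cm_dtau_mul hu hv hp, Finset.sum_congr rfl fun k _ => by rw [cm_dz_mul hu hv _ hp]]
  have h1 : ∑ k, D.up (dy k D.w) p * (dz (false, k) u p * v p + u p * dz (false, k) v p) =
      (∑ k, D.up (dy k D.w) p * dz (false, k) u p) * v p +
        u p * ∑ k, D.up (dy k D.w) p * dz (false, k) v p := by
    rw [Finset.sum_mul, Finset.mul_sum, ← Finset.sum_add_distrib]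
    exact Finset.sum_congr rfl fun k _ => by ring
  rw [h1]
  ring

theorem cm_Dt_add {u v : ZS d → ℝ} (hu : CG JT u) (hv : CG JT v) {p : ZS d}
    (hp : p.1 ∈ JT) : D.Dt (fun q => u q + v q) p = D.Dt u p + D.Dt v p := by
  unfold Dat.Dt
  rw [cm_dtau_add hu hv hp, Finset.sum_congr rfl fun k _ => by rw [cm_dz_add hu hv _ hp]]
  have h1 : ∑ k, D.up (dy k D.w) p * (dz (false, k) u p + dz (false, k) v p) =
      (∑ k, D.up (dy k D.w) p * dz (false, k) u p) +
        ∑ k, D.up (dy k D.w) p * dz (false, k) v p := by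
    rw [← Finset.sum_add_distrib]
    exact Finset.sum_congr rfl fun k _ => by ring
  rw [h1]
  ring

theorem cm_Dt_neg {u : ZS d → ℝ} {p : ZS d} : D.Dt (fun q => -u q) p = -D.Dt u p := by
  unfold Dat.Dt
  rw [cm_dtau_neg, Finset.sum_congr rfl fun k _ => by rw [cm_dz_neg]]
  have h1 : ∑ k, D.up (dy k D.w) p * -dz (false, k) u p =
      -∑ k, D.up (dy k D.w) p * dz (false, k) u p := by
    rw [← Finset.sum_neg_distrib]
    exact Finset.sum_congr rfl fun k _ => by ring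
  rw [h1]
  ring

theorem cm_Dt_cmul {u : ZS d → ℝ} (hu : CG JT u) (c : ℝ) {p : ZS d} (hp : p.1 ∈ JT) :
    D.Dt (fun q => c * u q) p = c * D.Dt u p := by
  unfold Dat.Dt
  rw [cm_dtau_cmul hu c hp, Finset.sum_congr rfl fun k _ => by rw [cm_dz_cmul hu c _ hp],
    mul_sub, Finset.mul_sum]
  congr 1
  exact Finset.sum_congr rfl fun k _ => by ring

theorem cm_Dt_sum {ι : Type} (s : Finset ι) {u : ι → ZS d → ℝ} (hu : ∀ i ∈ s, CG JT (u i))
    {p : ZS d} (hp : p.1 ∈ JT) :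
    D.Dt (fun q => ∑ i ∈ s, u i q) p = ∑ i ∈ s, D.Dt (u i) p := by
  unfold Dat.Dt
  have h1 : ∑ k, D.up (dy k D.w) p * dz (false, k) (fun q => ∑ i ∈ s, u i q) p =
      ∑ i ∈ s, ∑ k, D.up (dy k D.w) p * dz (false, k) (u i) p := by
    rw [Finset.sum_comm]
    exact Finset.sum_congr rfl fun k _ => by rw [cm_dz_sum s hu _ hp, Finset.mul_sum]
  rw [cm_dtau_sum s hu hp, h1, Finset.sum_sub_distrib]

theorem Dt_cg (hD : D.Ok) {u : ZS d → ℝ} (hu : CG JT u) : CG JT (D.Dt u) :=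
  CG.sub isOpen_JT hu.dtau (CG.sum isOpen_JT _ fun k _ =>
    CG.mul isOpen_JT (cm_upF_cg hD k) (hu.dz _))

theorem divT_cg (hD : D.Ok) {I : Type} {u : TF d (Sl d × I)} (hu : ∀ i, CG JT (u i)) (i : I) :
    CG JT (D.divT u i) :=
  CG.sum isOpen_JT _ fun m _ => cm_ds_cg hD m (hu _)

theorem TB_cg (hD : D.Ok) {K I : Type} [Fintype I] {B : MF d K I}
    (cB : ∀ k i, CG (Ioi 0) (B k i)) {u : TF d I} (hu : ∀ i, CG JT (u i)) (k : K) :
    CG JT (D.TB B u k) :=
  CG.sum isOpen_JT _ fun i _ => CG.mul isOpen_JT (hD.up_cg (cB k i)) (hu i)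

theorem TM_cg {K I : Type} [Fintype I] (M : K → I → ℝ) {u : TF d I} (hu : ∀ i, CG JT (u i))
    (k : K) : CG JT (TM M u k) :=
  CG.sum isOpen_JT _ fun i _ => CG.mul isOpen_JT (CG.const isOpen_JT _) (hu i)

theorem cm_ds_sum {ι : Type} (s : Finset ι) {u : ι → ZS d → ℝ} (hu : ∀ i ∈ s, CG JT (u i))
    (m : Sl d) {p : ZS d} (hp : p.1 ∈ JT) :
    D.ds m (fun q => ∑ i ∈ s, u i q) p = ∑ i ∈ s, D.ds m (u i) p := by
  unfold Dat.ds
  rw [cm_dz_sum s hu _ hp, Finset.sum_add_distrib, Finset.mul_sum, Finset.sum_neg_distrib]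

theorem cm_ds_zero (m : Sl d) (p : ZS d) : D.ds m (fun _ => (0 : ℝ)) p = 0 := by
  unfold Dat.ds
  rw [cm_dz_zero, mul_zero, neg_zero, zero_add]

theorem cm_ds_neg {u : ZS d → ℝ} (m : Sl d) {p : ZS d} :
    D.ds m (fun q => -u q) p = -D.ds m u p := by
  unfold Dat.ds
  rw [cm_dz_neg]
  ring

theorem cm_ds_cmul {u : ZS d → ℝ} (hu : CG JT u) (c : ℝ) (m : Sl d) {p : ZS d} (hp : p.1 ∈ JT) :
    D.ds m (fun q => c * u q) p = c * D.ds m u p := by
  unfold Dat.ds
  rw [cm_dz_cmul hu c _ hp]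
  ring

theorem cm_ds_mul {u v : ZS d → ℝ} (hu : CG JT u) (hv : CG JT v) (m : Sl d) {p : ZS d}
    (hp : p.1 ∈ JT) :
    D.ds m (fun q => u q * v q) p = D.ds m u p * v p - u p * dz m v p := by
  unfold Dat.ds
  rw [cm_dz_mul hu hv _ hp]
  ring

theorem cm_ds_timeMul {u : ZS d → ℝ} (hu : CG JT u) (m : Sl d) {p : ZS d} (hp : p.1 ∈ JT) :
    D.ds m (fun q => q.1 * u q) p = p.1 * D.ds m u p := by
  unfold Dat.ds
  rw [cm_dz_timeMul hu _ hp]
  ring

/-- `[D_t, ∂_m]`. -/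
theorem cm_Dt_dz (hD : D.Ok) {u : ZS d → ℝ} (hu : CG JT u) (m : Sl d) {p : ZS d}
    (hp : p.1 ∈ JT) : D.Dt (dz m u) p = dz m (D.Dt u) p +
      if m.1 then 0 else p.1 * ∑ k, D.up (F1 D.w m.2 k) p * dz (false, k) u p := by
  have h1 : dz m (D.Dt u) p = dz m (dtau u) p - ∑ k, (dz m (D.up (dy k D.w)) p * dz (false, k) u p
      + D.up (dy k D.w) p * dz m (dz (false, k) u) p) := by
    show dz m (fun q => dtau u q - ∑ k, D.up (dy k D.w) q * dz (false, k) u q) p = _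
    rw [cm_dz_sub hu.dtau (CG.sum isOpen_JT _ fun k _ =>
      CG.mul isOpen_JT (cm_upF_cg hD k) (hu.dz _)) m hp,
      cm_dz_sum _ (fun k _ => CG.mul isOpen_JT (cm_upF_cg hD k) (hu.dz _)) m hp]
    congr 1
    exact Finset.sum_congr rfl fun k _ => by rw [cm_dz_mul (cm_upF_cg hD k) (hu.dz _) m hp]
  have h2 : ∀ k : Fin d, dz m (D.up (dy k D.w)) p * dz (false, k) u p =
      if m.1 then 0 else p.1 * (D.up (F1 D.w m.2 k) p * dz (false, k) u p) := by
    intro k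
    rw [cm_dz_upF hD k m hp]
    split_ifs <;> ring
  rw [h1, cm_dz_dtau hu m hp, Finset.sum_add_distrib, Finset.sum_congr rfl fun k _ => h2 k]
  unfold Dat.Dt
  rw [Finset.sum_congr rfl fun k _ => by rw [cm_dz_dz hu (false, k) m hp]]
  split_ifs with hm
  · simp
  · rw [← Finset.mul_sum]
    ring

theorem cm_Dt_A (k : Fin d) (p : ZS d) :
    D.Dt (fun q : ZS d => q.2.1 k) p = -D.up (dy k D.w) p := by
  unfold Dat.Dt
  rw [cm_dtau_A, Finset.sum_congr rfl fun j _ => by rw [cm_dz_A]]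
  simp [Prod.mk.injEq]

theorem cm_Dt_G (k : Fin d) (p : ZS d) : D.Dt (fun q : ZS d => q.2.2 k) p = 0 := by
  unfold Dat.Dt
  rw [cm_dtau_G, Finset.sum_congr rfl fun j _ => by rw [cm_dz_G]]
  simp [Prod.mk.injEq]

theorem cm_Dt_T (p : ZS d) : D.Dt (fun q : ZS d => q.1) p = 1 := by
  unfold Dat.Dt
  rw [cm_dtau_T, Finset.sum_congr rfl fun j _ => by rw [cm_dz_T]]
  simp

theorem cm_Dt_timeMul (hD : D.Ok) {u : ZS d → ℝ} (hu : CG JT u) {p : ZS d} (hp : p.1 ∈ JT) :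
    D.Dt (fun q => q.1 * u q) p = u p + p.1 * D.Dt u p := by
  rw [Dt_mul hD cm_cgT hu hp, cm_Dt_T, one_mul]

theorem cm_Dt_upF (hD : D.Ok) (k : Fin d) {p : ZS d} (hp : p.1 ∈ JT) :
    D.Dt (D.up (dy k D.w)) p = ∑ j, D.ds (false, j) (D.up (F1 D.w j k)) p := by
  rw [Dt_up hD (hD.heat.cg.dy k) hp]
  have h1 : D.up (Pf D.w (dy k D.w)) p = 0 := Pf_F hD.heat k (hD.lev_pos hp)
  rw [h1, mul_zero, add_zero]
  rfl

theorem cm_Dt_bb (hD : D.Ok) (m : Sl d) {p : ZS d} (hp : p.1 ∈ JT) :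
    D.Dt (D.bb m) p = if m.1 then 0 else
      p.1 * ∑ j, D.ds (false, j) (D.up (F1 D.w j m.2)) p := by
  obtain ⟨b, k⟩ := m
  cases b with
  | false =>
    rw [cm_bb_false, cm_Dt_add (cm_cgA k) (CG.mul isOpen_JT cm_cgT (cm_upF_cg hD k)) hp,
      cm_Dt_timeMul hD (cm_upF_cg hD k) hp, cm_Dt_A, cm_Dt_upF hD k hp]
    simp
  | true =>
    rw [cm_bb_true, cm_Dt_G]
    simp

/-- `[D_t, ∇*_m]`. -/
theorem cm_Dt_ds (hD : D.Ok) {u : ZS d → ℝ} (hu : CG JT u) (m : Sl d) {p : ZS d}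
    (hp : p.1 ∈ JT) : D.Dt (D.ds m u) p = D.ds m (D.Dt u) p +
      if m.1 then 0 else p.1 * ∑ j, D.ds (false, j) (fun q => D.up (F1 D.w j m.2) q * u q) p := by
  have h1 : D.Dt (D.ds m u) p = -D.Dt (dz m u) p + (D.Dt (D.bb m) p * u p +
      D.bb m p * D.Dt u p) := by
    show D.Dt (fun q => -dz m u q + D.bb m q * u q) p = _
    rw [cm_Dt_add (CG.neg isOpen_JT (hu.dz m)) (CG.mul isOpen_JT (cm_bb_cg hD m) hu) hp,
      cm_Dt_neg, Dt_mul hD (cm_bb_cg hD m) hu hp]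
  rw [h1, cm_Dt_dz hD hu m hp, cm_Dt_bb hD m hp]
  show _ = -dz m (D.Dt u) p + D.bb m p * D.Dt u p + _
  split_ifs with hm
  · ring
  · have h2 : ∑ j, D.ds (false, j) (fun q => D.up (F1 D.w j m.2) q * u q) p =
        (∑ j, D.ds (false, j) (D.up (F1 D.w j m.2)) p) * u p -
          ∑ k, D.up (F1 D.w m.2 k) p * dz (false, k) u p := by
      rw [Finset.sum_mul, ← Finset.sum_sub_distrib]
      refine Finset.sum_congr rfl fun j _ => ?_
      rw [cm_ds_mul (cm_upF1_cg hD j m.2) hu _ hp, cm_up_symm hD j m.2 hp]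
    rw [h2]
    ring

/-! ### Constant matrices and multipliers -/

theorem cm_sum_sl (f : Sl d → ℝ) : ∑ m, f m = (∑ k, f (false, k)) + ∑ k, f (true, k) := by
  rw [Fintype.sum_prod_type, Fintype.sum_bool, add_comm]

theorem cm_mE {K : Type} [Fintype K] [DecidableEq K] (v : TF d (Fin d × K)) (m : Sl d × K)
    (p : ZS d) : TM (mE d K) v m p = if m.1.1 then 0 else v (m.1.2, m.2) p := by
  obtain ⟨⟨b, k⟩, i⟩ := m
  unfold TM mE
  cases b with
  | false =>
    rw [Finset.sum_eq_single (k, i)]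
    · simp
    · rintro ⟨k', i'⟩ _ h
      rw [if_neg, zero_mul]
      rintro ⟨h1, h2⟩
      apply h
      simp only [Prod.mk.injEq, true_and] at h1 h2 ⊢
      exact ⟨h1.symm, h2.symm⟩
    · intro h
      exact absurd (Finset.mem_univ _) h
  | true =>
    rw [if_pos rfl]
    refine Finset.sum_eq_zero fun n _ => ?_
    rw [if_neg, zero_mul]
    rintro ⟨h1, -⟩
    simp at h1

theorem cm_mP {I : Type} [Fintype I] [DecidableEq I] (v : TF d (Sl d × I)) (n : Fin d × I)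
    (p : ZS d) : TM (mP d I) v n p = v ((false, n.1), n.2) p := by
  obtain ⟨k, i⟩ := n
  unfold TM mP
  rw [Finset.sum_eq_single ((false, k), i)]
  · simp
  · rintro ⟨m', i'⟩ _ h
    rw [if_neg, zero_mul]
    rintro ⟨h1, h2⟩
    apply h
    simp only at h1 h2
    rw [h1, h2]
  · intro h
    exact absurd (Finset.mem_univ _) h

theorem cm_amp {K I A : Type} [Fintype I] [Fintype A] [DecidableEq A] (B : MF d K I)
    (v : TF d (I × A)) (k : K × A) (p : ZS d) :
    D.TB (amp B A) v k p = ∑ i, D.up (B k.1 i) p * v (i, k.2) p := by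
  unfold Dat.TB
  rw [Fintype.sum_prod_type]
  refine Finset.sum_congr rfl fun i _ => ?_
  rw [Finset.sum_eq_single k.2]
  · show (if k.2 = k.2 then D.up (B k.1 i) p else 0) * _ = _
    rw [if_pos rfl]
  · intro a _ ha
    show (if k.2 = a then D.up (B k.1 i) p else 0) * _ = _
    rw [if_neg (Ne.symm ha), zero_mul]
  · intro h
    exact absurd (Finset.mem_univ _) h

theorem cm_ampL {K I A : Type} [Fintype I] [Fintype A] [DecidableEq A] (B : MF d K I)
    (v : TF d (A × I)) (k : A × K) (p : ZS d) :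
    D.TB (ampL A B) v k p = ∑ i, D.up (B k.2 i) p * v (k.1, i) p := by
  unfold Dat.TB
  rw [Fintype.sum_prod_type, Finset.sum_eq_single k.1]
  · refine Finset.sum_congr rfl fun i _ => ?_
    show (if k.1 = k.1 then D.up (B k.2 i) p else 0) * _ = _
    rw [if_pos rfl]
  · intro a _ ha
    refine Finset.sum_eq_zero fun i _ => ?_
    show (if k.1 = a then D.up (B k.2 i) p else 0) * _ = _
    rw [if_neg (Ne.symm ha), zero_mul]
  · intro h
    exact absurd (Finset.mem_univ _) h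

theorem cm_slotB {I : Type} [Fintype I] [DecidableEq I] (B : MF d (Fin d) (Fin d))
    (v : TF d (Sl d × I)) (m : Sl d × I) (p : ZS d) :
    slotB D B v m p = if m.1.1 then 0 else
      ∑ k, D.up (B m.1.2 k) p * v ((false, k), m.2) p := by
  unfold slotB
  rw [cm_mE, cm_amp]
  refine if_congr Iff.rfl rfl (Finset.sum_congr rfl fun k _ => ?_)
  rw [cm_mP]

theorem cm_mJ {I : Type} [Fintype I] [DecidableEq I] (v : TF d (Sl d × I)) (m : Sl d × I)
    (p : ZS d) : TM (mJ d I) v m p =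
      if m.1.1 then v ((false, m.1.2), m.2) p else -v ((true, m.1.2), m.2) p := by
  obtain ⟨⟨b, k⟩, i⟩ := m
  unfold TM mJ
  cases b with
  | true =>
    rw [Finset.sum_eq_single ((false, k), i)]
    · simp
    · rintro ⟨⟨b', k'⟩, i'⟩ _ h
      by_cases h1 : k = k' ∧ i = i'
      · obtain ⟨rfl, rfl⟩ := h1
        cases b' with
        | false => exact absurd rfl h
        | true => simp
      · rw [if_neg h1, zero_mul]
    · intro h
      exact absurd (Finset.mem_univ _) h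
  | false =>
    rw [Finset.sum_eq_single ((true, k), i)]
    · simp
    · rintro ⟨⟨b', k'⟩, i'⟩ _ h
      by_cases h1 : k = k' ∧ i = i'
      · obtain ⟨rfl, rfl⟩ := h1
        cases b' with
        | true => exact absurd rfl h
        | false => simp
      · rw [if_neg h1, zero_mul]
    · intro h
      exact absurd (Finset.mem_univ _) h

theorem cm_slotB_fun {I : Type} [Fintype I] [DecidableEq I] (B : MF d (Fin d) (Fin d))
    (v : TF d (Sl d × I)) (k : Fin d) (i : I) :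
    slotB D B v ((false, k), i) = fun p => ∑ j, D.up (B k j) p * v ((false, j), i) p :=
  funext fun p => cm_slotB B v _ p

theorem cm_slotB_fun' {I : Type} [Fintype I] [DecidableEq I] (B : MF d (Fin d) (Fin d))
    (v : TF d (Sl d × I)) (k : Fin d) (i : I) :
    slotB D B v ((true, k), i) = fun _ => 0 :=
  funext fun p => cm_slotB B v _ p

/-! ### Commutators of tensor operators -/

/-- `[D_t, ∇]`. -/
theorem DtT_gradT (hD : D.Ok) {I : Type} [Fintype I] [DecidableEq I] {u : TF d I}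
    (hu : ∀ i, CG JT (u i)) (m : Sl d × I) {p : ZS d} (hp : p.1 ∈ JT) :
    D.DtT (gradT u) m p = gradT (D.DtT u) m p
      + mulT (slotB D (F1 D.w) (gradT u)) m p := by
  have h1 : mulT (slotB D (F1 D.w) (gradT u)) m p =
      p.1 * slotB D (F1 D.w) (gradT u) m p := rfl
  have h2 : D.DtT (gradT u) m p = D.Dt (dz m.1 (u m.2)) p := rfl
  rw [h1, h2, cm_slotB, cm_Dt_dz hD (hu m.2) m.1 hp]
  congr 1
  split_ifs
  · rw [mul_zero]
  · rfl

/-- `[D_t, ∇*]`. -/
theorem DtT_divT (hD : D.Ok) {I : Type} [Fintype I] [DecidableEq I] {u : TF d (Sl d × I)}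
    (hu : ∀ i, CG JT (u i)) (i : I) {p : ZS d} (hp : p.1 ∈ JT) :
    D.DtT (D.divT u) i p = D.divT (D.DtT u) i p
      + D.divT (mulT (slotB D (F1 D.w) u)) i p := by
  have h1 : D.DtT (D.divT u) i p = ∑ m, D.Dt (D.ds m (u (m, i))) p :=
    cm_Dt_sum _ (fun m _ => cm_ds_cg hD m (hu _)) hp
  have h2 : D.divT (D.DtT u) i p = ∑ m, D.ds m (D.Dt (u (m, i))) p := rfl
  have h3 : D.divT (mulT (slotB D (F1 D.w) u)) i p =
      ∑ k, ∑ j, p.1 * D.ds (false, k) (fun q => D.up (F1 D.w k j) q * u ((false, j), i) q) p := by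
    show ∑ m, D.ds m (mulT (slotB D (F1 D.w) u) (m, i)) p = _
    rw [cm_sum_sl]
    have h4 : ∑ k, D.ds (true, k) (mulT (slotB D (F1 D.w) u) ((true, k), i)) p = 0 := by
      refine Finset.sum_eq_zero fun k _ => ?_
      have h5 : mulT (slotB D (F1 D.w) u) ((true, k), i) = fun _ => 0 := by
        funext q
        show q.1 * slotB D (F1 D.w) u ((true, k), i) q = 0
        rw [cm_slotB_fun', mul_zero]
      rw [h5, cm_ds_zero]
    rw [h4, add_zero]
    refine Finset.sum_congr rfl fun k _ => ?_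
    have h6 : mulT (slotB D (F1 D.w) u) ((false, k), i) = fun q => q.1 *
        ∑ j, D.up (F1 D.w k j) q * u ((false, j), i) q := by
      funext q
      show q.1 * slotB D (F1 D.w) u ((false, k), i) q = _
      rw [cm_slotB_fun]
    have hc : ∀ j ∈ Finset.univ, CG JT (fun q => D.up (F1 D.w k j) q * u ((false, j), i) q) :=
      fun j _ => CG.mul isOpen_JT (cm_upF1_cg hD k j) (hu _)
    rw [h6, cm_ds_timeMul (CG.sum isOpen_JT _ hc) _ hp, cm_ds_sum _ hc _ hp, Finset.mul_sum]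
  rw [h1, h2, h3, Finset.sum_congr rfl fun m _ => cm_Dt_ds hD (hu (m, i)) m hp,
    Finset.sum_add_distrib]
  congr 1
  rw [cm_sum_sl, Finset.sum_comm]
  simp only [Bool.false_eq_true, if_false, if_true, Finset.sum_const_zero, add_zero,
    Finset.mul_sum]

/-- `[D_t, T_B]`. -/
theorem DtT_TB (hD : D.Ok) {K I : Type} [Fintype I] [DecidableEq I] [Fintype K] [DecidableEq K]
    {B : MF d K I} (cB : ∀ k i, CG (Ioi 0) (B k i)) {u : TF d I} (hu : ∀ i, CG JT (u i)) (k : K)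
    {p : ZS d} (hp : p.1 ∈ JT) :
    D.DtT (D.TB B u) k p = D.TB B (D.DtT u) k p
      + D.divT (TM (mE d K) (D.TB (Dout B) u)) k p
      + D.TB (Din B) (TM (mP d I) (gradT u)) k p
      + 2 * mulT (D.TB (PM D.w B) u) k p := by
  have hc : ∀ i ∈ Finset.univ, CG JT (fun q => D.up (B k i) q * u i q) :=
    fun i _ => CG.mul isOpen_JT (hD.up_cg (cB k i)) (hu i)
  have h1 : D.DtT (D.TB B u) k p = ∑ i, (D.Dt (D.up (B k i)) p * u i p +
      D.up (B k i) p * D.Dt (u i) p) := by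
    have h := cm_Dt_sum (D := D) Finset.univ hc hp
    refine Eq.trans h (Finset.sum_congr rfl fun i _ => ?_)
    exact Dt_mul hD (hD.up_cg (cB k i)) (hu i) hp
  have h2 : D.TB B (D.DtT u) k p = ∑ i, D.up (B k i) p * D.Dt (u i) p := rfl
  have h3 : D.divT (TM (mE d K) (D.TB (Dout B) u)) k p =
      ∑ i, ∑ j, D.ds (false, j) (fun q => D.up (dy j (B k i)) q * u i q) p := by
    show ∑ m, D.ds m (TM (mE d K) (D.TB (Dout B) u) (m, k)) p = _
    rw [cm_sum_sl]
    have h4 : ∑ j, D.ds (true, j) (TM (mE d K) (D.TB (Dout B) u) ((true, j), k)) p = 0 := by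
      refine Finset.sum_eq_zero fun j _ => ?_
      have h5 : TM (mE d K) (D.TB (Dout B) u) ((true, j), k) = fun _ => 0 := by
        funext q
        rw [cm_mE]
        rfl
      rw [h5, cm_ds_zero]
    rw [h4, add_zero, Finset.sum_comm]
    refine Finset.sum_congr rfl fun j _ => ?_
    have h6 : TM (mE d K) (D.TB (Dout B) u) ((false, j), k) = fun q =>
        ∑ i, D.up (dy j (B k i)) q * u i q := by
      funext q
      rw [cm_mE]
      rfl
    rw [h6, cm_ds_sum _ (fun i _ => CG.mul isOpen_JT (hD.up_cg ((cB k i).dy j)) (hu i)) _ hp]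
  have h7 : D.TB (Din B) (TM (mP d I) (gradT u)) k p =
      ∑ i, ∑ j, D.up (dy j (B k i)) p * dz (false, j) (u i) p := by
    show ∑ m : Fin d × I, D.up (dy m.1 (B k m.2)) p * TM (mP d I) (gradT u) m p = _
    rw [Fintype.sum_prod_type, Finset.sum_comm]
    refine Finset.sum_congr rfl fun i _ => Finset.sum_congr rfl fun j _ => ?_
    rw [cm_mP]
    rfl
  have h8 : 2 * mulT (D.TB (PM D.w B) u) k p =
      ∑ i, 2 * p.1 * D.up (Pf D.w (B k i)) p * u i p := by
    show 2 * (p.1 * ∑ i, D.up (Pf D.w (B k i)) p * u i p) = _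
    rw [Finset.mul_sum, Finset.mul_sum]
    exact Finset.sum_congr rfl fun i _ => by ring
  rw [h1, h2, h3, h7, h8, ← Finset.sum_add_distrib, ← Finset.sum_add_distrib,
    ← Finset.sum_add_distrib]
  refine Finset.sum_congr rfl fun i _ => ?_
  have h9 : ∑ j, D.ds (false, j) (fun q => D.up (dy j (B k i)) q * u i q) p =
      (∑ j, D.ds (false, j) (D.up (dy j (B k i))) p) * u i p -
        ∑ j, D.up (dy j (B k i)) p * dz (false, j) (u i) p := by
    rw [Finset.sum_mul, ← Finset.sum_sub_distrib]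
    exact Finset.sum_congr rfl fun j _ => by
      rw [cm_ds_mul (hD.up_cg ((cB k i).dy j)) (hu i) _ hp]
  rw [h9, Dt_up hD (cB k i) hp]
  ring

theorem DtT_TM (hD : D.Ok) {K I : Type} [Fintype I] (M : K → I → ℝ) {u : TF d I}
    (hu : ∀ i, CG JT (u i)) (k : K) {p : ZS d} (hp : p.1 ∈ JT) :
    D.DtT (TM M u) k p = TM M (D.DtT u) k p := by
  have hc : ∀ i ∈ Finset.univ, CG JT (fun q => M k i * u i q) :=
    fun i _ => CG.mul isOpen_JT (CG.const isOpen_JT _) (hu i)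
  have h := cm_Dt_sum (D := D) Finset.univ hc hp
  refine Eq.trans h (Finset.sum_congr rfl fun i _ => ?_)
  exact cm_Dt_cmul (hu i) _ hp

theorem DtT_mulT (hD : D.Ok) {I : Type} {u : TF d I} (hu : ∀ i, CG JT (u i)) (i : I)
    {p : ZS d} (hp : p.1 ∈ JT) :
    D.DtT (mulT u) i p = u i p + mulT (D.DtT u) i p :=
  cm_Dt_timeMul hD (hu i) hp

/-- `∇ ∇*`. -/
theorem gradT_divT (hD : D.Ok) {I : Type} [Fintype I] [DecidableEq I] {u : TF d (Sl d × I)}
    (hu : ∀ i, CG JT (u i)) (m : Sl d × I) {p : ZS d} (hp : p.1 ∈ JT) :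
    gradT (D.divT u) m p = D.divT (swp (gradT u)) m p + u m p
      + mulT (mulT (slotB D (F1 D.w) u)) m p := by
  obtain ⟨m1, i⟩ := m
  have h1 : gradT (D.divT u) (m1, i) p = ∑ m', dz m1 (D.ds m' (u (m', i))) p :=
    cm_dz_sum _ (fun m' _ => cm_ds_cg hD m' (hu _)) m1 hp
  have h2 : ∀ m', dz m1 (D.ds m' (u (m', i))) p = D.ds m' (dz m1 (u (m', i))) p +
      dz m1 (D.bb m') p * u (m', i) p := by
    intro m'
    show dz m1 (fun q => -dz m' (u (m', i)) q + D.bb m' q * u (m', i) q) p = _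
    rw [cm_dz_add (CG.neg isOpen_JT ((hu _).dz m')) (CG.mul isOpen_JT (cm_bb_cg hD m') (hu _)) _ hp,
      cm_dz_neg, cm_dz_mul (cm_bb_cg hD m') (hu _) _ hp, cm_dz_dz (hu _) m1 m' hp]
    show _ = -dz m' (dz m1 (u (m', i))) p + D.bb m' p * dz m1 (u (m', i)) p + _
    ring
  have h3 : D.divT (swp (gradT u)) (m1, i) p = ∑ m', D.ds m' (dz m1 (u (m', i))) p := rfl
  have h4 : ∑ m', dz m1 (D.bb m') p * u (m', i) p = u (m1, i) p +
      mulT (mulT (slotB D (F1 D.w) u)) (m1, i) p := by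
    have h5 : ∀ m', dz m1 (D.bb m') p * u (m', i) p =
        (if m1 = m' then u (m', i) p else 0) +
          if m1.1 = false ∧ m'.1 = false then
            p.1 * (p.1 * D.up (F1 D.w m1.2 m'.2) p) * u (m', i) p else 0 := by
      intro m'
      rw [cm_dz_bb hD m1 m' hp]
      split_ifs <;> ring
    rw [Finset.sum_congr rfl fun m' _ => h5 m', Finset.sum_add_distrib, Finset.sum_ite_eq,
      if_pos (Finset.mem_univ _), cm_sum_sl]
    congr 1
    show _ = p.1 * (p.1 * slotB D (F1 D.w) u (m1, i) p)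
    rw [cm_slotB]
    obtain ⟨b, k⟩ := m1
    cases b with
    | true => simp
    | false =>
      simp only [and_self, if_true, and_false, Bool.true_eq_false, if_false,
        Finset.sum_const_zero, add_zero, Bool.false_eq_true, Finset.mul_sum]
      exact Finset.sum_congr rfl fun j _ => by ring
  rw [h1, Finset.sum_congr rfl fun m' _ => h2 m', Finset.sum_add_distrib, h3, h4]
  ring

/-- `∇ T_B`. -/
theorem gradT_TB (hD : D.Ok) {K I : Type} [Fintype I] [DecidableEq I] [Fintype K] [DecidableEq K]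
    {B : MF d K I} (cB : ∀ k i, CG (Ioi 0) (B k i)) {u : TF d I} (hu : ∀ i, CG JT (u i))
    (m : Sl d × K) {p : ZS d} (hp : p.1 ∈ JT) :
    gradT (D.TB B u) m p = D.TB (ampL (Sl d) B) (gradT u) m p
      + mulT (TM (mE d K) (D.TB (Dout B) u)) m p := by
  obtain ⟨m1, k⟩ := m
  have h1 : gradT (D.TB B u) (m1, k) p = ∑ i, dz m1 (fun q => D.up (B k i) q * u i q) p :=
    cm_dz_sum _ (fun i _ => CG.mul isOpen_JT (hD.up_cg (cB k i)) (hu i)) m1 hp
  have h2 : ∀ i, dz m1 (fun q => D.up (B k i) q * u i q) p =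
      D.up (B k i) p * dz m1 (u i) p +
        if m1.1 then 0 else p.1 * (D.up (dy m1.2 (B k i)) p * u i p) := by
    intro i
    rw [cm_dz_mul (hD.up_cg (cB k i)) (hu i) _ hp, hD.dz_up (cB k i) _ hp]
    split_ifs <;> ring
  have h3 : mulT (TM (mE d K) (D.TB (Dout B) u)) (m1, k) p =
      p.1 * TM (mE d K) (D.TB (Dout B) u) (m1, k) p := rfl
  rw [h1, Finset.sum_congr rfl fun i _ => h2 i, Finset.sum_add_distrib, cm_ampL, h3, cm_mE]
  congr 1
  split_ifs
  · simp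
  · rw [← Finset.mul_sum]
    rfl

/-- The `lam`-flow derivative in divergence form. -/
theorem DtotT_eq (hD : D.Ok) {I : Type} [Fintype I] [DecidableEq I] {u : TF d I}
    (hu : ∀ i, CG JT (u i)) (i : I) {p : ZS d} (hp : p.1 ∈ JT) :
    DtotT D u i p = D.DtT u i p + D.lam * D.κ * GT D u i p := by
  have hκ : D.κ ≠ 0 := hD.κ0.ne'
  have hB0c : ∀ k j, CG (Ioi 0) (B0 D.κ D.w k j) := fun k j =>
    CG.mul isOpen_Ioi (CG.const isOpen_Ioi _) (cm_F1_cg hD k j)
  have hB : ∀ k j, CG JT (D.up (B0 D.κ D.w k j)) := fun k j => hD.up_cg (hB0c k j)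
  have hBg : ∀ k j, dz (true, k) (D.up (B0 D.κ D.w k j)) p = 0 := fun k j => by
    rw [hD.dz_up (hB0c k j) _ hp]
    rfl
  -- first divergence
  have e1 : D.divT (TM (mJ d I) (slotB D (B0 D.κ D.w) (gradT u))) i p =
      ∑ k, ∑ j, (-(D.up (B0 D.κ D.w k j) p * dz (true, k) (dz (false, j) (u i)) p) +
        p.2.2 k * (D.up (B0 D.κ D.w k j) p * dz (false, j) (u i) p)) := by
    show ∑ m, D.ds m (TM (mJ d I) (slotB D (B0 D.κ D.w) (gradT u)) (m, i)) p = _
    rw [cm_sum_sl]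
    have h4 : ∑ k, D.ds (false, k) (TM (mJ d I) (slotB D (B0 D.κ D.w) (gradT u))
        ((false, k), i)) p = 0 := by
      refine Finset.sum_eq_zero fun k _ => ?_
      have h5 : TM (mJ d I) (slotB D (B0 D.κ D.w) (gradT u)) ((false, k), i) = fun _ => 0 := by
        funext q
        rw [cm_mJ]
        show -slotB D (B0 D.κ D.w) (gradT u) ((true, k), i) q = 0
        rw [cm_slotB_fun', neg_zero]
      rw [h5, cm_ds_zero]
    rw [h4, zero_add]
    refine Finset.sum_congr rfl fun k _ => ?_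
    have h6 : TM (mJ d I) (slotB D (B0 D.κ D.w) (gradT u)) ((true, k), i) = fun q =>
        ∑ j, D.up (B0 D.κ D.w k j) q * dz (false, j) (u i) q := by
      funext q
      rw [cm_mJ, cm_slotB]
      rfl
    rw [h6, cm_ds_sum _ (fun j _ => CG.mul isOpen_JT (hB k j) ((hu i).dz _)) _ hp]
    refine Finset.sum_congr rfl fun j _ => ?_
    show -dz (true, k) (fun q => D.up (B0 D.κ D.w k j) q * dz (false, j) (u i) q) p + _ = _
    rw [cm_dz_mul (hB k j) ((hu i).dz _) _ hp, hBg k j, zero_mul, zero_add]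
    rfl
  -- second divergence
  have e2 : D.divT (slotB D (B0 D.κ D.w) (TM (mJ d I) (gradT u))) i p =
      ∑ k, ∑ j, (D.up (B0 D.κ D.w k j) p * dz (false, k) (dz (true, j) (u i)) p -
        D.ds (false, k) (D.up (B0 D.κ D.w k j)) p * dz (true, j) (u i) p) := by
    show ∑ m, D.ds m (slotB D (B0 D.κ D.w) (TM (mJ d I) (gradT u)) (m, i)) p = _
    rw [cm_sum_sl]
    have h4 : ∑ k, D.ds (true, k) (slotB D (B0 D.κ D.w) (TM (mJ d I) (gradT u))
        ((true, k), i)) p = 0 := by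
      refine Finset.sum_eq_zero fun k _ => ?_
      rw [cm_slotB_fun', cm_ds_zero]
    rw [h4, add_zero]
    refine Finset.sum_congr rfl fun k _ => ?_
    have h6 : slotB D (B0 D.κ D.w) (TM (mJ d I) (gradT u)) ((false, k), i) = fun q =>
        ∑ j, -(D.up (B0 D.κ D.w k j) q * dz (true, j) (u i) q) := by
      rw [cm_slotB_fun]
      funext q
      refine Finset.sum_congr rfl fun j _ => ?_
      rw [cm_mJ]
      show _ * -dz (true, j) (u i) q = _
      ring
    have hc : ∀ j, CG JT (fun q => D.up (B0 D.κ D.w k j) q * dz (true, j) (u i) q) :=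
      fun j => CG.mul isOpen_JT (hB k j) ((hu i).dz _)
    rw [h6, cm_ds_sum _ (fun j _ => CG.neg isOpen_JT (hc j)) _ hp]
    refine Finset.sum_congr rfl fun j _ => ?_
    rw [cm_ds_neg, cm_ds_mul (hB k j) ((hu i).dz _) _ hp]
    ring
  have e3 : GT D u i p = D.divT (TM (mJ d I) (slotB D (B0 D.κ D.w) (gradT u))) i p +
      D.divT (slotB D (B0 D.κ D.w) (TM (mJ d I) (gradT u))) i p := rfl
  have e4 : DtotT D u i p = dtau (u i) p + ∑ m, D.Xf m p * dz m (u i) p := rfl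
  have e5 : D.DtT u i p = dtau (u i) p - ∑ k, D.up (dy k D.w) p * dz (false, k) (u i) p := rfl
  have hsymm : ∀ k j, D.up (B0 D.κ D.w k j) p = D.up (B0 D.κ D.w j k) p := fun k j => by
    show D.κ⁻¹ * D.up (F1 D.w k j) p = D.κ⁻¹ * D.up (F1 D.w j k) p
    rw [cm_up_symm hD k j hp]
  have hcanc : ∑ k, ∑ j, D.up (B0 D.κ D.w k j) p * dz (true, k) (dz (false, j) (u i)) p =
      ∑ k, ∑ j, D.up (B0 D.κ D.w k j) p * dz (false, k) (dz (true, j) (u i)) p := by
    rw [Finset.sum_comm]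
    refine Finset.sum_congr rfl fun k _ => Finset.sum_congr rfl fun j _ => ?_
    rw [hsymm j k, cm_dz_dz (hu i) (true, j) (false, k) hp]
  have hF : ∀ k j, D.κ * D.up (B0 D.κ D.w k j) p = D.up (F1 D.w k j) p := fun k j => by
    show D.κ * (D.κ⁻¹ * D.up (F1 D.w k j) p) = _
    rw [← mul_assoc, mul_inv_cancel₀ hκ, one_mul]
  have hFds : ∀ k j, D.κ * D.ds (false, k) (D.up (B0 D.κ D.w k j)) p =
      D.ds (false, k) (D.up (F1 D.w k j)) p := fun k j => by
    rw [← cm_ds_cmul (hB k j) D.κ _ hp]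
    congr 1
    funext q
    show D.κ * (D.κ⁻¹ * D.up (F1 D.w k j) q) = _
    rw [← mul_assoc, mul_inv_cancel₀ hκ, one_mul]
  have e6 : GT D u i p = ∑ k, ∑ j, p.2.2 k * (D.up (B0 D.κ D.w k j) p * dz (false, j) (u i) p) -
      ∑ k, ∑ j, D.ds (false, k) (D.up (B0 D.κ D.w k j)) p * dz (true, j) (u i) p := by
    rw [e3, e1, e2]
    simp only [Finset.sum_add_distrib, Finset.sum_sub_distrib, Finset.sum_neg_distrib]
    rw [hcanc]
    ring
  have e7 : D.κ * GT D u i p =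
      ∑ k, (∑ j, D.up (F1 D.w k j) p * p.2.2 j) * dz (false, k) (u i) p -
        ∑ k, (∑ j, D.ds (false, j) (D.up (F1 D.w j k)) p) * dz (true, k) (u i) p := by
    rw [e6, mul_sub, Finset.mul_sum, Finset.mul_sum]
    congr 1
    · rw [Finset.sum_congr rfl fun k _ => Finset.mul_sum _ _ _, Finset.sum_comm]
      refine Finset.sum_congr rfl fun k _ => ?_
      rw [Finset.sum_mul]
      refine Finset.sum_congr rfl fun j _ => ?_
      rw [cm_up_symm hD k j hp, ← hF j k]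
      ring
    · rw [Finset.sum_congr rfl fun k _ => Finset.mul_sum _ _ _, Finset.sum_comm]
      refine Finset.sum_congr rfl fun k _ => ?_
      rw [Finset.sum_mul]
      refine Finset.sum_congr rfl fun j _ => ?_
      rw [← hFds j k]
      ring
  have e8 : ∑ m, D.Xf m p * dz m (u i) p =
      -(∑ k, D.up (dy k D.w) p * dz (false, k) (u i) p) + D.lam * (D.κ * GT D u i p) := by
    rw [cm_sum_sl, e7, mul_sub, Finset.mul_sum, Finset.mul_sum]
    have h1 : ∑ k, D.Xf (false, k) p * dz (false, k) (u i) p =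
        -(∑ k, D.up (dy k D.w) p * dz (false, k) (u i) p) +
          ∑ k, D.lam * ((∑ j, D.up (F1 D.w k j) p * p.2.2 j) * dz (false, k) (u i) p) := by
      rw [← Finset.sum_neg_distrib, ← Finset.sum_add_distrib]
      refine Finset.sum_congr rfl fun k _ => ?_
      show (-D.up (dy k D.w) p + D.lam * ∑ j, D.up (F1 D.w k j) p * p.2.2 j) * _ = _
      ring
    have h2 : ∑ k, D.Xf (true, k) p * dz (true, k) (u i) p =
        -∑ k, D.lam * ((∑ j, D.ds (false, j) (D.up (F1 D.w j k)) p) * dz (true, k) (u i) p) := by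
      rw [← Finset.sum_neg_distrib]
      refine Finset.sum_congr rfl fun k _ => ?_
      show (-D.lam * ∑ j, D.ds (false, j) (D.up (F1 D.w j k)) p) * _ = _
      ring
    rw [h1, h2]
    ring
  rw [e4, e5, e8]
  ring

end Vale.Agent.P347.Z
end

section

/-! P347-Z-C3. Sobolev bounds of the basic operators at a fixed time `τ ∈ IT`.

PROOF. By induction on `n` (for all tensor fields at once). `HB (n+1) c u = L2B c u ∧ HB n c (gradT u)`.
* congruence: `HB` only depends on the values at time `τ` in a neighbourhood (`gradT` = space derivatives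
  at fixed time): state congruence for tensor fields which agree at all points with time in `JT`
  (fderiv agree since `JT × univ` is open).
* `HB_add`: Minkowski `L2B_add` and `gradT (u+v) = gradT u + gradT v`.
* `HB_TM`: `gradT (TM M u) = TM (1 ⊗ M) (gradT u)`.
* `HB_TB`: `gradT_TB`, `ampL B` has the same bounds, `mulT` costs `|τ| ≤ 1/2`.
* `HB_divT`: `L2B_divT` for the `L²` norm, and `gradT_divT` for the gradient: `gradT (divT u)
  = divT (swp (gradT u)) + u + mulT (mulT (slotB F1 u))`, where `F1 = κ B0` satisfies `MBn` bounds; induction. -/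

open MeasureTheory Filter Module Set
open scoped ENNReal NNReal

namespace Vale.Agent.P347.Z

variable {d : ℕ} {D : Dat d}

theorem sb_L2B_mono {τ c c' : ℝ} {I : Type} [Fintype I] {u : TF d I} (h : L2B D τ c u)
    (hc : 0 ≤ c) (hcc : c ≤ c') : L2B D τ c' u :=
  le_trans h (pow_le_pow_left₀ hc hcc 2)

theorem HB.mono {τ c c' : ℝ} {n : ℕ} {I : Type} [Fintype I] {u : TF d I} (h : HB D τ n c u)
    (hc : 0 ≤ c) (hcc : c ≤ c') : HB D τ n c' u := by
  induction n generalizing I with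
  | zero => exact sb_L2B_mono h hc hcc
  | succ n ih => exact ⟨sb_L2B_mono h.1 hc hcc, ih h.2⟩

theorem HB.l2 {τ c : ℝ} {n : ℕ} {I : Type} [Fintype I] {u : TF d I} (h : HB D τ n c u) :
    L2B D τ c u := by
  cases n with
  | zero => exact h
  | succ n => exact h.1

theorem HB.mono_n {τ c : ℝ} {n m : ℕ} {I : Type} [Fintype I] {u : TF d I} (h : HB D τ n c u)
    (hm : m ≤ n) : HB D τ m c u := by
  induction m generalizing n I with
  | zero => exact h.l2
  | succ m ih =>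
    cases n with
    | zero => omega
    | succ n => exact ⟨h.1, ih h.2 (by omega)⟩

theorem HB.congr {τ c : ℝ} (hτ : τ ∈ JT) {n : ℕ} {I : Type} [Fintype I] {u v : TF d I}
    (h : HB D τ n c u) (huv : ∀ i (p : ZS d), p.1 ∈ JT → v i p = u i p) : HB D τ n c v := by
  induction n generalizing I with
  | zero =>
    have h1 : L2B D τ c u := h
    have : L2B D τ c v := by
      unfold L2B at *
      simpa only [huv _ (τ, _) hτ] using h1
    exact this
  | succ n ih =>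
    refine ⟨?_, ih h.2 fun m p hp => ?_⟩
    · have h1 : L2B D τ c u := h.1
      unfold L2B at *
      simpa only [huv _ (τ, _) hτ] using h1
    · exact cm_dz_congr (fun q hq => huv m.2 q hq) m.1 hp

theorem sb_grad_cg {I : Type} {u : TF d I} (hu : ∀ i, CG JT (u i)) (m : Sl d × I) :
    CG JT (gradT u m) := (hu m.2).dz m.1

theorem HB_add (hD : D.Ok) {τ : ℝ} (hτ : τ ∈ IT) {n : ℕ} {I : Type} [Fintype I] {u v : TF d I}
    (hu : ∀ i, CG JT (u i)) (hv : ∀ i, CG JT (v i)) {c c' : ℝ} (hc : 0 ≤ c) (hc' : 0 ≤ c')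
    (h : HB D τ n c u) (h' : HB D τ n c' v) : HB D τ n (c + c') (addT u v) := by
  induction n generalizing I with
  | zero => exact L2B_add hD hτ hu hv hc hc' h h'
  | succ n ih =>
    refine ⟨L2B_add hD hτ hu hv hc hc' h.1 h'.1, ?_⟩
    have h1 := ih (sb_grad_cg hu) (sb_grad_cg hv) h.2 h'.2
    exact h1.congr (IT_subset_JT hτ) fun m p hp => cm_dz_add (hu m.2) (hv m.2) m.1 hp

theorem HB_smT (hD : D.Ok) {τ : ℝ} (hτ : τ ∈ IT) {n : ℕ} {I : Type} [Fintype I] {u : TF d I}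
    (hu : ∀ i, CG JT (u i)) {c : ℝ} (a : ℝ) (h : HB D τ n c u) :
    HB D τ n (|a| * c) (smT a u) := by
  have key : ∀ {I : Type} [Fintype I] {u : TF d I}, L2B D τ c u → L2B D τ (|a| * c) (smT a u) := by
    intro I _ u h
    unfold L2B at *
    have h1 : ∀ z, ∑ i, (smT a u i (τ, z)) ^ 2 = a ^ 2 * ∑ i, (u i (τ, z)) ^ 2 := fun z => by
      rw [Finset.mul_sum]
      exact Finset.sum_congr rfl fun i _ => by unfold smT; ring
    simp only [h1]
    rw [integral_const_mul, mul_pow, sq_abs]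
    exact mul_le_mul_of_nonneg_left h (sq_nonneg a)
  induction n generalizing I with
  | zero => exact key h
  | succ n ih =>
    refine ⟨key h.1, ?_⟩
    exact (ih (sb_grad_cg hu) h.2).congr (IT_subset_JT hτ)
      fun m p hp => cm_dz_cmul (hu m.2) a m.1 hp

theorem HB_mulT (hD : D.Ok) {τ : ℝ} (hτ : τ ∈ IT) {n : ℕ} {I : Type} [Fintype I] {u : TF d I}
    (hu : ∀ i, CG JT (u i)) {c : ℝ} (hc : 0 ≤ c) (h : HB D τ n c u) : HB D τ n c (mulT u) := by
  have hτ1 : τ ^ 2 ≤ 1 := by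
    obtain ⟨h1, h2⟩ := hτ
    nlinarith only [h2, h1]
  have key : ∀ {I : Type} [Fintype I] {u : TF d I}, L2B D τ c u → L2B D τ c (mulT u) := by
    intro I _ u h
    unfold L2B at *
    have h1 : ∀ z, ∑ i, (mulT u i (τ, z)) ^ 2 = τ ^ 2 * ∑ i, (u i (τ, z)) ^ 2 := fun z => by
      rw [Finset.mul_sum]
      exact Finset.sum_congr rfl fun i _ => by unfold mulT; simp only; ring
    simp only [h1]
    rw [integral_const_mul]
    have h2 : 0 ≤ ∫ z, ∑ i, (u i (τ, z)) ^ 2 ∂(D.mu τ) :=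
      integral_nonneg fun z => Finset.sum_nonneg fun i _ => sq_nonneg _
    calc τ ^ 2 * ∫ z, ∑ i, (u i (τ, z)) ^ 2 ∂(D.mu τ)
        ≤ 1 * ∫ z, ∑ i, (u i (τ, z)) ^ 2 ∂(D.mu τ) := mul_le_mul_of_nonneg_right hτ1 h2
      _ ≤ c ^ 2 := by rwa [one_mul]
  induction n generalizing I with
  | zero => exact key h
  | succ n ih =>
    refine ⟨key h.1, ?_⟩
    exact (ih (sb_grad_cg hu) h.2).congr (IT_subset_JT hτ)
      fun m p hp => cm_dz_timeMul (hu m.2) m.1 hp

/-- Pointwise domination of squares gives domination of `L2B`. -/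
theorem sb_L2B_le (hD : D.Ok) {τ : ℝ} (hτ : τ ∈ IT) {K I : Type} [Fintype K] [Fintype I]
    {v : TF d K} {u : TF d I} (hu : ∀ i, CG JT (u i)) {a c : ℝ}
    (hp : ∀ z, ∑ k, (v k (τ, z)) ^ 2 ≤ a ^ 2 * ∑ i, (u i (τ, z)) ^ 2) (h : L2B D τ c u) :
    L2B D τ (a * c) v := by
  unfold L2B at *
  have hi : Integrable (fun z => ∑ i, (u i (τ, z)) ^ 2) (D.mu τ) := by
    refine integrable_finset_sum _ fun i _ => ?_
    have h1 := mu_integrable hD (IT_subset_JT hτ) (CG.mul isOpen_JT (hu i) (hu i))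
    refine h1.congr (Eventually.of_forall fun z => ?_)
    simp only [sq]
  calc ∫ z, ∑ k, (v k (τ, z)) ^ 2 ∂(D.mu τ)
      ≤ ∫ z, a ^ 2 * ∑ i, (u i (τ, z)) ^ 2 ∂(D.mu τ) :=
        integral_mono_of_nonneg (Eventually.of_forall fun z =>
          Finset.sum_nonneg fun i _ => sq_nonneg _) (hi.const_mul _) (Eventually.of_forall hp)
    _ = a ^ 2 * ∫ z, ∑ i, (u i (τ, z)) ^ 2 ∂(D.mu τ) := integral_const_mul _ _
    _ ≤ a ^ 2 * c ^ 2 := mul_le_mul_of_nonneg_left h (sq_nonneg a)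
    _ = (a * c) ^ 2 := by ring

theorem sb_opM_amp {K I A : Type} [Fintype K] [Fintype I] [Fintype A] [DecidableEq A]
    {M : K → I → ℝ} {a : ℝ} (hM : opM a M) :
    opM a (fun (k : A × K) (i : A × I) => if k.1 = i.1 then M k.2 i.2 else 0) := by
  intro x
  have h1 : ∀ k : A × K, ∑ i : A × I, (if k.1 = i.1 then M k.2 i.2 else 0) * x i
      = ∑ i, M k.2 i * x (k.1, i) := fun k => by
    rw [Fintype.sum_prod_type, Finset.sum_eq_single k.1]
    · simp only [↓reduceIte]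
    · intro b _ hb
      refine Finset.sum_eq_zero fun i _ => ?_
      rw [if_neg (fun h => hb h.symm), zero_mul]
    · intro h
      exact absurd (Finset.mem_univ _) h
  simp only [h1]
  rw [Fintype.sum_prod_type, Fintype.sum_prod_type, Finset.mul_sum]
  exact Finset.sum_le_sum fun b _ => hM fun i => x (b, i)

theorem HB_TM (hD : D.Ok) {τ : ℝ} (hτ : τ ∈ IT) {n : ℕ} {K I : Type} [Fintype K] [Fintype I]
    {M : K → I → ℝ} {u : TF d I} (hu : ∀ i, CG JT (u i)) {a c : ℝ} (ha : 0 ≤ a) (hM : opM a M)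
    (h : HB D τ n c u) : HB D τ n (a * c) (TM M u) := by
  induction n generalizing K I with
  | zero => exact sb_L2B_le hD hτ hu (fun z => hM fun i => u i (τ, z)) h
  | succ n ih =>
    refine ⟨sb_L2B_le hD hτ hu (fun z => hM fun i => u i (τ, z)) h.1, ?_⟩
    have h1 := ih (sb_grad_cg hu) (sb_opM_amp (A := Sl d) hM) h.2
    refine h1.congr (IT_subset_JT hτ) fun m p hp => ?_
    obtain ⟨m, k⟩ := m
    show dz m (fun q => ∑ i, M k i * u i q) p = ∑ i : Sl d × I, _ * _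
    rw [cm_dz_sum _ (fun i _ => CG.mul isOpen_JT (CG.const isOpen_JT _) (hu i)) m hp,
      Fintype.sum_prod_type, Finset.sum_eq_single m]
    · refine Finset.sum_congr rfl fun i _ => ?_
      rw [cm_dz_cmul (hu i) _ m hp]
      simp [gradT]
    · intro b _ hb
      refine Finset.sum_eq_zero fun i _ => ?_
      show (if m = b then M k i else 0) * _ = 0
      rw [if_neg (Ne.symm hb), zero_mul]
    · intro h
      exact absurd (Finset.mem_univ _) h

theorem opM_mE (I : Type) [Fintype I] [DecidableEq I] : opM 1 (mE d I) := by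
  intro x
  have h1 : ∀ m : Sl d × I, ∑ n, mE d I m n * x n = if m.1.1 then 0 else x (m.1.2, m.2) := fun m =>
    cm_mE (fun n _ => x n) m (0 : ZS d)
  simp only [h1]
  rw [one_pow, one_mul, Fintype.sum_prod_type, cm_sum_sl]
  simp only [Bool.false_eq_true, ↓reduceIte, ne_eq, OfNat.ofNat_ne_zero, not_false_eq_true, zero_pow, Finset.sum_const_zero, add_zero, Fintype.sum_prod_type, Std.le_refl]

theorem opM_mP (I : Type) [Fintype I] [DecidableEq I] : opM 1 (mP d I) := by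
  intro x
  have h1 : ∀ m : Fin d × I, ∑ n, mP d I m n * x n = x ((false, m.1), m.2) := fun m =>
    cm_mP (fun n _ => x n) m (0 : ZS d)
  simp only [h1]
  rw [one_pow, one_mul, Fintype.sum_prod_type, Fintype.sum_prod_type, cm_sum_sl]
  have h2 : 0 ≤ ∑ k : Fin d, ∑ i : I, x ((true, k), i) ^ 2 :=
    Finset.sum_nonneg fun k _ => Finset.sum_nonneg fun i _ => sq_nonneg _
  linarith

theorem opM_mJ (I : Type) [Fintype I] [DecidableEq I] : opM 1 (mJ d I) := by
  intro x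
  have h1 : ∀ m : Sl d × I, ∑ n, mJ d I m n * x n =
      if m.1.1 then x ((false, m.1.2), m.2) else -x ((true, m.1.2), m.2) := fun m =>
    cm_mJ (fun n _ => x n) m (0 : ZS d)
  have hL : ∀ f : Sl d × I → ℝ, ∑ m, f m = (∑ k, ∑ i, f ((false, k), i)) +
      ∑ k, ∑ i, f ((true, k), i) := fun f => by rw [Fintype.sum_prod_type, cm_sum_sl]
  simp only [h1]
  rw [one_pow, one_mul, hL, hL (fun i => x i ^ 2)]
  simp only [if_true, Bool.false_eq_true, if_false, neg_sq]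
  linarith

theorem sb_MBn_ampL (hw : CG (Ioi 0) D.w) {n : ℕ} {b : ℝ} {K I : Type} [Fintype K] [Fintype I]
    {B : MF d K I} (cB : ∀ k i, CG (Ioi 0) (B k i)) (h : MBn D.w Lev n b B) (A : Type) [Fintype A]
    [DecidableEq A] : MBn D.w Lev n b (ampL A B) := by
  have hS : Lev ⊆ Ioi 0 := fun x hx => lt_of_lt_of_le (by norm_num) hx.1
  have h1 := MBn_amp hw hS cB h A
  have cA : ∀ k i, CG (Ioi 0) (amp B A k i) := fun k i => by
    unfold amp
    by_cases hki : k.2 = i.2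
    · simp only [hki, if_true]; exact cB _ _
    · simp only [hki, if_false]; exact CG.const isOpen_Ioi 0
  exact MBn_rei hw hS cA h1 (e := Prod.swap) (f := Prod.swap) Prod.swap_injective
    Prod.swap_injective

theorem sb_ampL_cg {K I A : Type} [DecidableEq A] {B : MF d K I}
    (cB : ∀ k i, CG (Ioi 0) (B k i)) (k : A × K) (i : A × I) : CG (Ioi 0) (ampL A B k i) := by
  unfold ampL
  by_cases hki : k.1 = i.1
  · simp only [hki, if_true]; exact cB _ _
  · simp only [hki, if_false]; exact CG.const isOpen_Ioi 0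

theorem HB_TB (hD : D.Ok) {τ : ℝ} (hτ : τ ∈ IT) {n : ℕ} {K I : Type} [Fintype K] [Fintype I]
    {B : MF d K I} (cB : ∀ k i, CG (Ioi 0) (B k i)) {u : TF d I} (hu : ∀ i, CG JT (u i))
    {b c : ℝ} (hb : 0 ≤ b) (hc : 0 ≤ c) (hB : MBn D.w Lev n b B) (h : HB D τ n c u) :
    HB D τ n (2 ^ n * (b * c)) (D.TB B u) := by
  classical
  have key : ∀ {K I : Type} [Fintype K] [Fintype I] {B : MF d K I} {u : TF d I},
      (∀ i, CG JT (u i)) → opB Lev b B → L2B D τ c u → L2B D τ (b * c) (D.TB B u) := by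
    intro K I _ _ B u hu hB h
    exact sb_L2B_le hD hτ hu (fun z => hB _ (hD.lev_mem hτ) _ fun i => u i (τ, z)) h
  induction n generalizing K I c with
  | zero =>
    rw [pow_zero, one_mul]
    exact key hu hB h
  | succ n ih =>
    have hbc : 0 ≤ b * c := mul_nonneg hb hc
    have h2 : (1 : ℝ) ≤ 2 ^ (n + 1) := one_le_pow₀ one_le_two
    refine ⟨sb_L2B_mono (key hu hB.1 h.1) hbc (le_mul_of_one_le_left hbc h2), ?_⟩
    have hw := hD.heat.cg
    have hBn : MBn D.w Lev n b B := MBn.mono_n hB (Nat.le_succ n)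
    have g1 := ih (sb_ampL_cg (A := Sl d) cB) (sb_grad_cg hu) hc
      (sb_MBn_ampL hw cB hBn (Sl d)) h.2 key
    have cD : ∀ k i, CG (Ioi 0) (Dout B k i) := fun k i => (cB k.2 i).dy k.1
    have g2 := ih cD hu hc hB.2.1 (h.mono_n (Nat.le_succ n)) key
    have cT : ∀ k, CG JT (D.TB (Dout B) u k) := TB_cg hD cD hu
    have g3 := HB_TM hD hτ cT zero_le_one (opM_mE (d := d) K) g2
    rw [one_mul] at g3
    have g4 := HB_mulT hD hτ (TM_cg (mE d K) cT) (by (clear * - hb hc; positivity)) g3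
    have g5 := HB_add hD hτ (TB_cg hD (sb_ampL_cg (A := Sl d) cB) (sb_grad_cg hu))
      (fun k => CG.mul isOpen_JT cm_cgT (TM_cg (mE d K) cT k)) (by (clear * - hb hc; positivity)) (by (clear * - hb hc; positivity)) g1 g4
    have e : 2 ^ n * (b * c) + 2 ^ n * (b * c) = 2 ^ (n + 1) * (b * c) := by ring
    rw [e] at g5
    exact g5.congr (IT_subset_JT hτ) fun m p hp => gradT_TB hD cB hu m hp

theorem sb_rei {τ c : ℝ} (hτ : τ ∈ JT) {n : ℕ} {I I' : Type} [Fintype I] [Fintype I'] (e : I' ≃ I)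
    {u : TF d I} (h : HB D τ n c u) : HB D τ n c (fun i => u (e i)) := by
  have key : ∀ {I I' : Type} [Fintype I] [Fintype I'] (e : I' ≃ I) {u : TF d I}, L2B D τ c u →
      L2B D τ c (fun i => u (e i)) := by
    intro I I' _ _ e u h
    unfold L2B at *
    have h1 : ∀ z, ∑ i, (u (e i) (τ, z)) ^ 2 = ∑ i, (u i (τ, z)) ^ 2 := fun z =>
      Equiv.sum_comp e fun i => (u i (τ, z)) ^ 2
    simpa only [h1] using h
  induction n generalizing I I' with
  | zero => exact key e h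
  | succ n ih =>
    refine ⟨key e h.1, ?_⟩
    exact ih (Equiv.prodCongr (Equiv.refl (Sl d)) e) h.2

theorem sb_slotB (hD : D.Ok) {τ : ℝ} (hτ : τ ∈ IT) {n : ℕ} {I : Type} [Fintype I] [DecidableEq I]
    {u : TF d (Sl d × I)} (hu : ∀ i, CG JT (u i)) {b c : ℝ} (hb : 0 ≤ b) (hc : 0 ≤ c)
    (hB : MBn D.w Lev n b (F1 D.w)) (h : HB D τ n c u) :
    HB D τ n (2 ^ n * (b * c)) (slotB D (F1 D.w) u) ∧
      ∀ i, CG JT (slotB D (F1 D.w) u i) := by
  have hw := hD.heat.cg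
  have hS : Lev ⊆ Ioi 0 := fun x hx => lt_of_lt_of_le (by norm_num) hx.1
  have c1 : ∀ i, CG JT (TM (mP d I) u i) := TM_cg (mP d I) hu
  have c2 : ∀ k i, CG (Ioi 0) (amp (F1 D.w) I k i) := fun k i => by
    unfold amp
    by_cases hki : k.2 = i.2
    · simp only [hki, if_true]; exact cm_F1_cg hD _ _
    · simp only [hki, if_false]; exact CG.const isOpen_Ioi 0
  have g1 := HB_TM hD hτ hu zero_le_one (opM_mP (d := d) I) h
  rw [one_mul] at g1
  have g2 := HB_TB hD hτ c2 c1 hb hc (MBn_amp hw hS (fun i j => cm_F1_cg hD i j) hB I) g1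
  have c3 : ∀ i, CG JT (D.TB (amp (F1 D.w) I) (TM (mP d I) u) i) := TB_cg hD c2 c1
  have g3 := HB_TM hD hτ c3 zero_le_one (opM_mE (d := d) I) g2
  rw [one_mul] at g3
  exact ⟨g3, TM_cg (mE d I) c3⟩

theorem HB_divT (n : ℕ) : ∃ C, 0 ≤ C ∧ ∀ (d : ℕ) (D : Dat d), D.Ok → ∀ τ ∈ IT,
    ∀ (I : Type) [Fintype I] (u : TF d (Sl d × I)), (∀ i, CG JT (u i)) → ∀ c, 0 ≤ c →
      (∀ b, 0 ≤ b → MBn D.w Lev n b (F1 D.w) → HB D τ (n + 1) c u →
        HB D τ n (C * (1 + b) ^ n * c) (D.divT u)) := by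
  classical
  induction n with
  | zero =>
    refine ⟨2, by norm_num, fun d D hD τ hτ I _ u hu c hc b hb hB h => ?_⟩
    rw [pow_zero, mul_one]
    exact L2B_divT hD hτ hu hc h
  | succ n ih =>
    obtain ⟨C, hC, ih⟩ := ih
    refine ⟨C + 2 ^ n + 3, by (clear * - hC; positivity), fun d D hD τ hτ I _ u hu c hc b hb hB h => ?_⟩
    have h1b : (1 : ℝ) ≤ (1 + b) ^ (n + 1) := one_le_pow₀ (by linarith)
    have hτJ := IT_subset_JT hτ
    have l1 := L2B_divT hD hτ hu hc (h.mono_n (by omega : 1 ≤ n + 1 + 1))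
    refine ⟨sb_L2B_mono l1 (by (clear * - hc; positivity)) ?_, ?_⟩
    · have h2 : (0 : ℝ) ≤ 2 ^ n := by positivity
      calc 2 * c ≤ ((C + 2 ^ n + 3) * 1) * c := by
            apply mul_le_mul_of_nonneg_right _ hc
            linarith only [hC, h2]
        _ ≤ (C + 2 ^ n + 3) * (1 + b) ^ (n + 1) * c := by
            apply mul_le_mul_of_nonneg_right _ hc
            exact mul_le_mul_of_nonneg_left h1b (by (clear * - hC; positivity))
    have hBn : MBn D.w Lev n b (F1 D.w) := MBn.mono_n hB (Nat.le_succ n)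
    -- first term
    let e : (Sl d × (Sl d × I)) ≃ (Sl d × (Sl d × I)) :=
      { toFun := fun m => (m.2.1, (m.1, m.2.2))
        invFun := fun m => (m.2.1, (m.1, m.2.2))
        left_inv := fun m => rfl
        right_inv := fun m => rfl }
    have s1 : HB D τ (n + 1) c (swp (gradT u)) := sb_rei hτJ e h.2
    have cs : ∀ i, CG JT (swp (gradT u) i) := fun i => sb_grad_cg hu _
    have t1 := ih d D hD τ hτ (Sl d × I) (swp (gradT u)) cs c hc b hb hBn s1
    -- second term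
    have t2 : HB D τ n c u := h.mono_n (by omega)
    -- third term
    obtain ⟨t3, c3⟩ := sb_slotB hD hτ hu hb hc hBn t2
    have c4 : ∀ i, CG JT (mulT (slotB D (F1 D.w) u) i) := fun i =>
      CG.mul isOpen_JT cm_cgT (c3 i)
    have c5 : ∀ i, CG JT (mulT (mulT (slotB D (F1 D.w) u)) i) := fun i =>
      CG.mul isOpen_JT cm_cgT (c4 i)
    have t4 := HB_mulT hD hτ c3 (by (clear * - hb hc; positivity)) t3
    have t5 := HB_mulT hD hτ c4 (by (clear * - hb hc; positivity)) t4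
    have cdiv : ∀ i, CG JT (D.divT (swp (gradT u)) i) := divT_cg hD cs
    have a1 := HB_add hD hτ cdiv hu (by (clear * - hC hb hc; positivity)) hc t1 t2
    have c6 : ∀ i, CG JT (addT (D.divT (swp (gradT u))) u i) := fun i =>
      CG.add isOpen_JT (cdiv i) (hu i)
    have a2 := HB_add hD hτ c6 c5 (by (clear * - hC hb hc; positivity)) (by (clear * - hb hc; positivity)) a1 t5
    have a3 := a2.congr hτJ (v := gradT (D.divT u)) fun m p hp => gradT_divT hD hu m hp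
    refine a3.mono (by (clear * - hC hb hc; positivity)) ?_
    have h2 : (0 : ℝ) ≤ 2 ^ n := by positivity
    have h3 : (1 + b) ^ n ≤ (1 + b) ^ (n + 1) := pow_le_pow_right₀ (by linarith) (Nat.le_succ n)
    have h4 : b ≤ (1 + b) ^ (n + 1) := by
      have : (1 + b) ^ 1 ≤ (1 + b) ^ (n + 1) := pow_le_pow_right₀ (by linarith) (by omega)
      rw [pow_one] at this
      linarith
    have h5 : C * (1 + b) ^ n * c + c + 2 ^ n * (b * c)
        ≤ (C * (1 + b) ^ (n + 1) + (1 + b) ^ (n + 1) + 2 ^ n * (1 + b) ^ (n + 1)) * c := by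
      have e1 : C * (1 + b) ^ n ≤ C * (1 + b) ^ (n + 1) := mul_le_mul_of_nonneg_left h3 hC
      have e2 : 2 ^ n * b ≤ 2 ^ n * (1 + b) ^ (n + 1) := mul_le_mul_of_nonneg_left h4 h2
      have e3 : C * (1 + b) ^ n * c + c + 2 ^ n * (b * c)
          = (C * (1 + b) ^ n + 1 + 2 ^ n * b) * c := by ring
      rw [e3]
      apply mul_le_mul_of_nonneg_right _ hc
      linarith only [h1b, e1, e2]
    refine h5.trans ?_
    apply mul_le_mul_of_nonneg_right _ hc
    have h6 : (C + 2 ^ n + 3) * (1 + b) ^ (n + 1) = (C * (1 + b) ^ (n + 1) + (1 + b) ^ (n + 1)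
        + 2 ^ n * (1 + b) ^ (n + 1)) + 2 * (1 + b) ^ (n + 1) := by ring
    rw [h6]
    have h7 : 0 ≤ 2 * (1 + b) ^ (n + 1) := by (clear * - hb; positivity)
    linarith only [h1b]

end Vale.Agent.P347.Z
end

section
attribute [-instance] ProperSMul.toContinuousSMul IsTopologicalTorsor.toContinuousSMul IdemSemiring.toCanonicallyOrderedAdd IdemSemiring.toMulLeftMono IdemSemiring.toMulRightMono AddQuantale.instAddLeftMono AddQuantale.instAddRightMono Quantale.instMulLeftMono Quantale.instMulRightMono FiniteDimensional.rclike_to_real IsScalarTower.complexToReal FiniteDimensional.complexToReal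

/-! P347-Z-B2. One derivative of a multiplier from the representation by lower levels.

PROOF. Let `l0 ∈ [l1+δ, l2]`, `T = √δ`. By `nu_expect` for each entry,
`B(l0,Y) = ∫ B(l0-T²,·) dν_T^Y - ∫_0^T 2t ∫ (P B)(l0-t²,·) dν_t^Y dt`. By `nu_post` the inner integrals are
posterior expectations `∫ h(y) d gibbs (post (w(l,·)) (t²) Y)`, and
`∂_{Y,m} ∫ h d gibbs(post W t² Y) = t⁻² Cov(h, y_m)` (differentiate under the integral; bounded `h`; e.g.
`gibbs_hasDerivAt`). Hence for `z : Fin d × K → ℝ` and `x : I → ℝ` with Euclidean norms ≤ 1 (new slot in the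
output; put the vector `y ↦ ∑_m z(m,·) ỹ_m`, `ỹ = y - mean`, on the row side):
`|∑ z(m,k) ∂_m (∫ B) x| = t⁻² |∫ ∑_{k,i} B_{ki}(y) (∑_m z(m,k) ỹ_m) x_i| ≤ t⁻² c ∫ |∑_m z(m,·) ỹ_m| |x|
 ≤ t⁻² c (∑_k Var(∑_m z(m,k) y_m))^{1/2} ≤ t⁻¹ c` because the covariance of the posterior is `≤ t²`
(`post_var_lin`). Same for the new slot in the input. The second term gives `∫_0^T 2t t⁻¹ c' dt = 2 T c'`
(differentiate under the `dt` integral; the integrand is bounded). -/

set_option linter.all false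

open MeasureTheory Filter Module Set
open scoped ENNReal NNReal

namespace Vale.Agent.P347.Z

variable {d : ℕ} {κ : ℝ} {w : ℝ × Eu d → ℝ}

/-- Covariance with a linear form under the posterior. -/
noncomputable def smC (W : Eu d → ℝ) (s : ℝ) (Y : Eu d) (g : Eu d → ℝ) (u : Eu d) : ℝ :=
  (∫ x, (inner ℝ x u : ℝ) * g x ∂(gibbs (post W s Y)))
    - (∫ x, (inner ℝ x u : ℝ) ∂(gibbs (post W s Y))) * ∫ x, g x ∂(gibbs (post W s Y))

/-- Derivative of posterior expectations when the observation moves on a line. -/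
lemma sm_hasDerivAt {W : Eu d → ℝ} {F : Eu d → Eu d} (hW : CPot W F) {s : ℝ} (hs : 0 < s)
    (Y u : Eu d) {g : Eu d → ℝ} (cg : Continuous g) (pg : PG g) (ε0 : ℝ) :
    HasDerivAt (fun ε : ℝ => ∫ x, g x ∂(gibbs (post W s (Y + ε • u))))
      ((1 / s) * smC W s (Y + ε0 • u) g u) ε0 := by
  obtain ⟨C, k, hC, hg⟩ := pg.nonneg_bound
  have cV := hW.contW
  set B : ℝ := ‖Y‖ + (|ε0| + 1) * ‖u‖ with hB
  have hB0 : 0 ≤ B := by (clear * -; positivity)
  have bY : ∀ t : ℝ, |t - ε0| < 1 → ‖Y + t • u‖ ≤ B := by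
    intro t ht
    refine (norm_add_le _ _).trans ?_
    rw [norm_smul, Real.norm_eq_abs, hB]
    have h1 : |t| ≤ |ε0| + 1 := by
      calc |t| = |(t - ε0) + ε0| := by ring_nf
        _ ≤ |t - ε0| + |ε0| := abs_add_le _ _
        _ ≤ |ε0| + 1 := by linarith only [ht]
    (clear * - h1; gcongr)
  have key := gibbs_hasDerivAt (U := fun t => post W s (Y + t • u))
    (U' := fun t x => -(inner ℝ (x - (Y + t • u)) u) / s) (h := fun _ => g) (h' := fun _ _ => 0)
    (t0 := ε0) (r := 1) (a := 1 / (8 * s)) (b := B ^ 2 / (2 * s) + 2 * s * ‖F 0‖ ^ 2 - W 0)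
    (C := C + (1 + B) * ‖u‖ / s) (k := k + 1) one_pos (by positivity)
    (fun t ht x => by
      have hY : HasDerivAt (fun t : ℝ => Y + t • u) u t := by
        have := ((hasDerivAt_id t).smul_const u).const_add Y
        simpa using this
      have h1 : HasDerivAt (fun t => ‖x - (Y + t • u)‖ ^ 2)
          (2 * inner ℝ (x - (Y + t • u)) (-u)) t := by
        have := (hY.const_sub x).norm_sq
        simpa only [inner_neg_right, mul_neg] using this
      have h2 := (h1.div_const (2 * s)).const_add (W x)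
      refine h2.congr_deriv ?_
      rw [inner_neg_right]
      (clear * - hs; field_simp))
    (fun t ht x => hasDerivAt_const _ _) (fun t ht => by unfold post; fun_prop)
    (fun t ht => by
      have : Continuous fun x : Eu d => (inner ℝ (x - (Y + t • u)) u : ℝ) := by fun_prop
      exact (this.neg).div_const s)
    (fun t _ => cg) (fun t _ => continuous_const)
    (fun t ht x => by
      have h1 := hW.post_low hs x (Y + t • u)
      have h2 : ‖Y + t • u‖ ^ 2 / (2 * s) ≤ B ^ 2 / (2 * s) := by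
        have := bY t ht
        (clear * - this hs; gcongr)
      linarith only [h1, h2])
    (fun t ht x => by
      have h1 := abs_real_inner_le_norm (x - (Y + t • u)) u
      have h2 : ‖x - (Y + t • u)‖ ≤ ‖x‖ + B := (norm_sub_le _ _).trans (by gcongr; exact bY t ht)
      have h3 : |-(inner ℝ (x - (Y + t • u)) u) / s| ≤ (‖x‖ + B) * ‖u‖ / s := by
        rw [abs_div, abs_neg, abs_of_pos hs]
        gcongr
        exact h1.trans (mul_le_mul_of_nonneg_right h2 (norm_nonneg _))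
      refine h3.trans ?_
      have h4 : (‖x‖ + B) * ‖u‖ / s ≤ ((1 + B) * ‖u‖ / s) * (1 + ‖x‖) := by
        have : (‖x‖ + B) * ‖u‖ ≤ (1 + B) * ‖u‖ * (1 + ‖x‖) := by
          have h5 := norm_nonneg x
          have h6 := norm_nonneg u
          nlinarith only [h6, mul_nonneg (mul_nonneg hB0 h6) h5]
        calc (‖x‖ + B) * ‖u‖ / s ≤ ((1 + B) * ‖u‖ * (1 + ‖x‖)) / s := by (clear * - this hs; gcongr)
          _ = _ := by ring
      refine h4.trans ?_
      have h5 := one_le_one_add_norm x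
      have h6 : (1 + ‖x‖) ≤ (1 + ‖x‖) ^ (k + 1) := by
        calc (1 + ‖x‖) = (1 + ‖x‖) ^ 1 := (pow_one _).symm
          _ ≤ _ := pow_le_pow_right₀ h5 (by (clear * -; omega))
      have h7 : 0 ≤ (1 + B) * ‖u‖ / s := by (clear * - hs; positivity)
      exact mul_le_mul (by linarith only [hC]) h6 (by linarith only [h5]) (by (clear * - hC hs; positivity)))
    (fun t ht x => (hg x).trans (by
      have h5 := one_le_one_add_norm x
      have h6 : 0 ≤ (1 + B) * ‖u‖ / s := by (clear * - hs; positivity)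
      gcongr
      · linarith only [h6]
      · omega))
    (fun t ht x => by
      rw [norm_zero]
      have h5 := one_le_one_add_norm x
      (clear * - hC hs; positivity))
  refine key.congr_deriv ?_
  have hA := hW.post_adm hs (Y + ε0 • u)
  have := hA.isProb
  have ih : Integrable g (gibbs (post W s (Y + ε0 • u))) := hA.integrable pg cg.aestronglyMeasurable
  have i1 : Integrable (fun x : Eu d => (inner ℝ x u : ℝ)) (gibbs (post W s (Y + ε0 • u))) :=
    hA.integrable (PG.id.inner (PG.const _)) (by fun_prop)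
  have i2 : Integrable (fun x : Eu d => (inner ℝ x u : ℝ) * g x)
      (gibbs (post W s (Y + ε0 • u))) :=
    hA.integrable ((PG.id.inner (PG.const _)).mul pg) (by fun_prop)
  have e1 : ∫ x, (-(inner ℝ (x - (Y + ε0 • u)) u) / s) • g x ∂(gibbs (post W s (Y + ε0 • u)))
      = -(1 / s) * (∫ x, (inner ℝ x u : ℝ) * g x ∂(gibbs (post W s (Y + ε0 • u))))
        + (inner ℝ (Y + ε0 • u) u / s) * ∫ x, g x ∂(gibbs (post W s (Y + ε0 • u))) := by
    rw [← integral_const_mul, ← integral_const_mul, ← integral_add (i2.const_mul _)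
      (ih.const_mul _)]
    refine integral_congr_ae (Eventually.of_forall fun x => ?_)
    simp only [inner_sub_left, smul_eq_mul]
    ring
  have e2 : ∫ x, -(inner ℝ (x - (Y + ε0 • u)) u) / s ∂(gibbs (post W s (Y + ε0 • u)))
      = -(1 / s) * (∫ x, (inner ℝ x u : ℝ) ∂(gibbs (post W s (Y + ε0 • u))))
        + (inner ℝ (Y + ε0 • u) u / s) := by
    have : ∀ x : Eu d, -(inner ℝ (x - (Y + ε0 • u)) u) / s = -(1 / s) * (inner ℝ x u : ℝ)
        + (inner ℝ (Y + ε0 • u) u / s) := fun x => by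
      rw [inner_sub_left]; ring
    simp_rw [this]
    rw [integral_add (i1.const_mul _) (integrable_const _), integral_const_mul, integral_const,
      probReal_univ, one_smul]
  rw [e1, e2, integral_zero]
  unfold smC
  simp only [smul_eq_mul]
  ring

/-- Sums of covariances. -/
lemma sm_cov_sum {W : Eu d → ℝ} {F : Eu d → Eu d} (hW : CPot W F) {s : ℝ} (hs : 0 < s)
    (Y : Eu d) {J : Type} [Fintype J] {g : J → Eu d → ℝ} (cg : ∀ j, Continuous (g j)) {M : ℝ}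
    (hM : ∀ y, ∑ j, (g j y) ^ 2 ≤ M ^ 2) (u : J → Eu d) :
    (∑ j, smC W s Y (g j) (u j)) ^ 2 ≤ M ^ 2 * s * ∑ j, ‖u j‖ ^ 2 := by
  have hA := hW.post_adm hs Y
  have := hA.isProb
  set μ := gibbs (post W s Y) with hμ
  have hg1 : ∀ j y, |g j y| ≤ |M| := by
    intro j y
    rw [← sq_le_sq]
    exact (Finset.single_le_sum (f := fun j => (g j y) ^ 2) (fun i _ => sq_nonneg _)
      (Finset.mem_univ j)).trans (hM y)
  have pg : ∀ j, PG (g j) := fun j => ⟨|M|, 0, fun x => by simpa only [Real.norm_eq_abs, pow_zero, mul_one] using hg1 j x⟩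
  set m : J → ℝ := fun j => ∫ x, (inner ℝ x (u j) : ℝ) ∂μ with hm
  have i1 : ∀ j, Integrable (fun x : Eu d => (inner ℝ x (u j) : ℝ)) μ := fun j =>
    hA.integrable (PG.id.inner (PG.const _)) (by fun_prop)
  have i11 : ∀ j, Integrable (fun x : Eu d => (inner ℝ x (u j) : ℝ) ^ 2) μ := fun j =>
    hA.integrable ((PG.id.inner (PG.const _)).pow 2) (by fun_prop)
  have ig : ∀ j, Integrable (g j) μ := fun j => hA.integrable (pg j) (cg j).aestronglyMeasurable
  have i2 : ∀ j, Integrable (fun x : Eu d => (inner ℝ x (u j) : ℝ) * g j x) μ := fun j => by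
    have := cg j
    exact hA.integrable ((PG.id.inner (PG.const _)).mul (pg j)) (by (clear * - this; fun_prop))
  have e1 : ∑ j, smC W s Y (g j) (u j) = ∫ x, ∑ j, ((inner ℝ x (u j) : ℝ) - m j) * g j x ∂μ := by
    rw [integral_finset_sum]
    · apply Finset.sum_congr rfl
      intro j _
      unfold smC
      rw [← hμ, ← integral_const_mul, ← integral_sub (i2 j) ((ig j).const_mul _)]
      refine integral_congr_ae (Eventually.of_forall fun x => ?_)
      simp only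
      ring
    · intro j _
      have : (fun x : Eu d => ((inner ℝ x (u j) : ℝ) - m j) * g j x)
          = fun x => (inner ℝ x (u j) : ℝ) * g j x - m j * g j x := by funext x; ring
      rw [this]
      exact (i2 j).sub ((ig j).const_mul _)
  have cP : Continuous fun x : Eu d => ∑ j, ((inner ℝ x (u j) : ℝ) - m j) * g j x := by
    have := cg
    fun_prop
  have pP : PG fun x : Eu d => ∑ j, ((inner ℝ x (u j) : ℝ) - m j) * g j x := by
    have h1 : ∀ S : Finset J, PG fun x : Eu d => ∑ j ∈ S, ((inner ℝ x (u j) : ℝ) - m j) * g j x := by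
      classical
      intro S
      induction S using Finset.induction_on with
      | empty => simpa only [Finset.sum_empty] using PG.const (0 : ℝ)
      | insert a S ha ih =>
        simp only [Finset.sum_insert ha]
        exact (((PG.id.inner (PG.const _)).sub (PG.const _)).mul (pg a)).add ih
    exact h1 _
  have h1 := var_nonneg (μ := μ) (hA.integrable pP cP.aestronglyMeasurable)
    (hA.integrable (pP.pow 2) (cP.pow 2).aestronglyMeasurable)
  rw [← e1] at h1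
  have h2 : ∫ x, (∑ j, ((inner ℝ x (u j) : ℝ) - m j) * g j x) ^ 2 ∂μ
      ≤ ∫ x, M ^ 2 * ∑ j, ((inner ℝ x (u j) : ℝ) - m j) ^ 2 ∂μ := by
    apply integral_mono (hA.integrable (pP.pow 2) (cP.pow 2).aestronglyMeasurable)
    · apply Integrable.const_mul
      apply integrable_finset_sum
      intro j _
      have : (fun x : Eu d => ((inner ℝ x (u j) : ℝ) - m j) ^ 2)
          = fun x => (inner ℝ x (u j) : ℝ) ^ 2 + (-(2 * m j) * (inner ℝ x (u j) : ℝ) + m j ^ 2) := by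
        funext x; ring
      rw [this]
      exact (i11 j).add (((i1 j).const_mul _).add (integrable_const _))
    · intro x
      simp only
      calc (∑ j, ((inner ℝ x (u j) : ℝ) - m j) * g j x) ^ 2
          ≤ (∑ j, ((inner ℝ x (u j) : ℝ) - m j) ^ 2) * ∑ j, (g j x) ^ 2 :=
            Finset.sum_mul_sq_le_sq_mul_sq _ _ _
        _ ≤ (∑ j, ((inner ℝ x (u j) : ℝ) - m j) ^ 2) * M ^ 2 := by
            apply mul_le_mul_of_nonneg_left (hM x)
            exact Finset.sum_nonneg fun j _ => sq_nonneg _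
        _ = _ := mul_comm _ _
  have h3 : ∫ x, M ^ 2 * ∑ j, ((inner ℝ x (u j) : ℝ) - m j) ^ 2 ∂μ
      ≤ M ^ 2 * ∑ j, s * ‖u j‖ ^ 2 := by
    rw [integral_const_mul]
    apply mul_le_mul_of_nonneg_left _ (sq_nonneg M)
    rw [integral_finset_sum]
    · apply Finset.sum_le_sum
      intro j _
      have h4 : ∫ x, ((inner ℝ x (u j) : ℝ) - m j) ^ 2 ∂μ
          = (∫ x, (inner ℝ x (u j) : ℝ) ^ 2 ∂μ) - (m j) ^ 2 := by
        have h5 : (fun x : Eu d => ((inner ℝ x (u j) : ℝ) - m j) ^ 2)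
            = fun x => (inner ℝ x (u j) : ℝ) ^ 2 + (-(2 * m j) * (inner ℝ x (u j) : ℝ) + m j ^ 2) := by
          funext x; ring
        have h6 : Integrable (fun x : Eu d => -(2 * m j) * (inner ℝ x (u j) : ℝ) + m j ^ 2) μ :=
          ((i1 j).const_mul _).add (integrable_const _)
        have h7 : ∫ x : Eu d, (inner ℝ x (u j) : ℝ) ∂μ = m j := rfl
        rw [h5, integral_add (i11 j) h6, integral_add ((i1 j).const_mul _) (integrable_const _),
          integral_const_mul, integral_const, probReal_univ, one_smul, h7]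
        ring
      rw [h4]
      exact post_var_lin hW hs Y (u j)
    · intro j _
      have : (fun x : Eu d => ((inner ℝ x (u j) : ℝ) - m j) ^ 2)
          = fun x => (inner ℝ x (u j) : ℝ) ^ 2 + (-(2 * m j) * (inner ℝ x (u j) : ℝ) + m j ^ 2) := by
        funext x; ring
      rw [this]
      exact (i11 j).add (((i1 j).const_mul _).add (integrable_const _))
  calc (∑ j, smC W s Y (g j) (u j)) ^ 2
      ≤ ∫ x, (∑ j, ((inner ℝ x (u j) : ℝ) - m j) * g j x) ^ 2 ∂μ := by linarith only [h1]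
    _ ≤ M ^ 2 * ∑ j, s * ‖u j‖ ^ 2 := h2.trans h3
    _ = _ := by rw [← Finset.mul_sum]; ring

lemma sm_cov_le {W : Eu d → ℝ} {F : Eu d → Eu d} (hW : CPot W F) {t : ℝ} (ht : 0 < t)
    (Y : Eu d) {g : Eu d → ℝ} (cg : Continuous g) {M : ℝ} (hM0 : 0 ≤ M) (hM : ∀ y, |g y| ≤ M)
    (u : Eu d) : |smC W (t ^ 2) Y g u| ≤ M * t * ‖u‖ := by
  have h1 := sm_cov_sum hW (by positivity : 0 < t ^ 2) Y (J := Unit) (g := fun _ => g)
    (fun _ => cg) (M := M) (fun y => by
      simp only [Finset.univ_unique, Finset.sum_const, Finset.card_singleton, one_smul]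
      exact sq_le_sq' (by linarith only [(abs_le.1 (hM y)).1]) (abs_le.1 (hM y)).2) (fun _ => u)
  simp only [Finset.univ_unique, Finset.sum_const, Finset.card_singleton, one_smul] at h1
  apply abs_le_of_sq_le_sq _ (by (clear * - hM0 ht; positivity))
  calc smC W (t ^ 2) Y g u ^ 2 ≤ M ^ 2 * t ^ 2 * ‖u‖ ^ 2 := h1
    _ = (M * t * ‖u‖) ^ 2 := by ring

lemma sm_Pf_cg (hw : CG (Ioi 0) w) {f : ℝ × Eu d → ℝ} (hf : CG (Ioi 0) f) :
    CG (Ioi 0) (Pf w f) := by
  have hJ : IsOpen (Ioi (0 : ℝ)) := isOpen_Ioi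
  unfold Pf
  apply CG.sub hJ
  · apply CG.add hJ (CG.neg hJ hf.dlev)
    apply CG.mul hJ (CG.const hJ _)
    exact CG.sum hJ _ fun k _ => (hf.dy k).dy k
  · exact CG.sum hJ _ fun k _ => CG.mul hJ (hw.dy k) (hf.dy k)

lemma sm_slice {f : ℝ × Eu d → ℝ} (hf : CG (Ioi 0) f) {l : ℝ} (hl : 0 < l) :
    Continuous (fun y => f (l, y)) ∧ PG (fun y => f (l, y)) := by
  constructor
  · have h1 : ContinuousOn f (Ioi 0 ×ˢ univ) := hf.cont
    have h2 : Continuous (fun y : Eu d => (l, y)) := by fun_prop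
    exact h1.comp_continuous h2 fun y => ⟨hl, trivial⟩
  · obtain ⟨C, k, h⟩ := hf.growth (t := l) hl
    exact ⟨C, k, h⟩

/-- The mean of `f` under `ν_t` as a posterior expectation. -/
lemma sm_nu_int (hw : Heat κ w) (h0 : 0 ≤ κ) (h1 : κ ≤ 1) {l0 t : ℝ} (ht : 0 < t)
    (hl : 0 < l0 - t ^ 2) (Y : Eu d) {g : Eu d → ℝ} (cg : Continuous g) :
    ∫ a, g (Y + t • a) ∂(nu w l0 Y t)
      = ∫ y, g y ∂(gibbs (post (fun y => w (l0 - t ^ 2, y)) (t ^ 2) Y)) := by
  rw [← nu_post hw h0 h1 ht hl Y, integral_map]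
  · have : Measurable (fun a : Eu d => Y + t • a) := by fun_prop
    exact this.aemeasurable
  · exact cg.aestronglyMeasurable

/-- The scalar representation of a directional derivative. -/
lemma sm_scalar (hw : Heat κ w) (h0 : 0 ≤ κ) (h1 : κ ≤ 1) {f : ℝ × Eu d → ℝ}
    (cf : CG (Ioi 0) f) {l0 T M : ℝ} (hT : 0 < T) (hl : 0 < l0 - T ^ 2) (hM0 : 0 ≤ M)
    (hM : ∀ t, 0 < t → t ≤ T → ∀ y, |Pf w f (l0 - t ^ 2, y)| ≤ M) (Y u : Eu d) :
    IntervalIntegrable (fun t => 2 * t * ((1 / t ^ 2) * smC (fun y => w (l0 - t ^ 2, y)) (t ^ 2) Y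
        (fun y => Pf w f (l0 - t ^ 2, y)) u)) volume 0 T ∧
      fderiv ℝ f (l0, Y) (0, u)
        = (1 / T ^ 2) * smC (fun y => w (l0 - T ^ 2, y)) (T ^ 2) Y (fun y => f (l0 - T ^ 2, y)) u
          - ∫ t in (0 : ℝ)..T, 2 * t * ((1 / t ^ 2) * smC (fun y => w (l0 - t ^ 2, y)) (t ^ 2) Y
              (fun y => Pf w f (l0 - t ^ 2, y)) u) := by
  have hl0 : 0 < l0 := by nlinarith only [hl]
  have hlt : ∀ t, 0 ≤ t → t ≤ T → 0 < l0 - t ^ 2 := by
    intro t ht0 ht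
    have : t ^ 2 ≤ T ^ 2 := pow_le_pow_left₀ ht0 ht 2
    linarith only [hl, this]
  have cP : CG (Ioi 0) (Pf w f) := sm_Pf_cg hw.cg cf
  -- the functions
  set Fe : ℝ → ℝ → ℝ := fun ε t => 2 * t * ∫ a, Pf w f (l0 - t ^ 2, (Y + ε • u) + t • a)
    ∂(nu w l0 (Y + ε • u) t) with hFe
  set Fe' : ℝ → ℝ → ℝ := fun ε t => 2 * t * ((1 / t ^ 2) * smC (fun y => w (l0 - t ^ 2, y))
    (t ^ 2) (Y + ε • u) (fun y => Pf w f (l0 - t ^ 2, y)) u) with hFe'
  have hsl : ∀ t, 0 < t → t ≤ T → Continuous (fun y => Pf w f (l0 - t ^ 2, y)) ∧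
      PG (fun y => Pf w f (l0 - t ^ 2, y)) := fun t ht0 ht => sm_slice cP (hlt t ht0.le ht)
  have hcpot : ∀ t, 0 < t → t ≤ T → CPot (fun y => w (l0 - t ^ 2, y))
      (fun y => Fv w (l0 - t ^ 2, y)) := fun t ht0 ht => hw.cpot h0 h1 (hlt t ht0.le ht)
  have hFe1 : ∀ ε t, 0 < t → t ≤ T → Fe ε t = 2 * t * ∫ y, Pf w f (l0 - t ^ 2, y)
      ∂(gibbs (post (fun y => w (l0 - t ^ 2, y)) (t ^ 2) (Y + ε • u))) := by
    intro ε t ht0 ht
    rw [hFe]
    simp only
    rw [sm_nu_int hw h0 h1 ht0 (hlt t ht0.le ht) (Y + ε • u) (hsl t ht0 ht).1]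
  have hd : ∀ ε t, 0 < t → t ≤ T → HasDerivAt (fun ε => Fe ε t) (Fe' ε t) ε := by
    intro ε t ht0 ht
    have h2 := (sm_hasDerivAt (hcpot t ht0 ht) (by positivity : 0 < t ^ 2) Y u (hsl t ht0 ht).1
      (hsl t ht0 ht).2 ε).const_mul (2 * t)
    exact h2.congr_of_eventuallyEq (Eventually.of_forall fun ε => hFe1 ε t ht0 ht)
  -- continuity in time
  have hcont : ∀ ε, ContinuousOn (Fe ε) (Icc 0 T) := by
    intro ε
    set J : Set ℝ := {t | 0 < l0 - t ^ 2} with hJ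
    have hJo : IsOpen J := isOpen_lt continuous_const (by fun_prop)
    have hcg : CG J (fun p : ℝ × Eu d => Pf w f (l0 - p.1 ^ 2, (Y + ε • u) + p.1 • p.2)) :=
      CG.comp_up hJo cP isOpen_Ioi (ContinuousLinearMap.id ℝ (Eu d)) l0 (Y + ε • u)
        (fun t ht => ht)
    intro t ht
    have htJ : t ∈ J := hlt t ht.1 ht.2
    have h2 := nu_hasDerivAt hw h0 h1 hJo (fun t ht => ht) (Y + ε • u) hcg htJ
    have h3 := h2.continuousAt.continuousWithinAt (s := Icc 0 T)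
    have h4 : ContinuousWithinAt (fun t : ℝ => 2 * t) (Icc 0 T) t := by (clear * -; fun_prop)
    exact h4.mul h3
  have huI : Set.uIoc (0 : ℝ) T = Ioc 0 T := uIoc_of_le hT.le
  have hmeas : ∀ ε, AEStronglyMeasurable (Fe ε) (volume.restrict (Set.uIoc 0 T)) := by
    intro ε
    rw [huI]
    exact ((hcont ε).mono Ioc_subset_Icc_self).aestronglyMeasurable measurableSet_Ioc
  have hmeas' : AEStronglyMeasurable (Fe' 0) (volume.restrict (Set.uIoc 0 T)) := by
    have h2 : ∀ᵐ t ∂(volume.restrict (Set.uIoc 0 T)), Tendsto (fun n : ℕ =>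
        (((n : ℝ) + 1)⁻¹)⁻¹ * (Fe (0 + ((n : ℝ) + 1)⁻¹) t - Fe 0 t)) atTop (nhds (Fe' 0 t)) := by
      rw [huI, ae_restrict_iff' measurableSet_Ioc]
      refine Eventually.of_forall fun t ht => ?_
      have h3 := (hd 0 t ht.1 ht.2).tendsto_slope_zero
      have h4 : Tendsto (fun n : ℕ => ((n : ℝ) + 1)⁻¹) atTop (nhdsWithin 0 {0}ᶜ) := by
        rw [tendsto_nhdsWithin_iff]
        refine ⟨?_, Eventually.of_forall fun n => ?_⟩
        · have := tendsto_one_div_add_atTop_nhds_zero_nat (𝕜 := ℝ)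
          simpa only [one_div] using this
        · have : ((n : ℝ) + 1)⁻¹ ≠ 0 := by (clear * -; positivity)
          exact this
      exact h3.comp h4
    refine aestronglyMeasurable_of_tendsto_ae atTop (fun n => ?_) h2
    exact ((hmeas _).sub (hmeas 0)).const_mul _
  have hbound : ∀ t ∈ Set.uIoc (0 : ℝ) T, ∀ ε : ℝ, ‖Fe' ε t‖ ≤ 2 * M * ‖u‖ := by
    intro t ht ε
    rw [huI] at ht
    have h2 := sm_cov_le (hcpot t ht.1 ht.2) ht.1 (Y + ε • u) (hsl t ht.1 ht.2).1 hM0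
      (hM t ht.1 ht.2) u
    have ht0 : 0 < t := ht.1
    rw [hFe']
    simp only
    rw [Real.norm_eq_abs, abs_mul (2 * t), abs_mul (1 / t ^ 2),
      abs_of_pos (by positivity : 0 < 2 * t),
      abs_of_pos (by positivity : 0 < 1 / t ^ 2)]
    calc 2 * t * (1 / t ^ 2 * |smC (fun y => w (l0 - t ^ 2, y)) (t ^ 2) (Y + ε • u)
            (fun y => Pf w f (l0 - t ^ 2, y)) u|)
        ≤ 2 * t * (1 / t ^ 2 * (M * t * ‖u‖)) := by (clear * - h2 ht0; gcongr)
      _ = 2 * M * ‖u‖ := by (clear * - ht0; field_simp)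
  have hint : IntervalIntegrable (Fe 0) volume 0 T := by
    apply ContinuousOn.intervalIntegrable
    rw [uIcc_of_le hT.le]
    exact hcont 0
  have hmain := intervalIntegral.hasDerivAt_integral_of_dominated_loc_of_deriv_le
    (μ := volume) (F := Fe) (F' := Fe') (x₀ := 0) (s := univ) (a := 0) (b := T)
    (bound := fun _ => 2 * M * ‖u‖) univ_mem (Eventually.of_forall hmeas) hint hmeas'
    (Eventually.of_forall fun t ht ε _ => hbound t ht ε) intervalIntegrable_const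
    (Eventually.of_forall fun t ht ε _ => by
      rw [huI] at ht
      exact hd ε t ht.1 ht.2)
  have hFe'0 : Fe' 0 = fun t => 2 * t * ((1 / t ^ 2) * smC (fun y => w (l0 - t ^ 2, y)) (t ^ 2) Y
        (fun y => Pf w f (l0 - t ^ 2, y)) u) := by
    rw [hFe']
    funext t
    simp only [zero_smul, add_zero]
  refine ⟨by rw [← hFe'0]; exact hmain.1, ?_⟩
  rw [← hFe'0]
  -- derivative of the left side
  have hL : HasDerivAt (fun ε : ℝ => f (l0, Y + ε • u)) (fderiv ℝ f (l0, Y) (0, u)) 0 := by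
    have h2 : DifferentiableAt ℝ f (l0, Y) :=
      (cf.diff (l0, Y) ⟨hl0, trivial⟩).differentiableAt
        ((isOpen_Ioi.prod isOpen_univ).mem_nhds ⟨hl0, trivial⟩)
    have h3 : HasDerivAt (fun ε : ℝ => ((l0, Y + ε • u) : ℝ × Eu d)) (0, u) 0 := by
      apply HasDerivAt.prodMk (hasDerivAt_const _ _)
      have := ((hasDerivAt_id (0 : ℝ)).smul_const u).const_add Y
      simpa using this
    have h4 : HasFDerivAt f (fderiv ℝ f (l0, Y)) (l0, Y + (0 : ℝ) • u) := by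
      simpa using h2.hasFDerivAt
    exact h4.comp_hasDerivAt 0 h3
  have hsf := sm_slice cf hl
  have hA : HasDerivAt (fun ε : ℝ => ∫ a, f (l0 - T ^ 2, (Y + ε • u) + T • a)
      ∂(nu w l0 (Y + ε • u) T)) ((1 / T ^ 2) * smC (fun y => w (l0 - T ^ 2, y)) (T ^ 2) Y
        (fun y => f (l0 - T ^ 2, y)) u) 0 := by
    have h2 := sm_hasDerivAt (hcpot T hT le_rfl) (by positivity : 0 < T ^ 2) Y u hsf.1 hsf.2 0
    rw [zero_smul, add_zero] at h2
    exact h2.congr_of_eventuallyEq (Eventually.of_forall fun ε =>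
      sm_nu_int hw h0 h1 hT hl (Y + ε • u) hsf.1)
  have hR := hA.sub hmain.2
  have hE : (fun ε : ℝ => f (l0, Y + ε • u)) = (fun ε : ℝ => ∫ a, f (l0 - T ^ 2, (Y + ε • u) + T • a)
      ∂(nu w l0 (Y + ε • u) T)) - fun ε => ∫ t in (0 : ℝ)..T, Fe ε t := by
    funext ε
    exact nu_expect hw h0 h1 hT.le hl (Y + ε • u) cf
  rw [hE] at hL
  exact hL.unique hR

/-- The vector form. -/
lemma sm_core (hw : Heat κ w) (h0 : 0 ≤ κ) (h1 : κ ≤ 1) {J : Type} [Fintype J]
    {f : J → ℝ × Eu d → ℝ} (cf : ∀ j, CG (Ioi 0) (f j)) {l1 l2 δ c c' : ℝ} (hl : 0 < l1)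
    (hδ : 0 < δ) (hc : 0 ≤ c) (hc' : 0 ≤ c')
    (h : ∀ l ∈ Icc l1 l2, ∀ y, ∑ j, (f j (l, y)) ^ 2 ≤ c ^ 2)
    (h' : ∀ l ∈ Icc l1 l2, ∀ y, ∑ j, (Pf w (f j) (l, y)) ^ 2 ≤ c' ^ 2)
    {l0 : ℝ} (hl0 : l0 ∈ Icc (l1 + δ) l2) (Y : Eu d) (u : J → Eu d) :
    |∑ j, fderiv ℝ (f j) (l0, Y) (0, u j)|
      ≤ (c / √δ + 2 * √δ * c') * √(∑ j, ‖u j‖ ^ 2) := by
  set T : ℝ := √δ with hT
  have hT0 : 0 < T := Real.sqrt_pos.2 hδ
  have hT2 : T ^ 2 = δ := Real.sq_sqrt hδ.le
  set U : ℝ := √(∑ j, ‖u j‖ ^ 2) with hU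
  have hU2 : U ^ 2 = ∑ j, ‖u j‖ ^ 2 :=
    Real.sq_sqrt (Finset.sum_nonneg fun j _ => sq_nonneg _)
  have hU0 : 0 ≤ U := Real.sqrt_nonneg _
  have hlt : ∀ t, 0 ≤ t → t ≤ T → l0 - t ^ 2 ∈ Icc l1 l2 := by
    intro t ht0 ht
    have : t ^ 2 ≤ T ^ 2 := pow_le_pow_left₀ ht0 ht 2
    have h3 := hl0.1
    have h4 := hl0.2
    have h5 := sq_nonneg t
    constructor <;> linarith only [h4, h5, hT2, this, h3]
  have hlT : 0 < l0 - T ^ 2 := hl.trans_le (hlt T hT0.le le_rfl).1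
  have hM : ∀ j, ∀ t, 0 < t → t ≤ T → ∀ y, |Pf w (f j) (l0 - t ^ 2, y)| ≤ c' := by
    intro j t ht0 ht y
    apply abs_le_of_sq_le_sq _ hc'
    exact (Finset.single_le_sum (f := fun j => (Pf w (f j) (l0 - t ^ 2, y)) ^ 2)
      (fun i _ => sq_nonneg _) (Finset.mem_univ j)).trans (h' _ (hlt t ht0.le ht) y)
  have hs := fun j => sm_scalar hw h0 h1 (cf j) hT0 hlT hc' (hM j) Y (u j)
  have e1 : ∑ j, fderiv ℝ (f j) (l0, Y) (0, u j)
      = (1 / T ^ 2) * ∑ j, smC (fun y => w (l0 - T ^ 2, y)) (T ^ 2) Y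
          (fun y => f j (l0 - T ^ 2, y)) (u j)
        - ∫ t in (0 : ℝ)..T, 2 * t * ((1 / t ^ 2) * ∑ j, smC (fun y => w (l0 - t ^ 2, y)) (t ^ 2) Y
              (fun y => Pf w (f j) (l0 - t ^ 2, y)) (u j)) := by
    rw [Finset.sum_congr rfl fun j _ => (hs j).2, Finset.sum_sub_distrib, ← Finset.mul_sum,
      ← intervalIntegral.integral_finsetSum fun j _ => (hs j).1]
    simp only [Finset.mul_sum]
  have hcpot : ∀ t, 0 < t → t ≤ T → CPot (fun y => w (l0 - t ^ 2, y))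
      (fun y => Fv w (l0 - t ^ 2, y)) := fun t ht0 ht =>
    hw.cpot h0 h1 (hl.trans_le (hlt t ht0.le ht).1)
  have h3 : |∑ j, smC (fun y => w (l0 - T ^ 2, y)) (T ^ 2) Y
          (fun y => f j (l0 - T ^ 2, y)) (u j)| ≤ c * T * U := by
    apply abs_le_of_sq_le_sq _ (by (clear * - hc hδ; positivity))
    refine (sm_cov_sum (hcpot T hT0 le_rfl) (by positivity : 0 < T ^ 2) Y
      (fun j => (sm_slice (cf j) hlT).1) (h _ (hlt T hT0.le le_rfl)) u).trans ?_
    rw [← hU2]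
    apply le_of_eq
    ring
  have h4 : ∀ t ∈ Set.uIoc (0 : ℝ) T, ‖2 * t * ((1 / t ^ 2) * ∑ j, smC (fun y => w (l0 - t ^ 2, y))
      (t ^ 2) Y (fun y => Pf w (f j) (l0 - t ^ 2, y)) (u j))‖ ≤ 2 * c' * U := by
    intro t ht
    rw [uIoc_of_le hT0.le] at ht
    have ht0 : 0 < t := ht.1
    have h5 : |∑ j, smC (fun y => w (l0 - t ^ 2, y)) (t ^ 2) Y
          (fun y => Pf w (f j) (l0 - t ^ 2, y)) (u j)| ≤ c' * t * U := by
      apply abs_le_of_sq_le_sq _ (by (clear * - hc' ht0; positivity))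
      refine (sm_cov_sum (hcpot t ht.1 ht.2) (by positivity : 0 < t ^ 2) Y
        (fun j => (sm_slice (sm_Pf_cg hw.cg (cf j))
          (hl.trans_le (hlt t ht.1.le ht.2).1)).1) (h' _ (hlt t ht.1.le ht.2)) u).trans ?_
      rw [← hU2]
      apply le_of_eq
      ring
    rw [Real.norm_eq_abs, abs_mul (2 * t), abs_mul (1 / t ^ 2),
      abs_of_pos (by positivity : 0 < 2 * t),
      abs_of_pos (by positivity : 0 < 1 / t ^ 2)]
    calc 2 * t * (1 / t ^ 2 * |∑ j, smC (fun y => w (l0 - t ^ 2, y)) (t ^ 2) Y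
            (fun y => Pf w (f j) (l0 - t ^ 2, y)) (u j)|)
        ≤ 2 * t * (1 / t ^ 2 * (c' * t * U)) := by (clear * - h5 ht0; gcongr)
      _ = 2 * c' * U := by (clear * - ht0; field_simp)
  have h5 := intervalIntegral.norm_integral_le_of_norm_le_const h4
  rw [sub_zero, abs_of_pos hT0, Real.norm_eq_abs] at h5
  rw [e1]
  calc |(1 / T ^ 2) * ∑ j, smC (fun y => w (l0 - T ^ 2, y)) (T ^ 2) Y
          (fun y => f j (l0 - T ^ 2, y)) (u j)
        - ∫ t in (0 : ℝ)..T, 2 * t * ((1 / t ^ 2) * ∑ j, smC (fun y => w (l0 - t ^ 2, y)) (t ^ 2) Y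
              (fun y => Pf w (f j) (l0 - t ^ 2, y)) (u j))|
      ≤ |(1 / T ^ 2) * ∑ j, smC (fun y => w (l0 - T ^ 2, y)) (T ^ 2) Y
          (fun y => f j (l0 - T ^ 2, y)) (u j)|
        + |∫ t in (0 : ℝ)..T, 2 * t * ((1 / t ^ 2) * ∑ j, smC (fun y => w (l0 - t ^ 2, y))
            (t ^ 2) Y (fun y => Pf w (f j) (l0 - t ^ 2, y)) (u j))| := abs_sub _ _
    _ ≤ (1 / T ^ 2) * (c * T * U) + 2 * c' * U * T := by
        apply add_le_add _ h5
        rw [abs_mul, abs_of_pos (by positivity : 0 < 1 / T ^ 2)]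
        (clear * - h3 hδ; gcongr)
    _ = (c / T + 2 * T * c') * U := by
        (clear * - hT0; field_simp)

/-- Linear combinations. -/
lemma sm_cg_lin {J : Type} [Fintype J] {g : J → ℝ × Eu d → ℝ} (cg : ∀ j, CG (Ioi 0) (g j))
    (x : J → ℝ) : CG (Ioi 0) (fun p => ∑ j, g j p * x j) := by
  have hJ : IsOpen (Ioi (0 : ℝ)) := isOpen_Ioi
  exact CG.sum hJ _ fun j _ => CG.mul hJ (cg j) (CG.const hJ _)

lemma sm_fd_lin {J : Type} [Fintype J] {g : J → ℝ × Eu d → ℝ} (cg : ∀ j, CG (Ioi 0) (g j))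
    (x : J → ℝ) (v : ℝ × Eu d) {p : ℝ × Eu d} (hp : 0 < p.1) :
    fderiv ℝ (fun p => ∑ j, g j p * x j) p v = ∑ j, fderiv ℝ (g j) p v * x j := by
  have hd : ∀ j, DifferentiableAt ℝ (g j) p := fun j =>
    ((cg j).diff p ⟨hp, trivial⟩).differentiableAt
      ((isOpen_Ioi.prod isOpen_univ).mem_nhds ⟨hp, trivial⟩)
  have h1 : HasFDerivAt (fun p => ∑ j, g j p * x j) (∑ j, x j • fderiv ℝ (g j) p) p := by
    apply HasFDerivAt.fun_sum
    intro j _
    exact (hd j).hasFDerivAt.mul_const (x j)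
  rw [h1.fderiv, ContinuousLinearMap.sum_apply]
  apply Finset.sum_congr rfl
  intro j _
  simp [mul_comm]

lemma sm_Pf_lin {J : Type} [Fintype J] {g : J → ℝ × Eu d → ℝ}
    (cg : ∀ j, CG (Ioi 0) (g j)) (x : J → ℝ) {p : ℝ × Eu d} (hp : 0 < p.1) :
    Pf w (fun p => ∑ j, g j p * x j) p = ∑ j, Pf w (g j) p * x j := by
  have h1 : dlev (fun p => ∑ j, g j p * x j) p = ∑ j, dlev (g j) p * x j :=
    sm_fd_lin cg x _ hp
  have h2 : ∀ k, ∀ q : ℝ × Eu d, 0 < q.1 → dy k (fun p => ∑ j, g j p * x j) q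
      = ∑ j, dy k (g j) q * x j := fun k q hq => sm_fd_lin cg x _ hq
  have h3 : ∀ k, dy k (dy k (fun p => ∑ j, g j p * x j)) p = ∑ j, dy k (dy k (g j)) p * x j := by
    intro k
    have h4 : fderiv ℝ (dy k (fun p => ∑ j, g j p * x j)) p
        = fderiv ℝ (fun q => ∑ j, dy k (g j) q * x j) p :=
      cgl_fderiv_congr isOpen_Ioi (fun q hq => h2 k q hq.1) ⟨hp, trivial⟩
    show fderiv ℝ (dy k (fun p => ∑ j, g j p * x j)) p (0, ek k) = _
    rw [h4]
    exact sm_fd_lin (fun j => (cg j).dy k) x _ hp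
  unfold Pf
  rw [h1]
  simp only [h3, h2 _ p hp]
  have h5 : ∑ k, ∑ j, dy k (dy k (g j)) p * x j = ∑ j, (∑ k, dy k (dy k (g j)) p) * x j := by
    rw [Finset.sum_comm]
    simp only [Finset.sum_mul]
  have h6 : ∑ k, dy k w p * ∑ j, dy k (g j) p * x j
      = ∑ j, (∑ k, dy k w p * dy k (g j) p) * x j := by
    simp only [Finset.mul_sum, Finset.sum_mul]
    rw [Finset.sum_comm]
    apply Finset.sum_congr rfl
    intro j _
    apply Finset.sum_congr rfl
    intro k _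
    ring
  rw [h5, h6, Finset.mul_sum, ← Finset.sum_neg_distrib, ← Finset.sum_add_distrib,
    ← Finset.sum_sub_distrib]
  apply Finset.sum_congr rfl
  intro j _
  ring

lemma sm_expand {f : ℝ × Eu d → ℝ} (p : ℝ × Eu d) (u : Eu d) :
    fderiv ℝ f p (0, u) = ∑ m, u m * dy m f p := by
  have h1 : ((0 : ℝ), u) = ∑ m, u m • ((0 : ℝ), ek m) := by
    rw [Prod.ext_iff]
    constructor
    · rw [Prod.fst_sum]
      simp only [Prod.smul_mk, smul_eq_mul, mul_zero, Finset.sum_const_zero]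
    · rw [Prod.snd_sum]
      simp only [Prod.smul_snd]
      ext i
      simp only [WithLp.ofLp_sum, WithLp.ofLp_smul, PiLp.ofLp_single, Finset.sum_apply, Pi.smul_apply, Pi.single_apply, smul_eq_mul, mul_ite, mul_one, mul_zero, Finset.sum_ite_eq, Finset.mem_univ, ↓reduceIte]
  rw [h1, map_sum]
  apply Finset.sum_congr rfl
  intro m _
  rw [map_smul, smul_eq_mul]
  rfl

lemma sm_transpose {K I : Type} [Fintype K] [Fintype I] {M : K → I → ℝ} {c : ℝ}
    (h : ∀ x : I → ℝ, ∑ k, (∑ i, M k i * x i) ^ 2 ≤ c ^ 2 * ∑ i, (x i) ^ 2) (z : K → ℝ) :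
    ∑ i, (∑ k, M k i * z k) ^ 2 ≤ c ^ 2 * ∑ k, (z k) ^ 2 := by
  set G : I → ℝ := fun i => ∑ k, M k i * z k with hG
  set S : ℝ := ∑ i, (G i) ^ 2 with hS
  have hS0 : 0 ≤ S := Finset.sum_nonneg fun i _ => sq_nonneg _
  have h1 : S = ∑ k, z k * ∑ i, M k i * G i := by
    rw [hS]
    simp only [Finset.mul_sum]
    rw [Finset.sum_comm]
    apply Finset.sum_congr rfl
    intro i _
    calc G i ^ 2 = G i * ∑ k, M k i * z k := by rw [sq]
      _ = ∑ k, z k * (M k i * G i) := by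
        rw [Finset.mul_sum]
        apply Finset.sum_congr rfl
        intro k _
        ring
  have h2 : S ^ 2 ≤ (∑ k, (z k) ^ 2) * (c ^ 2 * S) := by
    calc S ^ 2 = (∑ k, z k * ∑ i, M k i * G i) ^ 2 := by rw [← h1]
      _ ≤ (∑ k, (z k) ^ 2) * ∑ k, (∑ i, M k i * G i) ^ 2 := Finset.sum_mul_sq_le_sq_mul_sq _ _ _
      _ ≤ _ := by
        apply mul_le_mul_of_nonneg_left (h G)
        exact Finset.sum_nonneg fun k _ => sq_nonneg _
  have hz : 0 ≤ ∑ k, (z k) ^ 2 := Finset.sum_nonneg fun k _ => sq_nonneg _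
  show S ≤ _
  rcases hS0.lt_or_eq with h3 | h3
  · have h4 : S * S ≤ (c ^ 2 * ∑ k, (z k) ^ 2) * S := by linarith
    exact le_of_mul_le_mul_right h4 h3
  · rw [← h3]; (clear * -; positivity)

theorem smoothing (hw : Heat κ w) (h0 : 0 ≤ κ) (h1 : κ ≤ 1) {K I : Type} [Fintype K] [Fintype I]
    {B : MF d K I} (cB : ∀ k i, CG (Ioi 0) (B k i)) {l1 l2 δ c c' : ℝ} (hl : 0 < l1) (hδ : 0 < δ)
    (hc : 0 ≤ c) (hc' : 0 ≤ c') (h : opB (Icc l1 l2) c B) (h' : opB (Icc l1 l2) c' (PM w B)) :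
    opB (Icc (l1 + δ) l2) (c / √δ + 2 * √δ * c') (Dout B) ∧
      opB (Icc (l1 + δ) l2) (c / √δ + 2 * √δ * c') (Din B) := by
  set C : ℝ := c / √δ + 2 * √δ * c' with hC
  have hC0 : 0 ≤ C := by (clear * - hc hδ hc'; positivity)
  constructor
  · intro l0 hl0 y x
    have hl0p : 0 < l0 := by have := hl0.1; linarith only [hl, hδ, this]
    set X : ℝ := √(∑ i, (x i) ^ 2) with hX
    have hX2 : X ^ 2 = ∑ i, (x i) ^ 2 := Real.sq_sqrt (Finset.sum_nonneg fun i _ => sq_nonneg _)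
    have hX0 : 0 ≤ X := Real.sqrt_nonneg _
    set f : K → ℝ × Eu d → ℝ := fun k p => ∑ i, B k i p * x i with hf
    have cf : ∀ k, CG (Ioi 0) (f k) := fun k => sm_cg_lin (cB k) x
    set u : K → Eu d := fun k => WithLp.toLp 2 fun m => dy m (f k) (l0, y) with hu
    have hu2 : ∀ k, ‖u k‖ ^ 2 = ∑ m, (dy m (f k) (l0, y)) ^ 2 := by
      intro k
      rw [EuclideanSpace.norm_sq_eq]
      simp only [hu, Real.norm_eq_abs, sq_abs]
    have hcore := sm_core hw h0 h1 cf hl hδ (mul_nonneg hc hX0) (mul_nonneg hc' hX0)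
      (fun l hl' y => by
        have := h l hl' y x
        rw [← hX2] at this
        calc ∑ j, (f j (l, y)) ^ 2 ≤ c ^ 2 * X ^ 2 := this
          _ = _ := by ring)
      (fun l hl' y => by
        have h2 := h' l hl' y x
        rw [← hX2] at h2
        have h3 : ∀ j, Pf w (f j) (l, y) = ∑ i, PM w B j i (l, y) * x i := fun j =>
          sm_Pf_lin (cB j) x (hl.trans_le hl'.1)
        simp only [h3]
        calc _ ≤ c' ^ 2 * X ^ 2 := h2
          _ = _ := by ring) hl0 y u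
    set S : ℝ := ∑ k, ‖u k‖ ^ 2 with hS
    have hS0 : 0 ≤ S := Finset.sum_nonneg fun k _ => sq_nonneg _
    have h3 : ∑ j, fderiv ℝ (f j) (l0, y) (0, u j) = S := by
      rw [hS]
      apply Finset.sum_congr rfl
      intro k _
      rw [sm_expand, hu2]
      apply Finset.sum_congr rfl
      intro m _
      simp [hu, sq]
    have h4 : c * X / √δ + 2 * √δ * (c' * X) = C * X := by rw [hC]; ring
    rw [h3, h4, abs_of_nonneg hS0] at hcore
    have h5 : ∑ k : Fin d × K, (∑ i, Dout B k i (l0, y) * x i) ^ 2 = S := by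
      rw [hS, Fintype.sum_prod_type, Finset.sum_comm]
      apply Finset.sum_congr rfl
      intro k _
      rw [hu2]
      apply Finset.sum_congr rfl
      intro m _
      have h6 : dy m (f k) (l0, y) = ∑ i, dy m (B k i) (l0, y) * x i :=
        sm_fd_lin (cB k) x _ hl0p
      rw [h6]
      rfl
    rw [h5, ← hX2]
    have h6 : √S ^ 2 = S := Real.sq_sqrt hS0
    have h7 : √S ≤ C * X := by
      by_contra hlt
      rw [not_le] at hlt
      have h8 : 0 < √S := lt_of_le_of_lt (by (clear * - hc hδ hc'; positivity)) hlt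
      nlinarith only [hcore, h6, hlt, h8]
    calc S = √S ^ 2 := h6.symm
      _ ≤ (C * X) ^ 2 := pow_le_pow_left₀ (Real.sqrt_nonneg _) h7 2
      _ = _ := by ring
  · intro l0 hl0 y x
    have hl0p : 0 < l0 := by have := hl0.1; linarith only [hl, hδ, this]
    set z : K → ℝ := fun k => ∑ i, Din B k i (l0, y) * x i with hz
    set Z : ℝ := √(∑ k, (z k) ^ 2) with hZ
    have hZ2 : Z ^ 2 = ∑ k, (z k) ^ 2 := Real.sq_sqrt (Finset.sum_nonneg fun i _ => sq_nonneg _)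
    have hZ0 : 0 ≤ Z := Real.sqrt_nonneg _
    set f : I → ℝ × Eu d → ℝ := fun i p => ∑ k, B k i p * z k with hf
    have cf : ∀ i, CG (Ioi 0) (f i) := fun i => sm_cg_lin (fun k => cB k i) z
    set u : I → Eu d := fun i => WithLp.toLp 2 fun m => x (m, i) with hu
    have hu2 : ∀ i, ‖u i‖ ^ 2 = ∑ m, (x (m, i)) ^ 2 := by
      intro k
      rw [EuclideanSpace.norm_sq_eq]
      simp only [hu, Real.norm_eq_abs, sq_abs]
    have hcore := sm_core hw h0 h1 cf hl hδ (mul_nonneg hc hZ0) (mul_nonneg hc' hZ0)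
      (fun l hl' y => by
        have := sm_transpose (h l hl' y) z
        rw [← hZ2] at this
        calc ∑ j, (f j (l, y)) ^ 2 ≤ c ^ 2 * Z ^ 2 := this
          _ = _ := by ring)
      (fun l hl' y => by
        have h2 := sm_transpose (h' l hl' y) z
        rw [← hZ2] at h2
        have h3 : ∀ j, Pf w (f j) (l, y) = ∑ k, PM w B k j (l, y) * z k := fun j =>
          sm_Pf_lin (fun k => cB k j) z (hl.trans_le hl'.1)
        simp only [h3]
        calc _ ≤ c' ^ 2 * Z ^ 2 := h2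
          _ = _ := by ring) hl0 y u
    have h3 : ∑ j, fderiv ℝ (f j) (l0, y) (0, u j) = Z ^ 2 := by
      rw [hZ2]
      have h6 : ∀ i m, dy m (f i) (l0, y) = ∑ k, dy m (B k i) (l0, y) * z k := fun i m =>
        sm_fd_lin (fun k => cB k i) z _ hl0p
      simp only [sm_expand, h6, Finset.mul_sum]
      have h7 : ∀ k, (z k) ^ 2 = ∑ m, ∑ i, x (m, i) * (dy m (B k i) (l0, y) * z k) := by
        intro k
        have h8 : z k = ∑ m, ∑ i, dy m (B k i) (l0, y) * x (m, i) := by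
          rw [hz]
          simp only
          rw [Fintype.sum_prod_type]
          rfl
        calc (z k) ^ 2 = (∑ m, ∑ i, dy m (B k i) (l0, y) * x (m, i)) * z k := by
              rw [← h8, sq]
          _ = _ := by
            rw [Finset.sum_mul]
            apply Finset.sum_congr rfl
            intro m _
            rw [Finset.sum_mul]
            apply Finset.sum_congr rfl
            intro i _
            ring
      simp only [h7]
      rw [Finset.sum_comm]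
      rw [Finset.sum_comm (s := Finset.univ (α := K))]
      apply Finset.sum_congr rfl
      intro m _
      rw [Finset.sum_comm]
    have h4 : c * Z / √δ + 2 * √δ * (c' * Z) = C * Z := by rw [hC]; ring
    rw [h3, h4, abs_of_nonneg (sq_nonneg Z)] at hcore
    have h5 : ∑ i, ‖u i‖ ^ 2 = ∑ i, (x i) ^ 2 := by
      rw [Fintype.sum_prod_type, Finset.sum_comm]
      exact Finset.sum_congr rfl fun i _ => hu2 i
    rw [h5] at hcore
    rw [← hZ2]
    set X : ℝ := √(∑ i, (x i) ^ 2) with hX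
    have hX2 : X ^ 2 = ∑ i, (x i) ^ 2 := Real.sq_sqrt (Finset.sum_nonneg fun i _ => sq_nonneg _)
    have hX0 : 0 ≤ X := Real.sqrt_nonneg _
    rw [← hX2]
    have h7 : Z ≤ C * X := by
      by_contra hlt
      rw [not_le] at hlt
      have h8 : 0 < Z := lt_of_le_of_lt (by (clear * - hc hδ hc'; positivity)) hlt
      nlinarith only [hcore, hlt, h8]
    calc Z ^ 2 ≤ (C * X) ^ 2 := pow_le_pow_left₀ hZ0 h7 2
      _ = _ := by ring

end Vale.Agent.P347.Z
end

section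

/-! P347-Z-B3. The normalised Hessian `B0 = κ⁻¹ F1` is a good multiplier with universal constants.

PROOF. Step 1 (words in Dout, Din only). Let `BD n c B` mean: all words of length `≤ n` in `Dout`, `Din` have
`opB c`. Claim: for every `n` there is `c_n` (universal) with `BD n c_n B0` on `[l_n, 1]`, `l_n = 1/4 + n-dependent
increments < 1/2` (e.g. `l_n = 1/2 - 2^{-n-2}`). Induction on `n` with: if `B` is `BD n` on a range and
`P B = B₁` with `B₁` `BD n`, then `Dout B`, `Din B` are `BD (n-1)` and so is `P (Dout B) = Dout (P B) + (F1⊗1) Dout B`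
(products of BD are BD, same proof as `MBn_mulM` without P). For `B0`: `P B0 = κ B0²`. So for every word
`u` of length `n` the function `u(B0)` and `P (u B0)` are bounded on `[l_n,1]`, and `smoothing` (with
`δ = l_{n+1} - l_n`) bounds the words of length `n+1` on `[l_{n+1},1]`.
Step 2 (all words). By strong induction on `n`: `MBn w Lev n C_n B0`. A word of length `n+1` applied to `B0`: if its
first letter is `P`: `P B0 = κ B0 B0` and `MBn_mulM`. If the first letters are `k` derivatives followed by `P`: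
commute `P` to the front with `P Dout B = Dout P B + (F1 ⊗ 1) Dout B` (`Pf_dy`), every term is a word of length
`≤ n` applied to a product of (ampliated) `κ B0` and of words of `B0`, total length `≤ n`. If there is no `P`:
step 1. (Equivalent formulation: show `MBn n` for all `Dout/Din` words of `B0` simultaneously, by induction on
`n`: statement `A n : ∀ words u in {Dout, Din}, ∃ C, MBn w Lev n C (u B0)`. `A 0` is step 1. `A n → A (n+1)`:
`MBn (n+1) (u B0)` needs `MBn n (Dout u B0)`, `MBn n (Din u B0)`: `A n`; and `MBn n (P (u B0))`: `P (u B0)` is a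
finite sum of products of reindexed ampliations of words of `B0` in `{Dout, Din}`, times `κ`, bounded by `A n`
and `MBn_mulM`, `MBn_amp`, `MBn_rei`, `MBn_addM`; the sum formula by induction on the word `u` from
`P B0 = κ B0 B0`, `P (Dout B) = Dout (P B) + κ (B0⊗1)(Dout B)` and `Dout (B B') = (Dout B) B' + (1⊗B)(Dout B')`.)
The constants only depend on `n` because all steps are uniform in `d, κ, w`. -/

open MeasureTheory Filter Module Set
open scoped ENNReal NNReal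

set_option linter.unusedSectionVars false
set_option linter.unusedVariables false

namespace Vale.Agent.P347.Z

namespace MBz

variable {d : ℕ}

/-- The multiplier is the word `u` applied to the normalised Hessian. -/
inductive IsW (κ : ℝ) (w : ℝ × Eu d → ℝ) :
    List Bool → ∀ {K I : Type} [Fintype K] [Fintype I], MF d K I → Prop
  | nil : IsW κ w [] (B0 κ w)
  | dout {u : List Bool} {K I : Type} [Fintype K] [Fintype I] {B : MF d K I} :
      IsW κ w u B → IsW κ w (true :: u) (Dout B)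
  | din {u : List Bool} {K I : Type} [Fintype K] [Fintype I] {B : MF d K I} :
      IsW κ w u B → IsW κ w (false :: u) (Din B)

/-- Codes of elements of the algebra generated by the words. -/
inductive Code where
  | gen (u : List Bool)
  | mul (c c' : Code)
  | add (c c' : Code)
  | sm (c : Code)
  | amp (c : Code)
  | rei (c : Code)

/-- All words have length at most `N`. -/
def Code.le (N : ℕ) : Code → Prop
  | .gen u => u.length ≤ N
  | .mul c c' => c.le N ∧ c'.le N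
  | .add c c' => c.le N ∧ c'.le N
  | .sm c => c.le N
  | .amp c => c.le N
  | .rei c => c.le N

/-- The bound of an element of the algebra. -/
noncomputable def Code.cst (n : ℕ) (g : List Bool → ℝ) : Code → ℝ
  | .gen u => g u
  | .mul c c' => 3 ^ n * (c.cst n g * c'.cst n g)
  | .add c c' => c.cst n g + c'.cst n g
  | .sm c => c.cst n g
  | .amp c => c.cst n g
  | .rei c => c.cst n g

/-- Derivative, output slot. -/
def Code.dout : Code → Code
  | .gen u => .gen (true :: u)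
  | .mul c c' => .add (.mul c.dout c') (.mul (.rei (.amp c)) c'.dout)
  | .add c c' => .add c.dout c'.dout
  | .sm c => .sm c.dout
  | .amp c => .rei (.amp c.dout)
  | .rei c => .rei c.dout

/-- Derivative, input slot. -/
def Code.din : Code → Code
  | .gen u => .gen (false :: u)
  | .mul c c' => .add (.mul c c'.din) (.mul c.din (.rei (.amp c')))
  | .add c c' => .add c.din c'.din
  | .sm c => .sm c.din
  | .amp c => .rei (.amp c.din)
  | .rei c => .rei c.din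

/-- The operator `P` applied to a word. -/
def pcode : List Bool → Code
  | [] => .sm (.mul (.gen []) (.gen []))
  | true :: u => .add (pcode u).dout (.sm (.mul (.amp (.gen [])) (.gen (true :: u))))
  | false :: u => .add (pcode u).din (.sm (.mul (.gen (false :: u)) (.amp (.gen []))))

/-- The multiplier is represented by the code. -/
inductive Alg (κ : ℝ) (w : ℝ × Eu d → ℝ) :
    Code → ∀ {K I : Type} [Fintype K] [Fintype I], MF d K I → Prop
  | gen {u : List Bool} {K I : Type} [Fintype K] [Fintype I] {B : MF d K I} :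
      IsW κ w u B → Alg κ w (.gen u) B
  | mul {c c' : Code} {K L I : Type} [Fintype K] [Fintype L] [Fintype I] {B : MF d K L}
      {B' : MF d L I} : Alg κ w c B → Alg κ w c' B' → Alg κ w (.mul c c') (mulM B B')
  | add {c c' : Code} {K I : Type} [Fintype K] [Fintype I] {B B' : MF d K I} :
      Alg κ w c B → Alg κ w c' B' → Alg κ w (.add c c') (addM B B')
  | sm {c : Code} {K I : Type} [Fintype K] [Fintype I] {B : MF d K I} (a : ℝ) (ha : |a| ≤ 1) :
      Alg κ w c B → Alg κ w (.sm c) (smM a B)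
  | amp {c : Code} {K I : Type} [Fintype K] [Fintype I] {B : MF d K I} (A : Type) [Fintype A]
      [DecidableEq A] : Alg κ w c B → Alg κ w (.amp c) (amp B A)
  | rei {c : Code} {K I K' I' : Type} [Fintype K] [Fintype I] [Fintype K'] [Fintype I']
      {B : MF d K I} (e : K' → K) (f : I' → I) (he : Function.Injective e)
      (hf : Function.Injective f) : Alg κ w c B → Alg κ w (.rei c) (rei e f B)
  | congr {c : Code} {K I : Type} [Fintype K] [Fintype I] {B B' : MF d K I} :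
      Alg κ w c B → (∀ k i (p : ℝ × Eu d), 0 < p.1 → B' k i p = B k i p) → Alg κ w c B'

theorem Code.le_mono {N M : ℕ} (h : N ≤ M) {c : Code} (hc : c.le N) : c.le M := by
  induction c with
  | gen u => exact (show u.length ≤ N from hc).trans h
  | mul c c' ih ih' => exact ⟨ih hc.1, ih' hc.2⟩
  | add c c' ih ih' => exact ⟨ih hc.1, ih' hc.2⟩
  | sm c ih => exact ih hc
  | amp c ih => exact ih hc
  | rei c ih => exact ih hc

theorem Code.dout_le {N : ℕ} {c : Code} (hc : c.le N) : c.dout.le (N + 1) := by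
  induction c with
  | gen u => exact Nat.succ_le_succ (show u.length ≤ N from hc)
  | mul c c' ih ih' =>
    exact ⟨⟨ih hc.1, Code.le_mono (Nat.le_succ N) hc.2⟩,
      ⟨Code.le_mono (Nat.le_succ N) hc.1, ih' hc.2⟩⟩
  | add c c' ih ih' => exact ⟨ih hc.1, ih' hc.2⟩
  | sm c ih => exact ih hc
  | amp c ih => exact ih hc
  | rei c ih => exact ih hc

theorem Code.din_le {N : ℕ} {c : Code} (hc : c.le N) : c.din.le (N + 1) := by
  induction c with
  | gen u => exact Nat.succ_le_succ (show u.length ≤ N from hc)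
  | mul c c' ih ih' =>
    exact ⟨⟨Code.le_mono (Nat.le_succ N) hc.1, ih' hc.2⟩,
      ⟨ih hc.1, Code.le_mono (Nat.le_succ N) hc.2⟩⟩
  | add c c' ih ih' => exact ⟨ih hc.1, ih' hc.2⟩
  | sm c ih => exact ih hc
  | amp c ih => exact ih hc
  | rei c ih => exact ih hc

theorem pcode_le (u : List Bool) : (pcode u).le u.length := by
  induction u with
  | nil => exact ⟨le_rfl, le_rfl⟩
  | cons b u ih =>
    cases b with
    | true => exact ⟨Code.dout_le ih, ⟨Nat.zero_le _, le_rfl⟩⟩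
    | false => exact ⟨Code.din_le ih, ⟨le_rfl, Nat.zero_le _⟩⟩

theorem Code.cst_nonneg {n : ℕ} {g : List Bool → ℝ} (hg : ∀ u, 0 ≤ g u) (c : Code) :
    0 ≤ c.cst n g := by
  induction c with
  | gen u => exact hg u
  | mul c c' ih ih' => exact mul_nonneg (by positivity) (mul_nonneg ih ih')
  | add c c' ih ih' => exact add_nonneg ih ih'
  | sm c ih => exact ih
  | amp c ih => exact ih
  | rei c ih => exact ih

section
variable {κ : ℝ} {w : ℝ × Eu d → ℝ}

theorem cg_B0 (hw : Heat κ w) (i j : Fin d) : CG (Ioi 0) (B0 κ w i j) :=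
  CG.mul isOpen_Ioi (CG.const isOpen_Ioi κ⁻¹) ((hw.cg.dy j).dy i)

theorem IsW.cg (hw : Heat κ w) {u : List Bool} {K I : Type} [Fintype K] [Fintype I]
    {B : MF d K I} (h : IsW κ w u B) : ∀ k i, CG (Ioi 0) (B k i) := by
  induction h with
  | nil => exact cg_B0 hw
  | dout _ ih => exact fun k i => (ih k.2 i).dy k.1
  | din _ ih => exact fun k i => (ih k i.2).dy i.1

theorem cg_mulM {K L I : Type} [Fintype L] {B : MF d K L} {B' : MF d L I}
    (cB : ∀ k i, CG (Ioi 0) (B k i)) (cB' : ∀ k i, CG (Ioi 0) (B' k i)) (k : K) (i : I) :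
    CG (Ioi 0) (mulM B B' k i) :=
  CG.sum isOpen_Ioi Finset.univ fun j _ => CG.mul isOpen_Ioi (cB k j) (cB' j i)

theorem cg_amp {K I : Type} {B : MF d K I} (cB : ∀ k i, CG (Ioi 0) (B k i)) (A : Type)
    [DecidableEq A] (k : K × A) (i : I × A) : CG (Ioi 0) (Z.amp B A k i) := by
  unfold Z.amp
  by_cases h : k.2 = i.2
  · simp only [h, if_true]
    exact cB k.1 i.1
  · simp only [h, if_false]
    exact CG.const isOpen_Ioi 0

theorem Alg.cg (hw : Heat κ w) {c : Code} {K I : Type} [Fintype K] [Fintype I]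
    {B : MF d K I} (h : Alg κ w c B) : ∀ k i, CG (Ioi 0) (B k i) := by
  induction h with
  | gen h => exact h.cg hw
  | mul _ _ ih ih' => exact cg_mulM ih ih'
  | add _ _ ih ih' => exact fun k i => CG.add isOpen_Ioi (ih k i) (ih' k i)
  | sm a ha _ ih => exact fun k i => CG.mul isOpen_Ioi (CG.const isOpen_Ioi a) (ih k i)
  | amp A _ ih => exact cg_amp ih A
  | rei e f he hf _ ih => exact fun k i => ih (e k) (f i)
  | congr _ h ih => exact fun k i => (ih k i).congr isOpen_Ioi fun p hp => h k i p hp.1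

/-- Bounds of the elements of the algebra. -/
theorem Alg.bound (hw : Heat κ w) {S : Set ℝ} (hS : S ⊆ Ioi 0) {n N : ℕ} {g : List Bool → ℝ}
    (hg : ∀ u, 0 ≤ g u)
    (hG : ∀ u : List Bool, u.length ≤ N → ∀ {K I : Type} [Fintype K] [Fintype I] {B : MF d K I},
      IsW κ w u B → MBn w S n (g u) B) {c : Code} (hc : c.le N) {K I : Type} [Fintype K]
    [Fintype I] {B : MF d K I} (h : Alg κ w c B) : MBn w S n (c.cst n g) B := by
  induction h with
  | gen h => exact hG _ hc h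
  | mul h h' ih ih' =>
    exact MBn_mulM hw.cg hS (Code.cst_nonneg hg _) (Code.cst_nonneg hg _) (h.cg hw) (h'.cg hw)
      (ih hc.1) (ih' hc.2)
  | add h h' ih ih' =>
    exact MBn_addM hw.cg hS (Code.cst_nonneg hg _) (Code.cst_nonneg hg _) (h.cg hw) (h'.cg hw)
      (ih hc.1) (ih' hc.2)
  | @sm c _ _ _ _ _ a ha h ih =>
    refine (MBn_smM hS (h.cg hw) (ih hc) (a := a)).mono
      (mul_nonneg (abs_nonneg a) (Code.cst_nonneg hg _)) ?_
    have h1 := Code.cst_nonneg (n := n) hg c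
    show |a| * c.cst n g ≤ c.cst n g
    nlinarith
  | amp A h ih => exact MBn_amp hw.cg hS (h.cg hw) (ih hc) A
  | rei e f he hf h ih => exact MBn_rei hw.cg hS (h.cg hw) (ih hc) he hf
  | congr h hB ih => exact MBn.congr hw.cg hS (ih hc) hB

theorem dy_congr {f g : ℝ × Eu d → ℝ} (h : ∀ p : ℝ × Eu d, 0 < p.1 → g p = f p) (m : Fin d)
    (p : ℝ × Eu d) (hp : 0 < p.1) : dy m g p = dy m f p := by
  unfold dy
  rw [cgl_fderiv_congr (J := Ioi 0) isOpen_Ioi (fun q hq => h q hq.1) ⟨hp, trivial⟩]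

theorem dy_add {f g : ℝ × Eu d → ℝ} (hf : CG (Ioi 0) f) (hg : CG (Ioi 0) g) (m : Fin d)
    (p : ℝ × Eu d) (hp : 0 < p.1) : dy m (fun q => f q + g q) p = dy m f p + dy m g p := by
  unfold dy
  have hn := ((isOpen_Ioi (a := (0 : ℝ))).prod (isOpen_univ (X := Eu d))).mem_nhds
    (x := p) ⟨hp, trivial⟩
  have h1 := (hf.diff p ⟨hp, trivial⟩).differentiableAt hn
  have h2 := (hg.diff p ⟨hp, trivial⟩).differentiableAt hn
  rw [fderiv_fun_add h1 h2]
  rfl

theorem dy_smul {f : ℝ × Eu d → ℝ} (hf : CG (Ioi 0) f) (a : ℝ) (m : Fin d)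
    (p : ℝ × Eu d) (hp : 0 < p.1) : dy m (fun q => a * f q) p = a * dy m f p := by
  unfold dy
  have hn := ((isOpen_Ioi (a := (0 : ℝ))).prod (isOpen_univ (X := Eu d))).mem_nhds
    (x := p) ⟨hp, trivial⟩
  have h1 := (hf.diff p ⟨hp, trivial⟩).differentiableAt hn
  rw [fderiv_const_mul h1]
  rfl

theorem dy_zero (m : Fin d) (p : ℝ × Eu d) : dy m (fun _ => (0 : ℝ)) p = 0 := by
  unfold dy
  simp only [fderiv_fun_const, Pi.zero_apply, zero_apply]

/-- Derivatives stay in the algebra. -/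
theorem Alg.dout (hw : Heat κ w) {c : Code} {K I : Type} [Fintype K] [Fintype I]
    {B : MF d K I} (h : Alg κ w c B) : Alg κ w c.dout (Dout B) := by
  induction h with
  | gen h => exact Alg.gen h.dout
  | @mul c c' K L I _ _ _ B B' h h' ih ih' =>
    refine Alg.congr (Alg.add (Alg.mul ih h')
      (Alg.mul (Alg.rei (Prod.swap : Fin d × K → K × Fin d) (Prod.swap : Fin d × L → L × Fin d)
        Prod.swap_injective Prod.swap_injective (Alg.amp (Fin d) h)) ih')) ?_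
    rintro ⟨m, k⟩ i p hp
    show dy m (mulM B B' k i) p = ∑ j, dy m (B k j) p * B' j i p +
      ∑ j : Fin d × L, (if (Prod.swap (m, k)).2 = (Prod.swap j).2 then
        B (Prod.swap (m, k)).1 (Prod.swap j).1 p else 0) * dy j.1 (B' j.2 i) p
    rw [dy_mulM hw.cg (h.cg hw) (h'.cg hw) m k i hp, Finset.sum_add_distrib,
      Fintype.sum_prod_type]
    simp only [Prod.swap_prod_mk, ite_mul, zero_mul, Finset.sum_ite_irrel, Finset.sum_const_zero, Finset.sum_ite_eq, Finset.mem_univ, ↓reduceIte]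
  | @add c c' K I _ _ B B' h h' ih ih' =>
    refine Alg.congr (Alg.add ih ih') ?_
    rintro ⟨m, k⟩ i p hp
    exact dy_add (h.cg hw k i) (h'.cg hw k i) m p hp
  | @sm c K I _ _ B a ha h ih =>
    refine Alg.congr (Alg.sm a ha ih) ?_
    rintro ⟨m, k⟩ i p hp
    exact dy_smul (h.cg hw k i) a m p hp
  | @amp c K I _ _ B A _ _ h ih =>
    refine Alg.congr (Alg.rei (fun x : Fin d × (K × A) => ((x.1, x.2.1), x.2.2)) id ?_
      Function.injective_id (Alg.amp A ih)) ?_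
    · rintro ⟨a, b, c⟩ ⟨a', b', c'⟩ h
      simp only [Prod.mk.injEq] at h ⊢
      exact ⟨h.1.1, h.1.2, h.2⟩
    · rintro ⟨m, k, a⟩ ⟨i, a'⟩ p hp
      show dy m (fun p => if a = a' then B k i p else 0) p = if a = a' then dy m (B k i) p else 0
      by_cases h : a = a'
      · simp only [h, if_true]
      · simp only [h, if_false]
        exact dy_zero m p
  | @rei c K I K' I' _ _ _ _ B e f he hf h ih =>
    refine Alg.congr (Alg.rei (fun x : Fin d × K' => (x.1, e x.2)) f ?_ hf ih) ?_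
    · rintro ⟨a, b⟩ ⟨a', b'⟩ h
      simp only [Prod.mk.injEq] at h ⊢
      exact ⟨h.1, he h.2⟩
    · intro k i p hp
      rfl
  | congr h hB ih =>
    refine Alg.congr ih ?_
    rintro ⟨m, k⟩ i p hp
    exact dy_congr (hB k i) m p hp

theorem Alg.din (hw : Heat κ w) {c : Code} {K I : Type} [Fintype K] [Fintype I]
    {B : MF d K I} (h : Alg κ w c B) : Alg κ w c.din (Din B) := by
  induction h with
  | gen h => exact Alg.gen h.din
  | @mul c c' K L I _ _ _ B B' h h' ih ih' =>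
    refine Alg.congr (Alg.add (Alg.mul h ih')
      (Alg.mul ih (Alg.rei (Prod.swap : Fin d × L → L × Fin d)
        (Prod.swap : Fin d × I → I × Fin d)
        Prod.swap_injective Prod.swap_injective (Alg.amp (Fin d) h')))) ?_
    rintro k ⟨m, i⟩ p hp
    show dy m (mulM B B' k i) p = ∑ j, B k j p * dy m (B' j i) p +
      ∑ j : Fin d × L, dy j.1 (B k j.2) p * (if (Prod.swap j).2 = (Prod.swap (m, i)).2 then
        B' (Prod.swap j).1 (Prod.swap (m, i)).1 p else 0)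
    rw [dy_mulM hw.cg (h.cg hw) (h'.cg hw) m k i hp, Finset.sum_add_distrib, add_comm,
      Fintype.sum_prod_type]
    simp only [Prod.swap_prod_mk, mul_ite, mul_zero, Finset.sum_ite_irrel, Finset.sum_const_zero, Finset.sum_ite_eq', Finset.mem_univ, ↓reduceIte]
  | @add c c' K I _ _ B B' h h' ih ih' =>
    refine Alg.congr (Alg.add ih ih') ?_
    rintro k ⟨m, i⟩ p hp
    exact dy_add (h.cg hw k i) (h'.cg hw k i) m p hp
  | @sm c K I _ _ B a ha h ih =>
    refine Alg.congr (Alg.sm a ha ih) ?_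
    rintro k ⟨m, i⟩ p hp
    exact dy_smul (h.cg hw k i) a m p hp
  | @amp c K I _ _ B A _ _ h ih =>
    refine Alg.congr (Alg.rei id (fun x : Fin d × (I × A) => ((x.1, x.2.1), x.2.2))
      Function.injective_id ?_ (Alg.amp A ih)) ?_
    · rintro ⟨a, b, c⟩ ⟨a', b', c'⟩ h
      simp only [Prod.mk.injEq] at h ⊢
      exact ⟨h.1.1, h.1.2, h.2⟩
    · rintro ⟨k, a⟩ ⟨m, i, a'⟩ p hp
      show dy m (fun p => if a = a' then B k i p else 0) p = if a = a' then dy m (B k i) p else 0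
      by_cases h : a = a'
      · simp only [h, if_true]
      · simp only [h, if_false]
        exact dy_zero m p
  | @rei c K I K' I' _ _ _ _ B e f he hf h ih =>
    refine Alg.congr (Alg.rei e (fun x : Fin d × I' => (x.1, f x.2)) he ?_ ih) ?_
    · rintro ⟨a, b⟩ ⟨a', b'⟩ h
      simp only [Prod.mk.injEq] at h ⊢
      exact ⟨h.1, hf h.2⟩
    · intro k i p hp
      rfl
  | congr h hB ih =>
    refine Alg.congr ih ?_
    rintro k ⟨m, i⟩ p hp
    exact dy_congr (hB k i) m p hp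

theorem F1_eq (hκ : κ ≠ 0) (i j : Fin d) (p : ℝ × Eu d) : F1 w i j p = κ * B0 κ w i j p := by
  unfold B0
  rw [← mul_assoc, mul_inv_cancel₀ hκ, one_mul]

theorem Pf_smul {f : ℝ × Eu d → ℝ} (hf : CG (Ioi 0) f) (a : ℝ) (p : ℝ × Eu d) (hp : 0 < p.1) :
    Pf w (fun q => a * f q) p = a * Pf w f p := by
  have hn := ((isOpen_Ioi (a := (0 : ℝ))).prod (isOpen_univ (X := Eu d))).mem_nhds
    (x := p) ⟨hp, trivial⟩
  have h1 := (hf.diff p ⟨hp, trivial⟩).differentiableAt hn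
  have e1 : dlev (fun q => a * f q) p = a * dlev f p := by
    unfold dlev
    rw [fderiv_const_mul h1]
    rfl
  have e2 : ∀ k, dy k (dy k (fun q => a * f q)) p = a * dy k (dy k f) p := by
    intro k
    rw [dy_congr (fun q hq => dy_smul hf a k q hq) k p hp]
    exact dy_smul (hf.dy k) a k p hp
  unfold Pf
  rw [e1]
  simp only [e2, dy_smul hf a _ p hp]
  have e3 : ∑ k, dy k w p * (a * dy k f p) = a * ∑ k, dy k w p * dy k f p := by
    rw [Finset.mul_sum]
    exact Finset.sum_congr rfl fun k _ => by ring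
  rw [e3, ← Finset.mul_sum]
  ring

/-- `P` of a word is in the algebra. -/
theorem IsW.pm (hw : Heat κ w) (h0 : 0 < κ) (h1 : κ ≤ 1) {u : List Bool} {K I : Type}
    [Fintype K] [Fintype I] {B : MF d K I} (h : IsW κ w u B) : Alg κ w (pcode u) (PM w B) := by
  have hκ : |κ| ≤ 1 := by rw [abs_of_pos h0]; exact h1
  induction h with
  | nil =>
    refine Alg.congr (Alg.sm κ hκ (Alg.mul (Alg.gen IsW.nil) (Alg.gen IsW.nil))) ?_
    intro i j p hp
    show Pf w (fun q => κ⁻¹ * dy i (dy j w) q) p = κ * ∑ k, B0 κ w i k p * B0 κ w k j p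
    rw [Pf_smul ((hw.cg.dy j).dy i) κ⁻¹ p hp]
    have h2 := PM_F1 hw i j hp
    have h3 : Pf w (F1 w i j) p = ∑ k, F1 w i k p * F1 w k j p := h2
    rw [show Pf w (dy i (dy j w)) p = Pf w (F1 w i j) p from rfl, h3, Finset.mul_sum,
      Finset.mul_sum]
    refine Finset.sum_congr rfl fun k _ => ?_
    rw [F1_eq h0.ne' i k p, F1_eq h0.ne' k j p]
    (clear * - h0; field_simp)
  | @dout u K I _ _ B h ih =>
    classical
    refine Alg.congr (Alg.add (Alg.dout hw ih) (Alg.sm κ hκ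
      (Alg.mul (Alg.amp K (Alg.gen IsW.nil)) (Alg.gen h.dout)))) ?_
    rintro ⟨m, k⟩ i p hp
    show Pf w (dy m (B k i)) p = dy m (Pf w (B k i)) p + κ * ∑ j : Fin d × K,
      (if k = j.2 then B0 κ w m j.1 p else 0) * dy j.1 (B j.2 i) p
    rw [Pf_dy hw.cg (h.cg hw k i) m hp, Fintype.sum_prod_type]
    simp only [ite_mul, zero_mul, Finset.sum_ite_eq, Finset.mem_univ, if_true]
    rw [Finset.mul_sum]
    congr 1
    refine Finset.sum_congr rfl fun j _ => ?_
    rw [F1_eq h0.ne' m j p, mul_assoc]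
  | @din u K I _ _ B h ih =>
    classical
    refine Alg.congr (Alg.add (Alg.din hw ih) (Alg.sm κ hκ
      (Alg.mul (Alg.gen h.din) (Alg.amp I (Alg.gen IsW.nil))))) ?_
    rintro k ⟨m, i⟩ p hp
    show Pf w (dy m (B k i)) p = dy m (Pf w (B k i)) p + κ * ∑ j : Fin d × I,
      dy j.1 (B k j.2) p * (if j.2 = i then B0 κ w j.1 m p else 0)
    rw [Pf_dy hw.cg (h.cg hw k i) m hp, Fintype.sum_prod_type]
    simp only [mul_ite, mul_zero, Finset.sum_ite_eq', Finset.mem_univ, if_true]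
    rw [Finset.mul_sum]
    congr 1
    refine Finset.sum_congr rfl fun j _ => ?_
    rw [F1_symm hw m j hp, F1_eq h0.ne' j m p]
    ring

end

/-- Uniform bounds of the words of length at most `N`. -/
def GB (S : Set ℝ) (n N : ℕ) : Prop :=
  ∀ u : List Bool, u.length ≤ N → ∃ C : ℝ, 0 ≤ C ∧ ∀ (d : ℕ) (κ : ℝ) (w : ℝ × Eu d → ℝ),
    Heat κ w → 0 < κ → κ ≤ 1 → ∀ {K I : Type} [Fintype K] [Fintype I] {B : MF d K I},
      IsW κ w u B → MBn w S n C B

theorem GB.alg {S : Set ℝ} (hS : S ⊆ Ioi 0) {n N : ℕ} (hG : GB S n N) {c : Code}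
    (hc : c.le N) : ∃ C : ℝ, 0 ≤ C ∧ ∀ (d : ℕ) (κ : ℝ) (w : ℝ × Eu d → ℝ),
    Heat κ w → 0 < κ → κ ≤ 1 → ∀ {K I : Type} [Fintype K] [Fintype I] {B : MF d K I},
      Alg κ w c B → MBn w S n C B := by
  have h1 : ∀ u : List Bool, ∃ C : ℝ, 0 ≤ C ∧ (u.length ≤ N → ∀ (d : ℕ) (κ : ℝ)
      (w : ℝ × Eu d → ℝ), Heat κ w → 0 < κ → κ ≤ 1 → ∀ {K I : Type} [Fintype K] [Fintype I]
      {B : MF d K I}, IsW κ w u B → MBn w S n C B) := by
    intro u
    by_cases hu : u.length ≤ N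
    · obtain ⟨C, h0, h⟩ := hG u hu
      exact ⟨C, h0, fun _ => h⟩
    · exact ⟨0, le_rfl, fun h => absurd h hu⟩
  choose g hg hg' using h1
  refine ⟨c.cst n g, Code.cst_nonneg hg c, ?_⟩
  intro d κ w hw h0 h1 K I _ _ B hB
  exact Alg.bound hw hS hg (fun u hu {K I} _ _ {B} h => hg' u hu d κ w hw h0 h1 h) hc hB

theorem gb_zero {l : ℝ} (hl : 0 < l) : GB (Icc l 1) 0 0 := by
  intro u hu
  have hu' : u = [] := List.length_eq_zero_iff.1 (Nat.le_zero.1 hu)
  subst hu'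
  refine ⟨1, zero_le_one, ?_⟩
  intro d κ w hw h0 h1 K I _ _ B hB
  cases hB with
  | nil =>
    have h2 := opB_smM (a := κ⁻¹) (F1_op hw h0.le (Icc l 1) fun x hx => hl.trans_le hx.1)
    have h3 : |κ⁻¹| * κ = 1 := by
      rw [abs_of_pos (inv_pos.2 h0), inv_mul_cancel₀ h0.ne']
    rw [h3] at h2
    exact h2

theorem gb_succ {l δ : ℝ} (hl : 0 < l) (hδ : 0 < δ) {N : ℕ} (hG : GB (Icc l 1) 0 N) :
    GB (Icc (l + δ) 1) 0 (N + 1) := by
  have hS : Icc l 1 ⊆ Ioi (0 : ℝ) := fun x hx => hl.trans_le hx.1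
  intro u hu
  cases u with
  | nil =>
    obtain ⟨C, h0, h⟩ := hG [] (Nat.zero_le _)
    refine ⟨C, h0, ?_⟩
    intro d κ w hw h0 h1 K I _ _ B hB
    exact MBn.mono_S (h d κ w hw h0 h1 hB) (Icc_subset_Icc (by (clear * - hδ; linarith)) le_rfl)
  | cons b u =>
    have hu' : u.length ≤ N := Nat.le_of_succ_le_succ hu
    obtain ⟨C, hC0, hC⟩ := hG u hu'
    obtain ⟨C', hC0', hC'⟩ := GB.alg hS hG (Code.le_mono hu' (pcode_le u))
    refine ⟨C / √δ + 2 * √δ * C', by (clear * - hC0 hδ hC0'; positivity), ?_⟩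
    intro d κ w hw h0 h1 K I _ _ B hB
    cases hB with
    | dout hB =>
      exact (smoothing hw h0.le h1 (hB.cg hw) hl hδ hC0 hC0' (hC d κ w hw h0 h1 hB)
        (hC' d κ w hw h0 h1 (hB.pm hw h0 h1))).1
    | din hB =>
      exact (smoothing hw h0.le h1 (hB.cg hw) hl hδ hC0 hC0' (hC d κ w hw h0 h1 hB)
        (hC' d κ w hw h0 h1 (hB.pm hw h0 h1))).2

theorem gb_all (N : ℕ) : GB (Icc (1 / 2 - (1 / 4) * (1 / 2) ^ N) 1) 0 N := by
  induction N with
  | zero => exact gb_zero (by norm_num)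
  | succ N ih =>
    have h1 : (0 : ℝ) < (1 / 2) ^ N := by positivity
    have h2 : ((1 : ℝ) / 2) ^ N ≤ 1 := pow_le_one₀ (by norm_num) (by norm_num)
    have h3 := gb_succ (l := 1 / 2 - (1 / 4) * (1 / 2) ^ N) (δ := (1 / 8) * (1 / 2) ^ N)
      (by linarith only [h2]) (by positivity) ih
    have e : (1 / 2 - (1 / 4) * (1 / 2) ^ N + (1 / 8) * (1 / 2) ^ N : ℝ) =
        1 / 2 - (1 / 4) * (1 / 2) ^ (N + 1) := by
      rw [pow_succ]
      ring
    rw [e] at h3
    exact h3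

theorem lev_sub : Lev ⊆ Ioi (0 : ℝ) := fun x hx => lt_of_lt_of_le (by norm_num) hx.1

theorem gb_lev (n N : ℕ) : GB Lev n N := by
  induction n generalizing N with
  | zero =>
    intro u hu
    obtain ⟨C, h0, h⟩ := gb_all N u hu
    refine ⟨C, h0, ?_⟩
    intro d κ w hw h0 h1 K I _ _ B hB
    refine MBn.mono_S (h d κ w hw h0 h1 hB) (Icc_subset_Icc ?_ le_rfl)
    have h1 : (0 : ℝ) < (1 / 2) ^ N := by positivity
    linarith only [h1]
  | succ n ih =>
    intro u hu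
    obtain ⟨C1, h1, hC1⟩ := ih N u hu
    obtain ⟨C2, h2, hC2⟩ := ih (N + 1) (true :: u) (Nat.succ_le_succ hu)
    obtain ⟨C3, h3, hC3⟩ := ih (N + 1) (false :: u) (Nat.succ_le_succ hu)
    obtain ⟨C4, h4, hC4⟩ := GB.alg lev_sub (ih N) (Code.le_mono hu (pcode_le u))
    refine ⟨C1 + C2 + C3 + C4, by (clear * - h1 h2 h3 h4; positivity), ?_⟩
    intro d κ w hw hκ0 hκ1 K I _ _ B hB
    refine ⟨?_, ?_, ?_, ?_⟩
    · exact ((hC1 d κ w hw hκ0 hκ1 hB).opB).mono h1 (by linarith only [h2, h3, h4])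
    · exact (hC2 d κ w hw hκ0 hκ1 hB.dout).mono h2 (by linarith only [h1, h3, h4])
    · exact (hC3 d κ w hw hκ0 hκ1 hB.din).mono h3 (by linarith only [h1, h2, h4])
    · exact (hC4 d κ w hw hκ0 hκ1 (hB.pm hw hκ0 hκ1)).mono h4 (by linarith only [h1, h2, h3])

end MBz

theorem MB_B0 : ∃ C : ℕ → ℝ, (∀ n, 0 ≤ C n) ∧ ∀ (d : ℕ) (κ : ℝ) (w : ℝ × Eu d → ℝ), Heat κ w →
    0 < κ → κ ≤ 1 → MB w C (B0 κ w) := by
  have h : ∀ n : ℕ, ∃ C : ℝ, 0 ≤ C ∧ ∀ (d : ℕ) (κ : ℝ) (w : ℝ × Eu d → ℝ), Heat κ w →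
      0 < κ → κ ≤ 1 → MBn w Lev n C (B0 κ w) := by
    intro n
    obtain ⟨C, h0, h⟩ := MBz.gb_lev n 0 [] le_rfl
    exact ⟨C, h0, fun d κ w hw h0 h1 => h d κ w hw h0 h1 MBz.IsW.nil⟩
  choose C hC0 hC using h
  exact ⟨C, hC0, fun d κ w hw h0 h1 => ⟨fun k i => MBz.cg_B0 hw k i,
    fun n => hC n d κ w hw h0 h1⟩⟩

end Vale.Agent.P347.Z
end

section

/-! P347-Z-E2. Transport of a smooth density by the flow of a `C¹` field of linear growth: if
`∂_t ρ + div (ρ X) = 0` then the flow pushes `ρ_0 dz` to `ρ_t dz`.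

PROOF A (Rademacher, no determinants). Fix `t1 ∈ (0,T]` and a test function `f`, Lipschitz with compact
support. Let `u (t, z) = f (Ψ_{t→t1} z)` where `Ψ_{t→t1}` is the flow from time `t` to time `t1`
(inverse of `Φ t` followed by `Φ t1`; construct it as the solution of the ODE started at time `t`; it
exists since X has linear growth). `u` is locally Lipschitz in `(t,z)`, has compact support in `z`
(uniformly in t, by the linear growth), and is constant along the curves `t ↦ (t, Φ t z)`. Hence at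
every point where `u` is differentiable (a.e., Rademacher) `D u (1, X(t,z)) = 0`. Integrate
by parts (Mathlib: `LipschitzWith.integral_lineDeriv_mul_eq` in `Rademacher`) against
`φ(t) ρ(t,z)`: `∫ φ'(t) (∫ u ρ dz) dt = 0` for all `φ ∈ C_c^∞((0,t1))` so `∫ u(t,z) ρ(t,z) dz` is
constant in `t` on `(0,t1)`, by continuity on `[0,t1]`; at `t = t1` it is `∫ f ρ_{t1}`, at `t = 0` it is
`∫ f (Φ_{t1} z) ρ_0`. Two finite measures which agree on compactly supported Lipschitz functions agree.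

PROOF B (Euler scheme in total variation). `E_j z = z + h X(t_j, z)` is injective on a fixed ball,
`det (1 + h DX) = 1 + h div X + O(h²)`, so by the change of variables formula
`|μ_{t_j}(E_j⁻¹ A ∩ B_R) - μ_{t_{j+1}}(A)| ≤ C h²` for all measurable `A ⊆ B_r`; total
variation is not increased by push forward; sum over `T/h` steps; the Euler scheme converges to the flow
locally uniformly, and test with continuous functions of compact support.

PROOF C. If you can get `C¹` dependence of the flow on the initial point, then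
`t ↦ ρ(t, Φ t z) det (D Φ t z)` is constant and the change of variables formula gives the result. -/

open Set Module MeasureTheory
open scoped ENNReal

namespace Vale.Agent.P347.Z

theorem transport {W : Type} [NormedAddCommGroup W] [NormedSpace ℝ W] [FiniteDimensional ℝ W]
    [MeasurableSpace W] [BorelSpace W] (μ : Measure W) [μ.IsAddHaarMeasure]
    {ι : Type} [Fintype ι] (b : Basis ι ℝ W)
    {J : Set ℝ} (hJ : IsOpen J) {T : ℝ} (hT : 0 ≤ T) (hTJ : Icc 0 T ⊆ J) {X : ℝ × W → W}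
    (hX : ContDiffOn ℝ 1 X (J ×ˢ univ)) {C : ℝ}
    (hC : ∀ t ∈ Icc 0 T, ∀ z, ‖X (t, z)‖ ≤ C * (1 + ‖z‖))
    {ρ : ℝ × W → ℝ} (hρ : ContDiffOn ℝ 1 ρ (J ×ˢ univ)) (hρ0 : ∀ p, 0 ≤ ρ p)
    (hρi : ∀ t ∈ Icc 0 T, Integrable (fun z => ρ (t, z)) μ)
    (hce : ∀ t ∈ Icc 0 T, ∀ z, fderiv ℝ ρ (t, z) (1, 0) + fderiv ℝ ρ (t, z) (0, X (t, z))
      + ρ (t, z) * ∑ i, b.repr (fderiv ℝ X (t, z) (0, b i)) i = 0)
    {Φ : ℝ → W → W} (hΦ0 : ∀ z, Φ 0 z = z)
    (hΦ : ∀ z, ∀ t ∈ Icc 0 T, HasDerivWithinAt (fun t => Φ t z) (X (t, Φ t z)) (Icc 0 T) t)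
    (hΦc : ContinuousOn (fun p : ℝ × W => Φ p.1 p.2) (Icc 0 T ×ˢ univ)) :
    ∀ t ∈ Icc 0 T, (μ.withDensity (fun z => ENNReal.ofReal (ρ (0, z)))).map (Φ t)
      = μ.withDensity (fun z => ENNReal.ofReal (ρ (t, z))) := by
  intro t ht
  have _ := hT
  rcases eq_or_lt_of_le ht.1 with h0 | h0
  · subst h0
    have : Φ 0 = id := funext hΦ0
    rw [this, Measure.map_id]
  · have hsub : Icc 0 t ⊆ Icc 0 T := Icc_subset_Icc le_rfl ht.2
    have hc : Continuous (Φ t) :=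
      hΦc.comp_continuous (f := fun z : W => (t, z)) (by fun_prop) (fun z => ⟨ht, mem_univ _⟩)
    exact Tr.transport_final μ b hJ (hsub.trans hTJ) hX (fun s hs => hC s (hsub hs)) hρ h0
      (fun s hs => hce s (hsub hs)) hρ0 (fun s hs => hρi s (hsub hs)) hΦ0
      (fun z s hs => (hΦ z s (hsub hs)).mono hsub) hc

end Vale.Agent.P347.Z
end

section
attribute [-instance] ProperSMul.toContinuousSMul IsTopologicalTorsor.toContinuousSMul IdemSemiring.toCanonicallyOrderedAdd IdemSemiring.toMulLeftMono IdemSemiring.toMulRightMono AddQuantale.instAddLeftMono AddQuantale.instAddRightMono Quantale.instMulLeftMono Quantale.instMulRightMono FiniteDimensional.rclike_to_real IsScalarTower.complexToReal FiniteDimensional.complexToReal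

/-! P347-Z-E3. Existence and exact law of the `lam`-flow. -/

open MeasureTheory Filter Module Set
open scoped ENNReal NNReal

namespace Vale.Agent.P347.Z

section lflow

variable {d : ℕ} {w : ℝ × Eu d → ℝ} {κ l0 lam : ℝ}

/-! ### Evaluation on the extended state `(τ, (Y, (a, g)))` -/

/-- A function of `(l, y)` evaluated at `(l0 - τ², Y + τ a)`. -/
def lfu (l0 : ℝ) (f : ℝ × Eu d → ℝ) (q : ℝ × (Eu d × (Eu d × Eu d))) : ℝ :=
  f (l0 - q.1 ^ 2, q.2.1 + q.1 • q.2.2.1)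

theorem lfu_contDiffOn {f : ℝ × Eu d → ℝ} (hf : CG (Ioi 0) f) (hl : 3 / 4 ≤ l0) :
    ContDiffOn ℝ 1 (lfu l0 f) (JT ×ˢ univ) := by
  have h1 := hf.contDiffOn isOpen_Ioi 1
  rw [Nat.cast_one] at h1
  refine h1.comp (f := fun q : ℝ × (Eu d × (Eu d × Eu d)) =>
    ((l0 - q.1 ^ 2, q.2.1 + q.1 • q.2.2.1) : ℝ × Eu d)) ?_ ?_
  · exact ContDiff.contDiffOn (by (clear * -; fun_prop))
  · rintro ⟨t, z⟩ ⟨ht, -⟩
    refine ⟨?_, trivial⟩
    obtain ⟨h3, h4⟩ := (ht : -(3 / 4) < t ∧ t < 3 / 4)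
    show 0 < l0 - t ^ 2
    (refine lt_of_not_ge fun hng_ => ?_; linarith only [mul_nonneg (le_of_lt (sub_pos.2 h3)) (sub_nonneg.2 hng_), mul_nonneg (le_of_lt (sub_pos.2 h4)) (sub_nonneg.2 hng_), mul_nonneg (sub_nonneg.2 hl) (le_of_lt (sub_pos.2 h3)), mul_pos (sub_pos.2 h3) (sub_pos.2 h4), mul_nonneg (sub_nonneg.2 hl) (le_of_lt (sub_pos.2 h4))])

/-- The `a_k`-component of the field. -/
noncomputable def lfa (w : ℝ × Eu d → ℝ) (l0 lam : ℝ) (k : Fin d)
    (q : ℝ × (Eu d × (Eu d × Eu d))) : ℝ :=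
  -lfu l0 (dy k w) q + lam * ∑ j, lfu l0 (F1 w k j) q * q.2.2.2 j

/-- The `g_k`-component of the field. -/
noncomputable def lfg (w : ℝ × Eu d → ℝ) (l0 lam : ℝ) (k : Fin d)
    (q : ℝ × (Eu d × (Eu d × Eu d))) : ℝ :=
  -lam * ∑ j, (-(q.1 * lfu l0 (dy j (F1 w j k)) q)
    + (q.2.2.1 j + q.1 * lfu l0 (dy j w) q) * lfu l0 (F1 w j k) q)

/-- The field on the extended state. -/
noncomputable def lfX (w : ℝ × Eu d → ℝ) (l0 lam : ℝ) (q : ℝ × (Eu d × (Eu d × Eu d))) :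
    Eu d × (Eu d × Eu d) :=
  (0, (WithLp.toLp 2 fun k => lfa w l0 lam k q, WithLp.toLp 2 fun k => lfg w l0 lam k q))

theorem lf_proj_contDiff (k : Fin d) {E : Type} [NormedAddCommGroup E] [NormedSpace ℝ E]
    {f : E → Eu d} (hf : ContDiff ℝ 1 f) : ContDiff ℝ 1 (fun x => f x k) :=
  (contDiff_euclidean.1 hf) k

theorem lfX_contDiffOn (hw : Heat κ w) (hl : 3 / 4 ≤ l0) :
    ContDiffOn ℝ 1 (lfX w l0 lam) (JT ×ˢ univ) := by
  have c0 : ∀ k, CG (Ioi 0) (dy k w) := fun k => hw.cg.dy k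
  have c1 : ∀ k j, CG (Ioi 0) (F1 w k j) := fun k j => (hw.cg.dy j).dy k
  have c2 : ∀ k j, CG (Ioi 0) (dy j (F1 w j k)) := fun k j => (c1 j k).dy j
  have hg : ∀ j : Fin d, ContDiffOn ℝ 1 (fun q : ℝ × (Eu d × (Eu d × Eu d)) => q.2.2.2 j)
      (JT ×ˢ univ) := fun j => (lf_proj_contDiff j (by fun_prop)).contDiffOn
  have ha : ∀ j : Fin d, ContDiffOn ℝ 1 (fun q : ℝ × (Eu d × (Eu d × Eu d)) => q.2.2.1 j)
      (JT ×ˢ univ) := fun j => (lf_proj_contDiff j (by fun_prop)).contDiffOn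
  have ht : ContDiffOn ℝ 1 (fun q : ℝ × (Eu d × (Eu d × Eu d)) => q.1) (JT ×ˢ univ) :=
    ContDiff.contDiffOn (by fun_prop)
  refine contDiffOn_const.prodMk (ContDiffOn.prodMk ?_ ?_)
  · rw [contDiffOn_euclidean]
    intro k
    show ContDiffOn ℝ 1 (fun q => lfa w l0 lam k q) (JT ×ˢ univ)
    exact (lfu_contDiffOn (c0 k) hl).neg.add (contDiffOn_const.mul (ContDiffOn.sum fun j _ =>
      (lfu_contDiffOn (c1 k j) hl).mul (hg j)))
  · rw [contDiffOn_euclidean]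
    intro k
    show ContDiffOn ℝ 1 (fun q => lfg w l0 lam k q) (JT ×ˢ univ)
    exact contDiffOn_const.mul (ContDiffOn.sum fun j _ =>
      (ht.mul (lfu_contDiffOn (c2 k j) hl)).neg.add
        (((ha j).add (ht.mul (lfu_contDiffOn (c0 j) hl))).mul (lfu_contDiffOn (c1 j k) hl)))

/-! ### Linear growth -/

/-- Linear growth on `IT`. -/
def LG (f : ℝ × (Eu d × (Eu d × Eu d)) → ℝ) : Prop :=
  ∃ C, 0 ≤ C ∧ ∀ t ∈ IT, ∀ z, |f (t, z)| ≤ C * (1 + ‖z‖)

/-- Boundedness on `IT`. -/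
def BG (f : ℝ × (Eu d × (Eu d × Eu d)) → ℝ) : Prop :=
  ∃ C, 0 ≤ C ∧ ∀ t ∈ IT, ∀ z, |f (t, z)| ≤ C

variable {f g : ℝ × (Eu d × (Eu d × Eu d)) → ℝ}

theorem LG.add (hf : LG f) (hg : LG g) : LG (fun q => f q + g q) := by
  obtain ⟨C, h0, h⟩ := hf
  obtain ⟨C', h0', h'⟩ := hg
  refine ⟨C + C', by (clear * - h0 h0'; positivity), fun t ht z => (abs_add_le _ _).trans ?_⟩
  linarith only [(h' t ht z), (h t ht z)]

theorem LG.neg (hf : LG f) : LG (fun q => -f q) := by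
  obtain ⟨C, h0, h⟩ := hf
  exact ⟨C, h0, fun t ht z => by rw [abs_neg]; exact h t ht z⟩

theorem LG.bmul (hf : BG f) (hg : LG g) : LG (fun q => f q * g q) := by
  obtain ⟨C, h0, h⟩ := hf
  obtain ⟨C', h0', h'⟩ := hg
  refine ⟨C * C', by positivity, fun t ht z => ?_⟩
  rw [abs_mul, mul_assoc]
  exact mul_le_mul (h t ht z) (h' t ht z) (abs_nonneg _) h0

theorem BG.mul (hf : BG f) (hg : BG g) : BG (fun q => f q * g q) := by
  obtain ⟨C, h0, h⟩ := hf
  obtain ⟨C', h0', h'⟩ := hg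
  refine ⟨C * C', by positivity, fun t ht z => ?_⟩
  rw [abs_mul]
  exact mul_le_mul (h t ht z) (h' t ht z) (abs_nonneg _) h0

theorem BG.lg (hf : BG f) : LG f := by
  obtain ⟨C, h0, h⟩ := hf
  refine ⟨C, h0, fun t ht z => (h t ht z).trans ?_⟩
  linarith only [mul_nonneg h0 (norm_nonneg z)]

theorem LG.sum {F : Fin d → ℝ × (Eu d × (Eu d × Eu d)) → ℝ} (hF : ∀ j, LG (F j)) :
    LG (fun q => ∑ j, F j q) := by
  choose C h0 h using hF
  refine ⟨∑ j, C j, Finset.sum_nonneg fun j _ => h0 j, fun t ht z => ?_⟩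
  refine (Finset.abs_sum_le_sum_abs _ _).trans ?_
  rw [Finset.sum_mul]
  exact Finset.sum_le_sum fun j _ => h j t ht z

theorem BG.const (c : ℝ) : BG (fun _ : ℝ × (Eu d × (Eu d × Eu d)) => c) :=
  ⟨|c|, abs_nonneg _, fun _ _ _ => le_rfl⟩

theorem BG.time : BG (fun q : ℝ × (Eu d × (Eu d × Eu d)) => q.1) := by
  refine ⟨1, zero_le_one, fun t ht _ => ?_⟩
  obtain ⟨h1, h2⟩ := (ht : 0 ≤ t ∧ t ≤ 1 / 2)
  rw [abs_le]
  constructor <;> (first | linarith only [h1] | linarith only [h2])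

theorem lf_coord (x : Eu d) (k : Fin d) : |x k| ≤ ‖x‖ := by
  have := PiLp.norm_apply_le x k
  rwa [Real.norm_eq_abs] at this

theorem LG.ac (k : Fin d) : LG (fun q : ℝ × (Eu d × (Eu d × Eu d)) => q.2.2.1 k) := by
  refine ⟨1, zero_le_one, fun t _ z => (lf_coord _ k).trans ?_⟩
  have h1 : ‖z.2.1‖ ≤ ‖z‖ := (norm_fst_le z.2).trans (norm_snd_le z)
  show ‖z.2.1‖ ≤ _
  linarith only [h1]

theorem LG.gc (k : Fin d) : LG (fun q : ℝ × (Eu d × (Eu d × Eu d)) => q.2.2.2 k) := by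
  refine ⟨1, zero_le_one, fun t _ z => (lf_coord _ k).trans ?_⟩
  have h1 : ‖z.2.2‖ ≤ ‖z‖ := (norm_snd_le z.2).trans (norm_snd_le z)
  show ‖z.2.2‖ ≤ _
  linarith only [h1]

theorem lf_lev {t : ℝ} (ht : t ∈ IT) (hl : 3 / 4 ≤ l0) (hl1 : l0 ≤ 1) :
    l0 - t ^ 2 ∈ Lev := by
  obtain ⟨h1, h2⟩ := (ht : 0 ≤ t ∧ t ≤ 1 / 2)
  constructor <;> (first | linarith only [mul_nonneg (sub_nonneg.2 h2) (sub_nonneg.2 h2), mul_nonneg (sub_nonneg.2 hl) (sub_nonneg.2 h2), mul_nonneg (sub_nonneg.2 hl) h1, mul_nonneg h1 (sub_nonneg.2 h2)] | (refine le_of_not_gt fun hng_ => ?_; linarith only [mul_nonneg (sq_nonneg (t)) (le_of_lt (sub_pos.2 hng_)), mul_pos (sub_pos.2 hng_) (sub_pos.2 hng_), mul_nonneg (sub_nonneg.2 hl1) (le_of_lt (sub_pos.2 hng_))]))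

theorem LG.F (hw : Heat κ w) (h0 : 0 ≤ κ) (hl : 3 / 4 ≤ l0) (hl1 : l0 ≤ 1) (k : Fin d) :
    LG (lfu l0 (dy k w)) := by
  refine ⟨κ * (2 + √d), by (clear * - h0; positivity), fun t ht z => ?_⟩
  have hL := lf_lev ht hl hl1
  have hL1 : (1 : ℝ) / 2 ≤ l0 - t ^ 2 := hL.1
  have e1 := hw.norm_Fv h0 (l := l0 - t ^ 2) (by linarith only [hL1]) hL.2 (z.1 + t • z.2.1)
  have e2 := lf_coord (Fv w (l0 - t ^ 2, z.1 + t • z.2.1)) k
  have e3 : Fv w (l0 - t ^ 2, z.1 + t • z.2.1) k = lfu l0 (dy k w) (t, z) := rfl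
  rw [e3] at e2
  obtain ⟨h1, h2⟩ := (ht : 0 ≤ t ∧ t ≤ 1 / 2)
  have e4 : ‖z.1 + t • z.2.1‖ ≤ 2 * ‖z‖ := by
    refine (norm_add_le _ _).trans ?_
    rw [norm_smul, Real.norm_eq_abs, abs_of_nonneg h1]
    have h3 : ‖z.2.1‖ ≤ ‖z‖ := (norm_fst_le z.2).trans (norm_snd_le z)
    have h4 : ‖z.1‖ ≤ ‖z‖ := norm_fst_le z
    linarith only [mul_nonneg (sub_nonneg.2 h2) (norm_nonneg z.2.1), mul_nonneg h1 (norm_nonneg z.2.1), mul_nonneg h1 (sub_nonneg.2 h3), mul_nonneg h1 (sub_nonneg.2 h4), mul_nonneg (sub_nonneg.2 h2) (sub_nonneg.2 h3), mul_nonneg (sub_nonneg.2 h2) (sub_nonneg.2 h4)]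
  refine (e2.trans e1).trans ?_
  have e5 : ‖z.1 + t • z.2.1‖ + √d ≤ (2 + √d) * (1 + ‖z‖) := by
    (refine le_of_not_gt fun hng_ => ?_; linarith only [mul_nonneg (sub_nonneg.2 h2) (le_of_lt (sub_pos.2 hng_)), mul_nonneg h1 (le_of_lt (sub_pos.2 hng_)), mul_nonneg (norm_nonneg z) (Real.sqrt_nonneg (d : ℝ)), mul_nonneg (sub_nonneg.2 h2) (sub_nonneg.2 e4), mul_nonneg h1 (sub_nonneg.2 e4)])
  calc κ * (‖z.1 + t • z.2.1‖ + √d) ≤ κ * ((2 + √d) * (1 + ‖z‖)) :=
        mul_le_mul_of_nonneg_left e5 h0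
    _ = _ := by ring

/-- Entries of a bounded multiplier are bounded. -/
theorem lf_entry {K I : Type} [Fintype K] [Fintype I] {S : Set ℝ} {c : ℝ} (hc : 0 ≤ c)
    {B : MF d K I} (h : opB S c B) {l : ℝ} (hl : l ∈ S) (y : Eu d) (k : K) (i : I) :
    |B k i (l, y)| ≤ c := by
  classical
  have h1 := h l hl y (fun i' => if i' = i then 1 else 0)
  have h2 : ∀ k, ∑ i', B k i' (l, y) * (if i' = i then (1 : ℝ) else 0) = B k i (l, y) := fun k => by
    simp only [mul_ite, mul_one, mul_zero, Finset.sum_ite_eq', Finset.mem_univ, ↓reduceIte]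
  simp_rw [h2] at h1
  have h3 : ∑ i', (if i' = i then (1 : ℝ) else 0) ^ 2 = 1 := by simp only [ite_pow, one_pow, ne_eq, OfNat.ofNat_ne_zero, not_false_eq_true, zero_pow, Finset.sum_ite_eq', Finset.mem_univ, ↓reduceIte]
  rw [h3, mul_one] at h1
  have h4 : (B k i (l, y)) ^ 2 ≤ c ^ 2 := le_trans
    (Finset.single_le_sum (f := fun k => (B k i (l, y)) ^ 2) (fun _ _ => sq_nonneg _)
      (Finset.mem_univ k)) h1
  exact abs_le_of_sq_le_sq h4 hc

theorem BG.F1 (hw : Heat κ w) (h0 : 0 ≤ κ) (hl : 3 / 4 ≤ l0) (hl1 : l0 ≤ 1) (k j : Fin d) :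
    BG (lfu l0 (Z.F1 w k j)) := by
  refine ⟨κ, h0, fun t ht z => ?_⟩
  exact lf_entry h0 (F1_op hw h0 Lev fun x hx => lt_of_lt_of_le (by (clear * -; norm_num)) hx.1)
    (lf_lev ht hl hl1) _ k j

theorem BG.dF1 (hw : Heat κ w) (h0 : 0 < κ) (h1 : κ ≤ 1) (hl : 3 / 4 ≤ l0) (hl1 : l0 ≤ 1)
    (m k j : Fin d) : BG (lfu l0 (dy m (Z.F1 w k j))) := by
  obtain ⟨C, hC0, hC⟩ := MB_B0
  have h2 := ((hC d κ w hw h0 h1).2 1).2.1
  have h3 : opB Lev (C 1) (Dout (B0 κ w)) := h2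
  refine ⟨κ * C 1, mul_nonneg h0.le (hC0 1), fun t ht z => ?_⟩
  have hL := lf_lev ht hl hl1
  have e1 := lf_entry (hC0 1) h3 hL (z.1 + t • z.2.1) (m, k) j
  have hL0 : 0 < l0 - t ^ 2 := lt_of_lt_of_le (by norm_num) hL.1
  have e2 : Dout (B0 κ w) (m, k) j (l0 - t ^ 2, z.1 + t • z.2.1) =
      κ⁻¹ * dy m (Z.F1 w k j) (l0 - t ^ 2, z.1 + t • z.2.1) := by
    show dy m (B0 κ w k j) _ = _
    exact mlt_dy_smul κ⁻¹ (Z.F1 w k j) m ▸ rfl
  rw [e2, abs_mul, abs_of_pos (inv_pos.2 h0)] at e1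
  show |dy m (Z.F1 w k j) (l0 - t ^ 2, z.1 + t • z.2.1)| ≤ κ * C 1
  have e3 := mul_le_mul_of_nonneg_left e1 h0.le
  rwa [← mul_assoc, mul_inv_cancel₀ h0.ne', one_mul] at e3

theorem LG.lfa (hw : Heat κ w) (h0 : 0 ≤ κ) (hl : 3 / 4 ≤ l0) (hl1 : l0 ≤ 1) (k : Fin d) :
    LG (Z.lfa w l0 lam k) :=
  LG.add (LG.neg (LG.F hw h0 hl hl1 k)) (LG.bmul (BG.const lam)
    (LG.sum fun j => LG.bmul (BG.F1 hw h0 hl hl1 k j) (LG.gc j)))

theorem LG.congr (hf : LG f) (h : ∀ q, g q = f q) : LG g := by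
  have : g = f := funext h
  rwa [this]

theorem LG.lfg (hw : Heat κ w) (h0 : 0 < κ) (h1 : κ ≤ 1) (hl : 3 / 4 ≤ l0) (hl1 : l0 ≤ 1)
    (k : Fin d) : LG (Z.lfg w l0 lam k) := by
  refine LG.congr (LG.bmul (BG.const (-lam)) (LG.sum fun j =>
    LG.add (LG.neg ((BG.time.mul (BG.dF1 hw h0 h1 hl hl1 j j k)).lg))
      (LG.bmul (BG.F1 hw h0.le hl hl1 j k) (LG.add (LG.ac j)
        (LG.bmul BG.time (LG.F hw h0.le hl hl1 j)))))) fun q => ?_
  unfold Z.lfg
  congr 1
  refine Finset.sum_congr rfl fun j _ => ?_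
  ring

theorem lf_toLp_le (v : Fin d → ℝ) : ‖(WithLp.toLp 2 v : Eu d)‖ ≤ ∑ k, |v k| := by
  have h := nuc_sum_ek (WithLp.toLp 2 v : Eu d)
  rw [h]
  refine (norm_sum_le _ _).trans (Finset.sum_le_sum fun k _ => ?_)
  rw [norm_smul, Real.norm_eq_abs, PiLp.norm_single, norm_one, mul_one]

theorem lfX_growth (hw : Heat κ w) (h0 : 0 < κ) (h1 : κ ≤ 1) (hl : 3 / 4 ≤ l0) (hl1 : l0 ≤ 1) :
    ∃ C, 0 ≤ C ∧ ∀ t ∈ IT, ∀ z, ‖lfX w l0 lam (t, z)‖ ≤ C * (1 + ‖z‖) := by
  have hA : LG (fun q => ∑ k, |lfa w l0 lam k q|) := LG.sum fun k => by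
    obtain ⟨C, hC0, hC⟩ := LG.lfa (lam := lam) hw h0.le hl hl1 k
    exact ⟨C, hC0, fun t ht z => by rw [abs_abs]; exact hC t ht z⟩
  have hG : LG (fun q => ∑ k, |lfg w l0 lam k q|) := LG.sum fun k => by
    obtain ⟨C, hC0, hC⟩ := LG.lfg (lam := lam) hw h0 h1 hl hl1 k
    exact ⟨C, hC0, fun t ht z => by rw [abs_abs]; exact hC t ht z⟩
  obtain ⟨C, hC0, hC⟩ := hA
  obtain ⟨C', hC0', hC'⟩ := hG
  refine ⟨C + C', by positivity, fun t ht z => ?_⟩
  have e1 := (le_abs_self _).trans (hC t ht z)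
  have e2 := (le_abs_self _).trans (hC' t ht z)
  have e3 := lf_toLp_le fun k => lfa w l0 lam k (t, z)
  have e4 := lf_toLp_le fun k => lfg w l0 lam k (t, z)
  have hz := norm_nonneg z
  have hp : 0 ≤ C * (1 + ‖z‖) := by (clear * - hC0; positivity)
  have hp' : 0 ≤ C' * (1 + ‖z‖) := by (clear * - hC0'; positivity)
  show max ‖(0 : Eu d)‖ (max _ _) ≤ _
  rw [norm_zero]
  refine max_le (by (refine le_of_not_gt fun hng_ => ?_; linarith only [mul_pos (sub_pos.2 hng_) (sub_pos.2 hng_), mul_nonneg hp (le_of_lt (sub_pos.2 hng_)), mul_nonneg hp' (le_of_lt (sub_pos.2 hng_))])) (max_le ?_ ?_)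
  · refine (e3.trans e1).trans ?_
    (refine le_of_not_gt fun hng_ => ?_; linarith only [mul_pos (sub_pos.2 hng_) (sub_pos.2 hng_), mul_nonneg hp' (le_of_lt (sub_pos.2 hng_))])
  · refine (e4.trans e2).trans ?_
    (refine le_of_not_gt fun hng_ => ?_; linarith only [mul_pos (sub_pos.2 hng_) (sub_pos.2 hng_), mul_nonneg hp (le_of_lt (sub_pos.2 hng_))])

/-! ### The field for fixed `Y` -/

variable {D : Dat d}

theorem lf_Xf_true (hD : D.Ok) (k : Fin d) {p : ZS d} (hp : p.1 ∈ JT) :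
    D.Xf (true, k) p = lfg D.w D.l0 D.lam k (p.1, (D.Y, p.2)) := by
  show -D.lam * ∑ j, D.ds (false, j) (D.up (F1 D.w j k)) p = _
  unfold lfg
  congr 1
  refine Finset.sum_congr rfl fun j _ => ?_
  show -dz (false, j) (D.up (F1 D.w j k)) p + D.bb (false, j) p * D.up (F1 D.w j k) p = _
  rw [hD.dz_up (cm_F1_cg hD j k) (false, j) hp]
  rfl

theorem lf_Xf_cg (hD : D.Ok) (m : Sl d) : CG JT (D.Xf m) := by
  obtain ⟨b, k⟩ := m
  cases b with
  | false =>
    exact CG.add isOpen_JT (CG.neg isOpen_JT (cm_upF_cg hD k)) (CG.mul isOpen_JT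
      (CG.const isOpen_JT _) (CG.sum isOpen_JT Finset.univ fun j _ =>
        CG.mul isOpen_JT (cm_upF1_cg hD k j) (cm_cgG j)))
  | true =>
    exact CG.mul isOpen_JT (CG.const isOpen_JT _) (CG.sum isOpen_JT Finset.univ fun j _ =>
      cm_ds_cg hD (false, j) (cm_upF1_cg hD j k))

/-- The field for fixed `Y`. -/
noncomputable def lfY (D : Dat d) (p : ZS d) : Eu d × Eu d := (D.Xa p, D.Xg p)

theorem lfY_eq (hD : D.Ok) {p : ZS d} (hp : p.1 ∈ JT) :
    lfX D.w D.l0 D.lam (p.1, (D.Y, p.2)) = (0, lfY D p) := by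
  unfold lfX lfY Dat.Xa Dat.Xg
  simp_rw [lf_Xf_true hD _ hp]
  rfl

theorem lfY_contDiffOn (hD : D.Ok) : ContDiffOn ℝ 1 (lfY D) (JT ×ˢ univ) := by
  refine ContDiffOn.prodMk ?_ ?_
  · rw [contDiffOn_euclidean]
    intro k
    have h := (lf_Xf_cg hD (false, k)).contDiffOn isOpen_JT 1
    rw [Nat.cast_one] at h
    exact h
  · rw [contDiffOn_euclidean]
    intro k
    have h := (lf_Xf_cg hD (true, k)).contDiffOn isOpen_JT 1
    rw [Nat.cast_one] at h
    exact h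

theorem lfY_growth (hD : D.Ok) : ∃ C, ∀ t ∈ IT, ∀ z, ‖lfY D (t, z)‖ ≤ C * (1 + ‖z‖) := by
  obtain ⟨C, hC0, hC⟩ := lfX_growth (lam := D.lam) hD.heat hD.κ0 hD.κ1 hD.l0a hD.l0b
  refine ⟨C * (1 + ‖D.Y‖), fun t ht z => ?_⟩
  have h1 := hC t ht (D.Y, z)
  rw [lfY_eq hD (p := (t, z)) (IT_subset_JT ht)] at h1
  have h2 : ‖lfY D (t, z)‖ ≤ ‖((0 : Eu d), lfY D (t, z))‖ :=
    norm_snd_le ((0 : Eu d), lfY D (t, z))
  refine (h2.trans h1).trans ?_
  have h3 : ‖(D.Y, z)‖ ≤ ‖D.Y‖ + ‖z‖ := by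
    rw [Prod.norm_def]
    exact max_le (by linarith only [(norm_nonneg z)]) (by linarith only [(norm_nonneg D.Y)])
  have h4 : 1 + ‖(D.Y, z)‖ ≤ (1 + ‖D.Y‖) * (1 + ‖z‖) := by
    (refine le_of_not_gt fun hng_ => ?_; linarith only [mul_nonneg (le_of_lt (sub_pos.2 hng_)) (mul_nonneg (norm_nonneg D.Y) (norm_nonneg z)), mul_nonneg (sub_nonneg.2 h3) (le_of_lt (sub_pos.2 hng_)), mul_pos (sub_pos.2 hng_) (sub_pos.2 hng_)])
  calc C * (1 + ‖(D.Y, z)‖) ≤ C * ((1 + ‖D.Y‖) * (1 + ‖z‖)) :=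
        mul_le_mul_of_nonneg_left h4 hC0
    _ = _ := by ring

/-! ### The potential -/

/-- The potential of `μ_τ`. -/
noncomputable def lfU (D : Dat d) (p : ZS d) : ℝ :=
  (∑ k, (p.2.1 k) * (p.2.1 k)) * (1 / 2) + (∑ k, (p.2.2 k) * (p.2.2 k)) * (1 / 2) + D.up D.w p

theorem lf_sum_sq (x : Eu d) : (∑ k, (x k) * (x k)) * (1 / 2) = ‖x‖ ^ 2 / 2 := by
  rw [EuclideanSpace.norm_sq_eq]
  have h : ∀ k, ‖x k‖ ^ 2 = x k * x k := fun k => by rw [Real.norm_eq_abs, sq_abs, sq]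
  simp_rw [h]
  ring

theorem lfU_eq (D : Dat d) (τ : ℝ) (z : Eu d × Eu d) :
    lfU D (τ, z) = nuU D.w D.l0 D.Y τ z.1 + ‖z.2‖ ^ 2 / 2 := by
  unfold lfU nuU
  rw [lf_sum_sq, lf_sum_sq]
  show ‖z.1‖ ^ 2 / 2 + ‖z.2‖ ^ 2 / 2 + D.w (D.l0 - τ ^ 2, D.Y + τ • z.1) = _
  ring

theorem lf_cgAA : CG JT (fun p : ZS d => ∑ k, (p.2.1 k) * (p.2.1 k)) :=
  CG.sum isOpen_JT Finset.univ fun k _ => CG.mul isOpen_JT (cm_cgA k) (cm_cgA k)

theorem lf_cgGG : CG JT (fun p : ZS d => ∑ k, (p.2.2 k) * (p.2.2 k)) :=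
  CG.sum isOpen_JT Finset.univ fun k _ => CG.mul isOpen_JT (cm_cgG k) (cm_cgG k)

theorem lf_upw_cg (hD : D.Ok) : CG JT (D.up D.w) := hD.up_cg hD.heat.cg

theorem lfU_cg (hD : D.Ok) : CG JT (lfU D) :=
  CG.add isOpen_JT (CG.add isOpen_JT (CG.mul isOpen_JT lf_cgAA (CG.const isOpen_JT _))
    (CG.mul isOpen_JT lf_cgGG (CG.const isOpen_JT _))) (lf_upw_cg hD)

theorem lf_dz_const (m : Sl d) (c : ℝ) (p : ZS d) : dz m (fun _ => c) p = 0 := by
  unfold dz
  simp

theorem lf_dtau_const (c : ℝ) (p : ZS d) : dtau (fun _ => c) p = 0 := by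
  unfold dtau
  simp only [fderiv_fun_const, Pi.zero_apply, zero_apply]

theorem lf_dz_U (hD : D.Ok) (m : Sl d) {p : ZS d} (hp : p.1 ∈ JT) : dz m (lfU D) p = D.bb m p := by
  have cA := lf_cgAA (d := d)
  have cG := lf_cgGG (d := d)
  have e1 : dz m (lfU D) p = dz m (fun p : ZS d => (∑ k, (p.2.1 k) * (p.2.1 k)) * (1 / 2)
      + (∑ k, (p.2.2 k) * (p.2.2 k)) * (1 / 2)) p + dz m (D.up D.w) p :=
    cm_dz_add (CG.add isOpen_JT (CG.mul isOpen_JT cA (CG.const isOpen_JT _))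
      (CG.mul isOpen_JT cG (CG.const isOpen_JT _))) (lf_upw_cg hD) m hp
  rw [e1, cm_dz_add (CG.mul isOpen_JT cA (CG.const isOpen_JT _))
    (CG.mul isOpen_JT cG (CG.const isOpen_JT _)) m hp,
    cm_dz_mul cA (CG.const isOpen_JT _) m hp, cm_dz_mul cG (CG.const isOpen_JT _) m hp,
    cm_dz_sum Finset.univ (fun k _ => CG.mul isOpen_JT (cm_cgA k) (cm_cgA k)) m hp,
    cm_dz_sum Finset.univ (fun k _ => CG.mul isOpen_JT (cm_cgG k) (cm_cgG k)) m hp,
    lf_dz_const, hD.dz_up hD.heat.cg m hp]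
  have e2 : ∀ k : Fin d, dz m (fun p : ZS d => p.2.1 k * p.2.1 k) p =
      (if m = (false, k) then 1 else 0) * p.2.1 k + p.2.1 k * (if m = (false, k) then 1 else 0) :=
    fun k => by rw [cm_dz_mul (cm_cgA k) (cm_cgA k) m hp, cm_dz_A]
  have e3 : ∀ k : Fin d, dz m (fun p : ZS d => p.2.2 k * p.2.2 k) p =
      (if m = (true, k) then 1 else 0) * p.2.2 k + p.2.2 k * (if m = (true, k) then 1 else 0) :=
    fun k => by rw [cm_dz_mul (cm_cgG k) (cm_cgG k) m hp, cm_dz_G]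
  simp_rw [e2, e3]
  obtain ⟨b, j⟩ := m
  cases b with
  | false =>
    simp only [Prod.mk.injEq, true_and, ite_mul, one_mul, zero_mul, mul_ite, mul_one, mul_zero, Finset.sum_add_distrib, Finset.sum_ite_eq, Finset.mem_univ, ↓reduceIte, one_div, add_zero, Bool.false_eq_true, false_and, Finset.sum_const_zero, Dat.bb, add_left_inj]
    ring
  | true =>
    simp only [Prod.mk.injEq, Bool.true_eq_false, false_and, ↓reduceIte, zero_mul, mul_zero, add_zero, Finset.sum_const_zero, one_div, true_and, ite_mul, one_mul, mul_ite, mul_one, Finset.sum_add_distrib, Finset.sum_ite_eq, Finset.mem_univ, zero_add, Dat.bb]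
    ring

theorem lf_dtau_U (hD : D.Ok) {p : ZS d} (hp : p.1 ∈ JT) :
    dtau (lfU D) p = dtau (D.up D.w) p := by
  have cA := lf_cgAA (d := d)
  have cG := lf_cgGG (d := d)
  have e1 : dtau (lfU D) p = dtau (fun p : ZS d => (∑ k, (p.2.1 k) * (p.2.1 k)) * (1 / 2)
      + (∑ k, (p.2.2 k) * (p.2.2 k)) * (1 / 2)) p + dtau (D.up D.w) p :=
    cm_dtau_add (CG.add isOpen_JT (CG.mul isOpen_JT cA (CG.const isOpen_JT _))
      (CG.mul isOpen_JT cG (CG.const isOpen_JT _))) (lf_upw_cg hD) hp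
  rw [e1, cm_dtau_add (CG.mul isOpen_JT cA (CG.const isOpen_JT _))
    (CG.mul isOpen_JT cG (CG.const isOpen_JT _)) hp,
    cm_dtau_mul cA (CG.const isOpen_JT _) hp, cm_dtau_mul cG (CG.const isOpen_JT _) hp,
    cm_dtau_sum Finset.univ (fun k _ => CG.mul isOpen_JT (cm_cgA k) (cm_cgA k)) hp,
    cm_dtau_sum Finset.univ (fun k _ => CG.mul isOpen_JT (cm_cgG k) (cm_cgG k)) hp,
    lf_dtau_const]
  have e2 : ∀ k : Fin d, dtau (fun p : ZS d => p.2.1 k * p.2.1 k) p = 0 :=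
    fun k => by rw [cm_dtau_mul (cm_cgA k) (cm_cgA k) hp, cm_dtau_A]; ring
  have e3 : ∀ k : Fin d, dtau (fun p : ZS d => p.2.2 k * p.2.2 k) p = 0 :=
    fun k => by rw [cm_dtau_mul (cm_cgG k) (cm_cgG k) hp, cm_dtau_G]; ring
  simp_rw [e2, e3]
  simp only [Finset.sum_const_zero, one_div, zero_mul, mul_zero, add_zero, zero_add]

theorem lf_sum_sl (f : Sl d → ℝ) : ∑ m, f m = ∑ k, f (true, k) + ∑ k, f (false, k) := by
  rw [Fintype.sum_prod_type, Fintype.sum_bool]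

/-- The continuity equation. -/
theorem lf_cont (hD : D.Ok) {p : ZS d} (hp : p.1 ∈ JT) :
    dtau (D.up D.w) p + ∑ m, D.Xf m p * D.bb m p = ∑ m, dz m (D.Xf m) p := by
  have hpde := hD.heat.pde (D.l0 - p.1 ^ 2, D.Y + p.1 • p.2.1) (hD.lev_pos hp)
  have e0 : D.up (dlev D.w) p = (1 / 2) * ∑ k, D.up (F1 D.w k k) p
      - (1 / 2) * ∑ k, (D.up (dy k D.w) p) ^ 2 := hpde
  rw [hD.dtau_up hD.heat.cg hp, e0, lf_sum_sl, lf_sum_sl]
  -- the divergence
  have d1 : ∀ k, dz (false, k) (D.Xf (false, k)) p = -(p.1 * D.up (F1 D.w k k) p)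
      + D.lam * ∑ j, p.1 * D.up (dy k (F1 D.w k j)) p * p.2.2 j := by
    intro k
    have c1 : CG JT (fun p : ZS d => ∑ j, D.up (F1 D.w k j) p * p.2.2 j) :=
      CG.sum isOpen_JT Finset.univ fun j _ => CG.mul isOpen_JT (cm_upF1_cg hD k j) (cm_cgG j)
    have h1 : dz (false, k) (D.Xf (false, k)) p = dz (false, k) (fun p => -D.up (dy k D.w) p) p
        + dz (false, k) (fun p => D.lam * ∑ j, D.up (F1 D.w k j) p * p.2.2 j) p :=
      cm_dz_add (CG.neg isOpen_JT (cm_upF_cg hD k)) (CG.mul isOpen_JT (CG.const isOpen_JT _) c1)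
        _ hp
    rw [h1, cm_dz_neg, cm_dz_cmul c1 _ _ hp, cm_dz_upF hD k _ hp,
      cm_dz_sum Finset.univ (fun j _ => CG.mul isOpen_JT (cm_upF1_cg hD k j) (cm_cgG j)) _ hp]
    congr 1
    congr 1
    refine Finset.sum_congr rfl fun j _ => ?_
    rw [cm_dz_mul (cm_upF1_cg hD k j) (cm_cgG j) _ hp, cm_dz_G, hD.dz_up (cm_F1_cg hD k j) _ hp]
    simp
  have d2 : ∀ k, dz (true, k) (D.Xf (true, k)) p = 0 := by
    intro k
    have c1 : ∀ j, CG JT (D.ds (false, j) (D.up (F1 D.w j k))) := fun j =>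
      cm_ds_cg hD (false, j) (cm_upF1_cg hD j k)
    have c2 : CG JT (fun p : ZS d => ∑ j, D.ds (false, j) (D.up (F1 D.w j k)) p) :=
      CG.sum isOpen_JT Finset.univ fun j _ => c1 j
    have h1 : dz (true, k) (D.Xf (true, k)) p =
        dz (true, k) (fun p => -D.lam * ∑ j, D.ds (false, j) (D.up (F1 D.w j k)) p) p := rfl
    rw [h1, cm_dz_cmul c2 _ _ hp, cm_dz_sum Finset.univ (fun j _ => c1 j) _ hp]
    have h2 : ∀ j, dz (true, k) (D.ds (false, j) (D.up (F1 D.w j k))) p = 0 := by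
      intro j
      have h3 : dz (true, k) (D.ds (false, j) (D.up (F1 D.w j k))) p =
          dz (true, k) (fun p => p.1 * (-D.up (dy j (F1 D.w j k)) p)
            + D.bb (false, j) p * D.up (F1 D.w j k) p) p := by
        refine cm_dz_congr (fun q hq => ?_) _ hp
        show -dz (false, j) (D.up (F1 D.w j k)) q + _ = _
        rw [hD.dz_up (cm_F1_cg hD j k) (false, j) hq]
        simp only [Bool.false_eq_true, ↓reduceIte, mul_neg]
      have c3 : CG JT (fun p : ZS d => -D.up (dy j (F1 D.w j k)) p) :=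
        CG.neg isOpen_JT (hD.up_cg ((cm_F1_cg hD j k).dy j))
      rw [h3, cm_dz_add (CG.mul isOpen_JT cm_cgT c3)
        (CG.mul isOpen_JT (cm_bb_cg hD (false, j)) (cm_upF1_cg hD j k)) _ hp,
        cm_dz_timeMul c3 _ hp, cm_dz_neg, hD.dz_up ((cm_F1_cg hD j k).dy j) _ hp,
        cm_dz_mul (cm_bb_cg hD (false, j)) (cm_upF1_cg hD j k) _ hp, cm_dz_bb hD _ _ hp,
        hD.dz_up (cm_F1_cg hD j k) _ hp]
      simp
    simp_rw [h2]
    simp only [Finset.sum_const_zero, mul_zero]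
  simp_rw [d1, d2]
  have x1 : ∀ k, D.Xf (false, k) p * D.bb (false, k) p =
      (-D.up (dy k D.w) p + D.lam * ∑ j, D.up (F1 D.w k j) p * p.2.2 j)
        * (p.2.1 k + p.1 * D.up (dy k D.w) p) := fun k => rfl
  have x2 : ∀ k, D.Xf (true, k) p * D.bb (true, k) p =
      (-D.lam * ∑ j, (-(p.1 * D.up (dy j (F1 D.w j k)) p)
        + (p.2.1 j + p.1 * D.up (dy j D.w) p) * D.up (F1 D.w j k) p)) * p.2.2 k := by
    intro k
    rw [lf_Xf_true hD k hp]
    rfl
  simp_rw [x1, x2]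
  have s1 : ∑ k, (-D.lam * ∑ j, (-(p.1 * D.up (dy j (F1 D.w j k)) p)
      + (p.2.1 j + p.1 * D.up (dy j D.w) p) * D.up (F1 D.w j k) p)) * p.2.2 k
      = ∑ k, (D.lam * p.1 * ∑ j, D.up (dy k (F1 D.w k j)) p * p.2.2 j
        - D.lam * (p.2.1 k + p.1 * D.up (dy k D.w) p) * ∑ j, D.up (F1 D.w k j) p * p.2.2 j) := by
    simp only [Finset.mul_sum, Finset.sum_mul, ← Finset.sum_sub_distrib]
    rw [Finset.sum_comm]
    refine Finset.sum_congr rfl fun k _ => Finset.sum_congr rfl fun j _ => ?_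
    ring
  have s2 : -2 * p.1 * ((1 / 2) * ∑ k, D.up (F1 D.w k k) p
      - (1 / 2) * ∑ k, (D.up (dy k D.w) p) ^ 2)
      = ∑ k, (-(p.1 * D.up (F1 D.w k k) p) + p.1 * (D.up (dy k D.w) p) ^ 2) := by
    rw [Finset.sum_add_distrib, Finset.sum_neg_distrib, ← Finset.mul_sum, ← Finset.mul_sum]
    ring
  rw [s1, s2, Finset.sum_const_zero, zero_add, ← Finset.sum_add_distrib,
    ← Finset.sum_add_distrib, ← Finset.sum_add_distrib]
  refine Finset.sum_congr rfl fun k _ => ?_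
  have s3 : ∑ j, p.1 * D.up (dy k (F1 D.w k j)) p * p.2.2 j
      = p.1 * ∑ j, D.up (dy k (F1 D.w k j)) p * p.2.2 j := by
    rw [Finset.mul_sum]
    exact Finset.sum_congr rfl fun j _ => by ring
  rw [s3]
  ring

/-! ### The density -/

/-- The density. -/
noncomputable def lfr (D : Dat d) (p : ZS d) : ℝ := Real.exp (-lfU D p)

theorem lf_diffU (hD : D.Ok) {p : ZS d} (hp : p.1 ∈ JT) : DifferentiableAt ℝ (lfU D) p :=
  ((lfU_cg hD).diff p ⟨hp, trivial⟩).differentiableAt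
    ((isOpen_JT.prod isOpen_univ).mem_nhds ⟨hp, trivial⟩)

theorem lfr_fderiv (hD : D.Ok) {p : ZS d} (hp : p.1 ∈ JT) (v : ZS d) :
    fderiv ℝ (lfr D) p v = -(lfr D p * fderiv ℝ (lfU D) p v) := by
  have h := ((lf_diffU hD hp).hasFDerivAt.neg).exp
  have h2 : HasFDerivAt (lfr D) (Real.exp (-lfU D p) • -fderiv ℝ (lfU D) p) p := h
  rw [h2.fderiv]
  simp [lfr]

theorem lf_expand (x : Eu d × Eu d) : ((0, x) : ZS d) =
    (∑ k, x.1 k • ((0, (ek k, 0)) : ZS d)) + ∑ k, x.2 k • ((0, (0, ek k)) : ZS d) := by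
  have h1 := nuc_sum_ek x.1
  have h2 := nuc_sum_ek x.2
  refine Prod.ext ?_ (Prod.ext ?_ ?_)
  · simp only [Prod.smul_mk, smul_eq_mul, mul_zero, smul_zero, Prod.fst_add, Prod.fst_sum, Finset.sum_const_zero, add_zero]
  · simp only [Prod.snd_add, Prod.snd_sum, Prod.smul_snd, Prod.fst_add, Prod.fst_sum, Prod.smul_fst, smul_zero, Finset.sum_const_zero, add_zero]
    exact h1
  · simp only [Prod.snd_add, Prod.snd_sum, Prod.smul_snd, smul_zero, Finset.sum_const_zero,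
      zero_add]
    exact h2

theorem lf_fderiv_U (hD : D.Ok) {p : ZS d} (hp : p.1 ∈ JT) (x : Eu d × Eu d) :
    fderiv ℝ (lfU D) p (0, x) = ∑ k, x.1 k * D.bb (false, k) p + ∑ k, x.2 k * D.bb (true, k) p := by
  rw [lf_expand x, map_add, map_sum, map_sum]
  congr 1
  · refine Finset.sum_congr rfl fun k _ => ?_
    rw [map_smul, smul_eq_mul]
    congr 1
    exact lf_dz_U hD (false, k) hp
  · refine Finset.sum_congr rfl fun k _ => ?_
    rw [map_smul, smul_eq_mul]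
    congr 1
    exact lf_dz_U hD (true, k) hp

/-- The product basis. -/
noncomputable def lfb (d : ℕ) : Basis (Fin d ⊕ Fin d) ℝ (Eu d × Eu d) :=
  (EuclideanSpace.basisFun (Fin d) ℝ).toBasis.prod (EuclideanSpace.basisFun (Fin d) ℝ).toBasis

theorem lfb_inl (k : Fin d) : lfb d (Sum.inl k) = (ek k, 0) := by
  simp only [lfb, Basis.prod_apply, LinearMap.coe_inl, OrthonormalBasis.coe_toBasis, LinearMap.coe_inr, Sum.elim_inl, Function.comp_apply, EuclideanSpace.basisFun_apply]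

theorem lfb_inr (k : Fin d) : lfb d (Sum.inr k) = (0, ek k) := by
  simp only [lfb, Basis.prod_apply, LinearMap.coe_inl, OrthonormalBasis.coe_toBasis, LinearMap.coe_inr, Sum.elim_inr, Function.comp_apply, EuclideanSpace.basisFun_apply]

theorem lfb_repr_inl (x : Eu d × Eu d) (k : Fin d) : (lfb d).repr x (Sum.inl k) = x.1 k := by
  simp [lfb]

theorem lfb_repr_inr (x : Eu d × Eu d) (k : Fin d) : (lfb d).repr x (Sum.inr k) = x.2 k := by
  simp only [lfb, Basis.prod_repr_inr, OrthonormalBasis.coe_toBasis_repr_apply, EuclideanSpace.basisFun_repr]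

theorem lf_diffY (hD : D.Ok) {p : ZS d} (hp : p.1 ∈ JT) : DifferentiableAt ℝ (lfY D) p :=
  ((lfY_contDiffOn hD).differentiableOn one_ne_zero p ⟨hp, trivial⟩).differentiableAt
    ((isOpen_JT.prod isOpen_univ).mem_nhds ⟨hp, trivial⟩)

theorem lf_div (hD : D.Ok) {p : ZS d} (hp : p.1 ∈ JT) :
    ∑ i, (lfb d).repr (fderiv ℝ (lfY D) p (0, lfb d i)) i = ∑ m, dz m (D.Xf m) p := by
  have hd := (lf_diffY hD hp).hasFDerivAt
  rw [lf_sum_sl, Fintype.sum_sum_type, add_comm]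
  congr 1
  · refine Finset.sum_congr rfl fun k _ => ?_
    rw [lfb_repr_inr, lfb_inr]
    have h1 := ((EuclideanSpace.proj k : Eu d →L[ℝ] ℝ).comp
      (ContinuousLinearMap.snd ℝ (Eu d) (Eu d))).hasFDerivAt.comp p hd
    have h2 : HasFDerivAt (D.Xf (true, k)) _ p := h1
    unfold dz
    rw [h2.fderiv]
    rfl
  · refine Finset.sum_congr rfl fun k _ => ?_
    rw [lfb_repr_inl, lfb_inl]
    have h1 := ((EuclideanSpace.proj k : Eu d →L[ℝ] ℝ).comp
      (ContinuousLinearMap.fst ℝ (Eu d) (Eu d))).hasFDerivAt.comp p hd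
    have h2 : HasFDerivAt (D.Xf (false, k)) _ p := h1
    unfold dz
    rw [h2.fderiv]
    rfl

theorem lf_ce (hD : D.Ok) {p : ZS d} (hp : p.1 ∈ JT) :
    fderiv ℝ (lfr D) p (1, 0) + fderiv ℝ (lfr D) p (0, lfY D p)
      + lfr D p * ∑ i, (lfb d).repr (fderiv ℝ (lfY D) p (0, lfb d i)) i = 0 := by
  rw [lf_div hD hp, lfr_fderiv hD hp, lfr_fderiv hD hp, lf_fderiv_U hD hp]
  have h1 : fderiv ℝ (lfU D) p (1, 0) = dtau (D.up D.w) p := lf_dtau_U hD hp
  rw [h1, ← lf_cont hD hp, lf_sum_sl]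
  have h2 : ∀ k, (lfY D p).1 k = D.Xf (false, k) p := fun k => rfl
  have h3 : ∀ k, (lfY D p).2 k = D.Xf (true, k) p := fun k => rfl
  simp_rw [h2, h3]
  ring

theorem lfr_contDiffOn (hD : D.Ok) : ContDiffOn ℝ 1 (lfr D) (JT ×ˢ univ) := by
  have h := (lfU_cg hD).contDiffOn isOpen_JT 1
  rw [Nat.cast_one] at h
  exact h.neg.exp

theorem lfr_eq (D : Dat d) (τ : ℝ) (z : Eu d × Eu d) :
    lfr D (τ, z) = Real.exp (-nuU D.w D.l0 D.Y τ z.1) * Real.exp (-(‖z.2‖ ^ 2 / 2)) := by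
  unfold lfr
  rw [lfU_eq, ← Real.exp_add]
  congr 1
  ring

theorem lf_adm (hD : D.Ok) {τ : ℝ} (hτ : τ ∈ JT) : Adm (nuU D.w D.l0 D.Y τ) :=
  nuU_adm hD.heat hD.κ0.le hD.κ1 (hD.lev_pos hτ) D.Y

theorem lfr_int (hD : D.Ok) {τ : ℝ} (hτ : τ ∈ JT) :
    Integrable (fun z => lfr D (τ, z)) (volume : Measure (Eu d × Eu d)) := by
  have h1 := (lf_adm hD hτ).integrable_exp
  have h2 := (adm_gam (E := Eu d)).integrable_exp
  have h3 := h1.mul_prod h2
  refine h3.congr (Eventually.of_forall fun z => ?_)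
  exact (lfr_eq D τ z).symm

/-- `μ_τ` has density proportional to `lfr`. -/
theorem lf_mu (hD : D.Ok) {τ : ℝ} (hτ : τ ∈ JT) : ∃ c : ℝ≥0∞, c ≠ 0 ∧ c ≠ ⊤ ∧
    (volume : Measure (Eu d × Eu d)).withDensity (fun z => ENNReal.ofReal (lfr D (τ, z)))
      = c • D.mu τ := by
  have hA := lf_adm hD hτ
  set Z1 : ℝ := ∫ x, Real.exp (-nuU D.w D.l0 D.Y τ x) with hZ1
  set Z2 : ℝ := ∫ x : Eu d, Real.exp (-(‖x‖ ^ 2 / 2)) with hZ2
  have h1 : 0 < Z1 := hA.integral_exp_pos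
  have h2 : 0 < Z2 := gam_const_pos
  refine ⟨ENNReal.ofReal (Z1 * Z2), by simp only [ne_eq, ENNReal.ofReal_eq_zero, not_le, mul_pos h1 h2], ENNReal.ofReal_ne_top, ?_⟩
  have hm1 : Measurable (fun z => Real.exp (-nuU D.w D.l0 D.Y τ z)) :=
    (Real.continuous_exp.comp hA.cont.neg).measurable
  have e1 : D.mu τ = ((volume : Measure (Eu d)).prod volume).withDensity (fun z =>
      ENNReal.ofReal (Real.exp (-nuU D.w D.l0 D.Y τ z.1) / Z1) *
      ENNReal.ofReal (Real.exp (-(‖z.2‖ ^ 2 / 2)) / Z2)) := by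
    unfold Dat.mu nu gam gibbs Measure.tilted
    rw [prod_withDensity]
    · exact (hm1.div_const _).ennreal_ofReal
    · fun_prop
  have hmz : Measurable (fun z : Eu d × Eu d =>
      ENNReal.ofReal (Real.exp (-nuU D.w D.l0 D.Y τ z.1) / Z1) *
      ENNReal.ofReal (Real.exp (-(‖z.2‖ ^ 2 / 2)) / Z2)) := by
    have hm2 : Measurable (fun z : Eu d × Eu d =>
        ENNReal.ofReal (Real.exp (-(‖z.2‖ ^ 2 / 2)) / Z2)) := by fun_prop
    exact (((hm1.comp measurable_fst).div_const _).ennreal_ofReal).mul hm2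
  rw [e1, ← withDensity_smul _ hmz]
  show Measure.withDensity _ _ = Measure.withDensity _ _
  congr 1
  funext z
  rw [Pi.smul_apply, smul_eq_mul, ← ENNReal.ofReal_mul (by (clear * - h1; positivity)),
    ← ENNReal.ofReal_mul (by positivity), lfr_eq]
  congr 1
  (clear * - h1 h2; field_simp)

theorem lf_mu_zero (D : Dat d) : D.mu 0 = (gam (Eu d)).prod (gam (Eu d)) := by
  unfold Dat.mu nu
  congr 1
  have h : nuU D.w D.l0 D.Y 0 = fun a : Eu d => ‖a‖ ^ 2 / 2 + D.w (D.l0, D.Y) := by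
    funext a
    unfold nuU
    simp
  rw [h, gibbs_add_const]
  rfl

theorem lf_mu_prob (hD : D.Ok) {τ : ℝ} (hτ : τ ∈ JT) : IsProbabilityMeasure (D.mu τ) := by
  have h1 : IsProbabilityMeasure (nu D.w D.l0 D.Y τ) := (lf_adm hD hτ).isProb
  have h2 : IsProbabilityMeasure (gam (Eu d)) := adm_gam.isProb
  unfold Dat.mu
  infer_instance

/-- The law of the flow for fixed `Y`. -/
theorem lf_law (hD : D.Ok) {Ψ : ℝ → Eu d × Eu d → Eu d × Eu d} (h0 : ∀ z, Ψ 0 z = z)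
    (hΨ : ∀ z, ∀ t ∈ Icc (0 : ℝ) (1 / 2),
      HasDerivWithinAt (fun t => Ψ t z) (lfY D (t, Ψ t z)) (Icc 0 (1 / 2)) t)
    (hc : ContinuousOn (fun p : ℝ × (Eu d × Eu d) => Ψ p.1 p.2) (Icc (0 : ℝ) (1 / 2) ×ˢ univ))
    {τ : ℝ} (hτ : τ ∈ Icc (0 : ℝ) (1 / 2)) :
    ((gam (Eu d)).prod (gam (Eu d))).map (Ψ τ) = D.mu τ := by
  obtain ⟨C, hC⟩ := lfY_growth hD
  have hJ : Icc (0 : ℝ) (1 / 2) ⊆ JT := IT_subset_JT
  have hH : (volume : Measure (Eu d × Eu d)).IsAddHaarMeasure := by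
    rw [Measure.volume_eq_prod]
    exact Measure.prod.instIsAddHaarMeasure _ _
  have key := transport (volume : Measure (Eu d × Eu d)) (lfb d) isOpen_JT (T := 1 / 2)
    (by norm_num) hJ (lfY_contDiffOn hD) hC (lfr_contDiffOn hD) (fun p => (Real.exp_pos _).le)
    (fun t ht => lfr_int hD (hJ ht)) (fun t ht z => lf_ce hD (p := (t, z)) (hJ ht)) h0 hΨ hc τ hτ
  have z0 : (0 : ℝ) ∈ Icc (0 : ℝ) (1 / 2) := ⟨le_rfl, by norm_num⟩
  obtain ⟨c0, hc0, hc0', e0⟩ := lf_mu hD (hJ z0)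
  obtain ⟨c1, hc1, hc1', e1⟩ := lf_mu hD (hJ hτ)
  have p0 := lf_mu_prob hD (hJ z0)
  have p1 := lf_mu_prob hD (hJ hτ)
  have hm : Measurable (Ψ τ) := by
    have : Continuous (Ψ τ) :=
      hc.comp_continuous (f := fun z : Eu d × Eu d => (τ, z)) (by fun_prop) fun z => ⟨hτ, trivial⟩
    exact this.measurable
  rw [e0, e1, Measure.map_smul] at key
  rw [← lf_mu_zero D]
  have p2 : IsProbabilityMeasure ((D.mu 0).map (Ψ τ)) :=
    Measure.isProbabilityMeasure_map hm.aemeasurable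
  have e2 : c0 = c1 := by
    have h := congrArg (fun μ : Measure (Eu d × Eu d) => μ univ) key
    simpa only [Measure.smul_apply, measure_univ, smul_eq_mul, mul_one] using h
  subst e2
  ext s hs
  have h := congrArg (fun μ : Measure (Eu d × Eu d) => μ s) key
  simp only [Measure.smul_apply, smul_eq_mul] at h
  exact (ENNReal.mul_right_inj hc0 hc0').1 h

end lflow

theorem exists_LFl {d : ℕ} {w : ℝ × Eu d → ℝ} {κ l0 lam : ℝ}
    (h : ∀ Y, (Dat.mk w κ l0 lam Y).Ok) : ∃ A Q, LFl w κ l0 lam A Q := by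
  have h0 := h 0
  have hw : Heat κ w := h0.heat
  have hl : 3 / 4 ≤ l0 := h0.l0a
  obtain ⟨C, -, hC⟩ := lfX_growth (lam := lam) hw h0.κ0 h0.κ1 hl h0.l0b
  obtain ⟨Φ, hΦ0, hΦ, hΦc, -⟩ := exists_flow isOpen_JT (T := 1 / 2) (by norm_num) IT_subset_JT
    (lfX_contDiffOn (lam := lam) hw hl) hC
  have hfst : ∀ z, ∀ t ∈ Icc (0 : ℝ) (1 / 2), (Φ t z).1 = z.1 := by
    intro z t ht
    have h1 : ∀ t ∈ Icc (0 : ℝ) (1 / 2),
        HasDerivWithinAt (fun t => (Φ t z).1) 0 (Icc 0 (1 / 2)) t := fun t ht =>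
      (ContinuousLinearMap.fst ℝ (Eu d) (Eu d × Eu d)).hasFDerivAt.comp_hasDerivWithinAt t
        (hΦ z t ht)
    have h2 := constant_of_has_deriv_right_zero (f := fun t => (Φ t z).1) (a := 0) (b := 1 / 2)
      (fun t ht => (h1 t ht).continuousWithinAt)
      (fun t ht => odeflow_ici ht (h1 t ⟨ht.1, ht.2.le⟩)) t ht
    rw [h2]
    show (Φ 0 z).1 = z.1
    rw [hΦ0]
  have hY : ∀ Y z, ∀ t ∈ Icc (0 : ℝ) (1 / 2), HasDerivWithinAt (fun t => (Φ t (Y, z)).2)
      (lfY (Dat.mk w κ l0 lam Y) (t, (Φ t (Y, z)).2)) (Icc 0 (1 / 2)) t := by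
    intro Y z t ht
    have h1 := (ContinuousLinearMap.snd ℝ (Eu d) (Eu d × Eu d)).hasFDerivAt.comp_hasDerivWithinAt t
        (hΦ (Y, z) t ht)
    have h2 : lfX w l0 lam (t, Φ t (Y, z)) = (0, lfY (Dat.mk w κ l0 lam Y) (t, (Φ t (Y, z)).2)) := by
      have h3 := lfY_eq (h Y) (p := (t, (Φ t (Y, z)).2)) (IT_subset_JT ht)
      rw [← h3]
      congr 2
      exact Prod.ext (hfst (Y, z) t ht) rfl
    rw [h2] at h1
    exact h1
  refine ⟨fun t z => (Φ t z).2.1, fun t z => (Φ t z).2.2, ?_, ?_, ?_, ?_, ?_, ?_, ?_⟩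
  · intro Y z
    show (Φ 0 (Y, z)).2.1 = z.1
    rw [hΦ0]
  · intro Y z
    show (Φ 0 (Y, z)).2.2 = z.2
    rw [hΦ0]
  · intro Y z τ hτ
    exact (ContinuousLinearMap.fst ℝ (Eu d) (Eu d)).hasFDerivAt.comp_hasDerivWithinAt τ
      (hY Y z τ hτ)
  · intro Y z τ hτ
    exact (ContinuousLinearMap.snd ℝ (Eu d) (Eu d)).hasFDerivAt.comp_hasDerivWithinAt τ
      (hY Y z τ hτ)
  · exact (continuous_fst.comp continuous_snd).comp_continuousOn hΦc
  · exact (continuous_snd.comp continuous_snd).comp_continuousOn hΦc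
  · intro Y τ hτ
    refine lf_law (h Y) (Ψ := fun t z => (Φ t (Y, z)).2) (fun z => ?_) (hY Y) ?_ hτ
    · show (Φ 0 (Y, z)).2 = z
      rw [hΦ0]
    · refine (continuous_snd.comp_continuousOn (hΦc.comp (f := fun p : ℝ × (Eu d × Eu d) =>
        ((p.1, (Y, p.2)) : ℝ × (Eu d × (Eu d × Eu d)))) ?_ ?_))
      · exact Continuous.continuousOn (by fun_prop)
      · rintro ⟨t, z⟩ ⟨ht, -⟩
        exact ⟨ht, trivial⟩

end Vale.Agent.P347.Z
end

section
attribute [-instance] ProperSMul.toContinuousSMul IsTopologicalTorsor.toContinuousSMul IdemSemiring.toCanonicallyOrderedAdd IdemSemiring.toMulLeftMono IdemSemiring.toMulRightMono AddQuantale.instAddLeftMono AddQuantale.instAddRightMono Quantale.instMulLeftMono Quantale.instMulRightMono FiniteDimensional.rclike_to_real IsScalarTower.complexToReal FiniteDimensional.complexToReal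

/-! P347-Z-A2b. The unit scale potential family of a potential `V` at scale `s` satisfies `Heat (2 s)`.

PROOF. `Wp_fderiv` with `v = (0, ek k)`: `∂_k Wp(l,y) = -Em (⟨x - y, e_k⟩)/l = (Fp V G l y) k` by
`post_mean`. With `v = (1,0)`: `∂_l Wp = -Em |x-y|²/(2 l²)`. Second derivatives by `Em_fderiv`:
`∂_j∂_k Wp = δ_jk / l - Cov(x_j, x_k)/l²`, so
`(1/2) Δ Wp - (1/2)|∇Wp|² = d/(2l) - Em|x-y|²/(2l²) = ∂_l Wp + d/(2l)`. This is the PDE with the extra
`(d/2) log l`; scaling `(l,y) ↦ (s l, √s y)` is the chain rule. Convexity `lo` and `hi`: the quadratic form of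
the Hessian of `Wp V l` is between 0 and `2|x|²` because `Wp_cpot` says its gradient `Fp V G l` is monotone and
2-Lipschitz (derivative of `t ↦ ⟨F(y + t x), x⟩`); at scale s it is multiplied by `s`. `gr`:
`‖Fp V G l y‖ = ‖E G(X)‖ ≤ 2 E ‖X‖ ≤ 2 (‖y‖ + √(l d))` by `Em_sq_le` (`‖G x‖ ≤ 2‖x‖`). -/

open MeasureTheory Filter Module Set
open scoped ENNReal NNReal

namespace Vale.Agent.P347.Z

variable {d : ℕ} {V : Eu d → ℝ} {G : Eu d → Eu d} {H : Eu d → Eu d →L[ℝ] Eu d}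

/-- The unit scale potential family of `V` at scale `s`. -/
noncomputable def wS (V : Eu d → ℝ) (s : ℝ) : ℝ × Eu d → ℝ :=
  fun p => Wp V (s * p.1) (√s • p.2) + d / 2 * Real.log p.1

/-- The smoothed potential as a function of both variables. -/
noncomputable def hi_g (V : Eu d → ℝ) : ℝ × Eu d → ℝ := fun q => Wp V q.1 q.2

theorem hi_fd (hV : Pot V G H) {q : ℝ × Eu d} (hq : 0 < q.1) (v : Eu d) :
    fderiv ℝ (hi_g V) q (0, v) = inner ℝ (Fp V G q.1 q.2) v := by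
  have h1 : DifferentiableAt ℝ (hi_g V) q := (Wp_fderiv hV hq).1
  have h2 : HasFDerivAt (fun y : Eu d => (q.1, y)) (ContinuousLinearMap.inr ℝ ℝ (Eu d)) q.2 :=
    hasFDerivAt_prodMk_right q.1 q.2
  have h3 : HasFDerivAt (hi_g V) (fderiv ℝ (hi_g V) q) (q.1, q.2) := h1.hasFDerivAt
  have h4 := h3.comp q.2 h2
  have h5 : HasFDerivAt (Wp V q.1) (innerSL ℝ (Fp V G q.1 q.2)) q.2 := (Wp_cpot hV hq).grad q.2
  have h6 := h4.unique h5
  have h7 := congrArg (fun L : Eu d →L[ℝ] ℝ => L v) h6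
  simpa using h7

theorem hi_fd1 (hV : Pot V G H) {q : ℝ × Eu d} (hq : 0 < q.1) :
    fderiv ℝ (hi_g V) q (1, 0) = -(Em V q (fun x => ‖x - q.2‖ ^ 2) / (2 * q.1 ^ 2)) := by
  have h1 := (Wp_fderiv hV hq).2 (1, 0)
  have h2 : fderiv ℝ (hi_g V) q (1, 0) = -Em V q (sc q (1, 0)) := h1
  have h3 : sc q ((1 : ℝ), (0 : Eu d)) = fun x => (2 * q.1 ^ 2)⁻¹ * ‖x - q.2‖ ^ 2 := by
    funext x
    unfold sc
    simp only [inner_zero_right, zero_div, zero_add, mul_one]
    rw [div_eq_inv_mul]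
  rw [h2, h3]
  unfold Em
  rw [integral_const_mul, div_eq_inv_mul]

/-- The scaling map. -/
noncomputable def hi_A (d : ℕ) (s : ℝ) : ℝ × Eu d →L[ℝ] ℝ × Eu d :=
  (s • ContinuousLinearMap.fst ℝ ℝ (Eu d)).prod (√s • ContinuousLinearMap.snd ℝ ℝ (Eu d))

theorem hi_wS_fderiv (hV : Pot V G H) {s : ℝ} (hs : 0 < s) {p : ℝ × Eu d} (hp : 0 < p.1)
    (v : ℝ × Eu d) : fderiv ℝ (wS V s) p v =
      fderiv ℝ (hi_g V) (s * p.1, √s • p.2) (s * v.1, √s • v.2) + d / 2 * (p.1⁻¹ * v.1) := by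
  have hq : 0 < (hi_A d s p).1 := mul_pos hs hp
  have h1 : DifferentiableAt ℝ (hi_g V) (hi_A d s p) := (Wp_fderiv hV hq).1
  have h2 := h1.hasFDerivAt.comp p (hi_A d s).hasFDerivAt
  have h3 : HasFDerivAt (fun p : ℝ × Eu d => Real.log p.1)
      ((p.1)⁻¹ • (ContinuousLinearMap.fst ℝ ℝ (Eu d))) p :=
    (Real.hasDerivAt_log hp.ne').comp_hasFDerivAt p hasFDerivAt_fst
  have h4 := h2.add (h3.const_mul ((d : ℝ) / 2))
  have h5 : HasFDerivAt (wS V s) _ p := h4
  rw [h5.fderiv]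
  rfl

theorem dy_wS (hV : Pot V G H) {s : ℝ} (hs : 0 < s) {p : ℝ × Eu d} (hp : 0 < p.1) (k : Fin d) :
    dy k (wS V s) p = √s * (Fp V G (s * p.1) (√s • p.2)) k := by
  have hq : 0 < s * p.1 := mul_pos hs hp
  have h1 := hi_wS_fderiv hV hs hp ((0 : ℝ), ek k)
  have h2 := hi_fd hV (q := (s * p.1, √s • p.2)) hq (√s • ek k)
  simp only [mul_zero, add_zero] at h1
  unfold dy
  rw [h1, h2, inner_smul_right]
  congr 1
  rw [EuclideanSpace.inner_single_right]
  simp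

theorem Fv_wS (hV : Pot V G H) {s : ℝ} (hs : 0 < s) {p : ℝ × Eu d} (hp : 0 < p.1) :
    Fv (wS V s) p = √s • Fp V G (s * p.1) (√s • p.2) := by
  ext k
  have h1 : (Fv (wS V s) p) k = dy k (wS V s) p := rfl
  rw [h1, dy_wS hV hs hp k]
  rfl

theorem hi_Em_const_mul (q : ℝ × Eu d) (c : ℝ) (φ : Eu d → ℝ) :
    Em V q (fun x => c * φ x) = c * Em V q φ := by
  unfold Em
  exact integral_const_mul c φ

theorem hi_int (hV : Pot V G H) {l : ℝ} (hl : 0 < l) (y : Eu d) {φ : Eu d → ℝ}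
    (cφ : Continuous φ) (pφ : PG φ) : Integrable φ (gibbs (post V l y)) :=
  (hV.cpot.post_adm hl y).integrable pφ cφ.aestronglyMeasurable

theorem hi_Fp_inner (hV : Pot V G H) {l : ℝ} (hl : 0 < l) (z u : Eu d) :
    (inner ℝ (Fp V G l z) u : ℝ) = l⁻¹ * (inner ℝ z u - Em V (l, z) (fun x => inner ℝ x u)) := by
  have h1 := post_mean hV.cpot hl z
  have hi : Integrable (fun x : Eu d => x) (gibbs (post V l z)) :=
    (hV.cpot.post_adm hl z).integrable PG.id continuous_id.aestronglyMeasurable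
  have h2 : Em V (l, z) (fun x => inner ℝ x u) = inner ℝ u (∫ x, x ∂(gibbs (post V l z))) := by
    rw [← integral_inner hi u]
    unfold Em
    refine integral_congr_ae (Eventually.of_forall fun x => ?_)
    exact real_inner_comm _ _
  rw [h2, h1, inner_sub_right, inner_smul_right, real_inner_comm u z, sub_sub_cancel,
    ← mul_assoc, inv_mul_cancel₀ hl.ne', one_mul, real_inner_comm]

/-- The variance of a component of the posterior. -/
noncomputable def hi_var (V : Eu d → ℝ) (l : ℝ) (z u : Eu d) : ℝ :=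
  ∫ x, (inner ℝ x u : ℝ) ^ 2 ∂(gibbs (post V l z)) -
    (∫ x, (inner ℝ x u : ℝ) ∂(gibbs (post V l z))) ^ 2

theorem hi_line (hV : Pot V G H) {l : ℝ} (hl : 0 < l) (y u : Eu d) (t : ℝ) :
    HasDerivAt (fun t : ℝ => (inner ℝ (Fp V G l (y + t • u)) u : ℝ))
      (l⁻¹ * (‖u‖ ^ 2 - l⁻¹ * hi_var V l (y + t • u) u)) t := by
  have cφ : Continuous fun x : Eu d => (inner ℝ x u : ℝ) := by fun_prop
  have pφ : PG fun x : Eu d => (inner ℝ x u : ℝ) := PG.id.inner (PG.const u)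
  have hq : 0 < ((l, y + t • u) : ℝ × Eu d).1 := hl
  obtain ⟨hd, hf⟩ := Em_fderiv hV cφ pφ hq
  have hc : HasDerivAt (fun t : ℝ => ((l, y + t • u) : ℝ × Eu d)) (0, u) t := by
    refine (hasDerivAt_const t l).prodMk ?_
    have := ((hasDerivAt_id t).smul_const u).const_add y
    simpa using this
  have h1 := hd.hasFDerivAt.comp_hasDerivAt t hc
  have h2 : fderiv ℝ (fun q => Em V q fun x => (inner ℝ x u : ℝ)) (l, y + t • u) (0, u) =
      l⁻¹ * hi_var V l (y + t • u) u := by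
    rw [hf]
    have e1 : sc (l, y + t • u) ((0 : ℝ), u) =
        fun x => l⁻¹ * ((inner ℝ x u : ℝ) - inner ℝ (y + t • u) u) := by
      funext x
      unfold sc
      simp only [mul_zero, zero_div, add_zero]
      rw [inner_sub_left, div_eq_inv_mul]
    have i1 := hi_int hV hl (y + t • u) cφ pφ
    have i2 : Integrable (fun x : Eu d => (inner ℝ x u : ℝ) ^ 2) (gibbs (post V l (y + t • u))) :=
      hi_int hV hl (y + t • u) (cφ.pow 2) (pφ.pow 2)
    have hprob := (hV.cpot.post_adm hl (y + t • u)).isProb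
    have e2 : Em V (l, y + t • u) (sc (l, y + t • u) ((0 : ℝ), u)) =
        l⁻¹ * (Em V (l, y + t • u) (fun x => (inner ℝ x u : ℝ)) - inner ℝ (y + t • u) u) := by
      rw [e1, hi_Em_const_mul]
      congr 1
      unfold Em
      rw [integral_sub i1 (integrable_const _), integral_const, probReal_univ, one_smul]
    have e3 : Em V (l, y + t • u) (fun x => (inner ℝ x u : ℝ) *
        sc (l, y + t • u) ((0 : ℝ), u) x) =
        l⁻¹ * (Em V (l, y + t • u) (fun x => (inner ℝ x u : ℝ) ^ 2) -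
          inner ℝ (y + t • u) u * Em V (l, y + t • u) (fun x => (inner ℝ x u : ℝ))) := by
      have e4 : (fun x => (inner ℝ x u : ℝ) * sc (l, y + t • u) ((0 : ℝ), u) x) =
          fun x => l⁻¹ * ((inner ℝ x u : ℝ) ^ 2 - inner ℝ (y + t • u) u * (inner ℝ x u : ℝ)) := by
        funext x
        rw [e1]
        ring
      rw [e4, hi_Em_const_mul]
      congr 1
      have e5 : ∫ x, ((inner ℝ x u : ℝ) ^ 2 - inner ℝ (y + t • u) u * (inner ℝ x u : ℝ))
          ∂(gibbs (post V l (y + t • u))) = ∫ x, (inner ℝ x u : ℝ) ^ 2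
          ∂(gibbs (post V l (y + t • u))) - inner ℝ (y + t • u) u * ∫ x, (inner ℝ x u : ℝ)
          ∂(gibbs (post V l (y + t • u))) := by
        rw [integral_sub i2 (i1.const_mul _), integral_const_mul]
      exact e5
    rw [e2, e3]
    unfold hi_var Em
    ring
  rw [h2] at h1
  have h3 : HasDerivAt (fun t : ℝ => (inner ℝ (y + t • u) u : ℝ)) (‖u‖ ^ 2) t := by
    have e1 : (fun t : ℝ => (inner ℝ (y + t • u) u : ℝ)) =
        fun t => (inner ℝ y u : ℝ) + t * ‖u‖ ^ 2 := by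
      funext t
      rw [inner_add_left, real_inner_smul_left, real_inner_self_eq_norm_sq]
    rw [e1]
    have := ((hasDerivAt_id t).mul_const (‖u‖ ^ 2)).const_add (inner ℝ y u : ℝ)
    simpa only [hasDerivAt_const_add_iff, id_eq, one_mul] using this
  have h4 := (h3.sub h1).const_mul l⁻¹
  have h5 : (fun t : ℝ => (inner ℝ (Fp V G l (y + t • u)) u : ℝ)) =
      fun t => l⁻¹ * ((inner ℝ (y + t • u) u : ℝ) -
        Em V (l, y + t • u) (fun x => inner ℝ x u)) := by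
    funext t
    exact hi_Fp_inner hV hl _ u
  rw [h5]
  exact h4

theorem hi_cg (hV : Pot V G H) {s : ℝ} (hs : 0 < s) : CG (Ioi 0) (wS V s) := by
  have h1 : CG (Ioi 0) (fun p : ℝ × Eu d => Wp V (s * p.1) (√s • p.2)) :=
    CG.comp_scale isOpen_Ioi (Wp_cg hV) s (√s) isOpen_Ioi fun t ht => mul_pos hs ht
  exact CG.add isOpen_Ioi h1 (CG.mul isOpen_Ioi (CG.const isOpen_Ioi _)
    (CG.log isOpen_Ioi le_rfl))

/-- The quadratic form of the Hessian as a derivative along a line. -/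
theorem hi_quad (hV : Pot V G H) {s : ℝ} (hs : 0 < s) {p : ℝ × Eu d} (hp : 0 < p.1)
    (x : Fin d → ℝ) :
    HasDerivAt (fun t : ℝ => (inner ℝ (Fp V G (s * p.1)
        (√s • p.2 + t • (√s • (WithLp.toLp 2 x : Eu d)))) (√s • (WithLp.toLp 2 x : Eu d)) : ℝ))
      (∑ i, ∑ j, x i * x j * dy i (dy j (wS V s)) p) 0 := by
  set X : Eu d := WithLp.toLp 2 x with hX
  have hcg := hi_cg hV hs
  have hmem : p ∈ (Ioi (0 : ℝ)) ×ˢ (univ : Set (Eu d)) := ⟨hp, trivial⟩
  have hnh := (isOpen_Ioi.prod isOpen_univ).mem_nhds hmem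
  have hdj : ∀ j, DifferentiableAt ℝ (dy j (wS V s)) p := fun j =>
    ((hcg.dy j).diff p hmem).differentiableAt hnh
  have hf : DifferentiableAt ℝ (fun p' : ℝ × Eu d => ∑ j, x j * dy j (wS V s) p') p := by
    refine DifferentiableAt.fun_sum fun j _ => ?_
    exact (hdj j).const_mul _
  have hff : fderiv ℝ (fun p' : ℝ × Eu d => ∑ j, x j * dy j (wS V s) p') p (0, X) =
      ∑ i, ∑ j, x i * x j * dy i (dy j (wS V s)) p := by
    have e1 : ∀ v, fderiv ℝ (fun p' : ℝ × Eu d => ∑ j, x j * dy j (wS V s) p') p v =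
        ∑ j, x j * fderiv ℝ (dy j (wS V s)) p v := by
      intro v
      have h2 : HasFDerivAt (fun p' : ℝ × Eu d => ∑ j, x j * dy j (wS V s) p')
          (∑ j, x j • fderiv ℝ (dy j (wS V s)) p) p := by
        have := HasFDerivAt.sum (u := Finset.univ)
          (A := fun j (p' : ℝ × Eu d) => x j * dy j (wS V s) p')
          (A' := fun j => x j • fderiv ℝ (dy j (wS V s)) p)
          (x := p) (fun j _ => (hdj j).hasFDerivAt.const_mul (x j))
        refine this.congr_of_eventuallyEq (Eventually.of_forall fun p' => ?_)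
        simp only [Finset.sum_apply]
      rw [h2.fderiv]
      simp only [sum_apply, smul_apply, smul_eq_mul]
    rw [e1]
    have e2 : ((0 : ℝ), X) = ∑ i, x i • ((0 : ℝ), ek i) := by
      have h5 := (EuclideanSpace.basisFun (Fin d) ℝ).sum_repr X
      have h6 : X = ∑ i, x i • ek i := by
        simpa only [hX, EuclideanSpace.basisFun_repr, EuclideanSpace.basisFun_apply] using h5.symm
      refine Prod.ext ?_ ?_
      · simp only [Prod.smul_mk, smul_eq_mul, mul_zero, Prod.fst_sum, Finset.sum_const_zero]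
      · rw [Prod.snd_sum]
        simpa only [Prod.smul_mk, smul_eq_mul, mul_zero] using h6
    rw [e2]
    simp only [map_sum, map_smul, smul_eq_mul, Finset.mul_sum]
    rw [Finset.sum_comm]
    refine Finset.sum_congr rfl fun i _ => Finset.sum_congr rfl fun j _ => ?_
    unfold dy
    ring
  have hc : HasDerivAt (fun t : ℝ => ((p.1, p.2 + t • X) : ℝ × Eu d)) (0, X) 0 := by
    refine (hasDerivAt_const _ _).prodMk ?_
    have := ((hasDerivAt_id (0 : ℝ)).smul_const X).const_add p.2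
    simpa only [hasDerivAt_const_add_iff, id_eq, one_smul] using this
  have hp0 : ((p.1, p.2 + (0 : ℝ) • X) : ℝ × Eu d) = p := by simp
  have hf' : HasFDerivAt (fun p' : ℝ × Eu d => ∑ j, x j * dy j (wS V s) p')
      (fderiv ℝ (fun p' : ℝ × Eu d => ∑ j, x j * dy j (wS V s) p') p)
      (p.1, p.2 + (0 : ℝ) • X) := by
    rw [hp0]
    exact hf.hasFDerivAt
  have h1 := hf'.comp_hasDerivAt (0 : ℝ) hc
  rw [hff] at h1
  refine h1.congr_of_eventuallyEq (Eventually.of_forall fun t => ?_)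
  show (inner ℝ (Fp V G (s * p.1) (√s • p.2 + t • (√s • X))) (√s • X) : ℝ) =
    ∑ j, x j * dy j (wS V s) (p.1, p.2 + t • X)
  have e3 : √s • p.2 + t • (√s • X) = √s • (p.2 + t • X) := by
    rw [smul_add, smul_comm t]
  rw [e3, inner_smul_right]
  have e4 : ∀ j, dy j (wS V s) (p.1, p.2 + t • X) =
      √s * (Fp V G (s * p.1) (√s • (p.2 + t • X))) j := fun j =>
    dy_wS hV hs (p := (p.1, p.2 + t • X)) hp j
  simp only [e4]
  rw [PiLp.inner_apply, Finset.mul_sum]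
  refine Finset.sum_congr rfl fun j _ => ?_
  simp only [hX, RCLike.inner_apply, conj_trivial]
  ring

theorem hi_quad_eq (hV : Pot V G H) {s : ℝ} (hs : 0 < s) {p : ℝ × Eu d} (hp : 0 < p.1)
    (x : Fin d → ℝ) :
    ∑ i, ∑ j, x i * x j * dy i (dy j (wS V s)) p = (s * p.1)⁻¹ *
      (‖√s • (WithLp.toLp 2 x : Eu d)‖ ^ 2 - (s * p.1)⁻¹ *
        hi_var V (s * p.1) (√s • p.2) (√s • (WithLp.toLp 2 x : Eu d))) := by
  have h1 := hi_quad hV hs hp x
  have h2 := hi_line hV (mul_pos hs hp) (√s • p.2) (√s • (WithLp.toLp 2 x : Eu d)) 0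
  rw [zero_smul, add_zero] at h2
  exact h1.unique h2

theorem hi_lo (hV : Pot V G H) {s : ℝ} (hs : 0 < s) {p : ℝ × Eu d} (hp : 0 < p.1)
    (x : Fin d → ℝ) : 0 ≤ ∑ i, ∑ j, x i * x j * dy i (dy j (wS V s)) p := by
  rw [hi_quad_eq hV hs hp]
  have hl := mul_pos hs hp
  have h1 := post_var_lin hV.cpot hl (√s • p.2) (√s • (WithLp.toLp 2 x : Eu d))
  have h2 : (s * p.1)⁻¹ * hi_var V (s * p.1) (√s • p.2) (√s • (WithLp.toLp 2 x : Eu d)) ≤
      (s * p.1)⁻¹ * ((s * p.1) * ‖√s • (WithLp.toLp 2 x : Eu d)‖ ^ 2) :=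
    mul_le_mul_of_nonneg_left h1 (by positivity)
  rw [← mul_assoc (s * p.1)⁻¹ (s * p.1), inv_mul_cancel₀ hl.ne', one_mul] at h2
  exact mul_nonneg (by positivity) (by linarith only [h2])

theorem hi_norm_sq {s : ℝ} (hs : 0 < s) (x : Fin d → ℝ) :
    ‖√s • (WithLp.toLp 2 x : Eu d)‖ ^ 2 = s * ∑ i, (x i) ^ 2 := by
  rw [norm_smul, mul_pow, EuclideanSpace.norm_sq_eq, Real.norm_eq_abs, sq_abs,
    Real.sq_sqrt hs.le]
  simp only [Real.norm_eq_abs, sq_abs]

theorem hi_hi (hV : Pot V G H) {s : ℝ} (hs : 0 < s) {p : ℝ × Eu d} (hp : 0 < p.1)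
    (x : Fin d → ℝ) : ∑ i, ∑ j, x i * x j * dy i (dy j (wS V s)) p ≤
      2 * s * ∑ i, (x i) ^ 2 := by
  have h1 := hi_quad hV hs hp x
  have h2 := h1.le_of_lip' (C := 2 * ‖√s • (WithLp.toLp 2 x : Eu d)‖ ^ 2) (by (clear * -; positivity))
    (Eventually.of_forall fun t => ?_)
  · rw [hi_norm_sq hs] at h2
    have h3 := le_abs_self (∑ i, ∑ j, x i * x j * dy i (dy j (wS V s)) p)
    rw [Real.norm_eq_abs] at h2
    linarith only [h3, h2]
  · set u := √s • (WithLp.toLp 2 x : Eu d) with hu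
    rw [← inner_sub_left, sub_zero]
    have h3 := (Wp_cpot hV (mul_pos hs hp)).lip (√s • p.2 + t • u) (√s • p.2 + (0 : ℝ) • u)
    have h4 : √s • p.2 + t • u - (√s • p.2 + (0 : ℝ) • u) = t • u := by
      rw [zero_smul, add_zero, add_sub_cancel_left]
    rw [h4, norm_smul] at h3
    refine (norm_inner_le_norm _ _).trans ?_
    calc _ ≤ (2 * (‖t‖ * ‖u‖)) * ‖u‖ := mul_le_mul_of_nonneg_right h3 (norm_nonneg _)
      _ = _ := by ring

theorem hi_dd (hV : Pot V G H) {s : ℝ} (hs : 0 < s) {p : ℝ × Eu d} (hp : 0 < p.1)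
    (k : Fin d) : dy k (dy k (wS V s)) p = (s * p.1)⁻¹ * (s - (s * p.1)⁻¹ *
      (s * (Em V (s * p.1, √s • p.2) (fun x => (x k) ^ 2) -
        Em V (s * p.1, √s • p.2) (fun x => x k) ^ 2))) := by
  have h1 := hi_quad_eq hV hs hp (Pi.single k 1)
  have h2 : ∑ i, ∑ j, (Pi.single k (1 : ℝ) : Fin d → ℝ) i * (Pi.single k (1 : ℝ) : Fin d → ℝ) j *
      dy i (dy j (wS V s)) p = dy k (dy k (wS V s)) p := by
    simp only [Pi.single_apply, mul_ite, mul_one, mul_zero, ite_mul, one_mul, zero_mul, Finset.sum_ite_eq', Finset.mem_univ, ↓reduceIte]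
  have h3 := hi_norm_sq (d := d) hs (Pi.single k 1)
  have h4 : ∑ i, ((Pi.single k (1 : ℝ) : Fin d → ℝ) i) ^ 2 = 1 := by
    simp only [Pi.single_apply, ite_pow, one_pow, ne_eq, OfNat.ofNat_ne_zero, not_false_eq_true, zero_pow, Finset.sum_ite_eq', Finset.mem_univ, ↓reduceIte]
  have h5 : ∀ x : Eu d, (inner ℝ x (√s • (WithLp.toLp 2 (Pi.single k 1) : Eu d)) : ℝ) =
      √s * x k := by
    intro x
    rw [inner_smul_right, PiLp.inner_apply]
    congr 1
    simp only [Pi.single_apply, RCLike.inner_apply, Real.ringHom_apply, ite_mul, one_mul, zero_mul, Finset.sum_ite_eq', Finset.mem_univ, ↓reduceIte]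
  rw [h2, h3, h4] at h1
  rw [h1]
  have h6 : hi_var V (s * p.1) (√s • p.2) (√s • (WithLp.toLp 2 (Pi.single k 1) : Eu d)) =
      s * (Em V (s * p.1, √s • p.2) (fun x => (x k) ^ 2) -
        Em V (s * p.1, √s • p.2) (fun x => x k) ^ 2) := by
    unfold hi_var Em
    simp only [h5, mul_pow, Real.sq_sqrt hs.le, integral_const_mul]
    ring
  rw [h6, mul_one]

theorem hi_pde (hV : Pot V G H) {s : ℝ} (hs : 0 < s) {p : ℝ × Eu d} (hp : 0 < p.1) :
    dlev (wS V s) p = (1 / 2) * ∑ k, dy k (dy k (wS V s)) p -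
      (1 / 2) * ∑ k, (dy k (wS V s) p) ^ 2 := by
  have hl := mul_pos hs hp
  set l := s * p.1 with hldef
  set z := √s • p.2 with hz
  have hprob := (hV.cpot.post_adm hl z).isProb
  have h1 := hi_wS_fderiv hV hs hp ((1 : ℝ), (0 : Eu d))
  rw [← hldef, ← hz, mul_one, mul_one, smul_zero] at h1
  have h2 : fderiv ℝ (hi_g V) (l, z) (s, 0) = s * fderiv ℝ (hi_g V) (l, z) (1, 0) := by
    have e1 : ((s, 0) : ℝ × Eu d) = s • ((1 : ℝ), (0 : Eu d)) := by simp
    rw [e1, map_smul, smul_eq_mul]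
  have h3 := hi_fd1 hV (q := (l, z)) hl
  rw [h2, h3] at h1
  have hcoord : ∀ k : Fin d, PG fun x : Eu d => x k := fun k => by
    refine PG.id.of_le fun x => ?_
    exact PiLp.norm_apply_le x k
  have hcc : ∀ k : Fin d, Continuous fun x : Eu d => x k := fun k => by fun_prop
  have h4 : ∀ k, dy k (wS V s) p = √s * (l⁻¹ * (z k - Em V (l, z) (fun x => x k))) := by
    intro k
    rw [dy_wS hV hs hp k]
    congr 1
    have e1 := hi_Fp_inner hV hl z (ek k)
    have e2 : ∀ x : Eu d, (inner ℝ x (ek k) : ℝ) = x k := by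
      intro x
      rw [EuclideanSpace.inner_single_right]
      simp
    simp only [e2] at e1
    exact e1
  have h5 : Em V (l, z) (fun x => ‖x - z‖ ^ 2) = ∑ k, (Em V (l, z) (fun x => (x k) ^ 2) -
      2 * z k * Em V (l, z) (fun x => x k) + z k ^ 2) := by
    have e1 : (fun x : Eu d => ‖x - z‖ ^ 2) = fun x => ∑ k, ((x k) ^ 2 - 2 * z k * x k + z k ^ 2) := by
      funext x
      rw [EuclideanSpace.norm_sq_eq]
      refine Finset.sum_congr rfl fun k _ => ?_
      rw [Real.norm_eq_abs, sq_abs]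
      show (x k - z k) ^ 2 = _
      ring
    rw [e1]
    unfold Em
    have i1 : ∀ k, Integrable (fun x : Eu d => x k) (gibbs (post V l z)) := fun k =>
      hi_int hV hl z (hcc k) (hcoord k)
    have i2 : ∀ k, Integrable (fun x : Eu d => (x k) ^ 2) (gibbs (post V l z)) := fun k =>
      hi_int hV hl z ((hcc k).pow 2) ((hcoord k).pow 2)
    have i3 : ∀ k, Integrable (fun x : Eu d => (x k) ^ 2 - 2 * z k * x k)
        (gibbs (post V l z)) := fun k => (i2 k).sub ((i1 k).const_mul _)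
    have e2 : ∀ k, ∫ x : Eu d, ((x k) ^ 2 - 2 * z k * x k + z k ^ 2) ∂(gibbs (post V l z)) =
        ∫ x : Eu d, (x k) ^ 2 ∂(gibbs (post V l z)) -
          2 * z k * ∫ x : Eu d, x k ∂(gibbs (post V l z)) + z k ^ 2 := by
      intro k
      rw [integral_add (i3 k) (integrable_const _),
        integral_sub (i2 k) ((i1 k).const_mul _), integral_const_mul, integral_const,
        probReal_univ, one_smul]
    rw [integral_finsetSum]
    · exact Finset.sum_congr rfl fun k _ => e2 k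
    · intro k _
      exact (i3 k).add (integrable_const _)
  unfold dlev
  rw [h1, h5]
  simp only [hi_dd hV hs hp, h4, ← hldef, ← hz]
  have hd : (d : ℝ) = ∑ _k : Fin d, (1 : ℝ) := by simp only [Finset.sum_const, Finset.card_univ, Fintype.card_fin, nsmul_eq_mul, mul_one]
  have hp1 : p.1 = l / s := by rw [hldef]; field_simp
  rw [hd, hp1]
  simp only [mul_pow, Real.sq_sqrt hs.le]
  rw [Finset.mul_sum, Finset.mul_sum, ← Finset.sum_sub_distrib, Finset.sum_div, Finset.sum_div,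
    Finset.sum_mul, ← Finset.sum_neg_distrib, Finset.mul_sum, ← Finset.sum_add_distrib]
  refine Finset.sum_congr rfl fun k _ => ?_
  have hl' : l ≠ 0 := hl.ne'
  have hs' : s ≠ 0 := hs.ne'
  field_simp
  ring

theorem hi_gr (hV : Pot V G H) {s : ℝ} (hs : 0 < s) {p : ℝ × Eu d} (hp : 0 < p.1)
    (hp1 : p.1 ≤ 1) :
    ∑ k, (dy k (wS V s) p) ^ 2 ≤ (2 * s) ^ 2 * (‖p.2‖ + √d) ^ 2 := by
  have hl := mul_pos hs hp
  have hA := hV.cpot.post_adm hl (√s • p.2)
  have hprob := hA.isProb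
  have h1 : ∑ k, (dy k (wS V s) p) ^ 2 = s * ‖Fp V G (s * p.1) (√s • p.2)‖ ^ 2 := by
    rw [EuclideanSpace.norm_sq_eq, Finset.mul_sum]
    refine Finset.sum_congr rfl fun k _ => ?_
    rw [dy_wS hV hs hp k, mul_pow, Real.sq_sqrt hs.le, Real.norm_eq_abs, sq_abs]
  have iN : Integrable (fun x : Eu d => ‖x‖) (gibbs (post V (s * p.1) (√s • p.2))) :=
    hA.integrable PG.id.norm continuous_norm.aestronglyMeasurable
  have iN2 : Integrable (fun x : Eu d => ‖x‖ ^ 2) (gibbs (post V (s * p.1) (√s • p.2))) :=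
    hA.integrable (PG.id.norm.pow 2) (continuous_norm.pow 2).aestronglyMeasurable
  have h2 : ‖Fp V G (s * p.1) (√s • p.2)‖ ≤
      2 * ∫ x, ‖x‖ ∂(gibbs (post V (s * p.1) (√s • p.2))) := by
    unfold Fp
    refine (norm_integral_le_integral_norm _).trans ?_
    rw [← integral_const_mul]
    refine integral_mono (hA.integrable hV.cpot.pgF.norm
      hV.cpot.contF.norm.aestronglyMeasurable) (iN.const_mul 2) fun x => ?_
    have := hV.lipG x 0
    rw [hV.gzero, sub_zero, sub_zero] at this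
    exact this
  have h3 := var_nonneg iN iN2
  have h4 : ∫ x, ‖x‖ ^ 2 ∂(gibbs (post V (s * p.1) (√s • p.2))) ≤
      (‖√s • p.2‖ + √(s * p.1 * d)) ^ 2 := Em_sq_le hV (p := (s * p.1, √s • p.2)) hl
  have h5 : ‖√s • p.2‖ + √(s * p.1 * d) ≤ √s * (‖p.2‖ + √d) := by
    rw [norm_smul, Real.norm_eq_abs, abs_of_nonneg (Real.sqrt_nonneg s), mul_add]
    have : √(s * p.1 * d) ≤ √s * √d := by
      rw [← Real.sqrt_mul hs.le]
      refine Real.sqrt_le_sqrt ?_
      have hd : (0 : ℝ) ≤ d := Nat.cast_nonneg d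
      have : s * p.1 ≤ s * 1 := mul_le_mul_of_nonneg_left hp1 hs.le
      rw [mul_one] at this
      exact mul_le_mul_of_nonneg_right this hd
    linarith only [this]
  have h6 : (‖√s • p.2‖ + √(s * p.1 * d)) ^ 2 ≤ s * (‖p.2‖ + √d) ^ 2 := by
    have := pow_le_pow_left₀ (by (clear * -; positivity)) h5 2
    rwa [mul_pow, Real.sq_sqrt hs.le] at this
  have h7 : ‖Fp V G (s * p.1) (√s • p.2)‖ ^ 2 ≤
      (2 * ∫ x, ‖x‖ ∂(gibbs (post V (s * p.1) (√s • p.2)))) ^ 2 :=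
    pow_le_pow_left₀ (norm_nonneg _) h2 2
  rw [h1]
  have h8 : ‖Fp V G (s * p.1) (√s • p.2)‖ ^ 2 ≤ 4 * (s * (‖p.2‖ + √d) ^ 2) := by
    rw [mul_pow] at h7
    linarith only [h6, h3, h4, h7]
  calc s * ‖Fp V G (s * p.1) (√s • p.2)‖ ^ 2 ≤ s * (4 * (s * (‖p.2‖ + √d) ^ 2)) :=
        mul_le_mul_of_nonneg_left h8 hs.le
    _ = _ := by ring

theorem heat_wS (hV : Pot V G H) {s : ℝ} (hs : 0 < s) : Heat (2 * s) (wS V s) where
  cg := hi_cg hV hs
  pde _ hp := hi_pde hV hs hp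
  lo _ hp x := hi_lo hV hs hp x
  hi _ hp x := hi_hi hV hs hp x
  gr _ hp hp1 := hi_gr hV hs hp hp1

theorem hi_midSC (hV : Pot V G H) {s : ℝ} (hs : 0 < s) (y : Eu d) :
    MidSC (1 + 1 / s) (post V s y) := by
  intro x x'
  have h1 := hV.midSC x x'
  have h2 : ‖(2 : ℝ)⁻¹ • (x + x') - y‖ ^ 2 = (‖x - y‖ ^ 2 + ‖x' - y‖ ^ 2) / 2
      - ‖x - x'‖ ^ 2 / 4 := by
    have h3 : (2 : ℝ)⁻¹ • (x + x') - y = (2 : ℝ)⁻¹ • ((x - y) + (x' - y)) := by module
    have h4 := parallelogram_law_with_norm ℝ (x - y) (x' - y)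
    have h5 : x - y - (x' - y) = x - x' := by abel
    rw [h5] at h4
    rw [h3, norm_smul, mul_pow]
    norm_num
    linarith
  unfold post
  rw [h2]
  have h6 : ((‖x - y‖ ^ 2 + ‖x' - y‖ ^ 2) / 2 - ‖x - x'‖ ^ 2 / 4) / (2 * s)
      = (‖x - y‖ ^ 2 / (2 * s) + ‖x' - y‖ ^ 2 / (2 * s)) / 2 - 1 / s / 8 * ‖x - x'‖ ^ 2 := by
    field_simp
    ring
  rw [h6]
  have h7 : (1 + 1 / s) / 8 * ‖x - x'‖ ^ 2 =
      1 / 8 * ‖x - x'‖ ^ 2 + 1 / s / 8 * ‖x - x'‖ ^ 2 := by ring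
  rw [h7]
  linarith only [h1]

theorem hi_var_le (hV : Pot V G H) {s : ℝ} (hs : 0 < s) (y u : Eu d) :
    hi_var V s y u ≤ s / (1 + s) * ‖u‖ ^ 2 := by
  have hA := hV.cpot.post_adm hs y
  have := hA.isProb
  have h1 := poincare (m := 1 + 1 / s) (by positivity) hA (hi_midSC hV hs y)
    (f := fun x => (inner ℝ x u : ℝ)) (g := fun _ => u)
    (fun x => by
      have h2 : (fun x : Eu d => (inner ℝ x u : ℝ)) = fun x => innerSL ℝ u x := by
        funext x; rw [innerSL_apply_apply, real_inner_comm]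
      rw [h2]
      exact (innerSL ℝ u).hasFDerivAt) continuous_const (PG.id.inner (PG.const _)) (PG.const _)
  rw [integral_const, probReal_univ, one_smul] at h1
  have h3 : 1 / (1 + 1 / s) = s / (1 + s) := by
    field_simp
    ring
  rw [h3] at h1
  exact h1

/-- Strong convexity of the smoothed potential (for the contraction of the down step). -/
theorem Fp_strong (hV : Pot V G H) {s : ℝ} (hs : 0 < s) (hs1 : s ≤ 1 / 4) (x y : Eu d) :
    (3 / 4) * ‖x - y‖ ^ 2 ≤ inner ℝ (Fp V G s x - Fp V G s y) (x - y) := by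
  obtain ⟨u, hu⟩ : ∃ u, u = x - y := ⟨_, rfl⟩
  rw [← hu]
  set φ : ℝ → ℝ := fun t => inner ℝ (Fp V G s (y + t • u)) u - 3 / 4 * ‖u‖ ^ 2 * t with hφ
  have hd : ∀ t, HasDerivAt φ (s⁻¹ * (‖u‖ ^ 2 - s⁻¹ * hi_var V s (y + t • u) u) -
      3 / 4 * ‖u‖ ^ 2) t := by
    intro t
    have h1 := hi_line hV hs y u t
    have h2 := ((hasDerivAt_id t).const_mul (3 / 4 * ‖u‖ ^ 2))
    have h3 := h1.sub h2
    rw [mul_one] at h3
    exact h3
  have hmono : Monotone φ := monotone_of_deriv_nonneg (fun t => (hd t).differentiableAt)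
    fun t => by
      rw [(hd t).deriv]
      have h1 := hi_var_le hV hs (y + t • u) u
      have h2 : s⁻¹ * hi_var V s (y + t • u) u ≤ s⁻¹ * (s / (1 + s) * ‖u‖ ^ 2) :=
        mul_le_mul_of_nonneg_left h1 (by positivity)
      have h3 : s⁻¹ * (s / (1 + s) * ‖u‖ ^ 2) = 1 / (1 + s) * ‖u‖ ^ 2 := by
        field_simp
      rw [h3] at h2
      have h4 : s⁻¹ * (‖u‖ ^ 2 - 1 / (1 + s) * ‖u‖ ^ 2) ≤
          s⁻¹ * (‖u‖ ^ 2 - s⁻¹ * hi_var V s (y + t • u) u) :=
        mul_le_mul_of_nonneg_left (by linarith only [h2]) (by positivity)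
      have h5 : s⁻¹ * (‖u‖ ^ 2 - 1 / (1 + s) * ‖u‖ ^ 2) = 1 / (1 + s) * ‖u‖ ^ 2 := by
        field_simp
        ring
      have h6 : (3 : ℝ) / 4 ≤ 1 / (1 + s) := by
        rw [le_div_iff₀ (by positivity)]
        linarith only [hs1]
      have h7 : 3 / 4 * ‖u‖ ^ 2 ≤ 1 / (1 + s) * ‖u‖ ^ 2 :=
        mul_le_mul_of_nonneg_right h6 (sq_nonneg _)
      linarith only [h5, h4, h7]
  have h1 := hmono zero_le_one
  simp only [hφ, zero_smul, add_zero, one_smul, mul_zero, sub_zero, mul_one] at h1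
  have h2 : y + u = x := by rw [hu]; abel
  rw [h2] at h1
  rw [inner_sub_left]
  linarith only [h1]

end Vale.Agent.P347.Z
end

section

/-! Module M7 (P347, S): the evaluation theorem. -/

open MeasureTheory Filter Module
open scoped ENNReal NNReal
open Vale.Agent.P347.Z

namespace Vale.Agent.P347.S

variable {d : ℕ}

/-- `EvalAt` is monotone in the constants. -/
theorem evalThm_mono {v ϖ : ℝ} {D l m : ℕ} {s a a' Λ Λ' : ℝ} {B B' : ℕ} (hϖ : 0 ≤ ϖ)
    (h : EvalAt d v ϖ D l m s a Λ B) (ha : a ≤ a') (hΛ : Λ ≤ Λ') (hB : B ≤ B') :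
    EvalAt d v ϖ D l m s a' Λ' B' := by
  intro w σ hσ hw Θ _ hs
  obtain ⟨A, hA1, hA2, hA3⟩ := h w σ hσ hw Θ hs
  refine ⟨A, ?_, ?_, ?_⟩
  · intro τ hτ hc
    refine (hA1 τ hτ hc).trans ?_
    (clear * - hB; gcongr)
  · intro V hV θ₁ θ₂ c hc
    have hc0 : 0 ≤ c := (hc 0 (Nat.zero_le _)).nonneg
    intro f hf hfb
    refine (hA2 V hV θ₁ θ₂ c hc f hf hfb).trans ?_
    (clear * - hΛ hc0; gcongr)
  · intro V hV θ y e he hc
    have he0 : 0 ≤ e := le_trans (by (clear * -; positivity)) he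
    have hη : 0 ≤ eta ϖ l m := pow_nonneg hϖ _
    intro f hf hfb
    refine (hA3 V hV θ y e he hc f hf hfb).trans ?_
    (clear * - ha hη he0; gcongr)

theorem evalThm_pow {ε : ℝ} (hε : 0 ≤ ε) {k J : ℕ} (hk : k ≤ J) (hJ : J * ε ≤ 1) :
    (1 + ε) ^ k ≤ 3 := by
  have h1 : (1 + ε) ≤ Real.exp ε := by
    have := Real.add_one_le_exp ε
    linarith only [this]
  have h2 : (k : ℝ) * ε ≤ 1 := by
    have : (k : ℝ) ≤ J := by exact_mod_cast hk
    nlinarith only [hε, this, hJ]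
  calc (1 + ε) ^ k ≤ (Real.exp ε) ^ k := pow_le_pow_left₀ (by linarith only [hε]) h1 k
    _ = Real.exp (k * ε) := (Real.exp_nat_mul ε k).symm
    _ ≤ Real.exp 1 := Real.exp_le_exp.2 h2
    _ ≤ 3 := (Real.exp_one_lt_d9.le).trans (by norm_num)

/-- The evaluation operation exists at all levels, accuracies and ratio classes. -/
theorem evalAt_all {N p lmax mmax B D J : ℕ} {C δ ϖ ε a Λ smax smin : ℝ}
    (par : GPar N p C δ ϖ ε a Λ smax lmax mmax B D) (hnodes : NodesAt p N C) (hd : 1 ≤ d)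
    (hJ : (1 - δ) ^ J * smax ≤ smin) (hmin : 16 * √smin ≤ ϖ ^ lmax) (hmin1 : smin ≤ 1)
    (hJε : J * ε ≤ 1) (hΛ : Λ = 9) (ha : 9 + 63 * J ≤ a) (hB : 2 * J + 2 ≤ B)
    {l m : ℕ} (hl : l ≤ lmax) (hm : m ≤ mmax) {s : ℝ} (hs : 0 < s) (hs' : s ≤ smax) :
    EvalAt d (δ / 4) ϖ D l m s a Λ B := by
  have hε0 : 0 ≤ ε := par.hε.le
  have hϖ0 : 0 ≤ ϖ := par.hϖ.le
  have hp1 : (1 : ℝ) ≤ p := by exact_mod_cast par.hp
  have hδ8 : δ ≤ 1 / 8 := by
    refine par.hδ'.trans ?_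
    rw [div_le_div_iff₀ (by (clear * - hp1; positivity)) (by norm_num)]
    linarith only [hp1]
  have hδ0 := par.hδ
  have h1δ : 0 < 1 - δ := by linarith only [hδ8]
  have h1δ' : 1 - δ ≤ 1 := by linarith only [hδ0]
  have hD : 1 ≤ D := by
    have h1 := par.i10
    have h2 := par.hN
    have h3 : 2 * 1 * 1 ≤ 2 * N * B := by
      gcongr
      omega
    omega
  -- strong induction in the level
  induction l using Nat.strong_induction_on generalizing m s with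
  | _ l ih =>
    by_cases hcase : l = 0 ∨ m ≤ 1
    · exact evalAt_noise hcase hs (by linarith only [par.hs', hs']) par.ha (by rw [hΛ]; norm_num)
    · push Not at hcase
      obtain ⟨hl0, hm1⟩ := hcase
      have hl1 : 1 ≤ l := Nat.one_le_iff_ne_zero.2 hl0
      have hpow1 : ∀ k : ℕ, (1 : ℝ) ≤ (1 + ε) ^ k := fun k => one_le_pow₀ (by linarith only [hε0])
      -- inner induction
      have key : ∀ k : ℕ, k ≤ J → ∀ s : ℝ, 0 < s → s ≤ smax → (1 - δ) ^ k * s ≤ smin →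
          EvalAt d (δ / 4) ϖ D l m s ((1 + ε) ^ k * (3 + 21 * k)) ((1 + ε) ^ k * (2 + k * ε))
            (2 * k + 2) := by
        intro k
        induction k with
        | zero =>
          intro _ s hs hs' hsm
          rw [pow_zero, one_mul] at hsm
          have hb : 16 * √s ≤ ϖ ^ l := by
            calc 16 * √s ≤ 16 * √smin := by
                  have := Real.sqrt_le_sqrt hsm
                  linarith only [this]
              _ ≤ ϖ ^ lmax := hmin
              _ ≤ ϖ ^ l := pow_le_pow_of_le_one hϖ0 par.hϖ'.le hl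
          refine evalAt_bottom hs (by linarith only [par.hs', hs']) (by linarith only [h1δ']) (by linarith only [h1δ]) par.hϖ
            par.hϖ'.le hb ?_ ?_ ?_ hD
          · simp
          · simp
          · omega
        | succ k ihk =>
          intro hk s hs hs' hsm
          have hs2 : 0 < (1 - δ) * s := by (clear * - h1δ hs; positivity)
          have hs3 : (1 - δ) * s ≤ smax := by (refine le_of_not_gt fun hng_ => ?_; linarith only [mul_pos h1δ (sub_pos.2 hng_), mul_nonneg (sub_nonneg.2 h1δ') (le_of_lt hs2), mul_nonneg (le_of_lt h1δ) (sub_nonneg.2 hs')])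
          have hmain := ihk (by omega) ((1 - δ) * s) hs2 hs3 (by
            calc (1 - δ) ^ k * ((1 - δ) * s) = (1 - δ) ^ (k + 1) * s := by ring
              _ ≤ smin := hsm)
          have hp3 : (1 + ε) ^ k ≤ 3 := evalThm_pow hε0 (by omega : k ≤ J) hJε
          have hkJ : (k : ℝ) ≤ J := by exact_mod_cast (by omega : k ≤ J)
          have hk0 : (0 : ℝ) ≤ k := Nat.cast_nonneg k
          have hkε : (k : ℝ) * ε ≤ 1 := by nlinarith only [hJε, hε0, hkJ]
          have ha1 : (1 + ε) ^ k * (3 + 21 * k) ≤ a := by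
            calc (1 + ε) ^ k * (3 + 21 * (k : ℝ)) ≤ 3 * (3 + 21 * k) := by (clear * - hp3; gcongr)
              _ ≤ 9 + 63 * J := by linarith only [hkJ]
              _ ≤ a := ha
          have hΛ1 : (1 + ε) ^ k * (2 + k * ε) ≤ Λ := by
            calc (1 + ε) ^ k * (2 + k * ε) ≤ 3 * (2 + 1) := by (clear * - hp3 hkε hε0; gcongr)
              _ = Λ := by rw [hΛ]; norm_num
          have hstep := evalAt_step par hnodes hd (by omega : 2 ≤ m) hm hl1 hl hs hs'
            (a₁ := (1 + ε) ^ k * (3 + 21 * k)) (Λ₁ := (1 + ε) ^ k * (2 + k * ε))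
            (B₁ := 2 * k + 2) (by (clear * - hε0; positivity)) ha1 (by (clear * - hε0; positivity)) hΛ1 hmain
            (fun l' hl' s' h1 h2 => ih l' hl' (by omega) (by omega)
              (lt_of_lt_of_le (mul_pos (by linarith only [hδ8]) hs) h1) (h2.trans hs'))
            (fun s' h1 h2 => ih (l - 1) (by omega) (by omega) hm
              (lt_of_lt_of_le (mul_pos (by linarith only [hδ8]) hs) h1) (h2.trans hs'))
          refine evalThm_mono hϖ0 hstep ?_ ?_ ?_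
          · have h1 := hpow1 (k + 1)
            rw [hΛ]
            push_cast
            have h2 : (1 + ε) * ((1 + ε) ^ k * (3 + 21 * (k : ℝ))) =
                (1 + ε) ^ (k + 1) * (3 + 21 * k) := by ring
            rw [h2]
            linarith only [h1]
          · have h1 := hpow1 (k + 1)
            push_cast
            have h2 : (1 + ε) * ((1 + ε) ^ k * (2 + (k : ℝ) * ε)) =
                (1 + ε) ^ (k + 1) * (2 + k * ε) := by ring
            rw [h2]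
            (refine le_of_not_gt fun hng_ => ?_; linarith only [mul_pos hδ0 (sub_pos.2 hng_), mul_nonneg (sub_nonneg.2 hδ8) (le_of_lt (sub_pos.2 hng_)), mul_nonneg hε0 (sub_nonneg.2 h1)])
          · omega
      have hfin := key J le_rfl s hs hs' (le_trans (by (clear * - hs' h1δ; gcongr)) hJ)
      have hp3 : (1 + ε) ^ J ≤ 3 := evalThm_pow hε0 le_rfl hJε
      have hJ0 : (0 : ℝ) ≤ J := Nat.cast_nonneg J
      refine evalThm_mono hϖ0 hfin ?_ ?_ ?_
      · calc (1 + ε) ^ J * (3 + 21 * (J : ℝ)) ≤ 3 * (3 + 21 * J) := by (clear * - hp3; gcongr)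
          _ = 9 + 63 * J := by ring
          _ ≤ a := ha
      · calc (1 + ε) ^ J * (2 + J * ε) ≤ 3 * (2 + 1) := by (clear * - hp3 hJε hε0; gcongr)
          _ = Λ := by rw [hΛ]; norm_num
      · exact hB

end Vale.Agent.P347.S
end

section
attribute [-instance] ProperSMul.toContinuousSMul IsTopologicalTorsor.toContinuousSMul IdemSemiring.toCanonicallyOrderedAdd IdemSemiring.toMulLeftMono IdemSemiring.toMulRightMono AddQuantale.instAddLeftMono AddQuantale.instAddRightMono Quantale.instMulLeftMono Quantale.instMulRightMono FiniteDimensional.rclike_to_real IsScalarTower.complexToReal FiniteDimensional.complexToReal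

/-! Module M11 (P347, S): choice of the parameters. -/

set_option linter.all false

open MeasureTheory Filter Module
open scoped ENNReal NNReal
open Vale.Agent.P347.Z

namespace Vale.Agent.P347.S

lemma pz_pow {G z : ℝ} {a b : ℕ} (hz : 1 ≤ z) (hG : G ≤ z) (h : a + 1 ≤ b) :
    G * z ^ a ≤ z ^ b := by
  have h1 : G * z ^ a ≤ z * z ^ a := mul_le_mul_of_nonneg_right hG (by positivity)
  have h2 : z * z ^ a = z ^ (a + 1) := by ring
  rw [h2] at h1
  exact h1.trans (pow_le_pow_right₀ hz h)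

lemma pz_inv {X Y : ℝ} (hY : 0 < Y) (h : X ≤ Y) : X * Y⁻¹ ≤ 1 := by
  rw [← div_eq_mul_inv, div_le_one hY]; exact h

/-- The logarithm is beaten by every power. -/
lemma pz_evt (c : ℝ) (k : ℕ) {r : ℝ} (hr : 0 < r) :
    ∀ᶠ d : ℕ in atTop, c * (Real.log d + 1) ^ k ≤ (d : ℝ) ^ r := by
  have hr' : 0 < r / (k + 1) := by positivity
  have h1 : ∀ᶠ x : ℝ in atTop, c * (Real.log x + 1) ^ k ≤ x ^ r := by
    have h2 : ∀ᶠ x : ℝ in atTop, Real.log x ≤ 1 / 2 * x ^ (r / (k + 1)) := by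
      have h := (isLittleO_log_rpow_atTop hr').bound (show (0 : ℝ) < 1 / 2 by (clear * -; norm_num))
      filter_upwards [h, eventually_ge_atTop 1] with x hx h1
      rw [Real.norm_of_nonneg (Real.log_nonneg h1),
        Real.norm_of_nonneg (by positivity)] at hx
      exact hx
    have h3 : ∀ᶠ x : ℝ in atTop, max c 2 ≤ x ^ (r / (k + 1)) :=
      (tendsto_rpow_atTop hr').eventually_ge_atTop _
    filter_upwards [h2, h3, eventually_ge_atTop 1] with x h2 h3 hx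
    have h4 : Real.log x + 1 ≤ x ^ (r / (k + 1)) := by
      linarith only [(le_trans (le_max_right c 2) h3), h2]
    have h5 : 0 ≤ Real.log x + 1 := by linarith only [(Real.log_nonneg hx)]
    have h6 : (Real.log x + 1) ^ k ≤ (x ^ (r / (k + 1))) ^ k := pow_le_pow_left₀ h5 h4 k
    have h7 : 0 < x ^ (r / (k + 1)) := Real.rpow_pos_of_pos (by linarith only [hx]) _
    calc c * (Real.log x + 1) ^ k ≤ x ^ (r / (k + 1)) * (Real.log x + 1) ^ k :=
          mul_le_mul_of_nonneg_right (le_trans (le_max_left c 2) h3) (by (clear * - h5; positivity))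
      _ ≤ x ^ (r / (k + 1)) * (x ^ (r / (k + 1))) ^ k := mul_le_mul_of_nonneg_left h6 h7.le
      _ = x ^ r := by
          rw [← pow_succ', ← Real.rpow_natCast, ← Real.rpow_mul (by linarith only [hx])]
          congr 1
          push_cast
          (clear * - hr; field_simp)
  exact tendsto_natCast_atTop_atTop.eventually h1

lemma pz_log1200 : Real.log 1200 ≤ 8 := by
  rw [Real.log_le_iff_le_exp (by (clear * -; norm_num))]
  have h := Real.exp_one_gt_d9
  have h2 : Real.exp 8 = Real.exp 1 ^ 8 := by rw [← Real.exp_nat_mul]; norm_num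
  rw [h2]
  calc (1200 : ℝ) ≤ 2.7 ^ 8 := by (clear * -; norm_num)
    _ ≤ Real.exp 1 ^ 8 := pow_le_pow_left₀ (by norm_num) (by linarith only [h]) 8

lemma pz_log360000 : Real.log 360000 ≤ 13 := by
  rw [Real.log_le_iff_le_exp (by norm_num)]
  have h := Real.exp_one_gt_d9
  have h2 : Real.exp 13 = Real.exp 1 ^ 13 := by rw [← Real.exp_nat_mul]; norm_num
  rw [h2]
  calc (360000 : ℝ) ≤ 2.7 ^ 13 := by norm_num
    _ ≤ Real.exp 1 ^ 13 := pow_le_pow_left₀ (by norm_num) (by linarith only [h]) 13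

lemma pz_log256 : Real.log 256 ≤ 6 := by
  rw [Real.log_le_iff_le_exp (by norm_num)]
  have h := Real.exp_one_gt_d9
  have h2 : Real.exp 6 = Real.exp 1 ^ 6 := by rw [← Real.exp_nat_mul]; norm_num
  rw [h2]
  calc (256 : ℝ) ≤ 2.7 ^ 6 := by norm_num
    _ ≤ Real.exp 1 ^ 6 := pow_le_pow_left₀ (by norm_num) (by linarith only [h]) 6

/-- `(1 - x)^n ≤ 1 / M` as soon as `n ≥ log M / x`. -/
lemma pz_exp {x M : ℝ} {n : ℕ} (hx1 : x ≤ 1) (hM : 0 < M) (h : Real.log M ≤ n * x) :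
    (1 - x) ^ n ≤ M⁻¹ := by
  calc (1 - x) ^ n ≤ Real.exp (-x) ^ n :=
        pow_le_pow_left₀ (by linarith only [hx1]) (by linarith only [(Real.add_one_le_exp (-x))]) n
    _ = Real.exp (-(n * x)) := by rw [← Real.exp_nat_mul]; ring_nf
    _ ≤ Real.exp (-Real.log M) := Real.exp_le_exp.2 (by linarith only [h])
    _ = M⁻¹ := by rw [Real.exp_neg, Real.exp_log hM]

lemma pz_inv2 {X Y Z : ℝ} (hY : 0 < Y) (hZ : 0 < Z) (h : X * Z ≤ Y) : X * Y⁻¹ ≤ Z⁻¹ := by
  rw [← div_eq_mul_inv, div_le_iff₀ hY, inv_mul_eq_div, le_div_iff₀ hZ]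
  exact h

lemma pz_sqrt {x : ℝ} (h0 : 0 ≤ x) (h1 : x ≤ 1) : x ≤ √x := by
  have h := Real.sqrt_le_sqrt (show x ^ 2 ≤ x by linarith only [mul_nonneg h0 (sub_nonneg.2 h1)])
  rwa [Real.sqrt_sq h0] at h

lemma pz_sqrt' {x : ℝ} (h1 : 1 ≤ x) : √x ≤ x := by
  rw [Real.sqrt_le_left (by linarith only [h1])]
  (refine le_of_not_gt fun hng_ => ?_; linarith only [mul_nonneg (sq_nonneg (x)) (le_of_lt (sub_pos.2 hng_)), mul_pos (sub_pos.2 hng_) (sub_pos.2 hng_), mul_nonneg (sq_nonneg (x)) (sub_nonneg.2 h1)])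

theorem pz_gpar {N p P A n S J : ℕ} {C z ℓ c₁ : ℝ} (hN : 1 ≤ N) (hp : p = 2 * P)
    (hC : 1 ≤ C) (hA : 16 ≤ A) (hn : 26 ≤ n) (hS : S = 4 * A * n)
    (hPP : P = A * (4 * n + n ^ 2) + 3) (hz : 4 ≤ z) (hℓ : 1 ≤ ℓ) (hc₁ : 1 ≤ c₁) (hJ : 1 ≤ J)
    (hJY : (J : ℝ) ≤ c₁ * ℓ * z) (b1 : 8 * (p : ℝ) ≤ z) (b2 : 128 * C * p * N ≤ z)
    (b3 : 8 * C * N ≤ z) (b4 : 512 * N * (N + 1) * C * (72 * c₁ ^ 2) * ℓ ^ 2 ≤ z)
    (b5 : 128 * C * c₁ * ℓ ≤ z) (b6 : 256 * C ^ 2 * c₁ ^ 2 * ℓ ^ 2 ≤ z)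
    (b7 : 576 * N * C * c₁ * ℓ ≤ z) :
    GPar N p C z⁻¹ (z ^ A)⁻¹ (1 / J) (9 + 63 * J) 9 (z ^ S)⁻¹ (n ^ 2) (2 * n) (2 * J + 2)
      ((2 * N + p) * (2 * J + 2)) := by
  have hz1 : 1 ≤ z := by linarith only [hz]
  have hz0 : 0 < z := by linarith only [hz1]
  have hzp : ∀ k : ℕ, 0 < z ^ k := fun k => pow_pos hz0 k
  have hNr : (1 : ℝ) ≤ N := by exact_mod_cast hN
  have hJr : (1 : ℝ) ≤ J := by exact_mod_cast hJ
  have hp1 : 1 ≤ p := by (clear * - hp hPP; omega)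
  have hpr : (1 : ℝ) ≤ p := by exact_mod_cast hp1
  have hY1 : 1 ≤ c₁ * ℓ * z := hJr.trans hJY
  have hC0 : 0 < C := by linarith only [hC]
  have hℓ0 : 0 < ℓ := by linarith only [hℓ]
  have hc0 : 0 < c₁ := by linarith only [hc₁]
  have hAn : 16 * 26 ≤ A * n := Nat.mul_le_mul hA hn
  have hAn2 : A * n ≤ A * n ^ 2 := Nat.mul_le_mul_left A (Nat.le_self_pow (by norm_num) n)
  have haY : (9 : ℝ) + 63 * J ≤ 72 * (c₁ * ℓ * z) := by linarith only [hY1, hJY]
  have ew2 : ((z ^ A)⁻¹) ^ 2 = (z ^ (2 * A))⁻¹ := by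
    rw [inv_pow, ← pow_mul, mul_comm A 2]
  refine ⟨hN, hp1, hC, inv_pos.2 hz0, ?_, inv_pos.2 (hzp A), ?_, by positivity, ?_, by linarith only [],
    by norm_num, inv_pos.2 (hzp S), ?_, ?_, ?_, ?_, ?_, ?_, ?_, ?_, ?_, ?_, ?_⟩
  · -- hδ'
    rw [inv_eq_one_div]
    exact one_div_le_one_div_of_le (by linarith only [hpr]) b1
  · -- ϖ < 1
    exact inv_lt_one_of_one_lt₀ (one_lt_pow₀ (by linarith only [hpr, b1]) (by omega))
  · -- ε ≤ 1
    rw [div_le_one (by linarith only [hJr])]; exact hJr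
  · -- smax ≤ 1/4
    rw [inv_eq_one_div]
    refine one_div_le_one_div_of_le (by norm_num) (hz.trans ?_)
    calc z = z ^ 1 := (pow_one z).symm
      _ ≤ z ^ S := pow_le_pow_right₀ hz1 (by
          have : 4 * A * n = 4 * (A * n) := by ring
          omega)
  · -- i1
    refine le_trans ?_ (pz_sqrt (inv_nonneg.2 hz0.le) (inv_le_one_of_one_le₀ hz1))
    have e : ((z ^ A)⁻¹) ^ 4 = (z ^ (4 * A))⁻¹ := by rw [inv_pow, ← pow_mul, mul_comm A 4]
    rw [e]
    refine pz_inv2 (hzp _) hz0 ?_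
    have := pz_pow (G := 2) (a := 1) (b := 4 * A) hz1 (by linarith only [hpr, b1]) (by omega)
    rwa [pow_one] at this
  · -- i2
    rw [ew2]
    refine pz_inv (hzp _) ?_
    calc (8 : ℝ) ≤ 4 ^ 2 := by norm_num
      _ ≤ z ^ 2 := pow_le_pow_left₀ (by norm_num) hz 2
      _ ≤ z ^ (2 * A) := pow_le_pow_right₀ hz1 (by omega)
  · -- i3
    rw [ew2, div_inv_eq_mul]
    have h1 : (1 : ℝ) ≤ 16 * p * N * z := by
      have h0 : (1 : ℝ) ≤ 16 * p := by linarith only [hpr]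
      exact one_le_mul_of_one_le_of_one_le (one_le_mul_of_one_le_of_one_le h0 hNr) hz1
    have h2 : √(16 * p * N * z) ≤ 16 * p * N * z := pz_sqrt' h1
    calc 8 * C * (z ^ (2 * A))⁻¹ * √(16 * p * N * z)
        ≤ 8 * C * (z ^ (2 * A))⁻¹ * (16 * p * N * z) :=
          mul_le_mul_of_nonneg_left h2 (by positivity)
      _ = (128 * C * p * N * z ^ 1) * (z ^ (2 * A))⁻¹ := by ring
      _ ≤ 1 := pz_inv (hzp _) (pz_pow hz1 b2 (by omega))
  · -- i4
    have h1 : z⁻¹ / (4 * N) = (4 * N * z)⁻¹ := by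
      rw [div_eq_mul_inv, ← mul_inv, mul_comm]
    rw [h1, ew2]
    have h2 : 1 ≤ 4 * N * z := one_le_mul_of_one_le_of_one_le (by linarith only [hNr]) hz1
    refine le_trans ?_ (pz_sqrt (by positivity) (inv_le_one_of_one_le₀ h2))
    refine pz_inv2 (hzp _) (by positivity) ?_
    have := pz_pow (G := 8 * C * N) (a := 1) (b := 2 * A) hz1 b3 (by omega)
    calc 2 * C * (4 * N * z) = 8 * C * N * z ^ 1 := by ring
      _ ≤ _ := this
  · -- i5
    rw [le_div_iff₀ (by linarith only [hJr])]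
    have h1 : (9 + 63 * (J : ℝ)) * J ≤ 72 * (c₁ * ℓ * z) * (c₁ * ℓ * z) :=
      mul_le_mul haY hJY (by linarith only []) (by positivity)
    calc 512 * (N : ℝ) * (N + 1) * C * (9 + 63 * J) * (z ^ A)⁻¹ * J
        = 512 * N * (N + 1) * C * ((9 + 63 * J) * J) * (z ^ A)⁻¹ := by ring
      _ ≤ 512 * N * (N + 1) * C * (72 * (c₁ * ℓ * z) * (c₁ * ℓ * z)) * (z ^ A)⁻¹ := by
          (clear * - h1 hN hC hz; gcongr)
      _ = (512 * N * (N + 1) * C * (72 * c₁ ^ 2) * ℓ ^ 2) * z ^ 2 * (z ^ A)⁻¹ := by ring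
      _ ≤ 1 := pz_inv (hzp _) (pz_pow hz1 b4 (by omega))
  · -- i6
    have e1 : (√z⁻¹) ^ p = (z ^ P)⁻¹ := by
      rw [hp, pow_mul, Real.sq_sqrt (inv_nonneg.2 hz0.le), inv_pow]
    have e2 : ((z ^ A)⁻¹) ^ (2 * (2 * n)) = (z ^ (A * (4 * n)))⁻¹ := by
      rw [inv_pow, ← pow_mul]; congr 3; ring
    have e3 : (((z ^ A)⁻¹) ^ 2) ^ (p - 1) = (z ^ (2 * A * (p - 1)))⁻¹ := by
      rw [ew2, inv_pow, ← pow_mul]
    have e4 : ((z ^ A)⁻¹) ^ (n ^ 2) = (z ^ (A * n ^ 2))⁻¹ := by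
      rw [inv_pow, ← pow_mul]
    rw [e1, e2, e3, e4]
    have h1 : 128 * C * J * z ^ (A * n ^ 2) * z ^ (A * (4 * n)) ≤ z ^ P := by
      calc 128 * C * J * z ^ (A * n ^ 2) * z ^ (A * (4 * n))
          ≤ 128 * C * (c₁ * ℓ * z) * z ^ (A * n ^ 2) * z ^ (A * (4 * n)) := by (clear * - hJY hC hz; gcongr)
        _ = (128 * C * c₁ * ℓ) * z ^ (A * (4 * n + n ^ 2) + 1) := by ring
        _ ≤ z ^ P := pz_pow hz1 b5 (by omega)
    have h2 : 128 * C * J * z ^ (A * n ^ 2) ≤ z ^ (2 * A * (p - 1)) := by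
      calc 128 * C * J * z ^ (A * n ^ 2)
          ≤ 128 * C * (c₁ * ℓ * z) * z ^ (A * n ^ 2) := by (clear * - hJY hC hz; gcongr)
        _ = (128 * C * c₁ * ℓ) * z ^ (A * n ^ 2 + 1) := by ring
        _ ≤ z ^ (2 * A * (p - 1)) := pz_pow hz1 b5 (by
            have h3 : A * n ^ 2 + 3 ≤ p - 1 := by
              have : A * (4 * n + n ^ 2) = 4 * (A * n) + A * n ^ 2 := by ring
              omega
            have h4 : 2 * A * (p - 1) = 2 * (A * (p - 1)) := by ring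
            have h5 : 1 * (p - 1) ≤ A * (p - 1) := Nat.mul_le_mul_right _ (by omega)
            omega)
    have g1 : C * ((z ^ P)⁻¹ / (z ^ (A * (4 * n)))⁻¹) ≤ 1 / J / 128 * (z ^ (A * n ^ 2))⁻¹ := by
      have e5 : C * ((z ^ P)⁻¹ / (z ^ (A * (4 * n)))⁻¹) = (C * z ^ (A * (4 * n))) * (z ^ P)⁻¹ := by
        rw [div_inv_eq_mul]; ring
      have e6 : 1 / (J : ℝ) / 128 * (z ^ (A * n ^ 2))⁻¹ = (128 * J * z ^ (A * n ^ 2))⁻¹ := by
        rw [mul_inv, mul_inv]; ring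
      rw [e5, e6]
      refine pz_inv2 (hzp _) (mul_pos (by linarith only [hJr]) (hzp _)) ?_
      calc C * z ^ (A * (4 * n)) * (128 * J * z ^ (A * n ^ 2))
          = 128 * C * J * z ^ (A * n ^ 2) * z ^ (A * (4 * n)) := by ring
        _ ≤ _ := h1
    have g2 : C * (z ^ (2 * A * (p - 1)))⁻¹ ≤ 1 / J / 128 * (z ^ (A * n ^ 2))⁻¹ := by
      have e6 : 1 / (J : ℝ) / 128 * (z ^ (A * n ^ 2))⁻¹ = (128 * J * z ^ (A * n ^ 2))⁻¹ := by
        rw [mul_inv, mul_inv]; ring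
      rw [e6]
      refine pz_inv2 (hzp _) (mul_pos (by linarith only [hJr]) (hzp _)) ?_
      calc C * (128 * J * z ^ (A * n ^ 2)) = 128 * C * J * z ^ (A * n ^ 2) := by ring
        _ ≤ _ := h2
    calc C * ((z ^ P)⁻¹ / (z ^ (A * (4 * n)))⁻¹ + (z ^ (2 * A * (p - 1)))⁻¹)
        = C * ((z ^ P)⁻¹ / (z ^ (A * (4 * n)))⁻¹) + C * (z ^ (2 * A * (p - 1)))⁻¹ := by ring
      _ ≤ 1 / J / 128 * (z ^ (A * n ^ 2))⁻¹ + 1 / J / 128 * (z ^ (A * n ^ 2))⁻¹ := add_le_add g1 g2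
      _ = _ := by ring
  · -- i7
    have e1 : z⁻¹ * (z ^ S)⁻¹ = (z ^ (S + 1))⁻¹ := by
      rw [← mul_inv, pow_succ]; congr 1; ring
    rw [e1]
    have h1 : (16 * C * J) ^ 2 ≤ z ^ (S + 1) := by
      calc (16 * C * (J : ℝ)) ^ 2 ≤ (16 * C * (c₁ * ℓ * z)) ^ 2 := by gcongr
        _ = (256 * C ^ 2 * c₁ ^ 2 * ℓ ^ 2) * z ^ 2 := by ring
        _ ≤ z ^ (S + 1) := pz_pow hz1 b6 (by
            have : 4 * A * n = 4 * (A * n) := by ring
            (clear * - hS hAn this; omega))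
    have h2 : √((z ^ (S + 1))⁻¹) ≤ (16 * C * J)⁻¹ := by
      rw [Real.sqrt_le_left (by (clear * - hC hJ; positivity)), inv_pow]
      exact inv_anti₀ (by positivity) h1
    have h3 : (z ^ (S + 1))⁻¹ ≤ √((z ^ (S + 1))⁻¹) :=
      pz_sqrt (by positivity) (inv_le_one_of_one_le₀ (one_le_pow₀ hz1))
    have h4 : C * (16 * C * J)⁻¹ = 1 / J / 16 := by
      rw [mul_inv, mul_inv]
      (clear * - hC hJ; field_simp)
    calc C * √((z ^ (S + 1))⁻¹) + C * (z ^ (S + 1))⁻¹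
        ≤ C * (16 * C * J)⁻¹ + C * (16 * C * J)⁻¹ :=
          add_le_add (mul_le_mul_of_nonneg_left h2 hC0.le)
            (mul_le_mul_of_nonneg_left (h3.trans h2) hC0.le)
      _ = 1 / J / 8 := by rw [h4]; ring
  · -- i8
    rw [le_div_iff₀ (by linarith only [hJr])]
    calc 64 * (N : ℝ) * C * 9 * (z ^ A)⁻¹ * J = 576 * N * C * J * (z ^ A)⁻¹ := by ring
      _ ≤ 576 * N * C * (c₁ * ℓ * z) * (z ^ A)⁻¹ := by (clear * - hJY hN hC hz; gcongr)
      _ = (576 * N * C * c₁ * ℓ) * z ^ 1 * (z ^ A)⁻¹ := by ring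
      _ ≤ 1 := pz_inv (hzp _) (pz_pow hz1 b7 (by omega))
  · -- i9
    rw [inv_pow, ← pow_mul, hS]
    refine le_of_eq ?_
    congr 2
    ring
  · -- i10
    exact Nat.mul_le_mul_right _ (by omega)

/-- All numerical conditions used in the final assembly, for given `N, p` and constants. -/
structure AllPar (d N p : ℕ) (C C' δ ϖ ε a smax smin : ℝ) (lmax mmax B D J N₁ K : ℕ) : Prop where
  par : GPar N p C δ ϖ ε a 9 smax lmax mmax B D
  mm : 1 ≤ mmax
  hJ : (1 - δ) ^ J * smax ≤ smin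
  hmin : 16 * √smin ≤ ϖ ^ lmax
  hmin1 : smin ≤ 1
  hJε : J * ε ≤ 1
  ha : 9 + 63 * J ≤ a
  hB : 2 * J + 2 ≤ B
  j2 : C' * √(8 * p * δ) ≤ 1
  j3 : 8 * p * C' * a * ϖ ≤ 1
  j4 : C' * (√δ) ^ p ≤ ϖ ^ lmax
  j5 : p * B ≤ D
  k1 : 11 * p ^ 2 * C' * a * eta ϖ lmax mmax ≤ δ * smax / 8
  k2 : K * (11 * p ^ 2 * C' * a * eta ϖ lmax mmax) ≤ 1
  k3 : 2 * √d * (1 - δ * smax / 4) ^ N₁ + (11 * p ^ 2 * C' * a * eta ϖ lmax mmax) * √d
      * (6 * N₁ + 20 * K) + √((1 - δ / 2) ^ K * smax * d) ≤ 1 / (200 * √d)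

/-- bounds for the numbers of steps -/
lemma pz_ceil {z L c : ℝ} (hz : 1 ≤ z) (hL : 0 ≤ L) (hLc : L ≤ c) (hc : 1 ≤ c) :
    ((⌈z * L⌉₊ : ℕ) : ℝ) ≤ 2 * c * z ∧ z * L ≤ (⌈z * L⌉₊ : ℕ) := by
  refine ⟨?_, Nat.le_ceil _⟩
  have h1 := (Nat.ceil_lt_add_one (show 0 ≤ z * L by positivity)).le
  nlinarith only [hc, hLc, h1, hz]

theorem pz_k {d T S A n p J N₁ K : ℕ} {C' z ℓ c₁ : ℝ} (hd : 1 ≤ d) (hzT : z ^ T = d)
    (hAT : T + S + 3 = A * n ^ 2) (hC' : 1 ≤ C') (hz : 4 ≤ z) (hℓ : 1 ≤ ℓ) (hc₁ : 1 ≤ c₁)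
    (hp : 1 ≤ p) (hJ : 1 ≤ J) (hJY : (J : ℝ) ≤ c₁ * ℓ * z)
    (hN₁ : (N₁ : ℝ) ≤ 64 * ℓ * z ^ (S + 1)) (hN₁' : 4 * z ^ (S + 1) * Real.log (1200 * d) ≤ N₁)
    (hK : (K : ℝ) ≤ 52 * ℓ * z) (hK' : 2 * z * Real.log (360000 * d ^ 2) ≤ K)
    (c1 : 88 * 72 * p ^ 2 * C' * c₁ * ℓ ≤ z) (c2 : 52 * 792 * p ^ 2 * C' * c₁ * ℓ ^ 2 ≤ z)
    (c3 : 600 * 1424 * 792 * p ^ 2 * C' * c₁ * ℓ ^ 2 ≤ z) :
    11 * (p : ℝ) ^ 2 * C' * (9 + 63 * J) * eta (z ^ A)⁻¹ (n ^ 2) (2 * n) ≤
      z⁻¹ * (z ^ S)⁻¹ / 8 ∧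
    K * (11 * (p : ℝ) ^ 2 * C' * (9 + 63 * J) * eta (z ^ A)⁻¹ (n ^ 2) (2 * n)) ≤ 1 ∧
    2 * √d * (1 - z⁻¹ * (z ^ S)⁻¹ / 4) ^ N₁ + (11 * (p : ℝ) ^ 2 * C' * (9 + 63 * J) *
      eta (z ^ A)⁻¹ (n ^ 2) (2 * n)) * √d * (6 * N₁ + 20 * K) +
      √((1 - z⁻¹ / 2) ^ K * (z ^ S)⁻¹ * d) ≤ 1 / (200 * √d) := by
  have hz1 : 1 ≤ z := by linarith only [hz]
  have hz0 : 0 < z := by linarith only [hz1]
  have hzp : ∀ k : ℕ, 0 < z ^ k := fun k => pow_pos hz0 k
  have hJr : (1 : ℝ) ≤ J := by exact_mod_cast hJ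
  have hpr : (1 : ℝ) ≤ p := by exact_mod_cast hp
  have hdr : (1 : ℝ) ≤ d := by exact_mod_cast hd
  have hY1 : 1 ≤ c₁ * ℓ * z := hJr.trans hJY
  have hC0 : 0 < C' := by linarith only [hC']
  have hℓ0 : 0 < ℓ := by linarith only [hℓ]
  have hc0 : 0 < c₁ := by linarith only [hc₁]
  have haY : (9 : ℝ) + 63 * J ≤ 72 * (c₁ * ℓ * z) := by linarith only [hY1, hJY]
  have heta : eta (z ^ A)⁻¹ (n ^ 2) (2 * n) = (z ^ (A * n ^ 2))⁻¹ := by
    unfold eta
    have h1 : (2 * n) ^ 2 / 4 = n ^ 2 := by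
      have : (2 * n) ^ 2 = 4 * n ^ 2 := by ring
      omega
    rw [h1, min_self, inv_pow, ← pow_mul]
  rw [heta]
  set W := 11 * (p : ℝ) ^ 2 * C' * (9 + 63 * J) * (z ^ (A * n ^ 2))⁻¹ with hW
  have hW0 : 0 ≤ W := by (clear * - hp hC' hJ hz; positivity)
  have hWb : W ≤ 792 * p ^ 2 * C' * c₁ * ℓ * z * (z ^ (A * n ^ 2))⁻¹ := by
    calc W ≤ 11 * (p : ℝ) ^ 2 * C' * (72 * (c₁ * ℓ * z)) * (z ^ (A * n ^ 2))⁻¹ := by
          rw [hW]; (clear * - haY hp hC' hz; gcongr)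
      _ = _ := by ring
  have hSS : z⁻¹ * (z ^ S)⁻¹ = (z ^ (S + 1))⁻¹ := by
    rw [← mul_inv, pow_succ]; congr 1; ring
  refine ⟨?_, ?_, ?_⟩
  · -- k1
    refine hWb.trans ?_
    have e : z⁻¹ * (z ^ S)⁻¹ / 8 = (8 * z ^ (S + 1))⁻¹ := by rw [hSS, mul_inv]; ring
    rw [e]
    refine pz_inv2 (hzp _) (by positivity) ?_
    calc 792 * (p : ℝ) ^ 2 * C' * c₁ * ℓ * z * (8 * z ^ (S + 1))
        = (88 * 72 * p ^ 2 * C' * c₁ * ℓ) * z ^ (S + 2) := by ring
      _ ≤ _ := pz_pow hz1 c1 (by (clear * - hAT; omega))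
  · -- k2
    calc (K : ℝ) * W ≤ (52 * ℓ * z) * (792 * p ^ 2 * C' * c₁ * ℓ * z * (z ^ (A * n ^ 2))⁻¹) :=
          mul_le_mul hK hWb hW0 (by (clear * - hℓ hz; positivity))
      _ = (52 * 792 * p ^ 2 * C' * c₁ * ℓ ^ 2) * z ^ 2 * (z ^ (A * n ^ 2))⁻¹ := by ring
      _ ≤ 1 := pz_inv (hzp _) (pz_pow hz1 c2 (by (clear * - hAT; omega)))
  · -- k3
    have hsd : 0 < √(d : ℝ) := Real.sqrt_pos.2 (by linarith only [hdr])
    have hdd : √(d : ℝ) * √d = d := Real.mul_self_sqrt (by linarith only [])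
    have t1 : 2 * √(d : ℝ) * (1 - z⁻¹ * (z ^ S)⁻¹ / 4) ^ N₁ ≤ 1 / (600 * √d) := by
      have h1 : z⁻¹ * (z ^ S)⁻¹ / 4 ≤ 1 := by
        rw [hSS]
        have := inv_le_one_of_one_le₀ (one_le_pow₀ hz1 : 1 ≤ z ^ (S + 1))
        linarith only [this]
      have h2 : Real.log (1200 * d) ≤ N₁ * (z⁻¹ * (z ^ S)⁻¹ / 4) := by
        have : (N₁ : ℝ) * (z⁻¹ * (z ^ S)⁻¹ / 4) = N₁ / (4 * z ^ (S + 1)) := by
          rw [hSS]; (clear * - hz; field_simp)
        rw [this, le_div_iff₀ (by positivity)]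
        linarith only [hN₁']
      have h3 := pz_exp h1 (by positivity : (0 : ℝ) < 1200 * d) h2
      calc 2 * √(d : ℝ) * (1 - z⁻¹ * (z ^ S)⁻¹ / 4) ^ N₁ ≤ 2 * √(d : ℝ) * (1200 * (d : ℝ))⁻¹ :=
            mul_le_mul_of_nonneg_left h3 (by positivity)
        _ = 2 * √(d : ℝ) * (1200 * (√(d : ℝ) * √d))⁻¹ := by rw [hdd]
        _ = 1 / (600 * √d) := by
            field_simp
            norm_num
    have t3 : √((1 - z⁻¹ / 2) ^ K * (z ^ S)⁻¹ * d) ≤ 1 / (600 * √d) := by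
      have h1 : z⁻¹ / 2 ≤ 1 := by
        have := inv_le_one_of_one_le₀ hz1
        linarith only [this]
      have h2 : Real.log (360000 * d ^ 2) ≤ K * (z⁻¹ / 2) := by
        have : (K : ℝ) * (z⁻¹ / 2) = K / (2 * z) := by
          (clear * - hz; field_simp)
        rw [this, le_div_iff₀ (by positivity)]
        linarith only [hK']
      have h3 := pz_exp h1 (by positivity : (0 : ℝ) < 360000 * d ^ 2) h2
      have h4 : (z ^ S)⁻¹ ≤ 1 := inv_le_one_of_one_le₀ (one_le_pow₀ hz1)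
      have h5 : (1 - z⁻¹ / 2) ^ K * (z ^ S)⁻¹ * d ≤ ((600 * √(d : ℝ)) ^ 2)⁻¹ := by
        have h6 : 0 ≤ (1 - z⁻¹ / 2) ^ K := by
          have : 0 ≤ 1 - z⁻¹ / 2 := by linarith only [h1]
          (clear * - h1; positivity)
        calc (1 - z⁻¹ / 2) ^ K * (z ^ S)⁻¹ * d ≤ (360000 * (d : ℝ) ^ 2)⁻¹ * 1 * d := by
              refine mul_le_mul_of_nonneg_right ?_ (by linarith only [])
              exact mul_le_mul h3 h4 (inv_nonneg.2 (hzp S).le) (by positivity)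
          _ = ((600 * √(d : ℝ)) ^ 2)⁻¹ := by
              rw [mul_pow, Real.sq_sqrt (by linarith only [])]
              field_simp
              norm_num
      calc √((1 - z⁻¹ / 2) ^ K * (z ^ S)⁻¹ * d) ≤ √(((600 * √(d : ℝ)) ^ 2)⁻¹) :=
            Real.sqrt_le_sqrt h5
        _ = 1 / (600 * √d) := by
            rw [← inv_pow, Real.sqrt_sq (by positivity), one_div]
    have t2 : W * √(d : ℝ) * (6 * N₁ + 20 * K) ≤ 1 / (600 * √d) := by
      have h1 : 6 * (N₁ : ℝ) + 20 * K ≤ 1424 * ℓ * z ^ (S + 1) := by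
        have h2 : ℓ * z ≤ ℓ * z ^ (S + 1) := by
          refine mul_le_mul_of_nonneg_left ?_ hℓ0.le
          calc z = z ^ 1 := (pow_one z).symm
            _ ≤ z ^ (S + 1) := pow_le_pow_right₀ hz1 (by (clear * -; omega))
        linarith only [hK, hN₁, h2]
      have h2 : W * (6 * N₁ + 20 * K) * (600 * d) ≤ 1 := by
        calc W * (6 * N₁ + 20 * K) * (600 * d) ≤
            (792 * p ^ 2 * C' * c₁ * ℓ * z * (z ^ (A * n ^ 2))⁻¹) * (1424 * ℓ * z ^ (S + 1)) *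
              (600 * d) := by (clear * - hWb h1 hp hC' hc₁ hℓ hz hd; gcongr)
          _ = (600 * 1424 * 792 * p ^ 2 * C' * c₁ * ℓ ^ 2) * z ^ (T + S + 2) *
              (z ^ (A * n ^ 2))⁻¹ := by rw [← hzT]; ring
          _ ≤ 1 := pz_inv (hzp _) (pz_pow hz1 c3 (by (clear * - hAT; omega)))
      rw [le_div_iff₀ (by positivity)]
      calc W * √(d : ℝ) * (6 * N₁ + 20 * K) * (600 * √d)
          = W * (6 * N₁ + 20 * K) * (600 * (√(d : ℝ) * √d)) := by ring
        _ = W * (6 * N₁ + 20 * K) * (600 * d) := by rw [hdd]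
        _ ≤ 1 := h2
    have e : 1 / (200 * √(d : ℝ)) = 1 / (600 * √d) + 1 / (600 * √d) + 1 / (600 * √d) := by
      field_simp
      norm_num
    rw [e]
    linarith only [t3, t1, t2]

theorem pz_JNK {d A n S : ℕ} {z ℓ c₁ : ℝ} (hd : 1 ≤ d) (hz : 4 ≤ z)
    (hℓ : ℓ = Real.log d + 1) (hlz : Real.log z ≤ ℓ) (hc₁ : c₁ = 2 * A * n ^ 2 + 8) :
    ∃ J N₁ K : ℕ, 1 ≤ J ∧ z * Real.log (256 * z ^ (2 * (A * n ^ 2))) ≤ J ∧
      (J : ℝ) ≤ c₁ * ℓ * z ∧ (N₁ : ℝ) ≤ 64 * ℓ * z ^ (S + 1) ∧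
      4 * z ^ (S + 1) * Real.log (1200 * d) ≤ N₁ ∧ (K : ℝ) ≤ 52 * ℓ * z ∧
      2 * z * Real.log (360000 * d ^ 2) ≤ K := by
  have hz1 : 1 ≤ z := by linarith only [hz]
  have hz0 : 0 < z := by linarith only [hz1]
  have hzp : ∀ k : ℕ, 0 < z ^ k := fun k => pow_pos hz0 k
  have hdr : (1 : ℝ) ≤ d := by exact_mod_cast hd
  have hlogd : 0 ≤ Real.log d := Real.log_nonneg hdr
  have hℓ1 : 1 ≤ ℓ := by rw [hℓ]; linarith only [hlogd]
  have hlogz : 0 ≤ Real.log z := Real.log_nonneg hz1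
  have hM1 : 1 ≤ 256 * z ^ (2 * (A * n ^ 2)) := by
    have := one_le_pow₀ hz1 (n := 2 * (A * n ^ 2))
    linarith only [this]
  have hlogM : Real.log (256 * z ^ (2 * (A * n ^ 2))) ≤ (c₁ - 2) * ℓ := by
    rw [Real.log_mul (by norm_num) (hzp _).ne', Real.log_pow]
    have h1 := pz_log256
    have h2 : ((2 * (A * n ^ 2) : ℕ) : ℝ) * Real.log z ≤ (2 * (A * n ^ 2) : ℕ) * ℓ :=
      mul_le_mul_of_nonneg_left hlz (Nat.cast_nonneg _)
    push_cast at h2 ⊢
    rw [hc₁]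
    linarith only [h1, hℓ1, h2]
  have hlogM0 : 0 ≤ Real.log (256 * z ^ (2 * (A * n ^ 2))) := Real.log_nonneg hM1
  have hL1 : Real.log (1200 * d) ≤ 8 * ℓ := by
    rw [Real.log_mul (by norm_num) (by linarith only [hdr]), hℓ]
    have := pz_log1200
    linarith only [this, hlogd]
  have hL1' : 0 ≤ Real.log (1200 * d) := Real.log_nonneg (by linarith only [hdr])
  have hL2 : Real.log (360000 * d ^ 2) ≤ 13 * ℓ := by
    rw [Real.log_mul (by norm_num) (by positivity), Real.log_pow, hℓ]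
    have := pz_log360000
    push_cast
    linarith only [this, hlogd]
  have hL2' : 0 ≤ Real.log (360000 * d ^ 2) := Real.log_nonneg (by
    have := one_le_pow₀ hdr (n := 2)
    linarith only [this])
  have hN₁ := pz_ceil (z := 4 * z ^ (S + 1)) (c := 8 * ℓ)
    (by linarith only [(one_le_pow₀ hz1 (n := S + 1))]) hL1' hL1 (by linarith only [hℓ1])
  have hK := pz_ceil (z := 2 * z) (c := 13 * ℓ) (by linarith only [hz1]) hL2' hL2 (by linarith only [hℓ1])
  refine ⟨⌈z * Real.log (256 * z ^ (2 * (A * n ^ 2)))⌉₊ + 1, _, _, by omega, ?_, ?_, ?_, hN₁.2, ?_,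
    hK.2⟩
  · push_cast
    have := Nat.le_ceil (z * Real.log (256 * z ^ (2 * (A * n ^ 2))))
    linarith only [this]
  · push_cast
    have h1 := (Nat.ceil_lt_add_one (show 0 ≤ z * Real.log (256 * z ^ (2 * (A * n ^ 2))) by
      (clear * - hz hlogM0; positivity))).le
    have h2 : z * Real.log (256 * z ^ (2 * (A * n ^ 2))) ≤ z * ((c₁ - 2) * ℓ) :=
      mul_le_mul_of_nonneg_left hlogM hz0.le
    have h3 : 1 ≤ ℓ * z := one_le_mul_of_one_le_of_one_le hℓ1 hz1
    linarith only [h2, h1, h3]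
  · linarith only [hN₁.1]
  · linarith only [hK.1]

theorem pz_asm {d N p P A n S T J N₁ K : ℕ} {C C' z ℓ c₁ : ℝ} (hd : 1 ≤ d) (hN : 1 ≤ N)
    (hp : p = 2 * P) (hC : 1 ≤ C) (hC' : 1 ≤ C') (hA : 16 ≤ A) (hn : 26 ≤ n)
    (hS : S = 4 * A * n) (hPP : P = A * (4 * n + n ^ 2) + 3) (hAT : T + S + 3 = A * n ^ 2)
    (hz : 4 ≤ z) (hℓ1 : 1 ≤ ℓ) (hc₁ : 8 ≤ c₁) (hzT : z ^ T = d) (hJ1 : 1 ≤ J)
    (hJlow : z * Real.log (256 * z ^ (2 * (A * n ^ 2))) ≤ J) (hJY : (J : ℝ) ≤ c₁ * ℓ * z)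
    (hN₁ : (N₁ : ℝ) ≤ 64 * ℓ * z ^ (S + 1)) (hN₁' : 4 * z ^ (S + 1) * Real.log (1200 * d) ≤ N₁)
    (hK : (K : ℝ) ≤ 52 * ℓ * z) (hK' : 2 * z * Real.log (360000 * d ^ 2) ≤ K)
    (b1 : 8 * (p : ℝ) ≤ z) (b2 : 128 * C * p * N ≤ z)
    (b3 : 8 * C * N ≤ z) (b4 : 512 * N * (N + 1) * C * (72 * c₁ ^ 2) * ℓ ^ 2 ≤ z)
    (b5 : 128 * C * c₁ * ℓ ≤ z)
    (b6 : 256 * C ^ 2 * c₁ ^ 2 * ℓ ^ 2 ≤ z)
    (b7 : 576 * N * C * c₁ * ℓ ≤ z)
    (b8 : C' ^ 2 * (8 * p) ≤ z) (b9 : 576 * p * C' * c₁ * ℓ ≤ z) (b10 : C' ≤ z)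
    (c1 : 88 * 72 * p ^ 2 * C' * c₁ * ℓ ≤ z)
    (c2 : 52 * 792 * p ^ 2 * C' * c₁ * ℓ ^ 2 ≤ z)
    (c3 : 600 * 1424 * 792 * p ^ 2 * C' * c₁ * ℓ ^ 2 ≤ z) :
    AllPar d N p C C' z⁻¹ (z ^ A)⁻¹ (1 / J) (9 + 63 * J) (z ^ S)⁻¹
      (256 * z ^ (2 * (A * n ^ 2)))⁻¹ (n ^ 2) (2 * n) (2 * J + 2) ((2 * N + p) * (2 * J + 2))
      J N₁ K := by
  have hz1 : 1 ≤ z := by linarith only [hz]
  have hz0 : 0 < z := by linarith only [hz1]
  have hzp : ∀ k : ℕ, 0 < z ^ k := fun k => pow_pos hz0 k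
  have hM1 : 1 ≤ 256 * z ^ (2 * (A * n ^ 2)) := by
    have := one_le_pow₀ hz1 (n := 2 * (A * n ^ 2))
    linarith only [this]
  have hJr : (1 : ℝ) ≤ J := by exact_mod_cast hJ1
  have hp1 : 1 ≤ p := by (clear * - hp hPP; omega)
  obtain ⟨k1, k2, k3⟩ := pz_k (A := A) (n := n) (C' := C') hd hzT hAT hC' hz hℓ1 (by linarith only [hc₁]) hp1
    hJ1 hJY hN₁ hN₁' hK hK' c1 c2 c3
  have haY : (9 : ℝ) + 63 * J ≤ 72 * (c₁ * ℓ * z) := by linarith only [hJr, hJY]
  have hAn : 16 * 26 ≤ A * n := Nat.mul_le_mul hA hn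
  refine ⟨?_, by (clear * - hn; omega), ?_, ?_, ?_, ?_, le_rfl, le_rfl, ?_, ?_, ?_, ?_, k1, k2, k3⟩
  · exact pz_gpar hN hp hC hA hn hS hPP hz hℓ1 (by linarith only [hc₁]) hJ1 hJY b1 b2 b3 b4 b5 b6 b7
  · -- hJ
    have h1 : Real.log (256 * z ^ (2 * (A * n ^ 2))) ≤ J * z⁻¹ := by
      rw [← div_eq_mul_inv, le_div_iff₀ hz0]; linarith only [hJlow]
    have h2 := pz_exp (inv_le_one_of_one_le₀ hz1) (by positivity) h1
    have h3 : (z ^ S)⁻¹ ≤ 1 := inv_le_one_of_one_le₀ (one_le_pow₀ hz1)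
    calc (1 - z⁻¹) ^ J * (z ^ S)⁻¹ ≤ (256 * z ^ (2 * (A * n ^ 2)))⁻¹ * 1 :=
          mul_le_mul h2 h3 (inv_nonneg.2 (hzp S).le) (by positivity)
      _ = _ := mul_one _
  · -- hmin
    have e1 : (256 * z ^ (2 * (A * n ^ 2)))⁻¹ = ((16 * z ^ (A * n ^ 2))⁻¹) ^ 2 := by
      rw [inv_pow]; congr 1; ring
    rw [e1, Real.sqrt_sq (by (clear * - hz; positivity)), inv_pow, ← pow_mul, mul_inv]
    refine le_of_eq ?_
    ring
  · exact inv_le_one_of_one_le₀ hM1
  · rw [mul_one_div_cancel (by linarith only [hJr])]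
  · -- j2
    have h1 : C' * √(8 * p * z⁻¹) = √(C' ^ 2 * (8 * p * z⁻¹)) := by
      conv_rhs => rw [Real.sqrt_mul (sq_nonneg C'), Real.sqrt_sq (by linarith only [hC'])]
    rw [h1]
    refine Real.sqrt_le_one.2 ?_
    calc C' ^ 2 * (8 * p * z⁻¹) = (C' ^ 2 * (8 * p)) * z⁻¹ := by ring
      _ ≤ 1 := pz_inv hz0 b8
  · -- j3
    calc 8 * (p : ℝ) * C' * (9 + 63 * J) * (z ^ A)⁻¹
        ≤ 8 * p * C' * (72 * (c₁ * ℓ * z)) * (z ^ A)⁻¹ := by
          have hC0 : 0 ≤ C' := by linarith only [hC']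
          (clear * - haY hp1 hC' hz; gcongr)
      _ = (576 * p * C' * c₁ * ℓ) * z ^ 1 * (z ^ A)⁻¹ := by ring
      _ ≤ 1 := pz_inv (hzp _) (pz_pow hz1 b9 (by omega))
  · -- j4
    have e1 : (√z⁻¹) ^ p = (z ^ P)⁻¹ := by
      rw [hp, pow_mul, Real.sq_sqrt (inv_nonneg.2 hz0.le), inv_pow]
    rw [e1, inv_pow, ← pow_mul]
    refine pz_inv2 (hzp _) (hzp _) (pz_pow hz1 b10 ?_)
    have : A * (4 * n + n ^ 2) = 4 * (A * n) + A * n ^ 2 := by ring
    (clear * - hPP hAn this; omega)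
  · -- j5
    exact Nat.mul_le_mul_right _ (by omega)

theorem pz_cost {N p n S J N₁ K : ℕ} {z ℓ c₁ : ℝ} (hz : 4 ≤ z) (hℓ1 : 1 ≤ ℓ) (hc₁ : 8 ≤ c₁)
    (hJY : (J : ℝ) ≤ c₁ * ℓ * z) (hJ1 : 1 ≤ J)
    (hN₁ : (N₁ : ℝ) ≤ 64 * ℓ * z ^ (S + 1)) (hK : (K : ℝ) ≤ 52 * ℓ * z)
    (c4 : (116 * p * (4 * c₁) * ((2 * N + p) * (4 * c₁)) ^ (n ^ 2) + 1) * ℓ ^ (n ^ 2 + 2) ≤ z) :
    (((N₁ + K) * (p * (2 * J + 2) * ((2 * N + p) * (2 * J + 2)) ^ (n ^ 2)) + 1 : ℕ) : ℝ) ≤
      z ^ (S + 3 + n ^ 2) := by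
  have hz1 : 1 ≤ z := by linarith only [hz]
  have hz0 : 0 < z := by linarith only [hz1]
  have hJr : (1 : ℝ) ≤ J := by exact_mod_cast hJ1
  have hℓ0 : 0 < ℓ := by linarith only [hℓ1]
  have hc0 : 0 < c₁ := by linarith only [hc₁]
  push_cast
  have hB : 2 * (J : ℝ) + 2 ≤ 4 * (c₁ * ℓ * z) := by linarith only [hJr, hJY]
  have hNK : (N₁ : ℝ) + K ≤ 116 * ℓ * z ^ (S + 1) := by
    have h2 : ℓ * z ≤ ℓ * z ^ (S + 1) := by
      refine mul_le_mul_of_nonneg_left ?_ (by linarith only [hℓ0])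
      calc z = z ^ 1 := (pow_one z).symm
        _ ≤ z ^ (S + 1) := pow_le_pow_right₀ hz1 (by omega)
    linarith only [hK, hN₁, h2]
  calc ((N₁ : ℝ) + K) * (p * (2 * J + 2) * ((2 * N + p) * (2 * J + 2)) ^ (n ^ 2)) + 1
      ≤ (116 * ℓ * z ^ (S + 1)) * (p * (4 * (c₁ * ℓ * z)) *
          ((2 * N + p) * (4 * (c₁ * ℓ * z))) ^ (n ^ 2)) + 1 := by (clear * - hNK hB hJ1 hc₁ hℓ1 hz; gcongr)
    _ = (116 * p * (4 * c₁) * ((2 * N + p) * (4 * c₁)) ^ (n ^ 2)) * ℓ ^ (n ^ 2 + 2) *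
          z ^ (S + 2 + n ^ 2) + 1 := by
        have e : ((2 * (N : ℝ) + p) * (4 * (c₁ * ℓ * z))) ^ (n ^ 2) =
          ((2 * N + p) * (4 * c₁)) ^ (n ^ 2) * ℓ ^ (n ^ 2) * z ^ (n ^ 2) := by
          rw [← mul_pow, ← mul_pow]; congr 1; ring
        rw [e]
        ring
    _ ≤ (116 * p * (4 * c₁) * ((2 * N + p) * (4 * c₁)) ^ (n ^ 2)) * ℓ ^ (n ^ 2 + 2) *
          z ^ (S + 2 + n ^ 2) + 1 * ℓ ^ (n ^ 2 + 2) * z ^ (S + 2 + n ^ 2) := by
        have h1 : 1 ≤ ℓ ^ (n ^ 2 + 2) * z ^ (S + 2 + n ^ 2) :=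
          one_le_mul_of_one_le_of_one_le (one_le_pow₀ hℓ1) (one_le_pow₀ hz1)
        linarith only [h1]
    _ = ((116 * p * (4 * c₁) * ((2 * N + p) * (4 * c₁)) ^ (n ^ 2) + 1) * ℓ ^ (n ^ 2 + 2)) *
          z ^ (S + 2 + n ^ 2) := by ring
    _ ≤ z ^ (S + 3 + n ^ 2) := pz_pow hz1 c4 (by (clear * -; omega))

/-- Choice of the parameters. -/
theorem exists_params {ε₀ : ℝ} (hε₀ : 0 < ε₀) : ∃ p : ℕ, 2 ≤ p ∧ ∀ (N : ℕ) (C C' : ℝ), 1 ≤ N →
    1 ≤ C → 1 ≤ C' → ∀ᶠ d : ℕ in atTop, ∃ (δ ϖ ε a smax smin : ℝ) (lmax mmax B D J N₁ K : ℕ),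
      AllPar d N p C C' δ ϖ ε a smax smin lmax mmax B D J N₁ K ∧
      (((N₁ + K) * (p * B * D ^ lmax) + 1 : ℕ) : ℝ) ≤ (d : ℝ) ^ ε₀ := by
  obtain ⟨e, he, he1, heε⟩ : ∃ e : ℝ, 0 < e ∧ e ≤ 1 ∧ e ≤ ε₀ :=
    ⟨min ε₀ 1, lt_min hε₀ one_pos, min_le_right _ _, min_le_left _ _⟩
  obtain ⟨A, hA⟩ : ∃ A : ℕ, 16 / e ≤ A := exists_nat_ge _
  have hA16 : (16 : ℝ) ≤ A := by
    refine le_trans ?_ hA
    rw [le_div_iff₀ he]; linarith only [he1]
  have hA16' : 16 ≤ A := by exact_mod_cast hA16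
  have hAε : 16 ≤ e * A := by
    rw [div_le_iff₀ he] at hA; linarith only [hA]
  obtain ⟨n, hn⟩ : ∃ n : ℕ, n = A + 10 := ⟨_, rfl⟩
  obtain ⟨S, hS⟩ : ∃ S : ℕ, S = 4 * A * n := ⟨_, rfl⟩
  obtain ⟨T, hT⟩ : ∃ T : ℕ, T + S + 3 = A * n ^ 2 := by
    refine ⟨A * n ^ 2 - (S + 3), ?_⟩
    have h1 : A * n * 26 ≤ A * n * n := Nat.mul_le_mul_left _ (by omega)
    have h2 : 16 * 26 ≤ A * n := Nat.mul_le_mul hA16' (by omega)
    have e1 : A * n ^ 2 = A * n * n := by ring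
    have e2 : 4 * A * n = 4 * (A * n) := by ring
    omega
  obtain ⟨P, hP⟩ : ∃ P : ℕ, P = A * (4 * n + n ^ 2) + 3 := ⟨_, rfl⟩
  have hnr : (n : ℝ) = A + 10 := by rw [hn]; push_cast; ring
  have hSr : (S : ℝ) = 4 * A * n := by rw [hS]; push_cast; ring
  have hTr : (T : ℝ) = A * n ^ 2 - 4 * A * n - 3 := by
    have : ((T + S + 3 : ℕ) : ℝ) = (A * n ^ 2 : ℕ) := by exact_mod_cast hT
    push_cast at this
    rw [hSr] at this
    linarith only [this]
  have hTe : (S : ℝ) + 3 + n ^ 2 ≤ e * T := by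
    have h1 : 16 * (n ^ 2 - 4 * n : ℝ) - 3 ≤ e * T := by
      rw [hTr]
      have h2 : 0 ≤ (n : ℝ) ^ 2 - 4 * n := by
        have : 4 * (n : ℝ) ≤ n ^ 2 := by
          rw [sq]; exact mul_le_mul_of_nonneg_right (by linarith only [hnr]) (by (clear * -; positivity))
        linarith only [this]
      have h3 := mul_le_mul_of_nonneg_right hAε h2
      linarith only [h3, he1]
    have h4 : (A : ℝ) = n - 10 := by linarith only [hnr]
    have h5 : 26 * (n : ℝ) ≤ n ^ 2 := by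
      rw [sq]; exact mul_le_mul_of_nonneg_right (by linarith only [h4, hA16]) (by (clear * -; positivity))
    rw [hSr, h4]
    linarith only [h4, h1, h5]
  have hTpos : 0 < T := by
    rcases Nat.eq_zero_or_pos T with h | h
    · exfalso
      rw [h] at hTe
      simp only [Nat.cast_zero, mul_zero] at hTe
      have : (0 : ℝ) ≤ (S : ℝ) + n ^ 2 := by (clear * -; positivity)
      linarith only [this, hTe]
    · exact h
  have hTr0 : (0 : ℝ) < T := by exact_mod_cast hTpos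
  refine ⟨2 * P, by (clear * - hP; omega), ?_⟩
  intro N C C' hN hC hC'
  obtain ⟨c₁, hc₁⟩ : ∃ c₁ : ℝ, c₁ = 2 * A * n ^ 2 + 8 := ⟨_, rfl⟩
  have hc8 : 8 ≤ c₁ := by rw [hc₁]; linarith only [((by positivity : (0 : ℝ) ≤ 2 * A * n ^ 2))]
  obtain ⟨p, hp⟩ : ∃ p : ℕ, p = 2 * P := ⟨_, rfl⟩
  rw [← hp]
  have hr : (0 : ℝ) < 1 / T := by (clear * - hTpos; positivity)
  have E := fun (c : ℝ) (k : ℕ) => pz_evt c k hr
  filter_upwards [E 4 0, E (8 * p) 0, E (128 * C * p * N) 0, E (8 * C * N) 0,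
    E (512 * N * (N + 1) * C * (72 * c₁ ^ 2)) 2, E (128 * C * c₁) 1,
    E (256 * C ^ 2 * c₁ ^ 2) 2, E (576 * N * C * c₁) 1, E (C' ^ 2 * (8 * p)) 0,
    E (576 * p * C' * c₁) 1, E C' 0, E (88 * 72 * p ^ 2 * C' * c₁) 1,
    E (52 * 792 * p ^ 2 * C' * c₁) 2, E (600 * 1424 * 792 * p ^ 2 * C' * c₁) 2,
    E (116 * p * (4 * c₁) * ((2 * N + p) * (4 * c₁)) ^ (n ^ 2) + 1) (n ^ 2 + 2),
    eventually_ge_atTop 1] with d h4 b1 b2 b3 b4 b5 b6 b7 b8 b9 b10 c1 c2 c3 c4 hd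
  simp only [pow_zero, mul_one, pow_one] at h4 b1 b2 b3 b5 b7 b8 b9 b10 c1
  obtain ⟨z, hz⟩ : ∃ z : ℝ, z = (d : ℝ) ^ (1 / (T : ℝ)) := ⟨_, rfl⟩
  obtain ⟨ℓ, hℓ⟩ : ∃ ℓ : ℝ, ℓ = Real.log d + 1 := ⟨_, rfl⟩
  rw [← hz] at h4 b1 b2 b3 b4 b5 b6 b7 b8 b9 b10 c1 c2 c3 c4
  rw [← hℓ] at b4 b5 b6 b7 b9 c1 c2 c3 c4
  have hdr : (1 : ℝ) ≤ d := by exact_mod_cast hd
  have hlogd : 0 ≤ Real.log d := Real.log_nonneg hdr
  have hℓ1 : 1 ≤ ℓ := by rw [hℓ]; linarith only [hlogd]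
  have hzT : z ^ T = d := by
    rw [hz, ← Real.rpow_natCast, ← Real.rpow_mul (by linarith only []), one_div_mul_cancel hTr0.ne',
      Real.rpow_one]
  have hlz : Real.log z ≤ ℓ := by
    rw [hz, Real.log_rpow (by linarith only [hdr]), hℓ]
    have h5 : 1 / (T : ℝ) ≤ 1 := by
      rw [div_le_one hTr0]; exact_mod_cast hTpos
    have h6 := mul_le_mul_of_nonneg_right h5 hlogd
    linarith only [h6]
  have hcost : z ^ (S + 3 + n ^ 2) ≤ (d : ℝ) ^ ε₀ := by
    rw [hz, ← Real.rpow_natCast, ← Real.rpow_mul (by linarith only [])]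
    refine Real.rpow_le_rpow_of_exponent_le hdr (le_trans ?_ heε)
    rw [one_div_mul_eq_div, div_le_iff₀ hTr0]
    push_cast
    exact hTe
  obtain ⟨J, N₁, K, hJ1, hJlow, hJY, hN₁, hN₁', hK, hK'⟩ :=
    pz_JNK (S := S) (A := A) (n := n) hd h4 hℓ hlz hc₁
  exact ⟨z⁻¹, (z ^ A)⁻¹, 1 / J, 9 + 63 * J, (z ^ S)⁻¹, (256 * z ^ (2 * (A * n ^ 2)))⁻¹, n ^ 2,
    2 * n, 2 * J + 2, (2 * N + p) * (2 * J + 2), J, N₁, K,
    pz_asm hd hN hp hC hC' hA16' (by (clear * - hA16' hn; omega)) hS hP hT h4 hℓ1 hc8 hzT hJ1 hJlow hJY hN₁ hN₁' hK hK'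
      b1 b2 b3 b4 b5 b6 b7 b8 b9 b10 c1 c2 c3,
    (pz_cost h4 hℓ1 hc8 hJY hJ1 hN₁ hK c4).trans hcost⟩

end Vale.Agent.P347.S
end
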