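import Vale.Agent.P347.Bdl.B6
import Vale.Agent.P347.Bdl.B5
import Vale.Agent.P347.MathlibUsed
import Vale.Agent.P347.Bdl.B3
import Vale.Agent.P347.Bdl.B1

set_option linter.all false

section

section


/-! P347-Z-F5a. The network at unit scale satisfies the structural conditions.

PROOF. Coefficients: `La, Lg, LBB, JV, Lv` have zero `Y`-coefficient, only `La` has the `a`-coefficient 1, `Lg` and
`Lv (none), Lv (some (false,_))` have `g`-coefficient 1, `Lv (some (true,_))` has `P`-coefficient 1, all others are 0; so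
`Ln n (inl 0) = 1`, `Ln n (inl 1) = τ_i`, `Ln (inl 2), Ln (inl 3) ∈ {0, u_f}`. With `q = p0`, `p = p0+1`, `T = √θ`, node
times `(i+1)/p √θ ∈ [√θ/p, √θ]`, levels `≥ 1 - 2θ`. Margin: `(1 - t/√θ)² ≤ (1-1/p)² ≤ (1 - 1/(2 p0)) (1 - 2θ)` for
`θ ≤ 1/(8 p0)`, `p = p0+1`. Weights (triangle inequality, `K ≥ |A|,|α|,|β|`): `|JV| ≤ K/T`,
`|LBB| ≤ p² K³/(bκT)`, `|La| ≤ C(T + |lam|)`, `|Lg| ≤ C(|lam| + lam² κ T/b)`, `|Lv| ≤ |Lg| + C b/(κ T)`,
`|Ln| ≤ C (T² + T |lam| + lam² κ T²/b + b/κ)`, `|Lq| ≤ C lam² κ T/b` (`T² = θ`). -/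

open MeasureTheory Filter Module Set
open scoped ENNReal NNReal

namespace Vale.Agent.P347.Z

theorem ug_ef_le {p : ℕ} (i j : Fin 4 ⊕ Nd p) : |ef (p := p) i j| ≤ 1 := by
  rw [ef]
  split_ifs <;> simp

theorem ug_ef_inr_inl {p : ℕ} (n : Nd p) (k : Fin 4) : ef (p := p) (Sum.inr n) (Sum.inl k) = 0 := by
  simp [ef]

theorem ug_ef_inl_inr {p : ℕ} (n : Nd p) (k : Fin 4) : ef (p := p) (Sum.inl k) (Sum.inr n) = 0 := by
  simp [ef]

theorem ug_ef_inl_inl {p : ℕ} (k l : Fin 4) :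
    ef (p := p) (Sum.inl k) (Sum.inl l) = if l = k then 1 else 0 := by
  simp [ef]

theorem ug_JV {p : ℕ} (P : Par p) (i : Fin p) (v : Vv p) (x : Fin 4 ⊕ Nd p) :
    P.JV i v x = P.T⁻¹ * (P.α 0 * ef (Sum.inr (Par.nc i)) x
      + ∑ f : Fin p, P.α f.succ * ef (Sum.inr (Par.nj i v f)) x) := by
  simp only [Par.JV, Pi.smul_apply, Pi.add_apply, smul_eq_mul, Finset.sum_apply]

theorem ug_JV_inl {p : ℕ} (P : Par p) (i : Fin p) (v : Vv p) (k : Fin 4) :
    P.JV i v (Sum.inl k) = 0 := by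
  rw [ug_JV]
  simp only [ug_ef_inr_inl, mul_zero, Finset.sum_const_zero, add_zero]

theorem ug_LBB {p : ℕ} (P : Par p) (i : Fin p) (x : Fin 4 ⊕ Nd p) :
    P.LBB i x = (P.b * P.κ)⁻¹ * ∑ e : Fin p, ∑ j : Fin p, (P.β e.succ * P.cA e j)
      * P.JV i (some (true, j)) x := by
  simp only [Par.LBB, mul_inv_rev, Pi.smul_apply, Finset.sum_apply, smul_eq_mul]

theorem ug_LBB_inl {p : ℕ} (P : Par p) (i : Fin p) (k : Fin 4) : P.LBB i (Sum.inl k) = 0 := by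
  rw [ug_LBB]
  simp only [mul_inv_rev, ug_JV_inl, mul_zero, Finset.sum_const_zero]

theorem ug_La {p : ℕ} (P : Par p) (i : Fin p) (x : Fin 4 ⊕ Nd p) :
    P.La i x = ef (Sum.inl 1) x - P.T * ∑ j, P.cA i j * ef (Sum.inr (Par.nc j)) x
      + (P.lam * P.T) * ∑ j, P.cA i j * P.JV j none x := by
  simp only [Par.La, Fin.isValue, Pi.add_apply, Pi.sub_apply, Pi.smul_apply, Finset.sum_apply, smul_eq_mul]

theorem ug_La_inl {p : ℕ} (P : Par p) (i : Fin p) (k : Fin 4) :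
    P.La i (Sum.inl k) = if k = 1 then 1 else 0 := by
  rw [ug_La]
  simp only [Fin.isValue, ug_ef_inl_inl, ug_ef_inr_inl, mul_zero, Finset.sum_const_zero, sub_zero, ug_JV_inl, add_zero]

theorem ug_Lg {p : ℕ} (P : Par p) (i : Fin p) (x : Fin 4 ⊕ Nd p) :
    P.Lg i x = ef (Sum.inl 2) x - P.lam * (ef (Sum.inr (Par.nc i)) x - ef (Sum.inr none) x)
      + ((P.lam * P.κ) ^ 2 * P.T) * ∑ j, (P.cA i j * nt p P.T j) * P.LBB j x := by
  simp only [Par.Lg, Fin.isValue, Pi.add_apply, Pi.sub_apply, Pi.smul_apply, smul_eq_mul, Finset.sum_apply]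

theorem ug_Lg_inl {p : ℕ} (P : Par p) (i : Fin p) (k : Fin 4) :
    P.Lg i (Sum.inl k) = if k = 2 then 1 else 0 := by
  rw [ug_Lg]
  simp only [Fin.isValue, ug_ef_inl_inl, ug_ef_inr_inl, sub_self, mul_zero, sub_zero, ug_LBB_inl, Finset.sum_const_zero, add_zero]

theorem ug_Lv_false {p : ℕ} (P : Par p) (i e : Fin p) (x : Fin 4 ⊕ Nd p) :
    P.Lv i (some (false, e)) x = P.Lg i x
      - (P.b / P.κ) * ∑ j, P.cA e j * P.JV i (some (true, j)) x := by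
  simp only [Par.Lv, Pi.sub_apply, Pi.smul_apply, Finset.sum_apply, smul_eq_mul]

theorem ug_Lv_true {p : ℕ} (P : Par p) (i e : Fin p) (x : Fin 4 ⊕ Nd p) :
    P.Lv i (some (true, e)) x = ef (Sum.inl 3) x
      + (P.b / P.κ) * ∑ j, P.cA e j * P.JV i (some (false, j)) x := by
  simp only [Par.Lv, Fin.isValue, Pi.add_apply, Pi.smul_apply, Finset.sum_apply, smul_eq_mul]

theorem ug_Lv_inl01 {p : ℕ} (P : Par p) (i : Fin p) (v : Vv p) (k : Fin 4) (hk : k = 0 ∨ k = 1) :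
    P.Lv i v (Sum.inl k) = 0 := by
  have h2 : k ≠ 2 := by rcases hk with rfl | rfl <;> decide
  have h3 : k ≠ 3 := by rcases hk with rfl | rfl <;> decide
  rcases v with _ | ⟨_ | _, e⟩
  · show P.Lg i (Sum.inl k) = 0
    rw [ug_Lg_inl, if_neg h2]
  · rw [ug_Lv_false]
    simp only [ug_Lg_inl, Fin.isValue, h2, ↓reduceIte, ug_JV_inl, mul_zero, Finset.sum_const_zero, sub_self]
  · rw [ug_Lv_true]
    simp only [Fin.isValue, ug_ef_inl_inl, h3, ↓reduceIte, ug_JV_inl, mul_zero, Finset.sum_const_zero, add_zero]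

theorem ug_Ln_c {p : ℕ} (P : Par p) (i : Fin p) (x : Fin 4 ⊕ Nd p) :
    P.Ln (some (Sum.inl i)) x = ef (Sum.inl 0) x + nt p P.T i * P.La i x := by
  simp only [Par.Ln, Fin.isValue, Pi.add_apply, Pi.smul_apply, smul_eq_mul]

theorem ug_Ln_j {p : ℕ} (P : Par p) (i : Fin p) (v : Vv p) (f : Fin p) (x : Fin 4 ⊕ Nd p) :
    P.Ln (some (Sum.inr (i, v, f))) x = ef (Sum.inl 0) x + nt p P.T i * P.La i x
      + nt p P.T f * (P.Lv i v x
        - P.T * ∑ f' : Fin p, P.cA f f' * ef (Sum.inr (Par.nj i v f')) x) := by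
  simp only [Par.Ln, Fin.isValue, Pi.add_apply, Pi.smul_apply, smul_eq_mul, Pi.sub_apply, Finset.sum_apply]

/-- The constant coefficient of every node is one. -/
theorem Ln_Y {p : ℕ} (P : Par p) (n : Nd p) : P.Ln n (Sum.inl 0) = 1 := by
  rcases n with _ | i | ⟨i, v, f⟩
  · simp [Par.Ln, ug_ef_inl_inl]
  · rw [ug_Ln_c, ug_La_inl, ug_ef_inl_inl]
    simp
  · rw [ug_Ln_j, ug_La_inl, ug_ef_inl_inl, ug_Lv_inl01 P i v 0 (Or.inl rfl)]
    simp only [Fin.isValue, ↓reduceIte, zero_ne_one, mul_zero, add_zero, ug_ef_inr_inl, Finset.sum_const_zero, sub_self]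

theorem Lq_coef {p : ℕ} (P : Par p) (i : Fin p) (k : Fin 4) : P.Lq i (Sum.inl k) = 0 := by
  simp only [Par.Lq, Pi.smul_apply, Finset.sum_apply, ug_LBB_inl, smul_eq_mul, mul_zero, Finset.sum_const_zero]

theorem ug_nt_nonneg {p : ℕ} {T : ℝ} (hT : 0 ≤ T) (i : Fin p) : 0 ≤ nt p T i := by
  rw [nt]
  (clear * - hT; positivity)

theorem ug_nt_le {p : ℕ} {T : ℝ} (hT : 0 ≤ T) (i : Fin p) : nt p T i ≤ T := by
  rw [nt]
  have hp : (0 : ℝ) < p := by
    have : 0 < p := Fin.pos i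
    exact_mod_cast this
  have h1 : ((i : ℕ) : ℝ) + 1 ≤ p := by
    have : (i : ℕ) + 1 ≤ p := i.2
    exact_mod_cast this
  have h2 : (((i : ℕ) : ℝ) + 1) / p ≤ 1 := (div_le_one hp).mpr h1
  calc (((i : ℕ) : ℝ) + 1) / p * T ≤ 1 * T := mul_le_mul_of_nonneg_right h2 hT
    _ = T := one_mul T

/-- bound for a finite sum of products -/
theorem ug_sum_le {p : ℕ} {f g : Fin p → ℝ} {a b : ℝ} (ha : 0 ≤ a)
    (hf : ∀ i, |f i| ≤ a) (hg : ∀ i, |g i| ≤ b) : |∑ i, f i * g i| ≤ p * (a * b) := by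
  calc |∑ i, f i * g i| ≤ ∑ i, |f i * g i| := Finset.abs_sum_le_sum_abs _ _
    _ ≤ ∑ _i : Fin p, a * b := by
        refine Finset.sum_le_sum fun i _ => ?_
        rw [abs_mul]
        exact mul_le_mul (hf i) (hg i) (abs_nonneg _) ha
    _ = p * (a * b) := by simp only [Finset.sum_const, Finset.card_univ, Fintype.card_fin, nsmul_eq_mul]

section bounds

variable {p : ℕ} {K : ℝ} (P : Par p) (hK : 0 ≤ K) (hA : ∀ i j, |P.cA i j| ≤ K)
  (hα : ∀ e, |P.α e| ≤ K) (hβ : ∀ e, |P.β e| ≤ K) (hT : 0 < P.T) (hb : 0 < P.b) (hκ : 0 < P.κ)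

include hK hα hT in
theorem ug_JV_le (i : Fin p) (v : Vv p) (x : Fin 4 ⊕ Nd p) :
    |P.JV i v x| ≤ (p + 1) * K / P.T := by
  rw [ug_JV, abs_mul, abs_inv, abs_of_pos hT, div_eq_inv_mul]
  refine mul_le_mul_of_nonneg_left ?_ (inv_nonneg.mpr hT.le)
  refine (abs_add_le _ _).trans ?_
  have h1 : |P.α 0 * ef (Sum.inr (Par.nc i)) x| ≤ K := by
    rw [abs_mul]
    calc |P.α 0| * |ef (Sum.inr (Par.nc i)) x| ≤ K * 1 :=
          mul_le_mul (hα 0) (ug_ef_le _ _) (abs_nonneg _) hK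
      _ = K := mul_one K
  have h2 := ug_sum_le (f := fun f : Fin p => P.α f.succ)
    (g := fun f => ef (Sum.inr (Par.nj i v f)) x) hK (fun f => hα _) (fun f => ug_ef_le _ _)
  linarith only [h2, h1]

include hK hA hα hβ hT hb hκ in
theorem ug_LBB_le (i : Fin p) (x : Fin 4 ⊕ Nd p) :
    |P.LBB i x| ≤ p ^ 2 * (p + 1) * K ^ 3 / (P.b * P.κ * P.T) := by
  rw [ug_LBB, abs_mul, abs_inv, abs_of_pos (mul_pos hb hκ)]
  have h1 : |∑ e : Fin p, ∑ j : Fin p, (P.β e.succ * P.cA e j) * P.JV i (some (true, j)) x|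
      ≤ ∑ _e : Fin p, p * ((K * K) * ((p + 1) * K / P.T)) := by
    refine (Finset.abs_sum_le_sum_abs _ _).trans (Finset.sum_le_sum fun e _ => ?_)
    refine ug_sum_le (f := fun j => P.β e.succ * P.cA e j)
      (g := fun j => P.JV i (some (true, j)) x) (by positivity) (fun j => ?_)
      (fun j => ug_JV_le P hK hα hT _ _ _)
    rw [abs_mul]
    exact mul_le_mul (hβ _) (hA _ _) (abs_nonneg _) hK
  rw [Finset.sum_const, Finset.card_univ, Fintype.card_fin, nsmul_eq_mul] at h1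
  calc (P.b * P.κ)⁻¹ * |∑ e : Fin p, ∑ j : Fin p, (P.β e.succ * P.cA e j)
        * P.JV i (some (true, j)) x|
      ≤ (P.b * P.κ)⁻¹ * (p * (p * ((K * K) * ((p + 1) * K / P.T)))) :=
        mul_le_mul_of_nonneg_left h1 (by (clear * - hb hκ; positivity))
    _ = p ^ 2 * (p + 1) * K ^ 3 / (P.b * P.κ * P.T) := by
        field_simp

include hK hA hα hT in
theorem ug_La_le (i : Fin p) (n : Nd p) :
    |P.La i (Sum.inr n)| ≤ p * K * P.T + p * (p + 1) * K ^ 2 * |P.lam| := by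
  rw [ug_La, ug_ef_inl_inr, zero_sub]
  have h1 := ug_sum_le (f := fun j => P.cA i j)
    (g := fun j => ef (Sum.inr (Par.nc j)) (Sum.inr n)) hK (fun j => hA i j)
    (fun j => ug_ef_le _ _)
  have h2 := ug_sum_le (f := fun j => P.cA i j) (g := fun j => P.JV j none (Sum.inr n)) hK
    (fun j => hA i j) (fun j => ug_JV_le P hK hα hT _ _ _)
  refine (abs_add_le _ _).trans ?_
  rw [abs_neg, abs_mul, abs_mul, abs_mul, abs_of_pos hT]
  have h3 : P.T * |∑ j, P.cA i j * ef (Sum.inr (Par.nc j)) (Sum.inr n)|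
      ≤ P.T * (p * (K * 1)) := mul_le_mul_of_nonneg_left h1 hT.le
  have h4 : |P.lam| * P.T * |∑ j, P.cA i j * P.JV j none (Sum.inr n)|
      ≤ |P.lam| * P.T * (p * (K * ((p + 1) * K / P.T))) :=
    mul_le_mul_of_nonneg_left h2 (by (clear * - hT; positivity))
  have h5 : |P.lam| * P.T * (p * (K * ((p + 1) * K / P.T))) = p * (p + 1) * K ^ 2 * |P.lam| := by
    field_simp
  rw [h5] at h4
  linarith only [h4, h3]

include hK hA hα hβ hT hb hκ in
theorem ug_corr_le (i : Fin p) (x : Fin 4 ⊕ Nd p) :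
    |((P.lam * P.κ) ^ 2 * P.T) * ∑ j, (P.cA i j * nt p P.T j) * P.LBB j x|
      ≤ p ^ 3 * (p + 1) * K ^ 4 * (P.lam ^ 2 * P.κ * P.T / P.b) := by
  have h1 := ug_sum_le (f := fun j => P.cA i j * nt p P.T j) (g := fun j => P.LBB j x)
    (a := K * P.T) (by (clear * - hK hT; positivity)) (fun j => by
      rw [abs_mul]
      refine mul_le_mul (hA i j) ?_ (abs_nonneg _) hK
      rw [abs_of_nonneg (ug_nt_nonneg hT.le j)]
      exact ug_nt_le hT.le j) (fun j => ug_LBB_le P hK hA hα hβ hT hb hκ j x)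
  rw [abs_mul, abs_of_nonneg (by (clear * - hT; positivity) : (0 : ℝ) ≤ (P.lam * P.κ) ^ 2 * P.T)]
  calc (P.lam * P.κ) ^ 2 * P.T * |∑ j, (P.cA i j * nt p P.T j) * P.LBB j x|
      ≤ (P.lam * P.κ) ^ 2 * P.T * (p * (K * P.T *
        (p ^ 2 * (p + 1) * K ^ 3 / (P.b * P.κ * P.T)))) :=
        mul_le_mul_of_nonneg_left h1 (by (clear * - hT; positivity))
    _ = p ^ 3 * (p + 1) * K ^ 4 * (P.lam ^ 2 * P.κ * P.T / P.b) := by
        field_simp

include hK hA hα hβ hT hb hκ in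
theorem ug_Lg_le (i : Fin p) (n : Nd p) :
    |P.Lg i (Sum.inr n)| ≤ 2 * |P.lam|
      + p ^ 3 * (p + 1) * K ^ 4 * (P.lam ^ 2 * P.κ * P.T / P.b) := by
  rw [ug_Lg, ug_ef_inl_inr, zero_sub]
  refine (abs_add_le _ _).trans (add_le_add ?_ (ug_corr_le P hK hA hα hβ hT hb hκ i _))
  rw [abs_neg, abs_mul, mul_comm 2]
  refine mul_le_mul_of_nonneg_left ?_ (abs_nonneg _)
  refine (abs_sub _ _).trans ?_
  have h1 := ug_ef_le (p := p) (Sum.inr (Par.nc i)) (Sum.inr n)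
  have h2 := ug_ef_le (p := p) (Sum.inr none) (Sum.inr n)
  linarith only [h2, h1]

include hK hA hα hT hb hκ in
theorem ug_rot_le (e i : Fin p) (t : Bool) (x : Fin 4 ⊕ Nd p) :
    |(P.b / P.κ) * ∑ j, P.cA e j * P.JV i (some (t, j)) x|
      ≤ p * (p + 1) * K ^ 2 * (P.b / (P.κ * P.T)) := by
  have h2 := ug_sum_le (f := fun j => P.cA e j) (g := fun j => P.JV i (some (t, j)) x) hK
    (fun j => hA e j) (fun j => ug_JV_le P hK hα hT _ _ _)
  rw [abs_mul, abs_of_pos (by (clear * - hb hκ; positivity) : 0 < P.b / P.κ)]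
  calc P.b / P.κ * |∑ j, P.cA e j * P.JV i (some (t, j)) x|
      ≤ P.b / P.κ * (p * (K * ((p + 1) * K / P.T))) :=
        mul_le_mul_of_nonneg_left h2 (by (clear * - hb hκ; positivity))
    _ = p * (p + 1) * K ^ 2 * (P.b / (P.κ * P.T)) := by
        field_simp

include hK hA hα hβ hT hb hκ in
theorem ug_Lv_le (i : Fin p) (v : Vv p) (n : Nd p) :
    |P.Lv i v (Sum.inr n)| ≤ 2 * |P.lam|
      + p ^ 3 * (p + 1) * K ^ 4 * (P.lam ^ 2 * P.κ * P.T / P.b)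
      + p * (p + 1) * K ^ 2 * (P.b / (P.κ * P.T)) := by
  have h1 := ug_Lg_le P hK hA hα hβ hT hb hκ i n
  have h2 : 0 ≤ p * (p + 1) * K ^ 2 * (P.b / (P.κ * P.T)) := by positivity
  have h3 : 0 ≤ 2 * |P.lam| + p ^ 3 * (p + 1) * K ^ 4 * (P.lam ^ 2 * P.κ * P.T / P.b) := by
    (clear * - hκ hT hb; positivity)
  rcases v with _ | ⟨_ | _, e⟩
  · show |P.Lg i (Sum.inr n)| ≤ _
    linarith only [h2, h1]
  · rw [ug_Lv_false]
    refine (abs_sub _ _).trans ?_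
    have := ug_rot_le P hK hA hα hT hb hκ e i true (Sum.inr n)
    linarith only [this, h1]
  · rw [ug_Lv_true, ug_ef_inl_inr, zero_add]
    have := ug_rot_le P hK hA hα hT hb hκ e i false (Sum.inr n)
    linarith only [this, h3]

include hK hA hα hβ hT hb hκ in
theorem ug_Ln_le (m n : Nd p) :
    |P.Ln m (Sum.inr n)| ≤ 2 * p * K * P.T ^ 2
      + (p * (p + 1) * K ^ 2 + 2) * (|P.lam| * P.T)
      + p ^ 3 * (p + 1) * K ^ 4 * (P.lam ^ 2 * P.κ * P.T ^ 2 / P.b)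
      + p * (p + 1) * K ^ 2 * (P.b / P.κ) := by
  have hLa : ∀ i, |nt p P.T i * P.La i (Sum.inr n)|
      ≤ p * K * P.T ^ 2 + p * (p + 1) * K ^ 2 * (|P.lam| * P.T) := by
    intro i
    rw [abs_mul, abs_of_nonneg (ug_nt_nonneg hT.le i)]
    calc nt p P.T i * |P.La i (Sum.inr n)|
        ≤ P.T * (p * K * P.T + p * (p + 1) * K ^ 2 * |P.lam|) :=
          mul_le_mul (ug_nt_le hT.le i) (ug_La_le P hK hA hα hT i n) (abs_nonneg _) hT.le
      _ = _ := by ring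
  have e1 : 0 ≤ p * K * P.T ^ 2 := by (clear * - hK hT; positivity)
  have e2 : 0 ≤ 2 * (|P.lam| * P.T) := by (clear * - hT; positivity)
  have e3 : 0 ≤ p ^ 3 * (p + 1) * K ^ 4 * (P.lam ^ 2 * P.κ * P.T ^ 2 / P.b) := by (clear * - hκ hT hb; positivity)
  have e4 : 0 ≤ p * (p + 1) * K ^ 2 * (P.b / P.κ) := by (clear * - hb hκ; positivity)
  have e5 : 0 ≤ p * (p + 1) * K ^ 2 * (|P.lam| * P.T) := by (clear * - hT; positivity)
  rcases m with _ | i | ⟨i, v, f⟩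
  · have : P.Ln none (Sum.inr n) = 0 := by simp [Par.Ln, ug_ef_inl_inr]
    rw [this, abs_zero]
    linarith only [e3, e1, e2, e4, e5]
  · rw [ug_Ln_c, ug_ef_inl_inr, zero_add]
    have := hLa i
    linarith only [e3, e1, e2, e4, this]
  · rw [ug_Ln_j, ug_ef_inl_inr, zero_add]
    refine (abs_add_le _ _).trans ?_
    have h1 := hLa i
    have h2 := ug_sum_le (f := fun f' => P.cA f f')
      (g := fun f' => ef (Sum.inr (Par.nj i v f')) (Sum.inr n)) hK (fun f' => hA f f')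
      (fun f' => ug_ef_le _ _)
    have h3 : |nt p P.T f * (P.Lv i v (Sum.inr n)
        - P.T * ∑ f' : Fin p, P.cA f f' * ef (Sum.inr (Par.nj i v f')) (Sum.inr n))|
        ≤ P.T * ((2 * |P.lam| + p ^ 3 * (p + 1) * K ^ 4 * (P.lam ^ 2 * P.κ * P.T / P.b)
          + p * (p + 1) * K ^ 2 * (P.b / (P.κ * P.T))) + P.T * (p * (K * 1))) := by
      rw [abs_mul, abs_of_nonneg (ug_nt_nonneg hT.le f)]
      refine mul_le_mul (ug_nt_le hT.le f) ?_ (abs_nonneg _) hT.le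
      refine (abs_sub _ _).trans (add_le_add (ug_Lv_le P hK hA hα hβ hT hb hκ i v n) ?_)
      rw [abs_mul, abs_of_pos hT]
      exact mul_le_mul_of_nonneg_left h2 hT.le
    have h4 : P.T * ((2 * |P.lam| + p ^ 3 * (p + 1) * K ^ 4 * (P.lam ^ 2 * P.κ * P.T / P.b)
          + p * (p + 1) * K ^ 2 * (P.b / (P.κ * P.T))) + P.T * (p * (K * 1)))
        = 2 * (|P.lam| * P.T) + p ^ 3 * (p + 1) * K ^ 4 * (P.lam ^ 2 * P.κ * P.T ^ 2 / P.b)
          + p * (p + 1) * K ^ 2 * (P.b / P.κ) + p * K * P.T ^ 2 := by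
      (clear * - hb hκ hT; field_simp)
    rw [h4] at h3
    linarith only [h3, h1]

end bounds

theorem ug_Ln_a {p : ℕ} (P : Par p) (n : Nd p) : P.Ln n (Sum.inl 1) = match n with
    | none => 0
    | some (Sum.inl i) => nt p P.T i
    | some (Sum.inr (i, _, _)) => nt p P.T i := by
  rcases n with _ | i | ⟨i, v, f⟩
  · simp [Par.Ln, ug_ef_inl_inl]
  · rw [ug_Ln_c, ug_La_inl, ug_ef_inl_inl]
    simp only [Fin.isValue, one_ne_zero, ↓reduceIte, mul_one, zero_add]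
  · rw [ug_Ln_j, ug_La_inl, ug_ef_inl_inl, ug_Lv_inl01 P i v 1 (Or.inr rfl)]
    simp only [Fin.isValue, one_ne_zero, ↓reduceIte, mul_one, zero_add, ug_ef_inr_inl, mul_zero, Finset.sum_const_zero, sub_self, add_zero]

theorem net_good {p0 : ℕ} (hp0 : 1 ≤ p0) {cA : Fin (p0 + 1) → Fin (p0 + 1) → ℝ}
    {α β : Fin (p0 + 2) → ℝ} {K : ℝ} (hI : InterpData (p0 + 1) cA α β K) :
    ∃ C, 1 ≤ C ∧ ∀ θ b κ lam : ℝ, 0 < θ → θ ≤ 1 / (8 * p0) → 0 < b → b ≤ 1 / 8 → 0 < κ → κ ≤ 1 →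
      |lam| * κ ≤ 2 →
      ((Par.mk cA α β (√θ) b κ lam).net (Fin.last p0)).Good 1 θ
        (C * (θ + |lam| * √θ + lam ^ 2 * κ * θ / b + b / κ)) (C * (lam ^ 2 * κ * √θ / b))
        (1 / (2 * p0)) := by
  have hK := hI.K0
  set c1 : ℝ := 2 * (p0 + 1 : ℕ) * K with hc1
  set c2 : ℝ := (p0 + 1 : ℕ) * ((p0 + 1 : ℕ) + 1) * K ^ 2 + 2 with hc2
  set c3 : ℝ := (p0 + 1 : ℕ) ^ 3 * ((p0 + 1 : ℕ) + 1) * K ^ 4 with hc3
  set c4 : ℝ := (p0 + 1 : ℕ) * ((p0 + 1 : ℕ) + 1) * K ^ 2 with hc4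
  have hc1' : 0 ≤ c1 := by (clear * - hp0 hK; positivity)
  have hc2' : 0 ≤ c2 := by (clear * - hp0; positivity)
  have hc3' : 0 ≤ c3 := by positivity
  have hc4' : 0 ≤ c4 := by positivity
  refine ⟨1 + c1 + c2 + c3 + c4, by linarith only [hc3', hc1', hc4'], ?_⟩
  intro θ b κ lam hθ hθ1 hb hb1 hκ hκ1 hl
  set P := Par.mk cA α β (√θ) b κ lam with hP
  have hT : 0 < √θ := Real.sqrt_pos.mpr hθ
  have hT2 : √θ ^ 2 = θ := Real.sq_sqrt hθ.le
  have hp0' : (1 : ℝ) ≤ p0 := by exact_mod_cast hp0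
  have hpp : ((p0 + 1 : ℕ) : ℝ) = p0 + 1 := by push_cast; ring
  have hsT : √(θ * 1) = √θ := by rw [mul_one]
  have hθ8 : θ ≤ 1 / 8 := hθ1.trans (by
    rw [div_le_div_iff₀ (by positivity) (by norm_num)]
    linarith only [hp0'])
  have hnt0 : ∀ i : Fin (p0 + 1), 0 ≤ nt (p0 + 1) (√θ) i := ug_nt_nonneg hT.le
  have hnt1 : ∀ i : Fin (p0 + 1), nt (p0 + 1) (√θ) i ≤ √θ := ug_nt_le hT.le
  have hntlo : ∀ i : Fin (p0 + 1), √θ / ((p0 + 1 : ℕ) : ℝ) ≤ nt (p0 + 1) (√θ) i := by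
    intro i
    rw [nt, div_mul_eq_mul_div]
    have : (0 : ℝ) ≤ ((i : ℕ) : ℝ) := by (clear * -; positivity)
    apply div_le_div_of_nonneg_right _ (by positivity)
    nlinarith only [hT]
  have hlevlo : ∀ n : Nd (p0 + 1), 1 - 2 * θ ≤ Par.lv P n := by
    intro n
    rcases n with _ | i | ⟨i, v, f⟩
    · simp only [Par.lv]
      linarith only [hθ]
    · simp only [Par.lv]
      have h1 : nt (p0 + 1) (√θ) i ^ 2 ≤ √θ ^ 2 := pow_le_pow_left₀ (hnt0 i) (hnt1 i) 2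
      rw [hT2] at h1
      show 1 - 2 * θ ≤ 1 - nt (p0 + 1) (√θ) i ^ 2
      linarith only [h1, hθ]
    · simp only [Par.lv]
      have h1 : nt (p0 + 1) (√θ) i ^ 2 ≤ √θ ^ 2 := pow_le_pow_left₀ (hnt0 i) (hnt1 i) 2
      have h2 : nt (p0 + 1) (√θ) f ^ 2 ≤ √θ ^ 2 := pow_le_pow_left₀ (hnt0 f) (hnt1 f) 2
      rw [hT2] at h1 h2
      show 1 - 2 * θ ≤ 1 - nt (p0 + 1) (√θ) i ^ 2 - nt (p0 + 1) (√θ) f ^ 2
      linarith only [h2, h1]
  have hlevhi : ∀ n : Nd (p0 + 1), Par.lv P n ≤ 1 := by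
    intro n
    rcases n with _ | i | ⟨i, v, f⟩
    · simp only [Par.lv]
      exact le_rfl
    · simp only [Par.lv]
      have := sq_nonneg (nt (p0 + 1) P.T i)
      linarith only [this]
    · simp only [Par.lv]
      have := sq_nonneg (nt (p0 + 1) P.T i)
      have := sq_nonneg (nt (p0 + 1) P.T f)
      (clear hp0 K hI hK c1 hc1 c2 c3 hc3 c4 hc2 hc4 hc1' hc2' hc3' hc4' hθ hθ1 hb hb1 hκ hκ1 hl hP hT hT2 hp0' hpp hsT hθ8 hnt0 hnt1 hntlo hlevlo v; linarith)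
  have hmar : ∀ i : Fin (p0 + 1), ∀ L : ℝ, 1 - 2 * θ ≤ L →
      (1 - nt (p0 + 1) (√θ) i / √θ) ^ 2 * 1 ≤ (1 - 1 / (2 * (p0 : ℝ))) * L := by
    intro i L hL
    have h1 : 1 / ((p0 + 1 : ℕ) : ℝ) ≤ nt (p0 + 1) (√θ) i / √θ := by
      rw [le_div_iff₀ hT]
      calc 1 / ((p0 + 1 : ℕ) : ℝ) * √θ = √θ / ((p0 + 1 : ℕ) : ℝ) := by ring
        _ ≤ _ := hntlo i
    have h2 : nt (p0 + 1) (√θ) i / √θ ≤ 1 := (div_le_one hT).mpr (hnt1 i)
    have h3 : (1 - nt (p0 + 1) (√θ) i / √θ) ^ 2 ≤ (1 - 1 / ((p0 + 1 : ℕ) : ℝ)) ^ 2 :=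
      pow_le_pow_left₀ (by linarith only [h2]) (by linarith only [h1]) 2
    have h4 : 0 ≤ 1 - 1 / (2 * (p0 : ℝ)) := by
      have : 1 / (2 * (p0 : ℝ)) ≤ 1 := by
        rw [div_le_one (by positivity)]
        linarith only [hp0']
      linarith only [this]
    have h5 : 1 - 1 / (4 * (p0 : ℝ)) ≤ L := by
      have : 2 * (1 / (8 * (p0 : ℝ))) = 1 / (4 * p0) := by field_simp; norm_num
      linarith only [hL, hθ1, this]
    have h6 : (1 - 1 / ((p0 + 1 : ℕ) : ℝ)) ^ 2 ≤ (1 - 1 / (2 * (p0 : ℝ))) * (1 - 1 / (4 * (p0 : ℝ))) := by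
      rw [hpp]
      have hx : (0 : ℝ) < p0 := by linarith only [hp0']
      have e1 : (1 - 1 / ((p0 : ℝ) + 1)) ^ 2 = p0 ^ 2 / (p0 + 1) ^ 2 := by
        field_simp
        ring
      have e2 : (1 - 1 / (2 * (p0 : ℝ))) * (1 - 1 / (4 * (p0 : ℝ)))
          = ((2 * p0 - 1) * (4 * p0 - 1)) / (8 * p0 ^ 2) := by
        field_simp
        ring
      rw [e1, e2, div_le_div_iff₀ (by positivity) (by positivity)]
      nlinarith only [(mul_nonneg (mul_nonneg (sub_nonneg.mpr hp0') hx.le) hx.le)]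
    calc (1 - nt (p0 + 1) (√θ) i / √θ) ^ 2 * 1 ≤ (1 - 1 / (2 * (p0 : ℝ))) * (1 - 1 / (4 * (p0 : ℝ))) := by
          rw [mul_one]
          exact h3.trans h6
      _ ≤ (1 - 1 / (2 * (p0 : ℝ))) * L := mul_le_mul_of_nonneg_left h5 h4
  refine
    { root_t := ?_, root_g := ?_, root_P := ?_, root_w := ?_, root_lev := ?_, top_t := ?_,
      top_g := ?_, top_P := ?_, top_lev := ?_, t_nonneg := ?_, t_le := ?_, margin := ?_,
      lev_lo := ?_, lev_hi := ?_, w_le := ?_, q_le := ?_ }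
  · simp only [Par.net, Par.Ln, Equiv.symm_apply_apply, ug_ef_inl_inl]
    simp only [Fin.isValue, one_ne_zero, ↓reduceIte]
  · simp only [Par.net, Equiv.symm_apply_apply, Par.Ln, ug_ef_inl_inl]
    simp
  · simp only [Par.net, Equiv.symm_apply_apply, Par.Ln, ug_ef_inl_inl]
    simp
  · intro j
    simp only [Par.net, Par.Ln, Equiv.symm_apply_apply, ug_ef_inl_inr]
  · simp only [Par.net, Equiv.symm_apply_apply, Par.lv]
  · simp only [Par.net, Equiv.symm_apply_apply, Par.nc, ug_Ln_a]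
    rw [hsT]
    show nt (p0 + 1) (√θ) (Fin.last p0) = √θ
    rw [nt, Fin.val_last, hpp, div_self (by positivity), one_mul]
  · simp only [Par.net, Equiv.symm_apply_apply, Par.nc]
    rw [ug_Ln_c, ug_La_inl, ug_ef_inl_inl]
    simp
  · simp only [Par.net, Equiv.symm_apply_apply, Par.nc]
    rw [ug_Ln_c, ug_La_inl, ug_ef_inl_inl]
    simp
  · simp only [Par.net, Par.lv, Par.nc, Equiv.symm_apply_apply]
    show 1 - nt (p0 + 1) (√θ) (Fin.last p0) ^ 2 = (1 - θ) * 1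
    rw [nt, Fin.val_last, hpp, div_self (by positivity), one_mul, hT2, mul_one]
  · intro k
    show 0 ≤ P.Ln ((Par.num (p0 + 1)).symm k) (Sum.inl 1)
    rw [ug_Ln_a]
    rcases (Par.num (p0 + 1)).symm k with _ | i | ⟨i, v, f⟩
    · exact le_rfl
    · exact hnt0 i
    · exact hnt0 i
  · intro k
    show P.Ln ((Par.num (p0 + 1)).symm k) (Sum.inl 1) ≤ √(θ * 1)
    rw [ug_Ln_a, hsT]
    rcases (Par.num (p0 + 1)).symm k with _ | i | ⟨i, v, f⟩
    · exact hT.le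
    · exact hnt1 i
    · exact hnt1 i
  · intro k hk
    show (1 - P.Ln ((Par.num (p0 + 1)).symm k) (Sum.inl 1) / √(θ * 1)) ^ 2 * 1
      ≤ (1 - 1 / (2 * (p0 : ℝ))) * P.lv ((Par.num (p0 + 1)).symm k)
    have hne : (Par.num (p0 + 1)).symm k ≠ none := by
      intro h
      apply hk
      show k = Par.num (p0 + 1) none
      rw [← h, Equiv.apply_symm_apply]
    rw [ug_Ln_a, hsT]
    have hL := hlevlo ((Par.num (p0 + 1)).symm k)
    rcases h : (Par.num (p0 + 1)).symm k with _ | i | ⟨i, v, f⟩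
    · exact absurd h hne
    · rw [h] at hL
      exact hmar i _ hL
    · rw [h] at hL
      exact hmar i _ hL
  · intro k
    show (1 - 2 * θ) * 1 ≤ P.lv ((Par.num (p0 + 1)).symm k)
    rw [mul_one]
    exact hlevlo _
  · intro k
    exact hlevhi _
  · intro k m
    show |P.Ln ((Par.num (p0 + 1)).symm k) (Sum.inr ((Par.num (p0 + 1)).symm m))| ≤ _
    have h := ug_Ln_le P hK hI.A_le hI.α_le hI.β_le hT hb hκ ((Par.num (p0 + 1)).symm k) ((Par.num (p0 + 1)).symm m)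
    refine h.trans ?_
    show 2 * ((p0 + 1 : ℕ) : ℝ) * K * √θ ^ 2 + ((p0 + 1 : ℕ) * ((p0 + 1 : ℕ) + 1) * K ^ 2 + 2) * (|lam| * √θ)
      + (p0 + 1 : ℕ) ^ 3 * ((p0 + 1 : ℕ) + 1) * K ^ 4 * (lam ^ 2 * κ * √θ ^ 2 / b)
      + (p0 + 1 : ℕ) * ((p0 + 1 : ℕ) + 1) * K ^ 2 * (b / κ)
      ≤ (1 + c1 + c2 + c3 + c4) * (θ + |lam| * √θ + lam ^ 2 * κ * θ / b + b / κ)
    rw [hT2, ← hc1, ← hc2, ← hc3, ← hc4]
    have f1 : 0 ≤ |lam| * √θ := by (clear * - hθ; positivity)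
    have f2 : 0 ≤ lam ^ 2 * κ * θ / b := by (clear * - hκ hθ hb; positivity)
    have f3 : 0 ≤ b / κ := by positivity
    have g1 := mul_nonneg hc1' f1
    have g2 := mul_nonneg hc1' f2
    have g3 := mul_nonneg hc1' f3
    have g4 := mul_nonneg hc2' hθ.le
    have g5 := mul_nonneg hc2' f2
    have g6 := mul_nonneg hc2' f3
    have g7 := mul_nonneg hc3' hθ.le
    have g8 := mul_nonneg hc3' f1
    have g9 := mul_nonneg hc3' f3
    have g10 := mul_nonneg hc4' hθ.le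
    have g11 := mul_nonneg hc4' f1
    have g12 := mul_nonneg hc4' f2
    linarith only [f1, f3, g1, g2, g3, g4, g5, g6, g7, g8, g9, g10, g11, g12]
  · intro m
    show |P.Lq (Fin.last p0) (Sum.inr ((Par.num (p0 + 1)).symm m))| ≤ _
    have h := ug_corr_le P hK hI.A_le hI.α_le hI.β_le hT hb hκ (Fin.last p0)
      (Sum.inr ((Par.num (p0 + 1)).symm m))
    have he : P.Lq (Fin.last p0) (Sum.inr ((Par.num (p0 + 1)).symm m)) = ((P.lam * P.κ) ^ 2 * P.T)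
        * ∑ j, (P.cA (Fin.last p0) j * nt (p0 + 1) P.T j) * P.LBB j (Sum.inr ((Par.num (p0 + 1)).symm m)) := by
      simp only [Par.Lq, Pi.smul_apply, Finset.sum_apply, smul_eq_mul]
    rw [he]
    refine h.trans ?_
    show ((p0 + 1 : ℕ) : ℝ) ^ 3 * ((p0 + 1 : ℕ) + 1) * K ^ 4 * (lam ^ 2 * κ * √θ / b)
      ≤ (1 + c1 + c2 + c3 + c4) * (lam ^ 2 * κ * √θ / b)
    rw [← hc3]
    apply mul_le_mul_of_nonneg_right _ (by (clear * - hκ hθ hb; positivity))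
    linarith only [hc1', hc4']

end Vale.Agent.P347.Z

end

section


/-! P347-Z-F5b. Pathwise residuals of the network at unit scale (deterministic part of the assembly). -/

open MeasureTheory Filter Module Set
open scoped ENNReal NNReal

namespace Vale.Agent.P347.Z

variable {d : ℕ}

/-- Total residual. -/
noncomputable def Fam.Rtot {p : ℕ} (S : Fam d p) (R2 : Eu d × Eu d → ℝ)
    (R3 : Fin p → Eu d × Eu d → ℝ) (ω : Eu d × Eu d × Eu d) : ℝ :=
  R2 (ω.1, ω.2.1) + S.b⁻¹ * ∑ i, ∑ v : Vv p, R3 i (S.cp i ω, S.vx i v ω)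
    + S.b ^ (p - 1) * ∑ i, (‖S.gp i ω‖ + ‖ω.2.2‖)

section ev

variable {p : ℕ} {E : Type} [AddCommGroup E] [Module ℝ E]

theorem ur_ev_add (L L' : LF p) (x : Fin 4 ⊕ Nd p → E) : ev (L + L') x = ev L x + ev L' x := by
  simp only [ev, Pi.add_apply, add_smul, Finset.sum_add_distrib]

theorem ur_ev_sub (L L' : LF p) (x : Fin 4 ⊕ Nd p → E) : ev (L - L') x = ev L x - ev L' x := by
  simp only [ev, Pi.sub_apply, sub_smul, Finset.sum_sub_distrib]

theorem ur_ev_smul (c : ℝ) (L : LF p) (x : Fin 4 ⊕ Nd p → E) : ev (c • L) x = c • ev L x := by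
  simp only [ev, Pi.smul_apply, smul_eq_mul, mul_smul, Finset.smul_sum]

theorem ur_ev_sum {ι : Type} (s : Finset ι) (L : ι → LF p) (x : Fin 4 ⊕ Nd p → E) :
    ev (∑ j ∈ s, L j) x = ∑ j ∈ s, ev (L j) x := by
  simp only [ev, Finset.sum_apply, Finset.sum_smul]
  exact Finset.sum_comm

theorem ur_ev_ef (i : Fin 4 ⊕ Nd p) (x : Fin 4 ⊕ Nd p → E) : ev (ef i) x = x i := by
  classical
  unfold ev
  rw [Finset.sum_eq_single i]
  · simp only [ef, ↓reduceIte, one_smul]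
  · intro j _ hj
    simp [ef, hj]
  · intro h
    exact absurd (Finset.mem_univ i) h

end ev

section err

variable {E : Type} [NormedAddCommGroup E] [NormedSpace ℝ E] {p : ℕ}

theorem ur_sum_err (c : Fin p → ℝ) (x y : Fin p → E) {K r : ℝ} (hK : 0 ≤ K)
    (hc : ∀ j, |c j| ≤ K) (h : ∀ j, ‖x j - y j‖ ≤ r) :
    ‖∑ j, c j • x j - ∑ j, c j • y j‖ ≤ p * (K * r) := by
  rw [← Finset.sum_sub_distrib]
  have h1 : ∀ j ∈ (Finset.univ : Finset (Fin p)), ‖c j • x j - c j • y j‖ ≤ K * r := by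
    intro j _
    rw [← smul_sub, norm_smul, Real.norm_eq_abs]
    exact mul_le_mul (hc j) (h j) (norm_nonneg _) hK
  refine (norm_sum_le_of_le _ h1).trans (le_of_eq ?_)
  rw [Finset.sum_const, Finset.card_univ, Fintype.card_fin, nsmul_eq_mul]

theorem ur_sum_bd (c : Fin p → ℝ) (x : Fin p → E) {K r : ℝ} (hK : 0 ≤ K)
    (hc : ∀ j, |c j| ≤ K) (h : ∀ j, ‖x j‖ ≤ r) :
    ‖∑ j, c j • x j‖ ≤ p * (K * r) := by
  have := ur_sum_err c x (fun _ => 0) hK hc (fun j => by simpa only [sub_zero] using h j)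
  simpa only [ge_iff_le, smul_zero, Finset.sum_const_zero, sub_zero] using this

/-- Error of the `B²` form. -/
theorem ur_lbb {b κ R C1 K M : ℝ} {β : Fin (p + 1) → ℝ} {cA : Fin p → Fin p → ℝ} {X g : E}
    {Vf u J : Fin p → E} (hb : 0 < b) (hκ : 0 < κ) (hK : 0 ≤ K) (hC1 : 0 ≤ C1)
    (hβs : ∑ e, β e = 0) (hβ : ∀ e, |β e| ≤ K) (hcA : ∀ i j, |cA i j| ≤ K)
    (h1 : ‖X + (b⁻¹) ^ 2 • (β 0 • g + ∑ e : Fin p, β e.succ • Vf e)‖ ≤ C1 * M)
    (h2 : ∀ e, ‖Vf e - (g - b • ∑ j, cA e j • u j)‖ ≤ C1 * b ^ 2 * M)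
    (h3 : ∀ j, ‖κ • u j - J j‖ ≤ κ * (b * R)) (hMR : M ≤ R) :
    ‖X - (b * κ)⁻¹ • ∑ e : Fin p, ∑ j : Fin p, (β e.succ * cA e j) • J j‖ ≤
      (C1 * (1 + p * K) + p ^ 2 * K ^ 2) * R := by
  have hβ0 : β 0 = - ∑ e : Fin p, β e.succ := by
    rw [Fin.sum_univ_succ] at hβs
    linarith only [hβs]
  have hbne : b ≠ 0 := hb.ne'
  have hκne : κ ≠ 0 := hκ.ne'
  -- the three error terms
  have e3 : ∀ j, ‖u j - κ⁻¹ • J j‖ ≤ b * R := by
    intro j
    have h4 : u j - κ⁻¹ • J j = κ⁻¹ • (κ • u j - J j) := by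
      rw [smul_sub, smul_smul, inv_mul_cancel₀ hκne, one_smul]
    rw [h4, norm_smul, Real.norm_eq_abs, abs_of_pos (inv_pos.2 hκ)]
    calc κ⁻¹ * ‖κ • u j - J j‖ ≤ κ⁻¹ * (κ * (b * R)) :=
          mul_le_mul_of_nonneg_left (h3 j) (inv_pos.2 hκ).le
      _ = b * R := by (clear * - hκne hbne; field_simp)
  have key : X - (b * κ)⁻¹ • ∑ e : Fin p, ∑ j : Fin p, (β e.succ * cA e j) • J j =
      (X + (b⁻¹) ^ 2 • (β 0 • g + ∑ e : Fin p, β e.succ • Vf e))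
      - (b⁻¹) ^ 2 • ∑ e : Fin p, β e.succ • (Vf e - (g - b • ∑ j, cA e j • u j))
      + b⁻¹ • ∑ e : Fin p, β e.succ • (∑ j, cA e j • u j - ∑ j, cA e j • (κ⁻¹ • J j)) := by
    have a1 : ∑ e : Fin p, ∑ j : Fin p, (β e.succ * cA e j) • J j =
        κ • ∑ e : Fin p, β e.succ • ∑ j, cA e j • (κ⁻¹ • J j) := by
      rw [Finset.smul_sum]
      refine Finset.sum_congr rfl fun e _ => ?_
      rw [Finset.smul_sum, Finset.smul_sum]
      refine Finset.sum_congr rfl fun j _ => ?_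
      rw [smul_smul, smul_smul, smul_smul]
      congr 1
      (clear * - hκne; field_simp)
    have a2 : ∑ e : Fin p, β e.succ • (Vf e - (g - b • ∑ j, cA e j • u j)) =
        ∑ e : Fin p, β e.succ • Vf e - (∑ e : Fin p, β e.succ) • g +
          b • ∑ e : Fin p, β e.succ • ∑ j, cA e j • u j := by
      rw [Finset.sum_smul, Finset.smul_sum, ← Finset.sum_sub_distrib, ← Finset.sum_add_distrib]
      refine Finset.sum_congr rfl fun e _ => ?_
      rw [smul_sub, smul_sub, smul_comm b]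
      abel
    have a3 : ∑ e : Fin p, β e.succ • (∑ j, cA e j • u j - ∑ j, cA e j • (κ⁻¹ • J j)) =
        ∑ e : Fin p, β e.succ • ∑ j, cA e j • u j -
          ∑ e : Fin p, β e.succ • ∑ j, cA e j • (κ⁻¹ • J j) := by
      rw [← Finset.sum_sub_distrib]
      exact Finset.sum_congr rfl fun e _ => smul_sub _ _ _
    rw [a1, a2, a3, hβ0]
    generalize ∑ e : Fin p, β e.succ • ∑ j, cA e j • (κ⁻¹ • J j) = Z1
    generalize ∑ e : Fin p, β e.succ • ∑ j, cA e j • u j = Z2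
    generalize ∑ e : Fin p, β e.succ • Vf e = Z3
    generalize ∑ e : Fin p, β e.succ = s
    match_scalars <;> field_simp <;> ring
  rw [key]
  have n2 : ‖(b⁻¹) ^ 2 • ∑ e : Fin p, β e.succ • (Vf e - (g - b • ∑ j, cA e j • u j))‖ ≤
      p * K * C1 * R := by
    rw [norm_smul, Real.norm_eq_abs, abs_of_pos (by positivity)]
    have := ur_sum_bd (fun e : Fin p => β e.succ) _ hK (fun e => hβ e.succ) h2
    calc (b⁻¹) ^ 2 * ‖∑ e : Fin p, β e.succ • (Vf e - (g - b • ∑ j, cA e j • u j))‖ ≤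
          (b⁻¹) ^ 2 * (p * (K * (C1 * b ^ 2 * M))) :=
          mul_le_mul_of_nonneg_left this (by positivity)
      _ = p * K * C1 * M := by (clear * - hbne; field_simp)
      _ ≤ p * K * C1 * R := mul_le_mul_of_nonneg_left hMR (by (clear * - hK hC1; positivity))
  have n3 : ‖b⁻¹ • ∑ e : Fin p, β e.succ • (∑ j, cA e j • u j - ∑ j, cA e j • (κ⁻¹ • J j))‖ ≤
      p ^ 2 * K ^ 2 * R := by
    rw [norm_smul, Real.norm_eq_abs, abs_of_pos (by positivity)]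
    have := ur_sum_bd (fun e : Fin p => β e.succ)
      (fun e => ∑ j, cA e j • u j - ∑ j, cA e j • (κ⁻¹ • J j)) hK (fun e => hβ e.succ)
      (fun e => ur_sum_err (cA e) u (fun j => κ⁻¹ • J j) hK (hcA e) e3)
    calc b⁻¹ * ‖∑ e : Fin p, β e.succ • (∑ j, cA e j • u j - ∑ j, cA e j • (κ⁻¹ • J j))‖ ≤
          b⁻¹ * (p * (K * (p * (K * (b * R))))) :=
          mul_le_mul_of_nonneg_left this (by positivity)
      _ = p ^ 2 * K ^ 2 * R := by (clear * - hbne; field_simp)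
  have n1 : C1 * M ≤ C1 * R := mul_le_mul_of_nonneg_left hMR hC1
  refine (norm_add_le _ _).trans ?_
  have n4 := norm_sub_le (X + (b⁻¹) ^ 2 • (β 0 • g + ∑ e : Fin p, β e.succ • Vf e))
    ((b⁻¹) ^ 2 • ∑ e : Fin p, β e.succ • (Vf e - (g - b • ∑ j, cA e j • u j)))
  have n5 : (C1 * (1 + p * K) + p ^ 2 * K ^ 2) * R = C1 * R + p * K * C1 * R + p ^ 2 * K ^ 2 * R := by
    ring
  rw [n5]
  linarith only [n3, h1, n2, n1, n4]

end err

/-! ### The normalised Hessian -/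

theorem ur_B0L_apply {κ : ℝ} {w : ℝ × Eu d → ℝ} (hw : Heat κ w) {p : ℝ × Eu d} (hp : 0 < p.1)
    (v : Eu d) : B0L κ w p v = κ⁻¹ • haH w p v := by
  ext k
  show ∑ j, B0 κ w k j p * v j = κ⁻¹ * (haH w p v k)
  rw [haH_apply, Finset.mul_sum]
  refine Finset.sum_congr rfl fun j _ => ?_
  show κ⁻¹ * F1 w k j p * v j = _
  rw [F1_symm hw k j hp]
  ring

theorem ur_B0L_symm {κ : ℝ} {w : ℝ × Eu d → ℝ} (hw : Heat κ w) {p : ℝ × Eu d} (hp : 0 < p.1)
    (u v : Eu d) : inner ℝ (B0L κ w p u) v = inner ℝ u (B0L κ w p v) := by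
  rw [ur_B0L_apply hw hp, ur_B0L_apply hw hp, real_inner_smul_left, real_inner_smul_right,
    haH_symm hw hp]

theorem ur_B0L_norm {κ : ℝ} {w : ℝ × Eu d → ℝ} (hw : Heat κ w) (hκ : 0 < κ) {p : ℝ × Eu d}
    (hp : 0 < p.1) : ‖B0L κ w p‖ ≤ 1 := by
  refine ContinuousLinearMap.opNorm_le_bound _ zero_le_one fun v => ?_
  rw [ur_B0L_apply hw hp, norm_smul, Real.norm_eq_abs, abs_of_pos (inv_pos.2 hκ), one_mul]
  have h1 := (haH w p).le_of_opNorm_le (haH_norm hw hκ.le hp) v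
  calc κ⁻¹ * ‖haH w p v‖ ≤ κ⁻¹ * (κ * ‖v‖) :=
        mul_le_mul_of_nonneg_left h1 (inv_pos.2 hκ).le
    _ = ‖v‖ := by (clear * - hκ; field_simp)

theorem ur_nt {p : ℕ} (hp : 2 ≤ p) {T : ℝ} (hT : 0 < T) (i : Fin p) :
    0 < nt p T i ∧ nt p T i ≤ T := by
  have h0 : (0 : ℝ) < p := by exact_mod_cast (by omega : 0 < p)
  have h1 : ((i : ℝ) + 1) / p ≤ 1 := by
    rw [div_le_one h0]
    exact_mod_cast i.2
  have h2 : 0 < ((i : ℝ) + 1) / p := by (clear * - hp; positivity)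
  unfold nt
  constructor
  · positivity
  · (refine le_of_not_gt fun hng_ => ?_; linarith only [mul_pos h2 (sub_pos.2 hng_), mul_nonneg (sub_nonneg.2 h1) (le_of_lt (sub_pos.2 hng_)), mul_nonneg (le_of_lt hT) (sub_nonneg.2 h1)])

/-! ### Evaluation of the forms -/

section evals

variable {p : ℕ} {E : Type} [AddCommGroup E] [Module ℝ E]

theorem ur_ev_JV (P : Par p) (i : Fin p) (v : Vv p) (x : Fin 4 ⊕ Nd p → E) :
    ev (P.JV i v) x = P.T⁻¹ • (P.α 0 • x (Sum.inr (Par.nc i)) +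
      ∑ j : Fin p, P.α j.succ • x (Sum.inr (Par.nj i v j))) := by
  unfold Par.JV
  rw [ur_ev_smul, ur_ev_add, ur_ev_smul, ur_ev_sum, ur_ev_ef]
  simp only [ur_ev_smul, ur_ev_ef]

theorem ur_ev_LBB (P : Par p) (i : Fin p) (x : Fin 4 ⊕ Nd p → E) :
    ev (P.LBB i) x = (P.b * P.κ)⁻¹ • ∑ e : Fin p, ∑ j : Fin p,
        (P.β e.succ * P.cA e j) • ev (P.JV i (some (true, j))) x := by
  unfold Par.LBB
  rw [ur_ev_smul, ur_ev_sum]
  simp only [ur_ev_sum, ur_ev_smul]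

theorem ur_ev_La (P : Par p) (i : Fin p) (x : Fin 4 ⊕ Nd p → E) :
    ev (P.La i) x = x (Sum.inl 1) - P.T • ∑ j, P.cA i j • x (Sum.inr (Par.nc j)) +
        (P.lam * P.T) • ∑ j, P.cA i j • ev (P.JV j none) x := by
  unfold Par.La
  rw [ur_ev_add, ur_ev_sub, ur_ev_smul, ur_ev_smul, ur_ev_sum, ur_ev_sum, ur_ev_ef]
  simp only [ur_ev_smul, ur_ev_ef]

theorem ur_ev_Lq (P : Par p) (i : Fin p) (x : Fin 4 ⊕ Nd p → E) :
    ev (P.Lq i) x = ((P.lam * P.κ) ^ 2 * P.T) • ∑ j, (P.cA i j * nt p P.T j) •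
      ev (P.LBB j) x := by
  unfold Par.Lq
  rw [ur_ev_smul, ur_ev_sum]
  simp only [ur_ev_smul]

theorem ur_ev_Lg (P : Par p) (i : Fin p) (x : Fin 4 ⊕ Nd p → E) :
    ev (P.Lg i) x = x (Sum.inl 2) - P.lam • (x (Sum.inr (Par.nc i)) - x (Sum.inr none)) +
      ev (P.Lq i) x := by
  have h1 : P.Lg i = ef (Sum.inl 2) - P.lam • (ef (Sum.inr (Par.nc i)) - ef (Sum.inr none)) +
      P.Lq i := rfl
  rw [h1, ur_ev_add, ur_ev_sub, ur_ev_smul, ur_ev_sub, ur_ev_ef, ur_ev_ef, ur_ev_ef]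

theorem ur_ev_Lvf (P : Par p) (i e : Fin p) (x : Fin 4 ⊕ Nd p → E) :
    ev (P.Lv i (some (false, e))) x = ev (P.Lg i) x +
      (-P.b / P.κ) • ∑ j, P.cA e j • ev (P.JV i (some (true, j))) x := by
  have h1 : P.Lv i (some (false, e)) = P.Lg i -
    (P.b / P.κ) • ∑ j, P.cA e j • P.JV i (some (true, j)) := by
      simp only [Par.Lv]
  rw [h1, ur_ev_sub, ur_ev_smul, ur_ev_sum, neg_div, neg_smul, sub_eq_add_neg]
  simp only [ur_ev_smul]

theorem ur_ev_Lvt (P : Par p) (i e : Fin p) (x : Fin 4 ⊕ Nd p → E) :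
    ev (P.Lv i (some (true, e))) x = x (Sum.inl 3) +
      (P.b / P.κ) • ∑ j, P.cA e j • ev (P.JV i (some (false, j))) x := by
  have h1 : P.Lv i (some (true, e)) = ef (Sum.inl 3) +
    (P.b / P.κ) • ∑ j, P.cA e j • P.JV i (some (false, j)) := by
      simp only [Par.Lv]
  rw [h1, ur_ev_add, ur_ev_smul, ur_ev_sum, ur_ev_ef]
  simp only [ur_ev_smul]

theorem ur_ev_Ln1 (P : Par p) (i : Fin p) (x : Fin 4 ⊕ Nd p → E) :
    ev (P.Ln (some (Sum.inl i))) x = x (Sum.inl 0) + nt p P.T i • ev (P.La i) x := by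
  have h1 : P.Ln (some (Sum.inl i)) = ef (Sum.inl 0) + nt p P.T i • P.La i := by
    simp only [Par.Ln]
  rw [h1, ur_ev_add, ur_ev_smul, ur_ev_ef]

theorem ur_ev_Ln2 (P : Par p) (i : Fin p) (v : Vv p) (f : Fin p) (x : Fin 4 ⊕ Nd p → E) :
    ev (P.Ln (some (Sum.inr (i, v, f)))) x = x (Sum.inl 0) + nt p P.T i • ev (P.La i) x +
      nt p P.T f • (ev (P.Lv i v) x -
        P.T • ∑ j : Fin p, P.cA f j • x (Sum.inr (Par.nj i v j))) := by
  have h1 : P.Ln (some (Sum.inr (i, v, f))) = ef (Sum.inl 0) + nt p P.T i • P.La i +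
      nt p P.T f • (P.Lv i v - P.T • ∑ f' : Fin p, P.cA f f' •
        ef (Sum.inr (Par.nj i v f'))) := by
    simp only [Par.Ln]
  rw [h1, ur_ev_add, ur_ev_add, ur_ev_smul, ur_ev_smul, ur_ev_sub, ur_ev_smul, ur_ev_sum,
    ur_ev_ef]
  simp only [ur_ev_smul, ur_ev_ef]

end evals

/-! ### Abstract error bounds -/

section abs

variable {E : Type} [NormedAddCommGroup E] [NormedSpace ℝ E] {p : ℕ}

theorem ur_abs_a {Av a : E} {F Bv Jv : Fin p → E} {c : Fin p → ℝ} {T lam κ K R r : ℝ}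
    (h2 : ‖Av - (a - T • ∑ j, c j • F j + (lam * κ * T) • ∑ j, c j • Bv j)‖ ≤ r) (hr : r ≤ R)
    (heB : ∀ j, ‖Bv j - κ⁻¹ • Jv j‖ ≤ R) (hκ : 0 < κ) (h7 : |lam * κ * T| ≤ 2) (hK : 0 ≤ K)
    (hc : ∀ j, |c j| ≤ K) :
    ‖Av - (a - T • ∑ j, c j • F j + (lam * T) • ∑ j, c j • Jv j)‖ ≤ (1 + 2 * (p * K)) * R := by
  have h3 : Av - (a - T • ∑ j, c j • F j + (lam * T) • ∑ j, c j • Jv j) =
      (Av - (a - T • ∑ j, c j • F j + (lam * κ * T) • ∑ j, c j • Bv j)) +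
      (lam * κ * T) • (∑ j, c j • Bv j - ∑ j, c j • (κ⁻¹ • Jv j)) := by
    have h4 : ∑ j, c j • (κ⁻¹ • Jv j) = κ⁻¹ • ∑ j, c j • Jv j := by
      rw [Finset.smul_sum]
      exact Finset.sum_congr rfl fun j _ => smul_comm _ _ _
    rw [h4, smul_sub, smul_smul]
    have h5 : lam * κ * T * κ⁻¹ = lam * T := by
      (clear * - hκ; field_simp)
    rw [h5]
    abel
  rw [h3]
  have h6 := ur_sum_err c Bv (fun j => κ⁻¹ • Jv j) hK hc heB
  refine (norm_add_le _ _).trans ?_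
  rw [norm_smul, Real.norm_eq_abs]
  have h9 : |lam * κ * T| * ‖∑ j, c j • Bv j - ∑ j, c j • (κ⁻¹ • Jv j)‖ ≤ 2 * (p * (K * R)) :=
    mul_le_mul h7 h6 (norm_nonneg _) (by norm_num)
  have h11 : (1 + 2 * (p * K)) * R = R + 2 * (p * (K * R)) := by ring
  rw [h11]
  linarith only [hr, h2, h9]

theorem ur_abs_g {Gv m : E} {B2 L2 : Fin p → E} {c : Fin p → ℝ} {T q K R r C2 : ℝ}
    (h2 : ‖Gv - (m + (q * T) • ∑ j, c j • B2 j)‖ ≤ q * r) (hr : r ≤ R)
    (heL : ∀ j, ‖B2 j - L2 j‖ ≤ C2 * R) (hq : 0 ≤ q) (hT : 0 ≤ T) (hT1 : T ≤ 1) (hK : 0 ≤ K)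
    (hc : ∀ j, |c j| ≤ K) :
    ‖Gv - (m + (q * T) • ∑ j, c j • L2 j)‖ ≤ q * (1 + p * K * C2) * R := by
  have h3 : Gv - (m + (q * T) • ∑ j, c j • L2 j) = (Gv - (m + (q * T) • ∑ j, c j • B2 j)) +
      (q * T) • (∑ j, c j • B2 j - ∑ j, c j • L2 j) := by
    rw [smul_sub]
    abel
  rw [h3]
  have h6 := ur_sum_err c B2 L2 hK hc heL
  refine (norm_add_le _ _).trans ?_
  rw [norm_smul, Real.norm_eq_abs]
  have h7 : |q * T| ≤ q := by
    rw [abs_of_nonneg (by (clear * - hq hT; positivity))]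
    exact mul_le_of_le_one_right hq hT1
  have h9 : |q * T| * ‖∑ j, c j • B2 j - ∑ j, c j • L2 j‖ ≤ q * (p * (K * (C2 * R))) :=
    mul_le_mul h7 h6 (norm_nonneg _) hq
  have h12 : q * r ≤ q * R := mul_le_mul_of_nonneg_left hr hq
  have h11 : q * (1 + p * K * C2) * R = q * R + q * (p * (K * (C2 * R))) := by ring
  rw [h11]
  linarith only [h9, h2, h12]

theorem ur_abs_v {V g g' : E} {Bv Jv : Fin p → E} {c : Fin p → ℝ} {s κ K R e1 e2 : ℝ}
    (h : ‖V - (g + s • ∑ j, c j • Bv j)‖ ≤ e1) (hg : ‖g - g'‖ ≤ e2)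
    (heB : ∀ j, ‖Bv j - κ⁻¹ • Jv j‖ ≤ R) (hs : |s| ≤ 1) (hK : 0 ≤ K)
    (hc : ∀ j, |c j| ≤ K) :
    ‖V - (g' + (s / κ) • ∑ j, c j • Jv j)‖ ≤ e1 + e2 + p * (K * R) := by
  have h3 : V - (g' + (s / κ) • ∑ j, c j • Jv j) =
      (V - (g + s • ∑ j, c j • Bv j)) + (g - g') +
      s • (∑ j, c j • Bv j - ∑ j, c j • (κ⁻¹ • Jv j)) := by
    have h4 : ∑ j, c j • (κ⁻¹ • Jv j) = κ⁻¹ • ∑ j, c j • Jv j := by
      rw [Finset.smul_sum]
      exact Finset.sum_congr rfl fun j _ => smul_comm _ _ _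
    rw [h4, smul_sub, smul_smul, div_eq_mul_inv]
    abel
  rw [h3]
  have h6 := ur_sum_err c Bv (fun j => κ⁻¹ • Jv j) hK hc heB
  have h9 : ‖s • (∑ j, c j • Bv j - ∑ j, c j • (κ⁻¹ • Jv j))‖ ≤ p * (K * R) := by
    rw [norm_smul, Real.norm_eq_abs]
    exact (mul_le_of_le_one_left (norm_nonneg _) hs).trans h6
  exact (norm_add_le _ _).trans (add_le_add ((norm_add_le _ _).trans (add_le_add h hg)) h9)

theorem ur_abs_n {c c' Av v v' X : E} {t e1 e2 e3 : ℝ} (hc : ‖c - c'‖ ≤ e1)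
    (hA : ‖Av - (v - X)‖ ≤ e2) (hv : ‖v - v'‖ ≤ e3) (ht : 0 ≤ t) (ht1 : t ≤ 1) :
    ‖(c + t • Av) - (c' + t • (v' - X))‖ ≤ e1 + (e2 + e3) := by
  have h3 : (c + t • Av) - (c' + t • (v' - X)) =
      (c - c') + t • ((Av - (v - X)) + (v - v')) := by
    rw [smul_add, smul_sub, smul_sub, smul_sub, smul_sub]
    abel
  rw [h3]
  refine (norm_add_le _ _).trans (add_le_add hc ?_)
  rw [norm_smul, Real.norm_eq_abs, abs_of_nonneg ht]
  exact (mul_le_of_le_one_left (norm_nonneg _) ht1).trans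
    ((norm_add_le _ _).trans (add_le_add hA hv))

theorem ur_abs_B {Bv J : E} {κ r : ℝ} (hκ : 0 < κ) (h : ‖κ • Bv - J‖ ≤ κ * r) :
    ‖Bv - κ⁻¹ • J‖ ≤ r := by
  have h4 : Bv - κ⁻¹ • J = κ⁻¹ • (κ • Bv - J) := by
    rw [smul_sub, smul_smul, inv_mul_cancel₀ hκ.ne', one_smul]
  rw [h4, norm_smul, Real.norm_eq_abs, abs_of_pos (inv_pos.2 hκ)]
  calc κ⁻¹ * ‖κ • Bv - J‖ ≤ κ⁻¹ * (κ * r) :=
        mul_le_mul_of_nonneg_left h (inv_pos.2 hκ).le
    _ = r := by field_simp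

end abs

/-! ### The pathwise quantities -/

/-- `B0` at `c_i`. -/
noncomputable def Fam.bb {p : ℕ} (S : Fam d p) (i : Fin p) (ω : Eu d × Eu d × Eu d) :
    Eu d →L[ℝ] Eu d := B0L S.κ S.w (1 - nt p S.T i ^ 2, S.cp i ω)

/-- `F` at `c_i`. -/
noncomputable def Fam.fc {p : ℕ} (S : Fam d p) (i : Fin p) (ω : Eu d × Eu d × Eu d) : Eu d :=
  Fv S.w (1 - nt p S.T i ^ 2, S.cp i ω)

/-- `F` at the inner nodes. -/
noncomputable def Fam.fj {p : ℕ} (S : Fam d p) (i : Fin p) (v : Vv p) (j : Fin p)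
    (ω : Eu d × Eu d × Eu d) : Eu d :=
  Fv S.w (1 - nt p S.T i ^ 2 - nt p S.T j ^ 2,
    S.cp i ω + nt p S.T j • S.Ap i (nt p S.T j) (S.cp i ω, S.vx i v ω))

/-- The pathwise hypotheses. -/
structure Fam.Hyp {p : ℕ} (S : Fam d p) (cA : Fin p → Fin p → ℝ) (α β : Fin (p + 1) → ℝ)
    (K C1 R : ℝ) (ω : Eu d × Eu d × Eu d) : Prop where
  K0 : 0 ≤ K
  C0 : 0 ≤ C1
  R0 : 0 ≤ R
  βs : ∑ e, β e = 0
  βK : ∀ e, |β e| ≤ K
  AK : ∀ i j, |cA i j| ≤ K
  nt0 : ∀ i, 0 < nt p S.T i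
  nt1 : ∀ i, nt p S.T i ≤ 1
  a : ∀ i, ‖S.A (nt p S.T i) (S.Y, (ω.1, ω.2.1)) - (ω.1 - S.T • ∑ j, cA i j • S.fc j ω
    + (S.lam * S.κ * S.T) • ∑ j, cA i j • S.bb j ω (S.vx j none ω))‖ ≤ R
  g : ∃ r, r ≤ R ∧ ∀ i, ‖S.gp i ω - (ω.2.1 - S.lam • (S.fc i ω - Fv S.w (1, S.Y))
    + ((S.lam * S.κ) ^ 2 * S.T) • ∑ j, (cA i j * nt p S.T j) • S.bb j ω (S.bb j ω (S.gp j ω)))‖
      ≤ (S.lam * S.κ) ^ 2 * r
  j : ∀ i v, ‖S.κ • S.bb i ω (S.vx i v ω) - S.T⁻¹ • (α 0 • S.fc i ω +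
    ∑ j : Fin p, α j.succ • S.fj i v j ω)‖ ≤ S.κ * (S.b * R)
  n : ∀ i v f, ‖S.Ap i (nt p S.T f) (S.cp i ω, S.vx i v ω) - (S.vx i v ω -
    S.T • ∑ j : Fin p, cA f j • S.fj i v j ω)‖ ≤ R
  cf : ∀ i (e : Fin p), ‖S.vx i (some (false, e)) ω - (S.gp i ω - S.b • ∑ j : Fin p, cA e j •
    S.bb i ω (S.vx i (some (true, j)) ω))‖ ≤
      C1 * S.b ^ 2 * (S.b ^ (p - 1) * (‖S.gp i ω‖ + ‖ω.2.2‖))
  ct : ∀ i (e : Fin p), ‖S.vx i (some (true, e)) ω - (ω.2.2 + S.b • ∑ j : Fin p, cA e j •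
    S.bb i ω (S.vx i (some (false, j)) ω))‖ ≤
      C1 * S.b ^ 2 * (S.b ^ (p - 1) * (‖S.gp i ω‖ + ‖ω.2.2‖))
  cb : ∀ i, ‖S.bb i ω (S.bb i ω (S.gp i ω)) + (S.b⁻¹) ^ 2 •
    (β 0 • S.gp i ω + ∑ e : Fin p, β e.succ • S.vx i (some (false, e)) ω)‖ ≤
      C1 * (S.b ^ (p - 1) * (‖S.gp i ω‖ + ‖ω.2.2‖))
  M : ∀ i, S.b ^ (p - 1) * (‖S.gp i ω‖ + ‖ω.2.2‖) ≤ R

section asm

variable {p : ℕ} {S : Fam d p} {cA : Fin p → Fin p → ℝ} {α β : Fin (p + 1) → ℝ}
  {K C1 R : ℝ} {ω : Eu d × Eu d × Eu d}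

theorem ur_xj (i : Fin p) (v : Vv p) (j : Fin p) :
    S.xe (Par.mk cA α β S.T S.b S.κ S.lam) ω (Sum.inr (Par.nj i v j)) = S.fj i v j ω := rfl

theorem ur_xc (i : Fin p) :
    S.xe (Par.mk cA α β S.T S.b S.κ S.lam) ω (Sum.inr (Par.nc i)) = S.fc i ω := rfl

theorem ur_xn : S.xe (Par.mk cA α β S.T S.b S.κ S.lam) ω (Sum.inr none) = Fv S.w (1, S.Y) := rfl

theorem ur_x0 : S.xe (Par.mk cA α β S.T S.b S.κ S.lam) ω (Sum.inl 0) = S.Y := rfl

theorem ur_x1 : S.xe (Par.mk cA α β S.T S.b S.κ S.lam) ω (Sum.inl 1) = ω.1 := rfl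

theorem ur_x2 : S.xe (Par.mk cA α β S.T S.b S.κ S.lam) ω (Sum.inl 2) = ω.2.1 := rfl

theorem ur_x3 : S.xe (Par.mk cA α β S.T S.b S.κ S.lam) ω (Sum.inl 3) = ω.2.2 := rfl

theorem ur_eJ (H : S.Hyp cA α β K C1 R ω) (i : Fin p) (v : Vv p) :
    ‖S.κ • S.bb i ω (S.vx i v ω) - ev ((Par.mk cA α β S.T S.b S.κ S.lam).JV i v)
      (S.xe (Par.mk cA α β S.T S.b S.κ S.lam) ω)‖ ≤ S.κ * (S.b * R) := by
  rw [ur_ev_JV, ur_xc]
  simp only [ur_xj]
  exact H.j i v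

theorem ur_eB (hS : S.Ok) (H : S.Hyp cA α β K C1 R ω) (i : Fin p) (v : Vv p) :
    ‖S.bb i ω (S.vx i v ω) - S.κ⁻¹ • ev ((Par.mk cA α β S.T S.b S.κ S.lam).JV i v)
      (S.xe (Par.mk cA α β S.T S.b S.κ S.lam) ω)‖ ≤ R :=
  (ur_abs_B hS.κ0 (ur_eJ H i v)).trans
    (mul_le_of_le_one_left H.R0 (hS.b1.trans (by norm_num)))

theorem ur_eL (hS : S.Ok) (H : S.Hyp cA α β K C1 R ω) (i : Fin p) :
    ‖S.bb i ω (S.bb i ω (S.gp i ω)) - ev ((Par.mk cA α β S.T S.b S.κ S.lam).LBB i)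
      (S.xe (Par.mk cA α β S.T S.b S.κ S.lam) ω)‖ ≤
      (C1 * (1 + p * K) + p ^ 2 * K ^ 2) * R := by
  rw [ur_ev_LBB]
  exact ur_lbb hS.b0 hS.κ0 H.K0 H.C0 H.βs H.βK H.AK (H.cb i) (H.cf i)
      (fun j => ur_eJ H i (some (true, j))) (H.M i)

theorem ur_ea (hS : S.Ok) (H : S.Hyp cA α β K C1 R ω) (hT1 : S.T ≤ 1) (i : Fin p) :
    ‖S.A (nt p S.T i) (S.Y, (ω.1, ω.2.1)) - ev ((Par.mk cA α β S.T S.b S.κ S.lam).La i)
      (S.xe (Par.mk cA α β S.T S.b S.κ S.lam) ω)‖ ≤ (1 + 2 * (p * K)) * R := by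
  rw [ur_ev_La, ur_x1]
  simp only [ur_xc]
  have h7 : |S.lam * S.κ * S.T| ≤ 2 := by
    rw [abs_mul, abs_mul, abs_of_pos hS.κ0, abs_of_pos hS.T0]
    have := hS.hlam
    have h8 : 0 ≤ |S.lam| * S.κ := mul_nonneg (abs_nonneg _) hS.κ0.le
    (refine le_of_not_gt fun hng_ => ?_; linarith only [mul_nonneg (sub_nonneg.2 hT1) (le_of_lt (sub_pos.2 hng_)), mul_pos (sub_pos.2 hng_) hS.T0, mul_nonneg (sub_nonneg.2 hT1) h8, mul_nonneg (sub_nonneg.2 this) (sub_nonneg.2 this), mul_nonneg (sub_nonneg.2 this) h8])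
  exact ur_abs_a (H.a i) le_rfl (fun j => ur_eB hS H j none) hS.κ0 h7 H.K0 (H.AK i)

theorem ur_eg (hS : S.Ok) (H : S.Hyp cA α β K C1 R ω) (hT1 : S.T ≤ 1) (i : Fin p) :
    ‖S.gp i ω - (ω.2.1 - S.lam • (S.fc i ω - Fv S.w (1, S.Y))
      + ev ((Par.mk cA α β S.T S.b S.κ S.lam).Lq i)
      (S.xe (Par.mk cA α β S.T S.b S.κ S.lam) ω))‖ ≤
      (S.lam * S.κ) ^ 2 * (1 + p * K * (C1 * (1 + p * K) + p ^ 2 * K ^ 2)) * R := by
  rw [ur_ev_Lq]
  obtain ⟨r, hr, hg⟩ := H.g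
  exact ur_abs_g (hg i) hr (fun j => ur_eL hS H j) (sq_nonneg _) hS.T0.le hT1 H.K0 (fun j => by
    rw [abs_mul, abs_of_pos (H.nt0 j)]
    exact (mul_le_of_le_one_right (abs_nonneg _) (H.nt1 j)).trans (H.AK i j))

theorem ur_C2 (H : S.Hyp cA α β K C1 R ω) :
    0 ≤ 1 + p * K * (C1 * (1 + p * K) + p ^ 2 * K ^ 2) := by
  have := H.K0
  have := H.C0
  positivity

theorem ur_eg' (hS : S.Ok) (H : S.Hyp cA α β K C1 R ω) (hT1 : S.T ≤ 1) (i : Fin p) :
    ‖S.gp i ω - ev ((Par.mk cA α β S.T S.b S.κ S.lam).Lg i)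
      (S.xe (Par.mk cA α β S.T S.b S.κ S.lam) ω)‖ ≤
      4 * (1 + p * K * (C1 * (1 + p * K) + p ^ 2 * K ^ 2)) * R := by
  rw [ur_ev_Lg, ur_x2, ur_xc, ur_xn]
  refine (ur_eg hS H hT1 i).trans ?_
  have hlk : (S.lam * S.κ) ^ 2 ≤ 4 := by
    have h1 := hS.hlam
    have h2 : 0 ≤ |S.lam| * S.κ := mul_nonneg (abs_nonneg _) hS.κ0.le
    have h3 : (S.lam * S.κ) ^ 2 = (|S.lam| * S.κ) ^ 2 := by
      rw [mul_pow, mul_pow, sq_abs]
    rw [h3]
    linarith only [mul_nonneg (sub_nonneg.2 h1) h2, mul_nonneg (sub_nonneg.2 h1) (sub_nonneg.2 h1)]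
  exact mul_le_mul_of_nonneg_right (mul_le_mul_of_nonneg_right hlk (ur_C2 H)) H.R0

theorem ur_cs (hS : S.Ok) (H : S.Hyp cA α β K C1 R ω) (i : Fin p) :
    C1 * S.b ^ 2 * (S.b ^ (p - 1) * (‖S.gp i ω‖ + ‖ω.2.2‖)) ≤ C1 * R := by
  have hb := hS.b0
  have hb1 : S.b ≤ 1 := hS.b1.trans (by norm_num)
  have h1 : S.b ^ 2 ≤ 1 := pow_le_one₀ hb.le hb1
  have h2 := H.M i
  have h3 : 0 ≤ S.b ^ (p - 1) * (‖S.gp i ω‖ + ‖ω.2.2‖) := by (clear * - hb; positivity)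
  rw [mul_assoc]
  exact mul_le_mul_of_nonneg_left ((mul_le_of_le_one_left h3 h1).trans h2) H.C0

theorem ur_eV (hS : S.Ok) (H : S.Hyp cA α β K C1 R ω) (hT1 : S.T ≤ 1) (i : Fin p) (v : Vv p) :
    ‖S.vx i v ω - ev ((Par.mk cA α β S.T S.b S.κ S.lam).Lv i v)
      (S.xe (Par.mk cA α β S.T S.b S.κ S.lam) ω)‖ ≤
      (C1 + 4 * (1 + p * K * (C1 * (1 + p * K) + p ^ 2 * K ^ 2)) + p * K) * R := by
  have hC5R : (C1 + 4 * (1 + p * K * (C1 * (1 + p * K) + p ^ 2 * K ^ 2)) + p * K) * R =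
      C1 * R + 4 * (1 + p * K * (C1 * (1 + p * K) + p ^ 2 * K ^ 2)) * R + p * (K * R) := by ring
  have hK := H.K0
  have hC0 := H.C0
  have hR0 := H.R0
  have n1 : 0 ≤ C1 * R := by positivity
  have n2 : 0 ≤ 4 * (1 + p * K * (C1 * (1 + p * K) + p ^ 2 * K ^ 2)) * R := by
    have := ur_C2 H
    (clear * - hK hC0 hR0; positivity)
  have n3 : 0 ≤ p * (K * R) := by (clear * - hK hR0; positivity)
  have hb := hS.b0
  have hb1 : S.b ≤ 1 := hS.b1.trans (by norm_num)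
  rw [hC5R]
  rcases v with _ | ⟨_ | _, e⟩
  · have h2 : ‖S.vx i none ω - ev ((Par.mk cA α β S.T S.b S.κ S.lam).Lv i none)
      (S.xe (Par.mk cA α β S.T S.b S.κ S.lam) ω)‖ ≤
      4 * (1 + p * K * (C1 * (1 + p * K) + p ^ 2 * K ^ 2)) * R := ur_eg' hS H hT1 i
    linarith only [n3, n1, h2]
  · rw [ur_ev_Lvf]
    have h := H.cf i e
    rw [sub_eq_add_neg (S.gp i ω), ← neg_smul] at h
    exact ur_abs_v (h.trans (ur_cs hS H i)) (ur_eg' hS H hT1 i)
      (fun j => ur_eB hS H i (some (true, j))) (by rw [abs_neg, abs_of_pos hb]; exact hb1) H.K0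
      (H.AK e)
  · rw [ur_ev_Lvt, ur_x3]
    have h8 := ur_abs_v (g' := ω.2.2) (e2 := 0) ((H.ct i e).trans (ur_cs hS H i)) (by simp)
      (fun j => ur_eB hS H i (some (false, j))) (by rw [abs_of_pos hb]; exact hb1) H.K0
      (H.AK e)
    refine h8.trans ?_
    linarith only [n2]

theorem ur_ec (hS : S.Ok) (H : S.Hyp cA α β K C1 R ω) (hT1 : S.T ≤ 1) (i : Fin p) :
    ‖S.cp i ω - (S.Y + nt p S.T i • ev ((Par.mk cA α β S.T S.b S.κ S.lam).La i)
      (S.xe (Par.mk cA α β S.T S.b S.κ S.lam) ω))‖ ≤ (1 + 2 * (p * K)) * R := by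
  unfold Fam.cp
  rw [add_sub_add_left_eq_sub, ← smul_sub, norm_smul, Real.norm_eq_abs, abs_of_pos (H.nt0 i)]
  exact (mul_le_of_le_one_left (norm_nonneg _) (H.nt1 i)).trans (ur_ea hS H hT1 i)

theorem ur_en (hS : S.Ok) (H : S.Hyp cA α β K C1 R ω) (hT1 : S.T ≤ 1) (n : Nd p) :
    ‖S.Xn n ω - ev ((Par.mk cA α β S.T S.b S.κ S.lam).Ln n)
      (S.xe (Par.mk cA α β S.T S.b S.κ S.lam) ω)‖ ≤
      (1 + 2 * (p * K)) * R + (R +
      (C1 + 4 * (1 + p * K * (C1 * (1 + p * K) + p ^ 2 * K ^ 2)) + p * K) * R) := by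
  have hK := H.K0
  have hC0 := H.C0
  have hR0 := H.R0
  have h1 := ur_C2 H
  have n1 : 0 ≤ (1 + 2 * (p * K)) * R := by (clear * - hK hR0; positivity)
  have n2 : 0 ≤ (C1 + 4 * (1 + p * K * (C1 * (1 + p * K) + p ^ 2 * K ^ 2)) + p * K) * R := by
    (clear * - hC0 hK hR0; positivity)
  rcases n with _ | (i | ⟨i, v, f⟩)
  · have h1 : ev ((Par.mk cA α β S.T S.b S.κ S.lam).Ln none)
        (S.xe (Par.mk cA α β S.T S.b S.κ S.lam) ω) = S.Y := by
      have h0 : (Par.mk cA α β S.T S.b S.κ S.lam).Ln none = ef (Sum.inl 0) := rfl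
      rw [h0, ur_ev_ef, ur_x0]
    have h2 : S.Xn none ω = S.Y := rfl
    rw [h1, h2, sub_self, norm_zero]
    linarith only [n1, hR0, n2]
  · rw [ur_ev_Ln1, ur_x0]
    have h5 : ‖S.Xn (some (Sum.inl i)) ω - (S.Y + nt p S.T i •
      ev ((Par.mk cA α β S.T S.b S.κ S.lam).La i)
        (S.xe (Par.mk cA α β S.T S.b S.κ S.lam) ω))‖ ≤ (1 + 2 * (p * K)) * R :=
      ur_ec hS H hT1 i
    refine h5.trans ?_
    linarith only [n2, hR0]
  · rw [ur_ev_Ln2, ur_x0]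
    simp only [ur_xj]
    exact ur_abs_n (ur_ec hS H hT1 i) (H.n i v f) (ur_eV hS H hT1 i v) (H.nt0 f).le (H.nt1 f)

end asm

/-- The elementary consequences of the definition of the residual. -/
theorem ur_R {p : ℕ} (S : Fam d p) (hb : 0 < S.b) (R2 : Eu d × Eu d → ℝ)
    (R3 : Fin p → Eu d × Eu d → ℝ) (hR2 : ∀ z, 0 ≤ R2 z) (hR3 : ∀ i q, 0 ≤ R3 i q)
    (ω : Eu d × Eu d × Eu d) :
    R2 (ω.1, ω.2.1) ≤ S.Rtot R2 R3 ω ∧
    (∀ i v, R3 i (S.cp i ω, S.vx i v ω) ≤ S.b * S.Rtot R2 R3 ω) ∧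
    ∀ i, S.b ^ (p - 1) * (‖S.gp i ω‖ + ‖ω.2.2‖) ≤ S.Rtot R2 R3 ω := by
  have hsum1 : 0 ≤ ∑ i, ∑ v : Vv p, R3 i (S.cp i ω, S.vx i v ω) :=
    Finset.sum_nonneg fun i _ => Finset.sum_nonneg fun v _ => hR3 _ _
  have hsum2 : 0 ≤ ∑ i : Fin p, (‖S.gp i ω‖ + ‖ω.2.2‖) :=
    Finset.sum_nonneg fun i _ => by (clear * -; positivity)
  have ht1 : 0 ≤ S.b⁻¹ * ∑ i, ∑ v : Vv p, R3 i (S.cp i ω, S.vx i v ω) :=
    mul_nonneg (inv_pos.2 hb).le hsum1
  have ht2 : 0 ≤ S.b ^ (p - 1) * ∑ i : Fin p, (‖S.gp i ω‖ + ‖ω.2.2‖) :=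
    mul_nonneg (pow_pos hb _).le hsum2
  have h0 := hR2 (ω.1, ω.2.1)
  unfold Fam.Rtot
  refine ⟨by linarith only [ht2, ht1], ?_, ?_⟩
  · intro i v
    have h1 : R3 i (S.cp i ω, S.vx i v ω) ≤ ∑ v : Vv p, R3 i (S.cp i ω, S.vx i v ω) :=
      Finset.single_le_sum (f := fun v : Vv p => R3 i (S.cp i ω, S.vx i v ω))
        (fun v _ => hR3 _ _) (Finset.mem_univ v)
    have h2 : ∑ v : Vv p, R3 i (S.cp i ω, S.vx i v ω) ≤
        ∑ i, ∑ v : Vv p, R3 i (S.cp i ω, S.vx i v ω) :=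
      Finset.single_le_sum (f := fun i => ∑ v : Vv p, R3 i (S.cp i ω, S.vx i v ω))
        (fun i _ => Finset.sum_nonneg fun v _ => hR3 _ _) (Finset.mem_univ i)
    refine (h1.trans h2).trans ?_
    rw [← inv_mul_le_iff₀ hb]
    linarith only [h0, ht2]
  · intro i
    have h1 : ‖S.gp i ω‖ + ‖ω.2.2‖ ≤ ∑ i : Fin p, (‖S.gp i ω‖ + ‖ω.2.2‖) :=
      Finset.single_le_sum (f := fun i : Fin p => ‖S.gp i ω‖ + ‖ω.2.2‖)
        (fun i _ => by (clear * -; positivity)) (Finset.mem_univ i)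
    have h2 : S.b ^ (p - 1) * (‖S.gp i ω‖ + ‖ω.2.2‖) ≤
        S.b ^ (p - 1) * ∑ i : Fin p, (‖S.gp i ω‖ + ‖ω.2.2‖) :=
      mul_le_mul_of_nonneg_left h1 (pow_pos hb _).le
    linarith only [h0, ht1, h2]

theorem unit_res {p : ℕ} (hp : 2 ≤ p) {cA : Fin p → Fin p → ℝ} {α β : Fin (p + 1) → ℝ} {K : ℝ}
    (hI : InterpData p cA α β K) : ∃ C, 1 ≤ C ∧ ∀ (d : ℕ) (S : Fam d p), S.Ok →
      Carrier d S.Cg S.CP → ∀ (R2 : Eu d × Eu d → ℝ) (R3 : Fin p → Eu d × Eu d → ℝ),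
      (∀ z, 0 ≤ R2 z) → (∀ i q, 0 ≤ R3 i q) →
      -- conclusion of `lam_nodes`
      (∀ z : Eu d × Eu d, ∀ i : Fin p,
          ‖S.A (nt p S.T i) (S.Y, z) - (z.1
            - S.T • ∑ j, cA i j • Fv S.w (1 - nt p S.T j ^ 2,
                S.Y + nt p S.T j • S.A (nt p S.T j) (S.Y, z))
            + (S.lam * S.κ * S.T) • ∑ j, cA i j •
              B0L S.κ S.w (1 - nt p S.T j ^ 2, S.Y + nt p S.T j • S.A (nt p S.T j) (S.Y, z))
                (S.Q (nt p S.T j) (S.Y, z)))‖ ≤ R2 z ∧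
          ‖S.Q (nt p S.T i) (S.Y, z) - (z.2
            - S.lam • (Fv S.w (1 - nt p S.T i ^ 2,
                S.Y + nt p S.T i • S.A (nt p S.T i) (S.Y, z)) - Fv S.w (1, S.Y))
            + ((S.lam * S.κ) ^ 2 * S.T) • ∑ j, (cA i j * nt p S.T j) •
              B0L S.κ S.w (1 - nt p S.T j ^ 2, S.Y + nt p S.T j • S.A (nt p S.T j) (S.Y, z))
                (B0L S.κ S.w (1 - nt p S.T j ^ 2, S.Y + nt p S.T j • S.A (nt p S.T j) (S.Y, z))
                  (S.Q (nt p S.T j) (S.Y, z))))‖ ≤ (S.lam * S.κ) ^ 2 * R2 z) →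
      -- conclusion of `jvp_nodes`
      (∀ i, ∀ c v : Eu d,
          ‖S.κ • B0L S.κ S.w (1 - nt p S.T i ^ 2, c) v
            - S.T⁻¹ • (α 0 • Fv S.w (1 - nt p S.T i ^ 2, c) + ∑ j : Fin p, α j.succ •
            Fv S.w (1 - nt p S.T i ^ 2 - nt p S.T j ^ 2,
              c + nt p S.T j • S.Ap i (nt p S.T j) (c, v)))‖ ≤ S.κ * R3 i (c, v) ∧
          ∀ f : Fin p, ‖S.Ap i (nt p S.T f) (c, v) - (v - S.T • ∑ j : Fin p, cA f j •
            Fv S.w (1 - nt p S.T i ^ 2 - nt p S.T j ^ 2,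
              c + nt p S.T j • S.Ap i (nt p S.T j) (c, v)))‖ ≤ S.κ * R3 i (c, v)) →
      ∀ ω : Eu d × Eu d × Eu d,
        (∀ n, ‖S.Xn n ω - ev ((Par.mk cA α β S.T S.b S.κ S.lam).Ln n)
            (S.xe (Par.mk cA α β S.T S.b S.κ S.lam) ω)‖ ≤ C * S.Rtot R2 R3 ω) ∧
        ∀ i, ‖S.gp i ω - (ω.2.1
            - S.lam • (Fv S.w (1 - nt p S.T i ^ 2, S.cp i ω) - Fv S.w (1, S.Y))
            + ev ((Par.mk cA α β S.T S.b S.κ S.lam).Lq i)
              (S.xe (Par.mk cA α β S.T S.b S.κ S.lam) ω))‖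
          ≤ (S.lam * S.κ) ^ 2 * C * S.Rtot R2 R3 ω := by
  obtain ⟨C1, hC1, hcar⟩ := carrier_nodes hp hI
  have hK := hI.K0
  have hC2 : 0 ≤ 1 + p * K * (C1 * (1 + p * K) + p ^ 2 * K ^ 2) := by (clear * - hp hK hC1; positivity)
  refine ⟨(1 + 2 * (p * K)) + (1 +
    (C1 + 4 * (1 + p * K * (C1 * (1 + p * K) + p ^ 2 * K ^ 2)) + p * K)), ?_, ?_⟩
  · have h1 : 0 ≤ p * K := by (clear * - hp hK; positivity)
    linarith only [hC2, hC1, h1]
  intro d S hS hC R2 R3 hR2 hR3 hlam hjvp ω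
  have hκ := hS.κ0
  have hκ1 := hS.κ1
  have hT := hS.T0
  have hT1 : S.T ≤ 1 := by (refine le_of_not_gt fun hng_ => ?_; linarith only [mul_pos (sub_pos.2 hng_) hS.T0, mul_pos hκ (sub_pos.2 hng_), mul_nonneg (sub_nonneg.2 hκ1) (le_of_lt (sub_pos.2 hng_)), mul_nonneg (le_of_lt hκ) (sub_nonneg.2 hS.T1), mul_nonneg (sub_nonneg.2 hκ1) (sub_nonneg.2 hS.T1)])
  have hb := hS.b0
  have hb1 : S.b ≤ 1 := hS.b1.trans (by norm_num)
  have hlev : ∀ i, 0 < 1 - nt p S.T i ^ 2 := by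
    intro i
    have h1 := (ur_nt hp hT i).1
    have h2 := (ur_nt hp hT i).2
    (refine lt_of_not_ge fun hng_ => ?_; linarith only [mul_nonneg (sub_nonneg.2 hb1) (sub_nonneg.2 hng_), mul_nonneg (le_of_lt hb) (sub_nonneg.2 hng_), mul_nonneg (sub_nonneg.2 h2) (sub_nonneg.2 h2), mul_nonneg (le_of_lt hb) (sub_nonneg.2 hS.T1), mul_nonneg (sub_nonneg.2 hb1) (sub_nonneg.2 hS.T1), mul_nonneg (le_of_lt h1) (sub_nonneg.2 h2)])
  obtain ⟨hA, hB, hD⟩ := ur_R S hb R2 R3 hR2 hR3 ω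
  have hR0 : 0 ≤ S.Rtot R2 R3 ω := (hR2 _).trans hA
  have hbp : S.b ^ (p + 1) = S.b ^ 2 * S.b ^ (p - 1) := by
    rw [← pow_add]
    congr 1
    omega
  have hc := fun i => hcar d S.Cg S.CP hC (S.bb i ω)
    (ur_B0L_symm hS.heat (p := (1 - nt p S.T i ^ 2, S.cp i ω)) (hlev i))
    (ur_B0L_norm hS.heat hκ (p := (1 - nt p S.T i ^ 2, S.cp i ω)) (hlev i))
    S.b hb hb1 (S.gp i ω, ω.2.2)
  have H : S.Hyp cA α β K C1 (S.Rtot R2 R3 ω) ω :=
    { K0 := hK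
      C0 := hC1
      R0 := hR0
      βs := hI.β_sum
      βK := hI.β_le
      AK := hI.A_le
      nt0 := fun i => (ur_nt hp hT i).1
      nt1 := fun i => (ur_nt hp hT i).2.trans hT1
      a := fun i => ((hlam (ω.1, ω.2.1) i).1).trans hA
      g := ⟨R2 (ω.1, ω.2.1), hA, fun i => (hlam (ω.1, ω.2.1) i).2⟩
      j := fun i v => ((hjvp i (S.cp i ω) (S.vx i v ω)).1).trans
        (mul_le_mul_of_nonneg_left (hB i v) hκ.le)
      n := fun i v f => ((hjvp i (S.cp i ω) (S.vx i v ω)).2 f).trans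
        ((mul_le_of_le_one_left (hR3 _ _) hκ1).trans ((hB i v).trans
          (mul_le_of_le_one_left hR0 hb1)))
      cf := fun i e => ((hc i).1 e).trans (le_of_eq (by rw [hbp]; ring))
      ct := fun i e => ((hc i).2.1 e).trans (le_of_eq (by rw [hbp]; ring))
      cb := fun i => ((hc i).2.2).trans (le_of_eq (by ring))
      M := hD }
  refine ⟨fun n => (ur_en hS H hT1 n).trans (le_of_eq (by ring)), fun i => ?_⟩
  refine (ur_eg hS H hT1 i).trans ?_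
  have h1 : 0 ≤ p * K := by (clear * - hp hK; positivity)
  have h3 : 1 + p * K * (C1 * (1 + p * K) + p ^ 2 * K ^ 2) ≤ (1 + 2 * (p * K)) + (1 +
    (C1 + 4 * (1 + p * K * (C1 * (1 + p * K) + p ^ 2 * K ^ 2)) + p * K)) := by linarith only [hC2, hC1, h1]
  exact mul_le_mul_of_nonneg_right (mul_le_mul_of_nonneg_left h3 (sq_nonneg _)) hR0

end Vale.Agent.P347.Z

end
end

section

/-! The content of this module is in `UnitRes`. -/
end

section

/-! P347-Z-D2. The class `Bd` of tensor fields all of whose material derivatives are bounded in all Sobolev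
norms is stable under gradient, divergence and multipliers, with constants depending only on the
constants.

PROOF. Truncated statement `BdM M C u : ∀ m ≤ M, ∀ n, ∀ τ ∈ IT, HB D τ n (C m n) (DtT^[m] u)`.
By induction on `M`, for the three operators `gradT`, `divT`, `TB B` (all `B` with `MB w CB B`) simultaneously:
`∀ C, ∃ C', ∀ D u, BdM M C u → BdM M C' (O u)`.
`M = 0`: `HB` of `gradT` is immediate, `HB_divT` (with `F1 = κ B0`, `MB_B0`), `HB_TB`.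
`M → M+1`: `DtT^[m+1] (O u) = DtT^[m] (DtT (O u))` and `DtT (O u)` is given by the commutation identities
(`DtT_gradT`, `DtT_divT`, `DtT_TB`) as a sum of operators applied to `DtT u` (which satisfies `BdM M` with
shifted constants) or to `u` (which satisfies `BdM M`), compositions of `gradT, divT, TB, TM, mulT`; by the
induction hypothesis every term is `BdM M`. (`TM`, `mulT`, `addT`, `smT` are easy: `DtT_TM`, `DtT_mulT`; `TM M`
is also `TB` of a constant multiplier.) The multipliers `Dout B`, `Din B`, `PM B` are `MB` with shifted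
constants, `amp`, `ampL` by `MBn_amp`, `MBn_rei`.
The identities hold at times in `JT`, so use `HB.congr` (and that `DtT` respects equality on `JT`). -/

open MeasureTheory Filter Module Set
open scoped ENNReal NNReal

namespace Vale.Agent.P347.Z

/-- Nonnegative constants. -/
def NN (C : ℕ → ℕ → ℝ) : Prop := ∀ m n, 0 ≤ C m n

/-! ### The truncated class -/

section bdm

variable {d : ℕ} {D : Dat d} {I K : Type} [Fintype I] [Fintype K]

/-- The truncated class. -/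
def BdM (M : ℕ) (D : Dat d) (C : ℕ → ℕ → ℝ) {I : Type} [Fintype I] (u : TF d I) : Prop :=
  (∀ i, CG JT (u i)) ∧ ∀ m ≤ M, ∀ n, ∀ τ ∈ IT, HB D τ n (C m n) ((D.DtT)^[m] u)

/-- Shifted constants. -/
def bdo_sh (C : ℕ → ℕ → ℝ) : ℕ → ℕ → ℝ := fun m n => C (m + 1) n

/-- Extended constants. -/
def bdo_con (c : ℕ → ℝ) (C : ℕ → ℕ → ℝ) : ℕ → ℕ → ℝ :=
  fun m n => if m = 0 then c n else C (m - 1) n

theorem bdo_nn_sh {C : ℕ → ℕ → ℝ} (h : NN C) : NN (bdo_sh C) := fun m n => h (m + 1) n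

theorem bdo_nn_con {c : ℕ → ℝ} {C : ℕ → ℕ → ℝ} (hc : ∀ n, 0 ≤ c n) (h : NN C) :
    NN (bdo_con c C) := by
  intro m n
  unfold bdo_con
  split_ifs
  · exact hc n
  · exact h _ n

theorem bdo_nn_add {C C' : ℕ → ℕ → ℝ} (h : NN C) (h' : NN C') :
    NN (fun m n => C m n + C' m n) := fun m n => add_nonneg (h m n) (h' m n)

theorem bdo_isOpen_JT : IsOpen JT := isOpen_Ioo

theorem bdo_IT_JT {τ : ℝ} (h : τ ∈ IT) : τ ∈ JT := by
  unfold IT at h
  unfold JT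
  constructor
  · linarith [h.1]
  · linarith [h.2]

omit [Fintype I] in
theorem bdo_DtT_congr {u v : TF d I} (h : ∀ i (p : ZS d), p.1 ∈ JT → u i p = v i p) (i : I)
    (p : ZS d) (hp : p.1 ∈ JT) : D.DtT u i p = D.DtT v i p := by
  have h1 : fderiv ℝ (u i) p = fderiv ℝ (v i) p :=
    cgl_fderiv_congr (W := Eu d × Eu d) bdo_isOpen_JT (fun q hq => h i q hq.1) ⟨hp, trivial⟩
  simp only [Dat.DtT, Dat.Dt, dtau, dz, h1]

omit [Fintype I] in
theorem bdo_iter_congr {u v : TF d I} (h : ∀ i (p : ZS d), p.1 ∈ JT → u i p = v i p) (k : ℕ)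
    (i : I) (p : ZS d) (hp : p.1 ∈ JT) : (D.DtT)^[k] u i p = (D.DtT)^[k] v i p := by
  induction k generalizing u v with
  | zero => exact h i p hp
  | succ k ih =>
    rw [Function.iterate_succ_apply, Function.iterate_succ_apply]
    exact ih fun i p hp => bdo_DtT_congr h i p hp

omit [Fintype I] in
theorem bdo_DtT_cg (hD : D.Ok) {u : TF d I} (hu : ∀ i, CG JT (u i)) (i : I) :
    CG JT (D.DtT u i) := Dt_cg hD (hu i)

omit [Fintype I] in
theorem bdo_iter_cg (hD : D.Ok) {u : TF d I} (hu : ∀ i, CG JT (u i)) (k : ℕ) (i : I) :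
    CG JT ((D.DtT)^[k] u i) := by
  induction k generalizing u with
  | zero => exact hu i
  | succ k ih =>
    rw [Function.iterate_succ_apply]
    exact ih fun i => bdo_DtT_cg hD hu i

theorem BdM.mono {M M' : ℕ} {C : ℕ → ℕ → ℝ} {u : TF d I} (h : BdM M D C u) (hM : M' ≤ M) :
    BdM M' D C u := ⟨h.1, fun m hm => h.2 m (hm.trans hM)⟩

theorem BdM.monoC {M : ℕ} {C C' : ℕ → ℕ → ℝ} {u : TF d I} (h : BdM M D C u) (hC : NN C)
    (hCC : ∀ m n, C m n ≤ C' m n) : BdM M D C' u :=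
  ⟨h.1, fun m hm n τ hτ => (h.2 m hm n τ hτ).mono (hC m n) (hCC m n)⟩

theorem BdM.zero {M : ℕ} {C : ℕ → ℕ → ℝ} {u : TF d I} (h : BdM M D C u) (n : ℕ) (τ : ℝ)
    (hτ : τ ∈ IT) : HB D τ n (C 0 n) u := h.2 0 (Nat.zero_le _) n τ hτ

theorem BdM.shift (hD : D.Ok) {M : ℕ} {C : ℕ → ℕ → ℝ} {u : TF d I} (h : BdM (M + 1) D C u) :
    BdM M D (bdo_sh C) (D.DtT u) := by
  refine ⟨fun i => bdo_DtT_cg hD h.1 i, fun m hm n τ hτ => ?_⟩
  have h1 := h.2 (m + 1) (by omega) n τ hτ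
  rwa [Function.iterate_succ_apply] at h1

theorem BdM.step {M : ℕ} {c : ℕ → ℝ} {C : ℕ → ℕ → ℝ} {u v : TF d I} (cu : ∀ i, CG JT (u i))
    (h0 : ∀ n, ∀ τ ∈ IT, HB D τ n (c n) u) (hv : BdM M D C v)
    (huv : ∀ i (p : ZS d), p.1 ∈ JT → D.DtT u i p = v i p) : BdM (M + 1) D (bdo_con c C) u := by
  refine ⟨cu, fun m hm n τ hτ => ?_⟩
  cases m with
  | zero => simpa [bdo_con] using h0 n τ hτ
  | succ m =>
    have h1 := hv.2 m (by omega) n τ hτ
    rw [Function.iterate_succ_apply]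
    have h2 : bdo_con c C (m + 1) n = C m n := by simp only [bdo_con, Nat.add_eq_zero_iff, one_ne_zero, and_false, ↓reduceIte, add_tsub_cancel_right]
    rw [h2]
    exact h1.congr (bdo_IT_JT hτ) fun i p hp => bdo_iter_congr huv m i p hp

theorem BdM.base {c : ℕ → ℝ} {C : ℕ → ℕ → ℝ} {u : TF d I} (cu : ∀ i, CG JT (u i))
    (h0 : ∀ n, ∀ τ ∈ IT, HB D τ n (c n) u) (hC : ∀ n, C 0 n = c n) : BdM 0 D C u := by
  refine ⟨cu, fun m hm n τ hτ => ?_⟩
  obtain rfl : m = 0 := by omega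
  rw [hC]
  exact h0 n τ hτ

/-! ### Elementary operators -/

omit [Fintype I] in
theorem bdo_diffAt {f : ZS d → ℝ} (hf : CG JT f) {p : ZS d} (hp : p.1 ∈ JT) :
    DifferentiableAt ℝ f p :=
  hf.diff.differentiableAt ((bdo_isOpen_JT.prod isOpen_univ).mem_nhds ⟨hp, trivial⟩)

omit [Fintype I] in
theorem bdo_DtT_add {u v : TF d I} (hu : ∀ i, CG JT (u i)) (hv : ∀ i, CG JT (v i)) (i : I)
    (p : ZS d) (hp : p.1 ∈ JT) :
    D.DtT (addT u v) i p = addT (D.DtT u) (D.DtT v) i p := by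
  have h1 : fderiv ℝ (addT u v i) p = fderiv ℝ (u i) p + fderiv ℝ (v i) p :=
    fderiv_fun_add (bdo_diffAt (hu i) hp) (bdo_diffAt (hv i) hp)
  simp only [Dat.DtT, Dat.Dt, dtau, dz, addT] at h1 ⊢
  simp only [h1, _root_.add_apply, mul_add, Finset.sum_add_distrib]
  ring

omit [Fintype I] in
theorem bdo_DtT_sm {u : TF d I} (hu : ∀ i, CG JT (u i)) (a : ℝ) (i : I)
    (p : ZS d) (hp : p.1 ∈ JT) :
    D.DtT (smT a u) i p = smT a (D.DtT u) i p := by
  have h1 : fderiv ℝ (smT a u i) p = a • fderiv ℝ (u i) p :=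
    fderiv_const_mul (bdo_diffAt (hu i) hp) a
  simp only [Dat.DtT, Dat.Dt, dtau, dz, smT] at h1 ⊢
  simp only [h1, _root_.smul_apply, smul_eq_mul, mul_sub, Finset.mul_sum]
  congr 1
  exact Finset.sum_congr rfl fun k _ => by ring

omit [Fintype I] in
theorem bdo_iter_add (hD : D.Ok) {u v : TF d I} (hu : ∀ i, CG JT (u i)) (hv : ∀ i, CG JT (v i))
    (k : ℕ) (i : I) (p : ZS d) (hp : p.1 ∈ JT) :
    (D.DtT)^[k] (addT u v) i p = addT ((D.DtT)^[k] u) ((D.DtT)^[k] v) i p := by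
  induction k generalizing u v with
  | zero => rfl
  | succ k ih =>
    rw [Function.iterate_succ_apply, Function.iterate_succ_apply, Function.iterate_succ_apply,
      ← ih (fun i => bdo_DtT_cg hD hu i) (fun i => bdo_DtT_cg hD hv i)]
    exact bdo_iter_congr (fun i p hp => bdo_DtT_add hu hv i p hp) k i p hp

omit [Fintype I] in
theorem bdo_iter_sm (hD : D.Ok) {u : TF d I} (hu : ∀ i, CG JT (u i)) (a : ℝ)
    (k : ℕ) (i : I) (p : ZS d) (hp : p.1 ∈ JT) :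
    (D.DtT)^[k] (smT a u) i p = smT a ((D.DtT)^[k] u) i p := by
  induction k generalizing u with
  | zero => rfl
  | succ k ih =>
    rw [Function.iterate_succ_apply, Function.iterate_succ_apply,
      ← ih (fun i => bdo_DtT_cg hD hu i)]
    exact bdo_iter_congr (fun i p hp => bdo_DtT_sm hu a i p hp) k i p hp

omit [Fintype K] in
theorem bdo_iter_TM (hD : D.Ok) (A : K → I → ℝ) {u : TF d I} (hu : ∀ i, CG JT (u i))
    (k : ℕ) (i : K) (p : ZS d) (hp : p.1 ∈ JT) :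
    (D.DtT)^[k] (TM A u) i p = TM A ((D.DtT)^[k] u) i p := by
  induction k generalizing u with
  | zero => rfl
  | succ k ih =>
    rw [Function.iterate_succ_apply, Function.iterate_succ_apply,
      ← ih (fun i => bdo_DtT_cg hD hu i)]
    exact bdo_iter_congr (fun i p hp => DtT_TM hD A hu i hp) k i p hp

omit [Fintype I] in
theorem bdo_add_cg {u v : TF d I} (hu : ∀ i, CG JT (u i)) (hv : ∀ i, CG JT (v i)) (i : I) :
    CG JT (addT u v i) := CG.add bdo_isOpen_JT (hu i) (hv i)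

omit [Fintype I] in
theorem bdo_sm_cg {u : TF d I} (hu : ∀ i, CG JT (u i)) (a : ℝ) (i : I) :
    CG JT (smT a u i) := CG.mul bdo_isOpen_JT (CG.const bdo_isOpen_JT a) (hu i)

omit [Fintype I] in
theorem bdo_mul_cg {u : TF d I} (hu : ∀ i, CG JT (u i)) (i : I) :
    CG JT (mulT u i) :=
  CG.mul bdo_isOpen_JT (CG.lin bdo_isOpen_JT (ContinuousLinearMap.fst ℝ ℝ (Eu d × Eu d))) (hu i)

omit [Fintype I] in
theorem bdo_grad_cg {u : TF d I} (hu : ∀ i, CG JT (u i)) (m : Sl d × I) :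
    CG JT (gradT u m) := (hu m.2).fd _

theorem BdM.add (hD : D.Ok) {M : ℕ} {C C' : ℕ → ℕ → ℝ} (hC : NN C) (hC' : NN C') {u v : TF d I}
    (hu : BdM M D C u) (hv : BdM M D C' v) :
    BdM M D (fun m n => C m n + C' m n) (addT u v) := by
  refine ⟨fun i => bdo_add_cg hu.1 hv.1 i, fun m hm n τ hτ => ?_⟩
  exact (HB_add hD hτ (bdo_iter_cg hD hu.1 m) (bdo_iter_cg hD hv.1 m) (hC m n) (hC' m n)
    (hu.2 m hm n τ hτ) (hv.2 m hm n τ hτ)).congr (bdo_IT_JT hτ)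
    fun i p hp => bdo_iter_add hD hu.1 hv.1 m i p hp

theorem BdM.sm (hD : D.Ok) {M : ℕ} {C : ℕ → ℕ → ℝ} {u : TF d I} (a : ℝ)
    (hu : BdM M D C u) : BdM M D (fun m n => |a| * C m n) (smT a u) := by
  refine ⟨fun i => bdo_sm_cg hu.1 a i, fun m hm n τ hτ => ?_⟩
  exact (HB_smT hD hτ (bdo_iter_cg hD hu.1 m) a (hu.2 m hm n τ hτ)).congr (bdo_IT_JT hτ)
    fun i p hp => bdo_iter_sm hD hu.1 a m i p hp

theorem BdM.tm (hD : D.Ok) {M : ℕ} {C : ℕ → ℕ → ℝ} {u : TF d I} {A : K → I → ℝ} {a : ℝ}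
    (ha : 0 ≤ a) (hA : opM a A) (hu : BdM M D C u) :
    BdM M D (fun m n => a * C m n) (TM A u) := by
  refine ⟨fun i => TM_cg A hu.1 i, fun m hm n τ hτ => ?_⟩
  exact (HB_TM hD hτ (bdo_iter_cg hD hu.1 m) ha hA (hu.2 m hm n τ hτ)).congr (bdo_IT_JT hτ)
    fun i p hp => bdo_iter_TM hD A hu.1 m i p hp

theorem BdM.tm1 (hD : D.Ok) {M : ℕ} {C : ℕ → ℕ → ℝ} {u : TF d I} {A : K → I → ℝ}
    (hA : opM 1 A) (hu : BdM M D C u) : BdM M D C (TM A u) := by
  have h := hu.tm hD zero_le_one hA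
  simpa using h

end bdm

/-! ### Stability statements -/

/-- Stability of `mulT`. -/
theorem bdo_mulT (M : ℕ) (C : ℕ → ℕ → ℝ) (hC : NN C) : ∃ C', NN C' ∧ ∀ (d : ℕ) (D : Dat d),
    D.Ok → ∀ (I : Type) [Fintype I] (u : TF d I), BdM M D C u → BdM M D C' (mulT u) := by
  induction M generalizing C with
  | zero =>
    refine ⟨C, hC, fun d D hD I _ u hu => ?_⟩
    exact BdM.base (c := C 0) (fun i => bdo_mul_cg hu.1 i)
      (fun n τ hτ => HB_mulT hD hτ hu.1 (hC 0 n) (hu.zero n τ hτ)) fun n => rfl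
  | succ M ih =>
    obtain ⟨C1, hC1, h1⟩ := ih (bdo_sh C) (bdo_nn_sh hC)
    refine ⟨bdo_con (C 0) (fun m n => C m n + C1 m n), bdo_nn_con (hC 0) (bdo_nn_add hC hC1),
      fun d D hD I _ u hu => ?_⟩
    refine BdM.step (v := addT u (mulT (D.DtT u))) (fun i => bdo_mul_cg hu.1 i)
      (fun n τ hτ => HB_mulT hD hτ hu.1 (hC 0 n) (hu.zero n τ hτ))
      (BdM.add hD hC hC1 (hu.mono (Nat.le_succ M)) (h1 d D hD I _ (hu.shift hD))) ?_
    exact fun i p hp => DtT_mulT hD hu.1 i hp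

/-! ### Multipliers -/

section mult

variable {d : ℕ} {w : ℝ × Eu d → ℝ} {K I : Type} [Fintype K] [Fintype I]

theorem bdo_MB_Dout {CB : ℕ → ℝ} {B : MF d K I} (h : MB w CB B) :
    MB w (fun n => CB (n + 1)) (Dout B) :=
  ⟨fun m i => (h.1 m.2 i).fd _, fun n => (h.2 (n + 1)).2.1⟩

theorem bdo_MB_Din {CB : ℕ → ℝ} {B : MF d K I} (h : MB w CB B) :
    MB w (fun n => CB (n + 1)) (Din B) :=
  ⟨fun k m => (h.1 k m.2).fd _, fun n => (h.2 (n + 1)).2.2.1⟩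

theorem bdo_MB_PM (hw : CG (Ioi 0) w) {CB : ℕ → ℝ} {B : MF d K I} (h : MB w CB B) :
    MB w (fun n => CB (n + 1)) (PM w B) := by
  refine ⟨fun k i => ?_, fun n => (h.2 (n + 1)).2.2.2⟩
  have hJ : IsOpen (Ioi (0 : ℝ)) := isOpen_Ioi
  have h1 : CG (Ioi 0) (dlev (B k i)) := (h.1 k i).fd _
  have h2 : CG (Ioi 0) (fun p => ∑ j, dy j (dy j (B k i)) p) :=
    CG.sum hJ _ fun j _ => CG.fd (CG.fd (h.1 k i) _) _
  have h3 : CG (Ioi 0) (fun p => ∑ j, dy j w p * dy j (B k i) p) :=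
    CG.sum hJ _ fun j _ => CG.mul hJ (CG.fd hw _) (CG.fd (h.1 k i) _)
  exact CG.sub hJ (CG.add hJ (CG.neg hJ h1) (CG.mul hJ (CG.const hJ (1 / 2)) h2)) h3

theorem bdo_MB_amp (hw : CG (Ioi 0) w) {CB : ℕ → ℝ} {B : MF d K I} (h : MB w CB B) (A : Type)
    [Fintype A] [DecidableEq A] : MB w CB (amp B A) := by
  refine ⟨fun k i => ?_, fun n => MBn_amp hw (fun l hl => ?_) h.1 (h.2 n) A⟩
  · unfold amp
    by_cases hki : k.2 = i.2
    · simp only [hki, if_true]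
      exact h.1 k.1 i.1
    · simp only [hki, if_false]
      exact CG.const isOpen_Ioi 0
  · have h1 : (1 / 2 : ℝ) ≤ l := hl.1
    change (0 : ℝ) < l
    linarith only [h1]

end mult

/-- The Hessian is a good multiplier. -/
theorem bdo_MB_F1 : ∃ C : ℕ → ℝ, (∀ n, 0 ≤ C n) ∧ ∀ (d : ℕ) (D : Dat d), D.Ok →
    MB D.w C (F1 D.w) := by
  obtain ⟨C, hC, h⟩ := MB_B0
  refine ⟨C, hC, fun d D hD => ?_⟩
  have hB := h d D.κ D.w hD.heat hD.κ0 hD.κ1
  refine ⟨fun i j => CG.fd (CG.fd hD.heat.cg _) _, fun n => ?_⟩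
  have hS : Lev ⊆ Ioi (0 : ℝ) := by
    intro l hl
    have h1 : (1 / 2 : ℝ) ≤ l := hl.1
    change (0 : ℝ) < l
    linarith only [h1]
  have h1 := MBn_smM (a := D.κ) hS hB.1 (hB.2 n)
  have h2 : smM D.κ (B0 D.κ D.w) = F1 D.w := by
    funext i j p
    unfold smM B0
    rw [← mul_assoc, mul_inv_cancel₀ hD.κ0.ne', one_mul]
  rw [h2] at h1
  refine h1.mono (mul_nonneg (abs_nonneg _) (hC n)) ?_
  rw [abs_of_pos hD.κ0]
  have h3 : D.κ * C n ≤ 1 * C n := mul_le_mul_of_nonneg_right hD.κ1 (hC n)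
  linarith only [h3]

/-! ### The induction -/

/-- Stability of the gradient up to order `M`. -/
def BdSG (M : ℕ) : Prop := ∀ C : ℕ → ℕ → ℝ, NN C → ∃ C', NN C' ∧ ∀ (d : ℕ) (D : Dat d), D.Ok →
  ∀ (I : Type) [Fintype I] (u : TF d I), BdM M D C u → BdM M D C' (gradT u)

/-- Stability of the divergence up to order `M`. -/
def BdSV (M : ℕ) : Prop := ∀ C : ℕ → ℕ → ℝ, NN C → ∃ C', NN C' ∧ ∀ (d : ℕ) (D : Dat d), D.Ok →
  ∀ (I : Type) [Fintype I] (u : TF d (Sl d × I)), BdM M D C u → BdM M D C' (D.divT u)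

/-- Stability of the multipliers up to order `M`. -/
def BdST (M : ℕ) : Prop := ∀ C : ℕ → ℕ → ℝ, NN C → ∀ CB : ℕ → ℝ, (∀ n, 0 ≤ CB n) →
  ∃ C', NN C' ∧ ∀ (d : ℕ) (D : Dat d), D.Ok →
  ∀ (K I : Type) [Fintype K] [Fintype I] (B : MF d K I), MB D.w CB B →
    ∀ (u : TF d I), BdM M D C u → BdM M D C' (D.TB B u)

/-- Stability of `slotB F1`. -/
theorem bdo_slot {M : ℕ} (hT : BdST M) (C : ℕ → ℕ → ℝ) (hC : NN C) : ∃ C', NN C' ∧
    ∀ (d : ℕ) (D : Dat d), D.Ok → ∀ (I : Type) [Fintype I] [DecidableEq I]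
      (u : TF d (Sl d × I)), BdM M D C u → BdM M D C' (slotB D (F1 D.w) u) := by
  obtain ⟨CF, hCF, hF⟩ := bdo_MB_F1
  obtain ⟨C1, hC1, h1⟩ := hT C hC CF hCF
  refine ⟨C1, hC1, fun d D hD I _ _ u hu => ?_⟩
  have h2 := h1 d D hD _ _ (amp (F1 D.w) I) (bdo_MB_amp hD.heat.cg (hF d D hD) I)
    (TM (mP d I) u) (hu.tm1 hD (opM_mP I))
  exact h2.tm1 hD (opM_mE I)

theorem bdo_SG_zero : BdSG 0 := by
  intro C hC
  refine ⟨fun _ n => C 0 (n + 1), fun _ n => hC 0 _, fun d D hD I _ u hu => ?_⟩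
  exact BdM.base (c := fun n => C 0 (n + 1)) (fun i => bdo_grad_cg hu.1 i)
    (fun n τ hτ => (hu.zero (n + 1) τ hτ).2) fun n => rfl

theorem bdo_divT_base (C : ℕ → ℕ → ℝ) (hC : NN C) : ∃ c : ℕ → ℝ, (∀ n, 0 ≤ c n) ∧
    ∀ (d : ℕ) (D : Dat d), D.Ok → ∀ (I : Type) [Fintype I] (u : TF d (Sl d × I)) (M : ℕ),
      BdM M D C u → ∀ n, ∀ τ ∈ IT, HB D τ n (c n) (D.divT u) := by
  obtain ⟨CF, hCF, hF⟩ := bdo_MB_F1
  choose K hK hKd using HB_divT
  refine ⟨fun n => K n * (1 + CF n) ^ n * C 0 (n + 1), fun n => ?_, ?_⟩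
  · have h1 := hK n
    have h2 := hCF n
    have h3 := hC 0 (n + 1)
    (clear * - h1 h2 h3; positivity)
  · intro d D hD I _ u M hu n τ hτ
    exact hKd n d D hD τ hτ I u hu.1 _ (hC 0 (n + 1)) (CF n) (hCF n) ((hF d D hD).2 n)
      (hu.zero (n + 1) τ hτ)

theorem bdo_SV_zero : BdSV 0 := by
  intro C hC
  obtain ⟨c, hc, h⟩ := bdo_divT_base C hC
  refine ⟨fun _ n => c n, fun _ n => hc n, fun d D hD I _ u hu => ?_⟩
  exact BdM.base (c := c) (fun i => divT_cg hD hu.1 i) (h d D hD I u 0 hu) fun n => rfl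

theorem bdo_TB_base (C : ℕ → ℕ → ℝ) (hC : NN C) (CB : ℕ → ℝ) (hCB : ∀ n, 0 ≤ CB n) {d : ℕ}
    {D : Dat d} (hD : D.Ok) {K I : Type} [Fintype K] [Fintype I] {B : MF d K I}
    (hB : MB D.w CB B) {u : TF d I} {M : ℕ} (hu : BdM M D C u) (n : ℕ) (τ : ℝ) (hτ : τ ∈ IT) :
    HB D τ n (2 ^ n * (CB n * C 0 n)) (D.TB B u) :=
  HB_TB hD hτ hB.1 hu.1 (hCB n) (hC 0 n) (hB.2 n) (hu.zero n τ hτ)

theorem bdo_ST_zero : BdST 0 := by
  intro C hC CB hCB
  refine ⟨fun _ n => 2 ^ n * (CB n * C 0 n), fun _ n => ?_, fun d D hD K I _ _ B hB u hu => ?_⟩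
  · have h1 := hCB n
    have h2 := hC 0 n
    positivity
  · exact BdM.base (c := fun n => 2 ^ n * (CB n * C 0 n)) (fun i => TB_cg hD hB.1 hu.1 i)
      (fun n τ hτ => bdo_TB_base C hC CB hCB hD hB hu n τ hτ) fun n => rfl

theorem bdo_SG_succ {M : ℕ} (hG : BdSG M) (hT : BdST M) : BdSG (M + 1) := by
  intro C hC
  obtain ⟨C1, hC1, h1⟩ := hG (bdo_sh C) (bdo_nn_sh hC)
  obtain ⟨C2, hC2, h2⟩ := hG C hC
  obtain ⟨C3, hC3, h3⟩ := bdo_slot hT C2 hC2
  obtain ⟨C4, hC4, h4⟩ := bdo_mulT M C3 hC3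
  refine ⟨bdo_con (fun n => C 0 (n + 1)) (fun m n => C1 m n + C4 m n),
    bdo_nn_con (fun n => hC 0 _) (bdo_nn_add hC1 hC4), fun d D hD I _ u hu => ?_⟩
  classical
  have hu' := hu.mono (Nat.le_succ M)
  refine BdM.step (v := addT (gradT (D.DtT u)) (mulT (slotB D (F1 D.w) (gradT u))))
    (fun i => bdo_grad_cg hu.1 i) (fun n τ hτ => (hu.zero (n + 1) τ hτ).2)
    (BdM.add hD hC1 hC4 (h1 d D hD I _ (hu.shift hD))
      (h4 d D hD _ _ (h3 d D hD I _ (h2 d D hD I u hu')))) ?_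
  exact fun i p hp => DtT_gradT hD hu.1 i hp

theorem bdo_SV_succ {M : ℕ} (hV : BdSV M) (hT : BdST M) : BdSV (M + 1) := by
  intro C hC
  obtain ⟨c, hc, h0⟩ := bdo_divT_base C hC
  obtain ⟨C1, hC1, h1⟩ := hV (bdo_sh C) (bdo_nn_sh hC)
  obtain ⟨C3, hC3, h3⟩ := bdo_slot hT C hC
  obtain ⟨C4, hC4, h4⟩ := bdo_mulT M C3 hC3
  obtain ⟨C5, hC5, h5⟩ := hV C4 hC4
  refine ⟨bdo_con c (fun m n => C1 m n + C5 m n),
    bdo_nn_con hc (bdo_nn_add hC1 hC5), fun d D hD I _ u hu => ?_⟩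
  classical
  have hu' := hu.mono (Nat.le_succ M)
  refine BdM.step (v := addT (D.divT (D.DtT u)) (D.divT (mulT (slotB D (F1 D.w) u))))
    (fun i => divT_cg hD hu.1 i) (h0 d D hD I u (M + 1) hu)
    (BdM.add hD hC1 hC5 (h1 d D hD I _ (hu.shift hD))
      (h5 d D hD I _ (h4 d D hD _ _ (h3 d D hD I _ hu')))) ?_
  exact fun i p hp => DtT_divT hD hu.1 i hp

theorem bdo_ST_succ {M : ℕ} (hG : BdSG M) (hV : BdSV M) (hT : BdST M) : BdST (M + 1) := by
  intro C hC CB hCB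
  have hCB' : ∀ n, 0 ≤ CB (n + 1) := fun n => hCB _
  obtain ⟨C1, hC1, h1⟩ := hT (bdo_sh C) (bdo_nn_sh hC) CB hCB
  obtain ⟨C2, hC2, h2⟩ := hT C hC (fun n => CB (n + 1)) hCB'
  obtain ⟨C3, hC3, h3⟩ := hV C2 hC2
  obtain ⟨C4, hC4, h4⟩ := hG C hC
  obtain ⟨C5, hC5, h5⟩ := hT C4 hC4 (fun n => CB (n + 1)) hCB'
  obtain ⟨C6, hC6, h6⟩ := bdo_mulT M C2 hC2
  refine ⟨bdo_con (fun n => 2 ^ n * (CB n * C 0 n))
    (fun m n => C1 m n + C3 m n + C5 m n + |(2 : ℝ)| * C6 m n),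
    bdo_nn_con (fun n => ?_) (fun m n => ?_), fun d D hD K I _ _ B hB u hu => ?_⟩
  · have h1 := hCB n
    have h2 := hC 0 n
    (clear * - h1 h2; positivity)
  · have e1 := hC1 m n
    have e3 := hC3 m n
    have e5 := hC5 m n
    have e6 := hC6 m n
    (clear * - e1 e3 e5 e6; positivity)
  classical
  have hu' := hu.mono (Nat.le_succ M)
  have b1 : BdM M D C1 (D.TB B (D.DtT u)) := h1 d D hD K I B hB _ (hu.shift hD)
  have b2 : BdM M D C2 (D.TB (Dout B) u) := h2 d D hD _ _ (Dout B) (bdo_MB_Dout hB) u hu'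
  have b3 : BdM M D C3 (D.divT (TM (mE d K) (D.TB (Dout B) u))) :=
    h3 d D hD K _ (b2.tm1 hD (opM_mE K))
  have b4 : BdM M D C5 (D.TB (Din B) (TM (mP d I) (gradT u))) :=
    h5 d D hD _ _ (Din B) (bdo_MB_Din hB) _ ((h4 d D hD I u hu').tm1 hD (opM_mP I))
  have b5 : BdM M D C6 (mulT (D.TB (PM D.w B) u)) :=
    h6 d D hD _ _ (h2 d D hD _ _ (PM D.w B) (bdo_MB_PM hD.heat.cg hB) u hu')
  have n13 : NN (fun m n => C1 m n + C3 m n) := bdo_nn_add hC1 hC3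
  have n135 : NN (fun m n => C1 m n + C3 m n + C5 m n) := bdo_nn_add n13 hC5
  have n6 : NN (fun m n => |(2 : ℝ)| * C6 m n) := fun m n => mul_nonneg (abs_nonneg _) (hC6 m n)
  refine BdM.step (v := addT (addT (addT (D.TB B (D.DtT u))
      (D.divT (TM (mE d K) (D.TB (Dout B) u)))) (D.TB (Din B) (TM (mP d I) (gradT u))))
      (smT 2 (mulT (D.TB (PM D.w B) u))))
    (fun i => TB_cg hD hB.1 hu.1 i) (fun n τ hτ => bdo_TB_base C hC CB hCB hD hB hu n τ hτ)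
    (BdM.add hD n135 n6 (BdM.add hD n13 hC5 (BdM.add hD hC1 hC3 b1 b3) b4) (b5.sm hD 2)) ?_
  exact fun i p hp => DtT_TB hD hB.1 hu.1 i hp

theorem bdo_all (M : ℕ) : BdSG M ∧ BdSV M ∧ BdST M := by
  induction M with
  | zero => exact ⟨bdo_SG_zero, bdo_SV_zero, bdo_ST_zero⟩
  | succ M ih =>
    exact ⟨bdo_SG_succ ih.1 ih.2.2, bdo_SV_succ ih.2.1 ih.2.2, bdo_ST_succ ih.1 ih.2.1 ih.2.2⟩

theorem bdo_to {d : ℕ} {D : Dat d} {C : ℕ → ℕ → ℝ} {I : Type} [Fintype I] {u : TF d I}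
    (h : Bd D C u) (M : ℕ) : BdM M D C u := ⟨h.1, fun m _ => h.2 m⟩

theorem bdo_from {d : ℕ} {D : Dat d} {C : ℕ → ℕ → ℕ → ℝ} {I : Type} [Fintype I] {u : TF d I}
    (h : ∀ M, BdM M D (C M) u) : Bd D (fun m n => C m m n) u :=
  ⟨(h 0).1, fun m n τ hτ => (h m).2 m le_rfl n τ hτ⟩

/-! ### The theorems -/

theorem Bd_gradT (C : ℕ → ℕ → ℝ) (hC : NN C) : ∃ C', NN C' ∧ ∀ (d : ℕ) (D : Dat d), D.Ok →
    ∀ (I : Type) [Fintype I] (u : TF d I), Bd D C u → Bd D C' (gradT u) := by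
  choose C' h1 h2 using fun M => (bdo_all M).1 C hC
  exact ⟨fun m n => C' m m n, fun m n => h1 m m n, fun d D hD I _ u hu =>
    bdo_from fun M => h2 M d D hD I u (bdo_to hu M)⟩

theorem Bd_divT (C : ℕ → ℕ → ℝ) (hC : NN C) : ∃ C', NN C' ∧ ∀ (d : ℕ) (D : Dat d), D.Ok →
    ∀ (I : Type) [Fintype I] (u : TF d (Sl d × I)), Bd D C u → Bd D C' (D.divT u) := by
  choose C' h1 h2 using fun M => (bdo_all M).2.1 C hC
  exact ⟨fun m n => C' m m n, fun m n => h1 m m n, fun d D hD I _ u hu =>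
    bdo_from fun M => h2 M d D hD I u (bdo_to hu M)⟩

theorem Bd_TB (C : ℕ → ℕ → ℝ) (hC : NN C) (CB : ℕ → ℝ) (hCB : ∀ n, 0 ≤ CB n) :
    ∃ C', NN C' ∧ ∀ (d : ℕ) (D : Dat d), D.Ok →
    ∀ (K I : Type) [Fintype K] [Fintype I] (B : MF d K I), MB D.w CB B →
      ∀ (u : TF d I), Bd D C u → Bd D C' (D.TB B u) := by
  choose C' h1 h2 using fun M => (bdo_all M).2.2 C hC CB hCB
  exact ⟨fun m n => C' m m n, fun m n => h1 m m n, fun d D hD K I _ _ B hB u hu =>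
    bdo_from fun M => h2 M d D hD K I B hB u (bdo_to hu M)⟩

theorem Bd_TM (C : ℕ → ℕ → ℝ) (hC : NN C) (a : ℝ) (ha : 0 ≤ a) :
    ∃ C', NN C' ∧ ∀ (d : ℕ) (D : Dat d), D.Ok →
    ∀ (K I : Type) [Fintype K] [Fintype I] (M : K → I → ℝ), opM a M →
      ∀ (u : TF d I), Bd D C u → Bd D C' (TM M u) :=
  ⟨fun m n => a * C m n, fun m n => mul_nonneg ha (hC m n), fun _ _ hD _ _ _ _ _ hA _ hu =>
    bdo_from (C := fun _ m n => a * C m n) fun M => (bdo_to hu M).tm hD ha hA⟩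

theorem Bd_mulT (C : ℕ → ℕ → ℝ) (hC : NN C) : ∃ C', NN C' ∧ ∀ (d : ℕ) (D : Dat d), D.Ok →
    ∀ (I : Type) [Fintype I] (u : TF d I), Bd D C u → Bd D C' (mulT u) := by
  choose C' h1 h2 using fun M => bdo_mulT M C hC
  exact ⟨fun m n => C' m m n, fun m n => h1 m m n, fun d D hD I _ u hu =>
    bdo_from fun M => h2 M d D hD I u (bdo_to hu M)⟩

theorem Bd_addT (C₁ C₂ : ℕ → ℕ → ℝ) (h1 : NN C₁) (h2 : NN C₂) :
    ∃ C', NN C' ∧ ∀ (d : ℕ) (D : Dat d), D.Ok →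
    ∀ (I : Type) [Fintype I] (u v : TF d I), Bd D C₁ u → Bd D C₂ v → Bd D C' (addT u v) :=
  ⟨fun m n => C₁ m n + C₂ m n, bdo_nn_add h1 h2, fun _ _ hD _ _ _ _ hu hv =>
    bdo_from (C := fun _ m n => C₁ m n + C₂ m n) fun M =>
      BdM.add hD h1 h2 (bdo_to hu M) (bdo_to hv M)⟩

theorem Bd_smT (C : ℕ → ℕ → ℝ) (hC : NN C) (b : ℝ) (hb : 0 ≤ b) :
    ∃ C', NN C' ∧ ∀ (d : ℕ) (D : Dat d), D.Ok →
    ∀ (I : Type) [Fintype I] (u : TF d I) (a : ℝ), |a| ≤ b → Bd D C u → Bd D C' (smT a u) := by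
  refine ⟨fun m n => b * C m n, fun m n => mul_nonneg hb (hC m n),
    fun _ _ hD _ _ _ a ha hu => bdo_from (C := fun _ m n => b * C m n) fun M => ?_⟩
  exact ((bdo_to hu M).sm hD a).monoC (fun m n => mul_nonneg (abs_nonneg _) (hC m n))
    fun m n => mul_le_mul_of_nonneg_right ha (hC m n)

end Vale.Agent.P347.Z
end

section
attribute [-instance] ProperSMul.toContinuousSMul IsTopologicalTorsor.toContinuousSMul IdemSemiring.toCanonicallyOrderedAdd IdemSemiring.toMulLeftMono IdemSemiring.toMulRightMono AddQuantale.instAddLeftMono AddQuantale.instAddRightMono Quantale.instMulLeftMono Quantale.instMulRightMono FiniteDimensional.rclike_to_real IsScalarTower.complexToReal FiniteDimensional.complexToReal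

/-! P347-Z-D3. The regularity theorem: `L²(μ_τ)` bounds of all derivatives along the `lam`-flow of the
components of `F`, `B0 g`, `B0² g`.

PROOF. `Bd` is stable under `DtotT` (`DtotT_eq`, `|lam κ| ≤ 2`, `GT` is a composition of the operators of
BdOps.lean, multiplier `B0` by `MB_B0`); so it is stable under `DtotT^[j]`, and `m = n = 0` in `Bd` gives the
`L²` bound. Start: the constant tensor `cT e` satisfies `Bd D (fun _ _ => 1)` (`‖e‖ ≤ 1`, all derivatives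
vanish), and on `JT`
`fB D e = divT (TM J (TM E (TB B0' (cT e))))`, `fBB D e = divT (TM J (TM E (TB B0' (TB B0' (cT e)))))` (as functions
indexed by `Unit`, `B0' = amp B0 Unit`; `B0` is symmetric), because the entries do not depend on `g`;
`Dtot (fF D e) = κ (divT (TM E (TB B0' (cT e))) + lam κ τ fBB D e)` (`Dt_up` with `P F = 0`, and
`∂_{a_j} F_k = τ F1`). -/

open MeasureTheory Filter Module Set
open scoped ENNReal NNReal

namespace Vale.Agent.P347.Z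

/-! ### Congruence on `JT` -/

theorem rg_nhds {d : ℕ} {p : ZS d} (hp : p.1 ∈ JT) : JT ×ˢ (univ : Set (Eu d × Eu d)) ∈ nhds p :=
  (isOpen_JT.prod isOpen_univ).mem_nhds ⟨hp, trivial⟩

theorem rg_fderiv_congr {d : ℕ} {u v : ZS d → ℝ} (h : ∀ p : ZS d, p.1 ∈ JT → u p = v p) {p : ZS d}
    (hp : p.1 ∈ JT) : fderiv ℝ u p = fderiv ℝ v p := by
  apply Filter.EventuallyEq.fderiv_eq
  filter_upwards [rg_nhds hp] with q hq using h q hq.1

theorem rg_Dt_congr {d : ℕ} (D : Dat d) {u v : ZS d → ℝ} (h : ∀ p : ZS d, p.1 ∈ JT → u p = v p)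
    {p : ZS d} (hp : p.1 ∈ JT) : D.Dt u p = D.Dt v p := by
  unfold Dat.Dt dtau dz
  rw [rg_fderiv_congr h hp]

theorem rg_Dtot_congr {d : ℕ} (D : Dat d) {u v : ZS d → ℝ} (h : ∀ p : ZS d, p.1 ∈ JT → u p = v p)
    {p : ZS d} (hp : p.1 ∈ JT) : D.Dtot u p = D.Dtot v p := by
  unfold Dat.Dtot dtau dz
  rw [rg_fderiv_congr h hp]

theorem rg_DtT_iter_congr {d : ℕ} (D : Dat d) {I : Type} {u v : TF d I} (m : ℕ)
    (h : ∀ i (p : ZS d), p.1 ∈ JT → v i p = u i p) :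
    ∀ i (p : ZS d), p.1 ∈ JT → ((D.DtT)^[m] v) i p = ((D.DtT)^[m] u) i p := by
  induction m with
  | zero => exact h
  | succ m ih =>
    intro i p hp
    rw [Function.iterate_succ_apply', Function.iterate_succ_apply']
    exact rg_Dt_congr D (fun q hq => ih i q hq) hp

theorem rg_Bd_congr {d : ℕ} {D : Dat d} {C : ℕ → ℕ → ℝ} {I : Type} [Fintype I] {u v : TF d I}
    (hu : Bd D C u) (h : ∀ i (p : ZS d), p.1 ∈ JT → v i p = u i p) : Bd D C v := by
  refine ⟨fun i => CG.congr isOpen_JT (hu.1 i) fun p hp => h i p hp.1, fun m n τ hτ => ?_⟩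
  exact HB.congr (IT_subset_JT hτ) (hu.2 m n τ hτ) (rg_DtT_iter_congr D m h)

theorem rg_Bd_DtT {d : ℕ} {D : Dat d} (hD : D.Ok) {C : ℕ → ℕ → ℝ} {I : Type} [Fintype I]
    {u : TF d I} (hu : Bd D C u) : Bd D (fun m n => C (m + 1) n) (D.DtT u) := by
  refine ⟨fun i => Dt_cg hD (hu.1 i), fun m n τ hτ => ?_⟩
  have := hu.2 (m + 1) n τ hτ
  rwa [Function.iterate_succ_apply] at this

/-! ### The constant tensor -/

theorem rg_HB_zero {d : ℕ} (D : Dat d) (τ : ℝ) (n : ℕ) {c : ℝ} :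
    ∀ {I : Type} [Fintype I], HB D τ n c (fun (_ : I) (_ : ZS d) => (0 : ℝ)) := by
  induction n with
  | zero =>
    intro I _
    show ∫ z, ∑ i : I, ((0 : ℝ)) ^ 2 ∂(D.mu τ) ≤ c ^ 2
    simp only [ne_eq, OfNat.ofNat_ne_zero, not_false_eq_true, zero_pow, Finset.sum_const_zero, integral_zero]
    positivity
  | succ n ih =>
    intro I _
    refine ⟨?_, ?_⟩
    · show ∫ z, ∑ i : I, ((0 : ℝ)) ^ 2 ∂(D.mu τ) ≤ c ^ 2
      simp only [ne_eq, OfNat.ofNat_ne_zero, not_false_eq_true, zero_pow, Finset.sum_const_zero, integral_zero]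
      positivity
    · have h : gradT (fun (_ : I) (_ : ZS d) => (0 : ℝ)) =
          (fun (_ : Sl d × I) (_ : ZS d) => (0 : ℝ)) := by
        funext m p
        show fderiv ℝ (fun _ : ZS d => (0 : ℝ)) p _ = 0
        simp only [fderiv_fun_const, Pi.zero_apply, zero_apply]
      rw [h]
      exact ih

theorem rg_DtT_const {d : ℕ} (D : Dat d) {I : Type} (c : I → ℝ) :
    D.DtT (fun (i : I) (_ : ZS d) => c i) = fun _ _ => 0 := by
  funext i p
  show D.Dt (fun _ => c i) p = 0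
  unfold Dat.Dt dtau dz
  simp only [fderiv_fun_const, Pi.zero_apply, zero_apply, Bool.false_eq_true, ↓reduceIte, mul_zero, Finset.sum_const_zero, sub_self]

theorem Bd_cT (d : ℕ) (D : Dat d) (hD : D.Ok) (e : Eu d) (he : ‖e‖ ≤ 1) :
    Bd D (fun _ _ => 1) (cT e) := by
  refine ⟨fun i => CG.const isOpen_JT _, fun m n τ hτ => ?_⟩
  have hprob := mu_prob hD (IT_subset_JT hτ)
  have hL : L2B D τ 1 (cT e) := by
    show ∫ z, ∑ i : Fin d × Unit, (e i.1) ^ 2 ∂(D.mu τ) ≤ 1 ^ 2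
    rw [integral_const, probReal_univ, one_smul, Fintype.sum_prod_type]
    simp only [Finset.univ_unique, Finset.sum_const, Finset.card_singleton, one_smul]
    have h1 : ∑ k, (e k) ^ 2 = ‖e‖ ^ 2 := by
      rw [EuclideanSpace.real_norm_sq_eq]
    rw [h1]
    exact pow_le_pow_left₀ (norm_nonneg _) he 2
  cases m with
  | zero =>
    show HB D τ n 1 (cT e)
    cases n with
    | zero => exact hL
    | succ n =>
      refine ⟨hL, ?_⟩
      have h : gradT (cT e) = (fun (_ : Sl d × (Fin d × Unit)) (_ : ZS d) => (0 : ℝ)) := by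
        funext m p
        show fderiv ℝ (fun _ : ZS d => e m.2.1) p _ = 0
        simp only [fderiv_fun_const, Pi.zero_apply, zero_apply]
      rw [h]
      exact rg_HB_zero D τ n
  | succ m =>
    have h : (D.DtT)^[m + 1] (cT e) = (fun (_ : Fin d × Unit) (_ : ZS d) => (0 : ℝ)) := by
      induction m with
      | zero => exact rg_DtT_const D (fun i : Fin d × Unit => e i.1)
      | succ m ih =>
        rw [Function.iterate_succ_apply', ih]
        exact rg_DtT_const D (fun _ : Fin d × Unit => (0 : ℝ))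
    rw [h]
    exact rg_HB_zero D τ n

/-! ### Stability under the total derivative -/

theorem rg_amp_cg {d : ℕ} {K I : Type} {B : MF d K I} (cB : ∀ k i, CG (Ioi 0) (B k i)) (A : Type)
    [DecidableEq A] (k : K × A) (i : I × A) : CG (Ioi 0) (amp B A k i) := by
  unfold amp
  by_cases h : k.2 = i.2
  · simp only [h, if_true]
    exact cB k.1 i.1
  · simp only [h, if_false]
    exact CG.const isOpen_Ioi 0

theorem rg_Lev : Lev ⊆ Ioi 0 := by
  intro x hx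
  have := hx.1
  show (0 : ℝ) < x
  linarith

theorem rg_MB_amp {d : ℕ} {w : ℝ × Eu d → ℝ} (hw : CG (Ioi 0) w) {C : ℕ → ℝ} {K I : Type}
    [Fintype K] [Fintype I] {B : MF d K I} (hB : MB w C B) (A : Type) [Fintype A] [DecidableEq A] :
    MB w C (amp B A) :=
  ⟨rg_amp_cg hB.1 A, fun n => MBn_amp hw rg_Lev hB.1 (hB.2 n) A⟩

theorem rg_Bd_TBamp (C : ℕ → ℕ → ℝ) (hC : NN C) : ∃ C', NN C' ∧ ∀ (d : ℕ) (D : Dat d), D.Ok →
    ∀ (I : Type) [Fintype I] [DecidableEq I] (u : TF d (Fin d × I)), Bd D C u →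
      Bd D C' (D.TB (amp (B0 D.κ D.w) I) u) := by
  obtain ⟨CB, hCB, hB⟩ := MB_B0
  obtain ⟨C', hC', h'⟩ := Bd_TB C hC CB hCB
  refine ⟨C', hC', fun d D hD I _ _ u hu => ?_⟩
  exact h' d D hD _ _ _ (rg_MB_amp hD.heat.cg (hB d D.κ D.w hD.heat hD.κ0 hD.κ1) I) u hu

theorem rg_Bd_slotB (C : ℕ → ℕ → ℝ) (hC : NN C) : ∃ C', NN C' ∧ ∀ (d : ℕ) (D : Dat d), D.Ok →
    ∀ (I : Type) [Fintype I] [DecidableEq I] (u : TF d (Sl d × I)), Bd D C u →
      Bd D C' (slotB D (B0 D.κ D.w) u) := by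
  obtain ⟨C1, hC1, h1⟩ := Bd_TM C hC 1 zero_le_one
  obtain ⟨C2, hC2, h2⟩ := rg_Bd_TBamp C1 hC1
  obtain ⟨C3, hC3, h3⟩ := Bd_TM C2 hC2 1 zero_le_one
  refine ⟨C3, hC3, fun d D hD I _ _ u hu => ?_⟩
  exact h3 d D hD _ _ _ (opM_mE I) _ (h2 d D hD I _ (h1 d D hD _ _ _ (opM_mP I) u hu))

theorem rg_Bd_GT (C : ℕ → ℕ → ℝ) (hC : NN C) : ∃ C', NN C' ∧ ∀ (d : ℕ) (D : Dat d), D.Ok →
    ∀ (I : Type) [Fintype I] [DecidableEq I] (u : TF d I), Bd D C u → Bd D C' (GT D u) := by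
  obtain ⟨C1, hC1, h1⟩ := Bd_gradT C hC
  obtain ⟨C2, hC2, h2⟩ := rg_Bd_slotB C1 hC1
  obtain ⟨C3, hC3, h3⟩ := Bd_TM C2 hC2 1 zero_le_one
  obtain ⟨C4, hC4, h4⟩ := Bd_divT C3 hC3
  obtain ⟨C5, hC5, h5⟩ := Bd_TM C1 hC1 1 zero_le_one
  obtain ⟨C6, hC6, h6⟩ := rg_Bd_slotB C5 hC5
  obtain ⟨C7, hC7, h7⟩ := Bd_divT C6 hC6
  obtain ⟨C8, hC8, h8⟩ := Bd_addT C4 C7 hC4 hC7
  refine ⟨C8, hC8, fun d D hD I _ _ u hu => ?_⟩
  have g := h1 d D hD I u hu
  have e1 := h4 d D hD I _ (h3 d D hD _ _ _ (opM_mJ I) _ (h2 d D hD I _ g))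
  have e2 := h7 d D hD I _ (h6 d D hD I _ (h5 d D hD _ _ _ (opM_mJ I) _ g))
  exact h8 d D hD I _ _ e1 e2

theorem Bd_DtotT (C : ℕ → ℕ → ℝ) (hC : NN C) : ∃ C', NN C' ∧ ∀ (d : ℕ) (D : Dat d), D.Ok →
    ∀ (I : Type) [Fintype I] (u : TF d I), Bd D C u → Bd D C' (DtotT D u) := by
  classical
  obtain ⟨C1, hC1, h1⟩ := rg_Bd_GT C hC
  obtain ⟨C2, hC2, h2⟩ := Bd_smT C1 hC1 2 (by norm_num)
  obtain ⟨C3, hC3, h3⟩ := Bd_addT (fun m n => C (m + 1) n) C2 (fun m n => hC (m + 1) n) hC2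
  refine ⟨C3, hC3, fun d D hD I _ u hu => ?_⟩
  have e1 := rg_Bd_DtT hD hu
  have hlk : |D.lam * D.κ| ≤ 2 := by
    rw [abs_mul, abs_of_pos hD.κ0]
    exact hD.hlam
  have e2 := h2 d D hD I _ (D.lam * D.κ) hlk (h1 d D hD I u hu)
  refine rg_Bd_congr (h3 d D hD I _ _ e1 e2) fun i p hp => ?_
  exact DtotT_eq hD hu.1 i hp

/-! ### Smoothness -/

theorem rg_g_cg {d : ℕ} (j : Fin d) : CG JT (fun p : ZS d => p.2.2 j) :=
  CG.lin isOpen_JT ((EuclideanSpace.proj j : Eu d →L[ℝ] ℝ).comp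
    ((ContinuousLinearMap.snd ℝ (Eu d) (Eu d)).comp (ContinuousLinearMap.snd ℝ ℝ (Eu d × Eu d))))

theorem rg_B0_cg {d : ℕ} {D : Dat d} (hD : D.Ok) (i j : Fin d) :
    CG (Ioi 0) (B0 D.κ D.w i j) :=
  CG.mul isOpen_Ioi (CG.const isOpen_Ioi _) ((hD.heat.cg.dy j).dy i)

theorem fB_cg (d : ℕ) (D : Dat d) (hD : D.Ok) (e : Eu d) : CG JT (fB D e) := by
  refine CG.sum isOpen_JT _ fun k _ => CG.sum isOpen_JT _ fun j _ => ?_
  exact CG.mul isOpen_JT (CG.mul isOpen_JT (CG.const isOpen_JT _) (hD.up_cg (rg_B0_cg hD k j)))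
    (rg_g_cg j)

theorem fBB_cg (d : ℕ) (D : Dat d) (hD : D.Ok) (e : Eu d) : CG JT (fBB D e) := by
  refine CG.sum isOpen_JT _ fun k _ => CG.sum isOpen_JT _ fun i _ =>
    CG.sum isOpen_JT _ fun j _ => ?_
  exact CG.mul isOpen_JT (CG.mul isOpen_JT (CG.mul isOpen_JT (CG.const isOpen_JT _)
    (hD.up_cg (rg_B0_cg hD k i))) (hD.up_cg (rg_B0_cg hD i j))) (rg_g_cg j)

theorem fF_cg (d : ℕ) (D : Dat d) (hD : D.Ok) (e : Eu d) : CG JT (fF D e) := by
  refine CG.sum isOpen_JT _ fun k _ => ?_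
  exact CG.mul isOpen_JT (CG.const isOpen_JT _) (hD.up_cg (hD.heat.cg.dy k))

theorem Xf_cg (d : ℕ) (D : Dat d) (hD : D.Ok) (m : Sl d) : CG JT (D.Xf m) := by
  obtain ⟨b, k⟩ := m
  cases b with
  | true =>
    have h : D.Xf (true, k) = fun p => -D.lam * ∑ j, D.ds (false, j) (D.up (F1 D.w j k)) p := by
      funext p
      simp only [Dat.Xf, ↓reduceIte, neg_mul]
    rw [h]
    refine CG.mul isOpen_JT (CG.const isOpen_JT _) (CG.sum isOpen_JT _ fun j _ => ?_)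
    exact ds_cg hD _ (hD.up_cg ((hD.heat.cg.dy k).dy j))
  | false =>
    have h : D.Xf (false, k) = fun p => -D.up (dy k D.w) p +
        D.lam * ∑ j, D.up (F1 D.w k j) p * p.2.2 j := by
      funext p
      simp only [Dat.Xf, Bool.false_eq_true, ↓reduceIte]
    rw [h]
    refine CG.add isOpen_JT (CG.neg isOpen_JT (hD.up_cg (hD.heat.cg.dy k))) ?_
    refine CG.mul isOpen_JT (CG.const isOpen_JT _) (CG.sum isOpen_JT _ fun j _ => ?_)
    exact CG.mul isOpen_JT (hD.up_cg ((hD.heat.cg.dy j).dy k)) (rg_g_cg j)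

theorem Dtot_cg (d : ℕ) (D : Dat d) (hD : D.Ok) {u : ZS d → ℝ} (hu : CG JT u) :
    CG JT (D.Dtot u) := by
  refine CG.add isOpen_JT hu.dtau (CG.sum isOpen_JT _ fun m _ => ?_)
  exact CG.mul isOpen_JT (Xf_cg d D hD m) (hu.dz m)

/-! ### Linearity -/

theorem rg_da {d : ℕ} {u : ZS d → ℝ} (hu : CG JT u) {p : ZS d} (hp : p.1 ∈ JT) :
    DifferentiableAt ℝ u p :=
  (hu.diff p ⟨hp, trivial⟩).differentiableAt (rg_nhds hp)

theorem rg_fd_sum {d : ℕ} {ι : Type} [Fintype ι] (c : ι → ℝ) {u : ι → ZS d → ℝ}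
    (hu : ∀ i, CG JT (u i)) {p : ZS d} (hp : p.1 ∈ JT) (v : ZS d) :
    fderiv ℝ (fun q => ∑ i, c i * u i q) p v = ∑ i, c i * fderiv ℝ (u i) p v := by
  have h : ∀ i ∈ Finset.univ, HasFDerivAt (fun q => c i * u i q) (c i • fderiv ℝ (u i) p) p :=
    fun i _ => (rg_da (hu i) hp).hasFDerivAt.const_mul (c i)
  have h2 := HasFDerivAt.fun_sum h
  rw [h2.fderiv, sum_apply]
  rfl

theorem rg_dz_sum {d : ℕ} {ι : Type} [Fintype ι] (c : ι → ℝ) {u : ι → ZS d → ℝ}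
    (hu : ∀ i, CG JT (u i)) {p : ZS d} (hp : p.1 ∈ JT) (m : Sl d) :
    dz m (fun q => ∑ i, c i * u i q) p = ∑ i, c i * dz m (u i) p :=
  rg_fd_sum c hu hp _

theorem rg_ds_sum {d : ℕ} {D : Dat d} {ι : Type} [Fintype ι] (c : ι → ℝ) {u : ι → ZS d → ℝ}
    (hu : ∀ i, CG JT (u i)) {p : ZS d} (hp : p.1 ∈ JT) (m : Sl d) :
    D.ds m (fun q => ∑ i, c i * u i q) p = ∑ i, c i * D.ds m (u i) p := by
  unfold Dat.ds
  rw [rg_dz_sum c hu hp m, ← Finset.sum_neg_distrib, Finset.mul_sum, ← Finset.sum_add_distrib]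
  refine Finset.sum_congr rfl fun i _ => ?_
  ring

theorem rg_Dtot_sum {d : ℕ} {D : Dat d} {ι : Type} [Fintype ι] (c : ι → ℝ) {u : ι → ZS d → ℝ}
    (hu : ∀ i, CG JT (u i)) {p : ZS d} (hp : p.1 ∈ JT) :
    D.Dtot (fun q => ∑ i, c i * u i q) p = ∑ i, c i * D.Dtot (u i) p := by
  unfold Dat.Dtot
  have h1 : dtau (fun q => ∑ i, c i * u i q) p = ∑ i, c i * dtau (u i) p := rg_fd_sum c hu hp _
  rw [h1]
  simp only [rg_dz_sum c hu hp, Finset.mul_sum, mul_add, Finset.sum_add_distrib]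
  rw [Finset.sum_comm]
  congr 1
  refine Finset.sum_congr rfl fun i _ => Finset.sum_congr rfl fun m _ => ?_
  ring

theorem rg_Dtot_smul {d : ℕ} {D : Dat d} (c : ℝ) {u : ZS d → ℝ} (hu : CG JT u) {p : ZS d}
    (hp : p.1 ∈ JT) : D.Dtot (fun q => c * u q) p = c * D.Dtot u p := by
  have h := rg_Dtot_sum (D := D) (ι := Unit) (fun _ => c) (u := fun _ => u) (fun _ => hu) hp
  simpa only [Finset.univ_unique, PUnit.default_eq_unit, Finset.sum_const, Finset.card_singleton,     one_smul] using h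

theorem rg_Dtot_add {d : ℕ} {D : Dat d} {u v : ZS d → ℝ} (hu : CG JT u) (hv : CG JT v) {p : ZS d}
    (hp : p.1 ∈ JT) : D.Dtot (fun q => u q + v q) p = D.Dtot u p + D.Dtot v p := by
  have h := rg_Dtot_sum (D := D) (ι := Bool) (fun _ => 1) (u := fun b => if b then u else v)
    (fun b => by cases b <;> assumption) hp
  simpa only [Fintype.univ_bool, one_mul, Finset.mem_singleton, Bool.true_eq_false, not_false_eq_true,     Finset.sum_insert, ↓reduceIte, Finset.sum_singleton, Bool.false_eq_true] using h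

theorem rg_Dtot_iter_smul {d : ℕ} {D : Dat d} (hD : D.Ok) (c : ℝ) (m : ℕ) {u v : ZS d → ℝ}
    (hv : CG JT v) (h : ∀ p : ZS d, p.1 ∈ JT → u p = c * v p) :
    ∀ p : ZS d, p.1 ∈ JT → ((D.Dtot)^[m] u) p = c * ((D.Dtot)^[m] v) p := by
  induction m generalizing u v with
  | zero => exact h
  | succ m ih =>
    intro p hp
    rw [Function.iterate_succ_apply, Function.iterate_succ_apply]
    refine ih (Dtot_cg d D hD hv) (fun q hq => ?_) p hp
    rw [rg_Dtot_congr D h hq, rg_Dtot_smul c hv hq]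

/-! ### The gate -/

theorem rg_sum_sl {d : ℕ} (f : Sl d → ℝ) :
    ∑ m, f m = ∑ k, f (true, k) + ∑ k, f (false, k) := by
  rw [Fintype.sum_prod_type, Fintype.sum_bool]

theorem rg_Dtot_F {d : ℕ} {D : Dat d} (hD : D.Ok) (k : Fin d) {p : ZS d} (hp : p.1 ∈ JT) :
    D.Dtot (D.up (dy k D.w)) p = ∑ j, D.ds (false, j) (D.up (F1 D.w j k)) p +
      D.lam * p.1 * ∑ j, D.up (F1 D.w j k) p * ∑ i, D.up (F1 D.w j i) p * p.2.2 i := by
  have hf := hD.heat.cg.dy k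
  have hP := Pf_F hD.heat k (p := (D.l0 - p.1 ^ 2, D.Y + p.1 • p.2.1)) (hD.lev_pos hp)
  unfold Pf at hP
  unfold Dat.Dtot
  rw [hD.dtau_up hf hp, rg_sum_sl]
  have h1 : ∑ j, D.Xf (true, j) p * dz (true, j) (D.up (dy k D.w)) p = 0 := by
    refine Finset.sum_eq_zero fun j _ => ?_
    rw [hD.dz_up hf (true, j) hp]
    simp
  have h2 : ∀ j, dz (false, j) (D.up (dy k D.w)) p = p.1 * D.up (dy j (dy k D.w)) p := by
    intro j
    rw [hD.dz_up hf (false, j) hp]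
    simp
  have h3 : ∀ j, dz (false, j) (D.up (F1 D.w j k)) p = p.1 * D.up (dy j (F1 D.w j k)) p := by
    intro j
    have h := hD.dz_up (hf.dy j) (false, j) hp
    simp only [Bool.false_eq_true, if_false] at h
    exact h
  rw [h1, zero_add]
  have h4 : D.up (dlev (dy k D.w)) p = (1 / 2) * ∑ j, D.up (dy j (dy j (dy k D.w))) p -
      ∑ j, D.up (dy j D.w) p * D.up (dy j (dy k D.w)) p := by
    unfold Dat.up
    linarith only [hP]
  rw [h4]
  unfold Dat.ds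
  simp only [h2, h3, Dat.Xf, Dat.bb, Bool.false_eq_true, if_false]
  unfold F1
  simp only [Finset.mul_sum, ← Finset.sum_sub_distrib, mul_sub, ← Finset.sum_add_distrib]
  refine Finset.sum_congr rfl fun j _ => ?_
  simp only [add_mul, Finset.sum_mul]
  have h5 : ∑ i, D.lam * (D.up (dy j (dy i D.w)) p * p.2.2 i) * (p.1 * D.up (dy j (dy k D.w)) p) =
      ∑ i, D.lam * p.1 * (D.up (dy j (dy k D.w)) p * (D.up (dy j (dy i D.w)) p * p.2.2 i)) :=
    Finset.sum_congr rfl fun i _ => by ring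
  rw [h5]
  ring

theorem rg_fd_g {d : ℕ} (k : Fin d) (p v : ZS d) :
    fderiv ℝ (fun q : ZS d => q.2.2 k) p v = v.2.2 k := by
  have h : HasFDerivAt (fun q : ZS d => q.2.2 k) ((EuclideanSpace.proj k : Eu d →L[ℝ] ℝ).comp
    ((ContinuousLinearMap.snd ℝ (Eu d) (Eu d)).comp (ContinuousLinearMap.snd ℝ ℝ (Eu d × Eu d)))) p :=
    ((EuclideanSpace.proj k : Eu d →L[ℝ] ℝ).comp
    ((ContinuousLinearMap.snd ℝ (Eu d) (Eu d)).comp
      (ContinuousLinearMap.snd ℝ ℝ (Eu d × Eu d)))).hasFDerivAt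
  rw [h.fderiv]
  rfl

theorem rg_Dtot_g {d : ℕ} {D : Dat d} (k : Fin d) (p : ZS d) :
    D.Dtot (fun q => q.2.2 k) p = -D.lam * ∑ j, D.ds (false, j) (D.up (F1 D.w j k)) p := by
  unfold Dat.Dtot
  rw [rg_sum_sl]
  have h0 : dtau (fun q : ZS d => q.2.2 k) p = 0 := by
    unfold dtau
    rw [rg_fd_g]
    rfl
  have h1 : ∑ j, D.Xf (false, j) p * dz (false, j) (fun q : ZS d => q.2.2 k) p = 0 := by
    refine Finset.sum_eq_zero fun j _ => ?_
    unfold dz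
    rw [rg_fd_g]
    simp
  have h2 : ∑ j, D.Xf (true, j) p * dz (true, j) (fun q : ZS d => q.2.2 k) p = D.Xf (true, k) p := by
    rw [Finset.sum_eq_single k]
    · unfold dz
      rw [rg_fd_g]
      simp
    · intro j _ hj
      unfold dz
      rw [rg_fd_g]
      simp [hj.symm]
    · intro h
      exact absurd (Finset.mem_univ k) h
  rw [h0, h1, h2]
  simp only [Dat.Xf, ↓reduceIte, neg_mul, add_zero, zero_add]

theorem rg_Dtot_fF {d : ℕ} {D : Dat d} (hD : D.Ok) (e : Eu d) {p : ZS d} (hp : p.1 ∈ JT) :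
    D.Dtot (fF D e) p = ∑ k, e k * ∑ j, D.ds (false, j) (D.up (F1 D.w j k)) p +
      D.lam * p.1 * (D.κ ^ 2 * fBB D e p) := by
  have h1 : D.Dtot (fF D e) p = ∑ k, e k * D.Dtot (D.up (dy k D.w)) p :=
    rg_Dtot_sum (fun k => e k) (fun k => hD.up_cg (hD.heat.cg.dy k)) hp
  rw [h1]
  simp only [rg_Dtot_F hD _ hp, mul_add, Finset.sum_add_distrib]
  congr 1
  unfold fBB
  simp only [Finset.mul_sum]
  refine Finset.sum_congr rfl fun k _ => Finset.sum_congr rfl fun i _ =>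
    Finset.sum_congr rfl fun j _ => ?_
  have hs : D.up (F1 D.w k i) p = D.up (F1 D.w i k) p :=
    F1_symm hD.heat k i (hD.lev_pos hp)
  have hb : ∀ i j, D.up (B0 D.κ D.w i j) p = D.κ⁻¹ * D.up (F1 D.w i j) p := fun i j => rfl
  rw [hb, hb, hs]
  have hκ := hD.κ0.ne'
  (clear * - hκ; field_simp)

/-- `d/dτ F = ∇* F1 + lam τ F1² g` along the `lam`-flow; here integrated form of the gate:
`Dtot (lam F_k + g_k) = (lam κ)² τ (B0² g)_k`. -/
theorem Dtot_gate (d : ℕ) (D : Dat d) (hD : D.Ok) (e : Eu d) {p : ZS d} (hp : p.1 ∈ JT) :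
    D.Dtot (fun q => D.lam * fF D e q + ∑ k, e k * q.2.2 k) p
      = (D.lam * D.κ) ^ 2 * p.1 * fBB D e p := by
  have hg : CG JT (fun q : ZS d => ∑ k, e k * q.2.2 k) :=
    CG.sum isOpen_JT _ fun k _ => CG.mul isOpen_JT (CG.const isOpen_JT _) (rg_g_cg k)
  have h1 := rg_Dtot_add (D := D) (CG.mul isOpen_JT (CG.const isOpen_JT D.lam) (fF_cg d D hD e)) hg hp
  rw [h1, rg_Dtot_smul D.lam (fF_cg d D hD e) hp, rg_Dtot_fF hD e hp]
  have h2 : D.Dtot (fun q : ZS d => ∑ k, e k * q.2.2 k) p =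
      ∑ k, e k * D.Dtot (fun q : ZS d => q.2.2 k) p :=
    rg_Dtot_sum (fun k => e k) (fun k => rg_g_cg k) hp
  rw [h2]
  simp only [rg_Dtot_g]
  have h3 : ∑ k, e k * (-D.lam * ∑ j, D.ds (false, j) (D.up (F1 D.w j k)) p) =
      -D.lam * ∑ k, e k * ∑ j, D.ds (false, j) (D.up (F1 D.w j k)) p := by
    rw [Finset.mul_sum]
    exact Finset.sum_congr rfl fun k _ => by ring
  rw [h3]
  ring

/-! ### The starting fields -/

theorem rg_TM_mE {d : ℕ} {I : Type} [Fintype I] [DecidableEq I] (y : TF d (Fin d × I)) (b : Bool)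
    (k : Fin d) (i : I) (q : ZS d) :
    TM (mE d I) y ((b, k), i) q = if b then 0 else y (k, i) q := by
  unfold TM mE
  cases b with
  | true => simp only [Prod.mk.injEq, Bool.true_eq_false, false_and, ↓reduceIte, zero_mul, Finset.sum_const_zero]
  | false =>
    rw [Finset.sum_eq_single (k, i)]
    · simp
    · intro n _ hn
      have : ¬ ((false, k) = (false, n.1) ∧ i = n.2) := by
        rintro ⟨h1, h2⟩
        apply hn
        rw [Prod.mk.injEq] at h1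
        ext1
        · exact h1.2.symm
        · exact h2.symm
      simp only [this, if_false, zero_mul]
    · intro h
      exact absurd (Finset.mem_univ _) h

theorem rg_TM_mJ {d : ℕ} {I : Type} [Fintype I] [DecidableEq I] (z : TF d (Sl d × I)) (b : Bool)
    (k : Fin d) (i : I) (q : ZS d) :
    TM (mJ d I) z ((b, k), i) q = if b then z ((false, k), i) q else -z ((true, k), i) q := by
  unfold TM mJ
  rw [Finset.sum_eq_single ((!b, k), i)]
  · cases b <;> simp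
  · rintro ⟨⟨b', k'⟩, i'⟩ _ hn
    by_cases h : k = k' ∧ i = i'
    · obtain ⟨rfl, rfl⟩ := h
      have hb : b' = b := by
        cases b <;> cases b' <;> simp_all
      subst hb
      cases b' <;> simp
    · simp only [h, if_false, zero_mul]
  · intro h
    exact absurd (Finset.mem_univ _) h

theorem rg_ds_zero {d : ℕ} {D : Dat d} (m : Sl d) (p : ZS d) : D.ds m (fun _ => 0) p = 0 := by
  unfold Dat.ds dz
  simp only [fderiv_fun_const, Pi.zero_apply, zero_apply, neg_zero, mul_zero, add_zero]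

theorem rg_divJ {d : ℕ} {D : Dat d} (hD : D.Ok) (f : Fin d → ℝ × Eu d → ℝ)
    (hf : ∀ k, CG (Ioi 0) (f k)) {p : ZS d} (hp : p.1 ∈ JT) (i : Unit) :
    D.divT (TM (mJ d Unit) (TM (mE d Unit) (fun k : Fin d × Unit => D.up (f k.1)))) i p =
      ∑ k, p.2.2 k * D.up (f k) p := by
  unfold Dat.divT
  rw [rg_sum_sl]
  have h1 : ∑ k, D.ds (false, k) (TM (mJ d Unit) (TM (mE d Unit)
      (fun k : Fin d × Unit => D.up (f k.1))) ((false, k), i)) p = 0 := by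
    refine Finset.sum_eq_zero fun k _ => ?_
    have : (TM (mJ d Unit) (TM (mE d Unit) (fun k : Fin d × Unit => D.up (f k.1)))
        ((false, k), i)) = fun _ => 0 := by
      funext q
      rw [rg_TM_mJ]
      simp only [Bool.false_eq_true, if_false]
      rw [rg_TM_mE]
      simp
    rw [this, rg_ds_zero]
  rw [h1, add_zero]
  refine Finset.sum_congr rfl fun k _ => ?_
  have : (TM (mJ d Unit) (TM (mE d Unit) (fun k : Fin d × Unit => D.up (f k.1)))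
      ((true, k), i)) = D.up (f k) := by
    funext q
    rw [rg_TM_mJ, rg_TM_mE]
    simp
  rw [this]
  unfold Dat.ds
  rw [hD.dz_up (hf k) (true, k) hp]
  simp [Dat.bb]

theorem rg_divE {d : ℕ} {D : Dat d} (f : Fin d → ℝ × Eu d → ℝ) (p : ZS d) (i : Unit) :
    D.divT (TM (mE d Unit) (fun k : Fin d × Unit => D.up (f k.1))) i p =
      ∑ k, D.ds (false, k) (D.up (f k)) p := by
  unfold Dat.divT
  rw [rg_sum_sl]
  have h1 : ∑ k, D.ds (true, k) (TM (mE d Unit)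
      (fun k : Fin d × Unit => D.up (f k.1)) ((true, k), i)) p = 0 := by
    refine Finset.sum_eq_zero fun k _ => ?_
    have : (TM (mE d Unit) (fun k : Fin d × Unit => D.up (f k.1)) ((true, k), i)) =
        fun _ => 0 := by
      funext q
      rw [rg_TM_mE]
      simp
    rw [this, rg_ds_zero]
  rw [h1, zero_add]
  refine Finset.sum_congr rfl fun k _ => ?_
  have : (TM (mE d Unit) (fun k : Fin d × Unit => D.up (f k.1)) ((false, k), i)) =
      D.up (f k) := by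
    funext q
    rw [rg_TM_mE]
    simp
  rw [this]

/-- entries of `B0 e` -/
noncomputable def rgB {d : ℕ} (D : Dat d) (e : Eu d) (k : Fin d) : ℝ × Eu d → ℝ :=
  fun x => ∑ j, B0 D.κ D.w k j x * e j

/-- entries of `B0² e` -/
noncomputable def rgBB {d : ℕ} (D : Dat d) (e : Eu d) (k : Fin d) : ℝ × Eu d → ℝ :=
  fun x => ∑ j, B0 D.κ D.w k j x * rgB D e j x

theorem rgB_cg {d : ℕ} {D : Dat d} (hD : D.Ok) (e : Eu d) (k : Fin d) :
    CG (Ioi 0) (rgB D e k) :=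
  CG.sum isOpen_Ioi _ fun j _ =>
    CG.mul isOpen_Ioi (rg_B0_cg hD k j) (CG.const isOpen_Ioi (e j))

theorem rgBB_cg {d : ℕ} {D : Dat d} (hD : D.Ok) (e : Eu d) (k : Fin d) :
    CG (Ioi 0) (rgBB D e k) :=
  CG.sum isOpen_Ioi _ fun j _ => CG.mul isOpen_Ioi (rg_B0_cg hD k j) (rgB_cg hD e j)

theorem rg_TB_one {d : ℕ} {D : Dat d} (e : Eu d) :
    D.TB (amp (B0 D.κ D.w) Unit) (cT e) = fun k : Fin d × Unit => D.up (rgB D e k.1) := by
  funext k p
  show ∑ i : Fin d × Unit, D.up (amp (B0 D.κ D.w) Unit k i) p * e i.1 =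
    ∑ j, B0 D.κ D.w k.1 j (D.l0 - p.1 ^ 2, D.Y + p.1 • p.2.1) * e j
  rw [Fintype.sum_prod_type]
  simp only [Finset.univ_unique, PUnit.default_eq_unit, Dat.up, amp, ↓reduceIte, Finset.sum_const, Finset.card_singleton, one_smul]

theorem rg_TB_two {d : ℕ} {D : Dat d} (e : Eu d) :
    D.TB (amp (B0 D.κ D.w) Unit) (fun k : Fin d × Unit => D.up (rgB D e k.1)) =
      fun k : Fin d × Unit => D.up (rgBB D e k.1) := by
  funext k p
  show ∑ i : Fin d × Unit, D.up (amp (B0 D.κ D.w) Unit k i) p *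
      rgB D e i.1 (D.l0 - p.1 ^ 2, D.Y + p.1 • p.2.1) =
    ∑ j, B0 D.κ D.w k.1 j (D.l0 - p.1 ^ 2, D.Y + p.1 • p.2.1) *
      rgB D e j (D.l0 - p.1 ^ 2, D.Y + p.1 • p.2.1)
  rw [Fintype.sum_prod_type]
  simp only [Finset.univ_unique, PUnit.default_eq_unit, Dat.up, amp, ↓reduceIte, Finset.sum_const, Finset.card_singleton, one_smul]

theorem rg_B0_symm {d : ℕ} {D : Dat d} (hD : D.Ok) (i j : Fin d) {p : ZS d} (hp : p.1 ∈ JT) :
    D.up (B0 D.κ D.w i j) p = D.up (B0 D.κ D.w j i) p := by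
  show D.κ⁻¹ * F1 D.w i j _ = D.κ⁻¹ * F1 D.w j i _
  rw [F1_symm hD.heat i j (hD.lev_pos hp)]

theorem rg_fB {d : ℕ} {D : Dat d} (hD : D.Ok) (e : Eu d) (i : Unit) {p : ZS d} (hp : p.1 ∈ JT) :
    fB D e p = D.divT (TM (mJ d Unit) (TM (mE d Unit)
      (D.TB (amp (B0 D.κ D.w) Unit) (cT e)))) i p := by
  rw [rg_TB_one, rg_divJ hD _ (rgB_cg hD e) hp]
  show ∑ k, ∑ j, e k * D.up (B0 D.κ D.w k j) p * p.2.2 j =
    ∑ k, p.2.2 k * ∑ j, D.up (B0 D.κ D.w k j) p * e j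
  rw [Finset.sum_comm]
  refine Finset.sum_congr rfl fun k _ => ?_
  rw [Finset.mul_sum]
  refine Finset.sum_congr rfl fun j _ => ?_
  rw [rg_B0_symm hD j k hp]
  ring

theorem rg_fBB {d : ℕ} {D : Dat d} (hD : D.Ok) (e : Eu d) (i : Unit) {p : ZS d} (hp : p.1 ∈ JT) :
    fBB D e p = D.divT (TM (mJ d Unit) (TM (mE d Unit)
      (D.TB (amp (B0 D.κ D.w) Unit) (D.TB (amp (B0 D.κ D.w) Unit) (cT e))))) i p := by
  rw [rg_TB_one, rg_TB_two, rg_divJ hD _ (rgBB_cg hD e) hp]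
  show ∑ k, ∑ i, ∑ j, e k * D.up (B0 D.κ D.w k i) p * D.up (B0 D.κ D.w i j) p * p.2.2 j =
    ∑ k, p.2.2 k * ∑ j, D.up (B0 D.κ D.w k j) p * ∑ i, D.up (B0 D.κ D.w j i) p * e i
  have h1 : ∑ k, ∑ i, ∑ j, e k * D.up (B0 D.κ D.w k i) p * D.up (B0 D.κ D.w i j) p * p.2.2 j =
      ∑ j, ∑ i, ∑ k, e k * D.up (B0 D.κ D.w k i) p * D.up (B0 D.κ D.w i j) p * p.2.2 j := by
    rw [Finset.sum_comm]
    rw [Finset.sum_congr rfl fun i _ => Finset.sum_comm]
    rw [Finset.sum_comm]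
  rw [h1]
  refine Finset.sum_congr rfl fun k _ => ?_
  rw [Finset.mul_sum]
  refine Finset.sum_congr rfl fun j _ => ?_
  rw [Finset.mul_sum, Finset.mul_sum]
  refine Finset.sum_congr rfl fun i _ => ?_
  rw [rg_B0_symm hD i j hp, rg_B0_symm hD j k hp]
  ring

theorem rg_Bd_divJE (C : ℕ → ℕ → ℝ) (hC : NN C) : ∃ C', NN C' ∧ ∀ (d : ℕ) (D : Dat d), D.Ok →
    ∀ (y : TF d (Fin d × Unit)), Bd D C y →
      Bd D C' (D.divT (TM (mJ d Unit) (TM (mE d Unit) y))) := by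
  obtain ⟨C1, hC1, h1⟩ := Bd_TM C hC 1 zero_le_one
  obtain ⟨C2, hC2, h2⟩ := Bd_TM C1 hC1 1 zero_le_one
  obtain ⟨C3, hC3, h3⟩ := Bd_divT C2 hC2
  refine ⟨C3, hC3, fun d D hD y hy => ?_⟩
  exact h3 d D hD Unit _ (h2 d D hD _ _ _ (opM_mJ Unit) _ (h1 d D hD _ _ _ (opM_mE Unit) y hy))

theorem rg_NN_one : NN (fun _ _ => 1) := fun _ _ => zero_le_one

theorem rg_Bd_fB : ∃ C, NN C ∧ ∀ (d : ℕ) (D : Dat d), D.Ok → ∀ e : Eu d, ‖e‖ ≤ 1 →
    Bd D C (fun _ : Unit => fB D e) := by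
  obtain ⟨C1, hC1, h1⟩ := rg_Bd_TBamp _ rg_NN_one
  obtain ⟨C2, hC2, h2⟩ := rg_Bd_divJE C1 hC1
  refine ⟨C2, hC2, fun d D hD e he => ?_⟩
  have h := h2 d D hD _ (h1 d D hD Unit _ (Bd_cT d D hD e he))
  exact rg_Bd_congr h fun i p hp => rg_fB hD e i hp

theorem rg_Bd_fBB : ∃ C, NN C ∧ ∀ (d : ℕ) (D : Dat d), D.Ok → ∀ e : Eu d, ‖e‖ ≤ 1 →
    Bd D C (fun _ : Unit => fBB D e) := by
  obtain ⟨C1, hC1, h1⟩ := rg_Bd_TBamp _ rg_NN_one
  obtain ⟨C2, hC2, h2⟩ := rg_Bd_TBamp C1 hC1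
  obtain ⟨C3, hC3, h3⟩ := rg_Bd_divJE C2 hC2
  refine ⟨C3, hC3, fun d D hD e he => ?_⟩
  have h := h3 d D hD _ (h2 d D hD Unit _ (h1 d D hD Unit _ (Bd_cT d D hD e he)))
  exact rg_Bd_congr h fun i p hp => rg_fBB hD e i hp

theorem rg_Bd_iter (C : ℕ → ℕ → ℝ) (hC : NN C) (j : ℕ) : ∃ C', NN C' ∧
    ∀ (d : ℕ) (D : Dat d), D.Ok → ∀ (I : Type) [Fintype I] (u : TF d I), Bd D C u →
      Bd D C' ((DtotT D)^[j] u) := by
  induction j with
  | zero => exact ⟨C, hC, fun d D _ I _ u hu => hu⟩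
  | succ j ih =>
    obtain ⟨C1, hC1, h1⟩ := ih
    obtain ⟨C2, hC2, h2⟩ := Bd_DtotT C1 hC1
    refine ⟨C2, hC2, fun d D hD I _ u hu => ?_⟩
    rw [Function.iterate_succ_apply']
    exact h2 d D hD I _ (h1 d D hD I u hu)

theorem rg_DtotT_iter {d : ℕ} (D : Dat d) (u : ZS d → ℝ) (j : ℕ) :
    (DtotT D)^[j] (fun _ : Unit => u) = fun _ => (D.Dtot)^[j] u := by
  induction j with
  | zero => rfl
  | succ j ih =>
    rw [Function.iterate_succ_apply', ih, Function.iterate_succ_apply']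
    rfl

theorem rg_L2 {d : ℕ} {D : Dat d} {C : ℕ → ℕ → ℝ} {u : ZS d → ℝ} {j : ℕ}
    (h : Bd D C ((DtotT D)^[j] (fun _ : Unit => u))) {τ : ℝ} (hτ : τ ∈ IT) :
    ∫ z, ((D.Dtot)^[j] u (τ, z)) ^ 2 ∂(D.mu τ) ≤ (C 0 0) ^ 2 := by
  rw [rg_DtotT_iter] at h
  have h1 : L2B D τ (C 0 0) (fun _ : Unit => (D.Dtot)^[j] u) := h.2 0 0 τ hτ
  unfold L2B at h1
  simpa only [ge_iff_le, Finset.univ_unique, PUnit.default_eq_unit, Finset.sum_const, Finset.card_singleton,     one_smul] using h1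

theorem reg_B (j : ℕ) : ∃ C, 0 ≤ C ∧ ∀ (d : ℕ) (D : Dat d), D.Ok → ∀ e : Eu d, ‖e‖ ≤ 1 →
    ∀ τ ∈ IT, ∫ z, ((D.Dtot)^[j] (fB D e) (τ, z)) ^ 2 ∂(D.mu τ) ≤ C ^ 2 := by
  obtain ⟨C1, hC1, h1⟩ := rg_Bd_fB
  obtain ⟨C2, hC2, h2⟩ := rg_Bd_iter C1 hC1 j
  exact ⟨C2 0 0, hC2 0 0, fun d D hD e he τ hτ =>
    rg_L2 (h2 d D hD Unit _ (h1 d D hD e he)) hτ⟩

theorem reg_BB (j : ℕ) : ∃ C, 0 ≤ C ∧ ∀ (d : ℕ) (D : Dat d), D.Ok → ∀ e : Eu d, ‖e‖ ≤ 1 →
    ∀ τ ∈ IT, ∫ z, ((D.Dtot)^[j] (fBB D e) (τ, z)) ^ 2 ∂(D.mu τ) ≤ C ^ 2 := by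
  obtain ⟨C1, hC1, h1⟩ := rg_Bd_fBB
  obtain ⟨C2, hC2, h2⟩ := rg_Bd_iter C1 hC1 j
  exact ⟨C2 0 0, hC2 0 0, fun d D hD e he τ hτ =>
    rg_L2 (h2 d D hD Unit _ (h1 d D hD e he)) hτ⟩

/-- `κ⁻¹ Dtot F_e` -/
noncomputable def rgG {d : ℕ} (D : Dat d) (e : Eu d) : TF d Unit :=
  addT (D.divT (TM (mE d Unit) (D.TB (amp (B0 D.κ D.w) Unit) (cT e))))
    (smT (D.lam * D.κ) (mulT (fun _ : Unit => fBB D e)))

theorem rg_Bd_G : ∃ C, NN C ∧ ∀ (d : ℕ) (D : Dat d), D.Ok → ∀ e : Eu d, ‖e‖ ≤ 1 →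
    Bd D C (rgG D e) := by
  obtain ⟨C1, hC1, h1⟩ := rg_Bd_TBamp _ rg_NN_one
  obtain ⟨C2, hC2, h2⟩ := Bd_TM C1 hC1 1 zero_le_one
  obtain ⟨C3, hC3, h3⟩ := Bd_divT C2 hC2
  obtain ⟨C4, hC4, h4⟩ := rg_Bd_fBB
  obtain ⟨C5, hC5, h5⟩ := Bd_mulT C4 hC4
  obtain ⟨C6, hC6, h6⟩ := Bd_smT C5 hC5 2 (by norm_num)
  obtain ⟨C7, hC7, h7⟩ := Bd_addT C3 C6 hC3 hC6
  refine ⟨C7, hC7, fun d D hD e he => ?_⟩
  have hlk : |D.lam * D.κ| ≤ 2 := by
    rw [abs_mul, abs_of_pos hD.κ0]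
    exact hD.hlam
  have e1 := h3 d D hD Unit _ (h2 d D hD _ _ _ (opM_mE Unit) _
    (h1 d D hD Unit _ (Bd_cT d D hD e he)))
  have e2 := h6 d D hD Unit _ (D.lam * D.κ) hlk (h5 d D hD Unit _ (h4 d D hD e he))
  exact h7 d D hD Unit _ _ e1 e2

theorem rg_Dtot_fF_eq {d : ℕ} {D : Dat d} (hD : D.Ok) (e : Eu d) {p : ZS d} (hp : p.1 ∈ JT) :
    D.Dtot (fF D e) p = D.κ * rgG D e () p := by
  have hκ := hD.κ0.ne'
  rw [rg_Dtot_fF hD e hp]
  show _ = D.κ * (D.divT (TM (mE d Unit) (D.TB (amp (B0 D.κ D.w) Unit) (cT e))) () p +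
    D.lam * D.κ * (p.1 * fBB D e p))
  rw [rg_TB_one, rg_divE]
  have h1 : ∀ k, D.ds (false, k) (D.up (rgB D e k)) p =
      ∑ j, e j * (D.κ⁻¹ * D.ds (false, k) (D.up (F1 D.w k j)) p) := by
    intro k
    have h2 : D.up (rgB D e k) = fun q => ∑ j, (e j * D.κ⁻¹) * D.up (F1 D.w k j) q := by
      funext q
      show ∑ j, D.κ⁻¹ * F1 D.w k j _ * e j = ∑ j, (e j * D.κ⁻¹) * F1 D.w k j _
      exact Finset.sum_congr rfl fun j _ => by ring
    have h3 := rg_ds_sum (D := D) (fun j => e j * D.κ⁻¹) (u := fun j => D.up (F1 D.w k j))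
      (fun j => hD.up_cg ((hD.heat.cg.dy j).dy k)) hp (false, k)
    rw [h2, h3]
    exact Finset.sum_congr rfl fun j _ => by ring
  simp only [h1]
  rw [Finset.sum_comm, mul_add, Finset.mul_sum]
  congr 1
  · refine Finset.sum_congr rfl fun k _ => ?_
    rw [Finset.mul_sum, Finset.mul_sum]
    refine Finset.sum_congr rfl fun j _ => ?_
    (clear * - hκ; field_simp)
  · ring

theorem reg_F (j : ℕ) : ∃ C, 0 ≤ C ∧ ∀ (d : ℕ) (D : Dat d), D.Ok → ∀ e : Eu d, ‖e‖ ≤ 1 →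
    ∀ τ ∈ IT, ∫ z, ((D.Dtot)^[j + 1] (fF D e) (τ, z)) ^ 2 ∂(D.mu τ) ≤ (C * D.κ) ^ 2 := by
  obtain ⟨C1, hC1, h1⟩ := rg_Bd_G
  obtain ⟨C2, hC2, h2⟩ := rg_Bd_iter C1 hC1 j
  refine ⟨C2 0 0, hC2 0 0, fun d D hD e he τ hτ => ?_⟩
  have hG := h1 d D hD e he
  have h3 := rg_L2 (u := rgG D e ()) (h2 d D hD Unit _ hG) hτ
  have h4 : ∀ z, (D.Dtot)^[j + 1] (fF D e) (τ, z) = D.κ * (D.Dtot)^[j] (rgG D e ()) (τ, z) := by
    intro z
    rw [Function.iterate_succ_apply]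
    exact rg_Dtot_iter_smul hD D.κ j (hG.1 ()) (fun q hq => rg_Dtot_fF_eq hD e hq) (τ, z)
      (IT_subset_JT hτ)
  simp only [h4, mul_pow]
  rw [integral_const_mul, mul_comm]
  exact mul_le_mul_of_nonneg_right h3 (by (clear * -; positivity))

end Vale.Agent.P347.Z
end

section
attribute [-instance] ProperSMul.toContinuousSMul IsTopologicalTorsor.toContinuousSMul IdemSemiring.toCanonicallyOrderedAdd IdemSemiring.toMulLeftMono IdemSemiring.toMulRightMono AddQuantale.instAddLeftMono AddQuantale.instAddRightMono Quantale.instMulLeftMono Quantale.instMulRightMono FiniteDimensional.rclike_to_real IsScalarTower.complexToReal FiniteDimensional.complexToReal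

/-! P347-Z-F2a. Derivatives along the flows: towers, and `L¹` bounds.

`vecD D j f t z` is the vector with components `(Dtot^[j] (f k)) (t, z)`.
`tower`: chain rule. `path_L1`: Cauchy-Schwarz, the law of the flow and Fubini. For the plain flow the
functions `Dtot^[j] (fF D (ek k))` do not depend on `g`, and as functions of `(t, a, Y + t a)` they do not
depend on the centre `Y`. -/

open MeasureTheory Filter Module Set
open scoped ENNReal NNReal

set_option linter.unusedVariables false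
set_option linter.unusedSectionVars false

namespace Vale.Agent.P347.Z

variable {d : ℕ}

/-- Vector of the components of the `j`-th total derivative. -/
noncomputable def vecD (D : Dat d) (j : ℕ) (f : Fin d → ZS d → ℝ) (p : ZS d) : Eu d :=
  WithLp.toLp 2 fun k => (D.Dtot)^[j] (f k) p

/-! ### Integrals along paths -/

section core

variable {Ω : Type} [TopologicalSpace Ω] [MeasurableSpace Ω] [BorelSpace Ω]
  {E : Type} [NormedAddCommGroup E] {T : ℝ} {v : ℝ → Ω → E}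

theorem pr_ext_cont (hT : 0 < T)
    (hv : ContinuousOn (fun p : ℝ × Ω => v p.1 p.2) (Icc 0 T ×ˢ univ)) :
    Continuous (fun p : ℝ × Ω => ‖v (projIcc 0 T hT.le p.1) p.2‖) := by
  have h1 : Continuous (fun p : ℝ × Ω => (((projIcc 0 T hT.le p.1 : ℝ)), p.2)) := by
    have := (continuous_projIcc (a := (0 : ℝ)) (b := T) (h := hT.le))
    fun_prop
  exact (hv.comp_continuous h1 fun p => ⟨(projIcc 0 T hT.le p.1).2, trivial⟩).norm

theorem pr_ext_eq (hT : 0 < T) (z : Ω) :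
    ∫ t in (0 : ℝ)..T, ‖v t z‖ = ∫ t in (0 : ℝ)..T, ‖v (projIcc 0 T hT.le t) z‖ := by
  apply intervalIntegral.integral_congr
  intro t ht
  rw [uIcc_of_le hT.le] at ht
  simp only [projIcc_of_mem hT.le ht]

theorem pr_cont (hT : 0 < T)
    (hv : ContinuousOn (fun p : ℝ × Ω => v p.1 p.2) (Icc 0 T ×ˢ univ)) :
    Continuous (fun z => ∫ t in (0 : ℝ)..T, ‖v t z‖) := by
  have h1 : (fun z => ∫ t in (0 : ℝ)..T, ‖v t z‖)
      = fun z => ∫ t in (0 : ℝ)..T, ‖v (projIcc 0 T hT.le t) z‖ := funext fun z => pr_ext_eq hT z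
  rw [h1]
  apply intervalIntegral.continuous_parametric_intervalIntegral_of_continuous'
  exact (pr_ext_cont hT hv).comp continuous_swap

theorem pr_prob_le {P : Measure Ω} [IsProbabilityMeasure P] {g : Ω → ℝ} (hm : AEStronglyMeasurable g P)
    (hg : ∀ z, 0 ≤ g z) (hi : Integrable (fun z => (g z) ^ 2) P) {B : ℝ} (hB : 0 ≤ B)
    (hb : ∫ z, (g z) ^ 2 ∂P ≤ B ^ 2) : Integrable g P ∧ ∫ z, g z ∂P ≤ B := by
  have h1 : Integrable g P := by
    refine Integrable.mono' ((integrable_const (1 : ℝ)).add hi) hm (Eventually.of_forall fun z => ?_)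
    rw [Real.norm_of_nonneg (hg z)]
    show g z ≤ 1 + (g z) ^ 2
    (refine le_of_not_gt fun hng_ => ?_; linarith only [mul_nonneg (le_of_lt (sub_pos.2 hng_)) (hg z), mul_pos (sub_pos.2 hng_) (sub_pos.2 hng_), mul_nonneg (le_of_lt (sub_pos.2 hng_)) (sq_nonneg (g z - 1))])
  refine ⟨h1, ?_⟩
  obtain ⟨m, hm1⟩ : ∃ m, m = ∫ z, g z ∂P := ⟨_, rfl⟩
  have h2 : 0 ≤ ∫ z, (g z - m) ^ 2 ∂P := integral_nonneg fun z => sq_nonneg _
  have h3 : ∫ z, (g z - m) ^ 2 ∂P = ∫ z, (g z) ^ 2 ∂P - m ^ 2 := by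
    have e1 : (fun z => (g z - m) ^ 2) = fun z => ((g z) ^ 2 - (2 * m) * g z) + m ^ 2 := by
      funext z
      ring
    have e2 : Integrable (fun z => (g z) ^ 2 - (2 * m) * g z) P := hi.sub (h1.const_mul _)
    have e3 : ∫ z, ((g z) ^ 2 - (2 * m) * g z) ∂P = ∫ z, (g z) ^ 2 ∂P - 2 * m * m := by
      rw [integral_sub hi (h1.const_mul _), integral_const_mul, ← hm1]
    rw [e1, integral_add e2 (integrable_const _), e3]
    simp
    ring
  rw [← hm1]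
  have h4 : m ^ 2 ≤ B ^ 2 := by linarith only [h2, hb, h3]
  exact abs_le_of_sq_le_sq' h4 hB |>.2

theorem pr_core [SecondCountableTopology Ω] (hT : 0 < T)
    (hv : ContinuousOn (fun p : ℝ × Ω => v p.1 p.2) (Icc 0 T ×ˢ univ))
    {P : Measure Ω} [IsProbabilityMeasure P] {B : ℝ} (hB : 0 ≤ B)
    (hi : ∀ t ∈ Icc 0 T, Integrable (fun z => ‖v t z‖ ^ 2) P ∧ ∫ z, ‖v t z‖ ^ 2 ∂P ≤ B ^ 2) :
    Integrable (fun z => ∫ t in (0 : ℝ)..T, ‖v t z‖) P ∧
      ∫ z, (∫ t in (0 : ℝ)..T, ‖v t z‖) ∂P ≤ T * B := by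
  have h1 : (fun z => ∫ t in (0 : ℝ)..T, ‖v t z‖)
      = fun z => ∫ t in Ioc 0 T, ‖v (projIcc 0 T hT.le t) z‖ := funext fun z => by
    rw [pr_ext_eq hT z, intervalIntegral.integral_of_le hT.le]
  rw [h1]
  have hc := pr_ext_cont hT hv
  set F : ℝ × Ω → ℝ := fun p => ‖v (projIcc 0 T hT.le p.1) p.2‖ with hF
  have hFm : AEStronglyMeasurable F ((volume.restrict (Ioc 0 T)).prod P) :=
    hc.aestronglyMeasurable
  have hk : ∀ t ∈ Ioc 0 T, Integrable (fun z => F (t, z)) P ∧ ∫ z, F (t, z) ∂P ≤ B := by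
    intro t ht
    have ht' : t ∈ Icc 0 T := ⟨ht.1.le, ht.2⟩
    obtain ⟨h2, h3⟩ := hi t ht'
    have h4 : ∀ z, F (t, z) = ‖v t z‖ := fun z => by
      simp only [hF, projIcc_of_mem hT.le ht']
    have h5 : Continuous fun z => F (t, z) := hc.comp (by fun_prop)
    apply pr_prob_le h5.aestronglyMeasurable (fun z => norm_nonneg _) _ hB
    · simp only [h4]
      exact h3
    · simp only [h4]
      exact h2
  have hint : Integrable F ((volume.restrict (Ioc 0 T)).prod P) := by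
    rw [integrable_prod_iff hFm]
    refine ⟨?_, ?_⟩
    · rw [ae_restrict_iff' measurableSet_Ioc]
      exact Eventually.of_forall fun t ht => (hk t ht).1
    · refine Integrable.mono' (integrable_const B) hFm.norm.integral_prod_right' ?_
      rw [ae_restrict_iff' measurableSet_Ioc]
      refine Eventually.of_forall fun t ht => ?_
      have h6 : ∀ z, ‖F (t, z)‖ = F (t, z) := fun z => Real.norm_of_nonneg (norm_nonneg _)
      simp only [h6]
      rw [Real.norm_of_nonneg (integral_nonneg fun z => norm_nonneg _)]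
      exact (hk t ht).2
  refine ⟨hint.integral_prod_right, ?_⟩
  have h7 : ∫ z, (∫ t in Ioc 0 T, F (t, z)) ∂P = ∫ t in Ioc 0 T, (∫ z, F (t, z) ∂P) :=
    (integral_integral_swap (f := fun t z => F (t, z)) hint).symm
  rw [h7]
  have h8 : ∫ t in Ioc 0 T, (∫ z, F (t, z) ∂P) ≤ ∫ t in Ioc (0 : ℝ) T, B := by
    refine setIntegral_mono_on hint.integral_prod_left (integrable_const _) measurableSet_Ioc
      fun t ht => (hk t ht).2
  refine h8.trans (le_of_eq ?_)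
  rw [setIntegral_const]
  simp [hT.le]

end core

/-! ### Chain rule -/

theorem pr_sum_ek (c : Fin d → ℝ) : ∑ k, c k • ek k = WithLp.toLp 2 c := by
  have h := (EuclideanSpace.basisFun (Fin d) ℝ).sum_repr (WithLp.toLp 2 c : Eu d)
  simpa using h

theorem pr_fderiv (D : Dat d) (u : ZS d → ℝ) (p : ZS d) :
    fderiv ℝ u p (1, (D.Xa p, D.Xg p)) = D.Dtot u p := by
  have h1 : ((1 : ℝ), (D.Xa p, D.Xg p)) = ((1, 0) : ℝ × (Eu d × Eu d)) +
      ∑ m : Sl d, D.Xf m p • ((0, if m.1 then (0, ek m.2) else (ek m.2, 0)) :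
        ℝ × (Eu d × Eu d)) := by
    have h2 : ∑ m : Sl d, D.Xf m p • ((0, if m.1 then (0, ek m.2) else (ek m.2, 0)) :
        ℝ × (Eu d × Eu d)) = (0, (D.Xa p, D.Xg p)) := by
      rw [Fintype.sum_prod_type, Fintype.sum_bool]
      simp only [if_true, Bool.false_eq_true, if_false]
      have h3 : ∑ k, D.Xf (true, k) p • ((0, (0, ek k)) : ℝ × (Eu d × Eu d)) =
          (0, (0, D.Xg p)) := by
        rw [Dat.Xg, ← pr_sum_ek]
        have : ∀ k, D.Xf (true, k) p • ((0, (0, ek k)) : ℝ × (Eu d × Eu d)) =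
          (ContinuousLinearMap.inr ℝ ℝ (Eu d × Eu d)).comp
            (ContinuousLinearMap.inr ℝ (Eu d) (Eu d)) (D.Xf (true, k) p • ek k) := by
          intro k
          rw [map_smul]
          rfl
        simp only [this]
        rw [← map_sum]
        rfl
      have h4 : ∑ k, D.Xf (false, k) p • ((0, (ek k, 0)) : ℝ × (Eu d × Eu d)) =
          (0, (D.Xa p, 0)) := by
        rw [Dat.Xa, ← pr_sum_ek]
        have : ∀ k, D.Xf (false, k) p • ((0, (ek k, 0)) : ℝ × (Eu d × Eu d)) =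
          (ContinuousLinearMap.inr ℝ ℝ (Eu d × Eu d)).comp
            (ContinuousLinearMap.inl ℝ (Eu d) (Eu d)) (D.Xf (false, k) p • ek k) := by
          intro k
          rw [map_smul]
          rfl
        simp only [this]
        rw [← map_sum]
        rfl
      rw [h3, h4]
      simp
    rw [h2]
    simp
  rw [h1, map_add, map_sum]
  simp only [map_smul, smul_eq_mul]
  rfl

theorem pr_diffAt {u : ZS d → ℝ} (hu : CG JT u) {p : ZS d} (hp : p.1 ∈ JT) :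
    DifferentiableAt ℝ u p :=
  (hu.diff p ⟨hp, trivial⟩).differentiableAt ((isOpen_JT.prod isOpen_univ).mem_nhds ⟨hp, trivial⟩)

theorem pr_chain {D : Dat d} {u : ZS d → ℝ} (hu : CG JT u) {a g : ℝ → Eu d} {t : ℝ} (ht : t ∈ IT)
    (ha : HasDerivWithinAt a (D.Xa (t, (a t, g t))) IT t)
    (hg : HasDerivWithinAt g (D.Xg (t, (a t, g t))) IT t) :
    HasDerivWithinAt (fun s => u (s, (a s, g s))) (D.Dtot u (t, (a t, g t))) IT t := by
  have h1 : DifferentiableAt ℝ u (t, (a t, g t)) := pr_diffAt hu (IT_subset_JT ht)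
  have h2 : HasDerivWithinAt (fun s => ((s, (a s, g s)) : ZS d))
      (1, (D.Xa (t, (a t, g t)), D.Xg (t, (a t, g t)))) IT t :=
    (hasDerivWithinAt_id t IT).prodMk (ha.prodMk hg)
  have h3 := h1.hasFDerivAt.comp_hasDerivWithinAt t h2
  rw [pr_fderiv] at h3
  exact h3

theorem pr_iter {D : Dat d} (hD : D.Ok) {u : ZS d → ℝ} (hu : CG JT u) (j : ℕ) :
    CG JT (D.Dtot^[j] u) := by
  induction j with
  | zero => exact hu
  | succ j ih =>
    rw [Function.iterate_succ_apply']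
    exact Dtot_cg d D hD ih

theorem pr_toLp {g : Fin d → ℝ → ℝ} {g' : Fin d → ℝ} {s : Set ℝ} {t : ℝ}
    (h : ∀ k, HasDerivWithinAt (g k) (g' k) s t) :
    HasDerivWithinAt (fun t => (WithLp.toLp 2 fun k => g k t : Eu d)) (WithLp.toLp 2 g') s t := by
  have h1 : HasDerivWithinAt (fun t => fun k => g k t) g' s t := hasDerivWithinAt_pi.2 h
  exact ((PiLp.hasFDerivAt_toLp (𝕜 := ℝ) 2 (fun k => g k t)).comp_hasDerivWithinAt t h1)

theorem pr_deriv {D : Dat d} (hD : D.Ok) {f : Fin d → ZS d → ℝ} (hf : ∀ k, CG JT (f k))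
    {a g : ℝ → Eu d} (ha : ∀ t ∈ IT, HasDerivWithinAt a (D.Xa (t, (a t, g t))) IT t)
    (hg : ∀ t ∈ IT, HasDerivWithinAt g (D.Xg (t, (a t, g t))) IT t) (j : ℕ) {t : ℝ}
    (ht : t ∈ IT) :
    HasDerivWithinAt (fun t => vecD D j f (t, (a t, g t))) (vecD D (j + 1) f (t, (a t, g t)))
      IT t := by
  apply pr_toLp
  intro k
  rw [Function.iterate_succ_apply']
  exact pr_chain (pr_iter hD (hf k) j) ht (ha t ht) (hg t ht)

theorem pr_Icc {T : ℝ} (hT1 : T ≤ 1 / 2) : Icc 0 T ⊆ IT := fun _ h => ⟨h.1, h.2.trans hT1⟩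

theorem pr_tower {D : Dat d} (hD : D.Ok) {f : Fin d → ZS d → ℝ} (hf : ∀ k, CG JT (f k))
    {a g : ℝ → Eu d} (ha : ∀ t ∈ IT, HasDerivWithinAt a (D.Xa (t, (a t, g t))) IT t)
    (hg : ∀ t ∈ IT, HasDerivWithinAt g (D.Xg (t, (a t, g t))) IT t) {T : ℝ}
    (hT1 : T ≤ 1 / 2) (m : ℕ) : Tower T m (fun j t => vecD D j f (t, (a t, g t))) where
  deriv j _ t ht := (pr_deriv hD hf ha hg j (pr_Icc hT1 ht)).mono (pr_Icc hT1)
  cont t ht := ((pr_deriv hD hf ha hg m (pr_Icc hT1 ht)).mono (pr_Icc hT1)).continuousWithinAt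

theorem LFl.tower {w : ℝ × Eu d → ℝ} {κ l0 lam : ℝ} {A Q : ℝ → Eu d × (Eu d × Eu d) → Eu d}
    (hA : LFl w κ l0 lam A Q) {Y : Eu d} (hD : (Dat.mk w κ l0 lam Y).Ok)
    {f : Fin d → ZS d → ℝ} (hf : ∀ k, CG JT (f k)) {T : ℝ} (hT : 0 < T) (hT1 : T ≤ 1 / 2) (m : ℕ)
    (z : Eu d × Eu d) :
    Tower T m (fun j t => vecD (Dat.mk w κ l0 lam Y) j f (t, (A t (Y, z), Q t (Y, z)))) :=
  pr_tower hD hf (fun t ht => hA.dA Y z t ht) (fun t ht => hA.dQ Y z t ht) hT1 m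

/-! ### The `L²` norm of `vecD` -/

theorem pr_norm_sq (D : Dat d) (j : ℕ) (f : Fin d → ZS d → ℝ) (p : ZS d) :
    ‖vecD D j f p‖ ^ 2 = ∑ k, (D.Dtot^[j] (f k) p) ^ 2 := by
  rw [EuclideanSpace.norm_sq_eq]
  simp only [vecD, Real.norm_eq_abs, sq_abs]

theorem pr_vec_cont {D : Dat d} (hD : D.Ok) {f : Fin d → ZS d → ℝ} (hf : ∀ k, CG JT (f k))
    (j : ℕ) : ContinuousOn (vecD D j f) (JT ×ˢ univ) := by
  have h1 : ContinuousOn (fun p => fun k => D.Dtot^[j] (f k) p) (JT ×ˢ univ) :=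
    continuousOn_pi.2 fun k => (pr_iter hD (hf k) j).cont
  exact (PiLp.continuous_toLp 2 _).comp_continuousOn h1

theorem pr_sq_int {D : Dat d} (hD : D.Ok) {f : Fin d → ZS d → ℝ} (hf : ∀ k, CG JT (f k))
    (j : ℕ) {C : ℝ} (hC : 0 ≤ C) {t : ℝ} (ht : t ∈ IT)
    (hb : ∀ k, ∫ z, (D.Dtot^[j] (f k) (t, z)) ^ 2 ∂(D.mu t) ≤ C ^ 2) :
    Integrable (fun z => ‖vecD D j f (t, z)‖ ^ 2) (D.mu t) ∧
      ∫ z, ‖vecD D j f (t, z)‖ ^ 2 ∂(D.mu t) ≤ (C * √d) ^ 2 := by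
  have h1 : ∀ k, Integrable (fun z => (D.Dtot^[j] (f k) (t, z)) ^ 2) (D.mu t) := by
    intro k
    have h2 := pr_iter hD (hf k) j
    have h3 := mu_integrable hD (IT_subset_JT ht) (CG.mul isOpen_JT h2 h2)
    refine h3.congr (Eventually.of_forall fun z => ?_)
    simp only [pow_two]
  simp only [pr_norm_sq]
  refine ⟨integrable_finsetSum _ fun k _ => h1 k, ?_⟩
  rw [integral_finsetSum _ fun k _ => h1 k]
  calc ∑ k, ∫ z, (D.Dtot^[j] (f k) (t, z)) ^ 2 ∂(D.mu t) ≤ ∑ k : Fin d, C ^ 2 :=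
        Finset.sum_le_sum fun k _ => hb k
    _ = (C * √d) ^ 2 := by
        rw [mul_pow, Real.sq_sqrt (Nat.cast_nonneg d)]
        simp
        ring

theorem LFl.path_L1 {w : ℝ × Eu d → ℝ} {κ l0 lam : ℝ} {A Q : ℝ → Eu d × (Eu d × Eu d) → Eu d}
    (hA : LFl w κ l0 lam A Q) {Y : Eu d} (hD : (Dat.mk w κ l0 lam Y).Ok)
    {f : Fin d → ZS d → ℝ} (hf : ∀ k, CG JT (f k)) {T : ℝ} (hT : 0 < T) (hT1 : T ≤ 1 / 2) (m : ℕ)
    {C : ℝ} (hC : 0 ≤ C)
    (hb : ∀ k, ∀ τ ∈ IT, ∫ z, (((Dat.mk w κ l0 lam Y).Dtot)^[m] (f k) (τ, z)) ^ 2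
      ∂((Dat.mk w κ l0 lam Y).mu τ) ≤ C ^ 2) :
    Measurable (fun z : Eu d × Eu d => ∫ t in (0 : ℝ)..T,
        ‖vecD (Dat.mk w κ l0 lam Y) m f (t, (A t (Y, z), Q t (Y, z)))‖) ∧
      Integrable (fun z : Eu d × Eu d => ∫ t in (0 : ℝ)..T,
        ‖vecD (Dat.mk w κ l0 lam Y) m f (t, (A t (Y, z), Q t (Y, z)))‖)
        ((gam (Eu d)).prod (gam (Eu d))) ∧
      ∫ z, (∫ t in (0 : ℝ)..T,
        ‖vecD (Dat.mk w κ l0 lam Y) m f (t, (A t (Y, z), Q t (Y, z)))‖)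
        ∂((gam (Eu d)).prod (gam (Eu d))) ≤ T * (C * √d) := by
  set D : Dat d := Dat.mk w κ l0 lam Y with hDdef
  have hpath : ContinuousOn (fun p : ℝ × (Eu d × Eu d) =>
      ((p.1, (A p.1 (Y, p.2), Q p.1 (Y, p.2))) : ZS d)) (IT ×ˢ univ) := by
    have h1 : Continuous (fun p : ℝ × (Eu d × Eu d) => (p.1, (Y, p.2))) := by fun_prop
    have h2 : MapsTo (fun p : ℝ × (Eu d × Eu d) => (p.1, (Y, p.2))) (IT ×ˢ univ)
        (IT ×ˢ (univ : Set (Eu d × (Eu d × Eu d)))) := fun p hp => ⟨hp.1, trivial⟩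
    exact continuousOn_fst.prodMk ((hA.cA.comp h1.continuousOn h2).prodMk
      (hA.cQ.comp h1.continuousOn h2))
  have hv : ContinuousOn (fun p : ℝ × (Eu d × Eu d) =>
      vecD D m f (p.1, (A p.1 (Y, p.2), Q p.1 (Y, p.2)))) (Icc 0 T ×ˢ univ) :=
    ((pr_vec_cont hD hf m).comp hpath fun p hp => ⟨IT_subset_JT hp.1, trivial⟩).mono
      (prod_mono (pr_Icc hT1) le_rfl)
  refine ⟨(pr_cont (v := fun t z => vecD D m f (t, (A t (Y, z), Q t (Y, z)))) hT hv).measurable,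
    ?_⟩
  have hB : 0 ≤ C * √d := by positivity
  refine pr_core (v := fun t z => vecD D m f (t, (A t (Y, z), Q t (Y, z)))) hT hv hB
    fun t ht => ?_
  have ht' : t ∈ IT := pr_Icc hT1 ht
  obtain ⟨h1, h2⟩ := pr_sq_int hD hf m hC ht' fun k => hb k t ht'
  have hlaw := hA.law Y t ht'
  have hc1 : Continuous (fun z : Eu d × Eu d => (A t (Y, z), Q t (Y, z))) := by
    have h3 : Continuous (fun z : Eu d × Eu d => ((t, z) : ℝ × (Eu d × Eu d))) := by fun_prop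
    have h4 := hpath.comp_continuous h3 fun z => ⟨ht', trivial⟩
    exact h4.snd
  have hc2 : Continuous (fun z : Eu d × Eu d => ‖vecD D m f (t, z)‖ ^ 2) := by
    have h3 : Continuous (fun z : Eu d × Eu d => ((t, z) : ZS d)) := by fun_prop
    exact ((pr_vec_cont hD hf m).comp_continuous h3 fun z => ⟨IT_subset_JT ht', trivial⟩).norm.pow 2
  rw [← hDdef] at hlaw
  rw [← hlaw] at h1 h2
  constructor
  · exact (integrable_map_measure hc2.aestronglyMeasurable hc1.measurable.aemeasurable).1 h1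
  · rw [integral_map hc1.measurable.aemeasurable hc2.aestronglyMeasurable] at h2
    exact h2

/-! ### The plain flow -/

theorem pr_Xa (w : ℝ × Eu d → ℝ) (κ l0 : ℝ) (Y : Eu d) (p : ZS d) :
    (Dat.mk w κ l0 0 Y).Xa p = -Fv w (l0 - p.1 ^ 2, Y + p.1 • p.2.1) := by
  ext k
  simp [Dat.Xa, Dat.Xf, Fv, Dat.up]

theorem pr_Xg (w : ℝ × Eu d → ℝ) (κ l0 : ℝ) (Y : Eu d) (p : ZS d) :
    (Dat.mk w κ l0 0 Y).Xg p = 0 := by
  ext k
  simp [Dat.Xg, Dat.Xf]

theorem pr_fF (w : ℝ × Eu d → ℝ) (κ l0 : ℝ) (Y : Eu d) (k : Fin d) :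
    fF (Dat.mk w κ l0 0 Y) (ek k) = (Dat.mk w κ l0 0 Y).up (dy k w) := by
  funext p
  simp [fF]

theorem PFl.deriv_a {w : ℝ × Eu d → ℝ} (κ : ℝ) {l0 : ℝ} {A : ℝ → Eu d × Eu d → Eu d}
    (hA : PFl w l0 A) (Y a : Eu d) (t : ℝ) (ht : t ∈ IT) :
    HasDerivWithinAt (fun t => A t (Y, a)) ((Dat.mk w κ l0 0 Y).Xa (t, (A t (Y, a), 0))) IT t := by
  rw [pr_Xa]
  exact hA.dA Y a t ht

theorem PFl.deriv_g (w : ℝ × Eu d → ℝ) (κ l0 : ℝ) (Y : Eu d) (a : ℝ → Eu d) (t : ℝ) :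
    HasDerivWithinAt (fun _ : ℝ => (0 : Eu d)) ((Dat.mk w κ l0 0 Y).Xg (t, (a t, 0))) IT t := by
  rw [pr_Xg]
  exact hasDerivWithinAt_const t IT (0 : Eu d)

/-- The tower of `F` along the plain flow (`lam = 0`). -/
theorem PFl.tower {w : ℝ × Eu d → ℝ} {κ l0 : ℝ} {A : ℝ → Eu d × Eu d → Eu d}
    (hA : PFl w l0 A) {Y : Eu d} (hD : (Dat.mk w κ l0 0 Y).Ok) {T : ℝ} (hT : 0 < T)
    (hT1 : T ≤ 1 / 2) (m : ℕ) (a : Eu d) :
    Tower T m (fun j t => vecD (Dat.mk w κ l0 0 Y) j (fun k => fF (Dat.mk w κ l0 0 Y) (ek k))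
      (t, (A t (Y, a), 0))) ∧
    (∀ t ∈ Icc 0 T, vecD (Dat.mk w κ l0 0 Y) 0 (fun k => fF (Dat.mk w κ l0 0 Y) (ek k))
      (t, (A t (Y, a), 0)) = Fv w (l0 - t ^ 2, Y + t • A t (Y, a))) ∧
    vecD (Dat.mk w κ l0 0 Y) 1 (fun k => fF (Dat.mk w κ l0 0 Y) (ek k)) (0, (a, 0))
      = κ • B0L κ w (l0, Y) a := by
  refine ⟨?_, ?_, ?_⟩
  · exact pr_tower hD (fun k => fF_cg d _ hD (ek k)) (a := fun t => A t (Y, a)) (g := fun _ => 0)
      (fun t ht => PFl.deriv_a κ hA Y a t ht)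
      (fun t ht => PFl.deriv_g w κ l0 Y (fun t => A t (Y, a)) t) hT1 m
  · intro t _
    ext k
    simp only [vecD, Function.iterate_zero, id_eq, pr_fF]
    rfl
  · ext k
    have hκ : κ ≠ 0 := hD.κ0.ne'
    have hw : CG (Ioi 0) w := hD.heat.cg
    have hl0 : 0 < l0 := by
      have := hD.l0a
      simp only at this
      linarith only [this]
    have h0 : (0 : ℝ) ∈ JT := by constructor <;> norm_num
    have h1 : (Dat.mk w κ l0 0 Y).Dtot (fF (Dat.mk w κ l0 0 Y) (ek k)) (0, (a, 0)) =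
        ∑ j, a j * dy j (dy k w) (l0, Y) := by
      rw [pr_fF]
      have h2 := hD.dtau_up (hw.dy k) (p := ((0, (a, 0)) : ZS d)) h0
      have h3 : ∀ m : Sl d, dz m ((Dat.mk w κ l0 0 Y).up (dy k w)) (0, (a, 0)) = 0 := by
        intro m
        rw [hD.dz_up (hw.dy k) m h0]
        simp
      show dtau ((Dat.mk w κ l0 0 Y).up (dy k w)) (0, (a, 0)) + ∑ m, _ *
        dz m ((Dat.mk w κ l0 0 Y).up (dy k w)) (0, (a, 0)) = _
      rw [h2]
      simp only [h3, mul_zero, Finset.sum_const_zero, add_zero, zero_mul, zero_add]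
      refine Finset.sum_congr rfl fun j _ => ?_
      simp [Dat.up]
    have h4 : (vecD (Dat.mk w κ l0 0 Y) 1 (fun k => fF (Dat.mk w κ l0 0 Y) (ek k)) (0, (a, 0))) k
      = ∑ j, a j * dy j (dy k w) (l0, Y) := h1
    rw [h4]
    show _ = κ * ∑ j, B0 κ w k j (l0, Y) * a j
    rw [Finset.mul_sum]
    refine Finset.sum_congr rfl fun j _ => ?_
    show _ = κ * ((κ⁻¹ * dy k (dy j w) (l0, Y)) * a j)
    rw [mlt_dy_comm hw k j (p := (l0, Y)) hl0]
    field_simp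

/-- Independence of `g`. -/
theorem pr_noG (w : ℝ × Eu d → ℝ) (κ l0 : ℝ) (Y : Eu d) {u : ZS d → ℝ}
    (hu : ∀ (p : ZS d) (h : Eu d), u (p + (0, (0, h))) = u p) (p : ZS d) (h : Eu d) :
    (Dat.mk w κ l0 0 Y).Dtot u (p + (0, (0, h))) = (Dat.mk w κ l0 0 Y).Dtot u p := by
  have h1 : fderiv ℝ u (p + (0, (0, h))) = fderiv ℝ u p := by
    rw [← fderiv_comp_add_right]
    congr 1
    funext q
    exact hu q h
  rw [← pr_fderiv, ← pr_fderiv, h1, pr_Xa, pr_Xa, pr_Xg, pr_Xg]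
  simp

theorem pr_noG_iter (w : ℝ × Eu d → ℝ) (κ l0 : ℝ) (Y : Eu d) (k : Fin d) (j : ℕ) (p : ZS d)
    (h : Eu d) : (Dat.mk w κ l0 0 Y).Dtot^[j] (fF (Dat.mk w κ l0 0 Y) (ek k)) (p + (0, (0, h)))
      = (Dat.mk w κ l0 0 Y).Dtot^[j] (fF (Dat.mk w κ l0 0 Y) (ek k)) p := by
  induction j generalizing p h with
  | zero =>
    simp only [Function.iterate_zero, id_eq, pr_fF]
    simp [Dat.up]
  | succ j ih =>
    rw [Function.iterate_succ_apply']
    exact pr_noG w κ l0 Y ih p h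

theorem pr_vec_noG (w : ℝ × Eu d → ℝ) (κ l0 : ℝ) (Y : Eu d) (j : ℕ) (t : ℝ) (a g : Eu d) :
    vecD (Dat.mk w κ l0 0 Y) j (fun k => fF (Dat.mk w κ l0 0 Y) (ek k)) (t, (a, g)) =
      vecD (Dat.mk w κ l0 0 Y) j (fun k => fF (Dat.mk w κ l0 0 Y) (ek k)) (t, (a, 0)) := by
  ext k
  have h1 := pr_noG_iter w κ l0 Y k j (t, (a, 0)) g
  simpa [vecD] using h1

/-! ### Dependence on the centre -/

/-- Smooth on `JT`. -/
def pr_Sm (U : ZS d → ℝ) : Prop := ∀ n : ℕ, ContDiffOn ℝ n U (JT ×ˢ univ)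

/-- The vector field in the coordinates `(t, (a, y))`, `y = Y + t a`. -/
noncomputable def pr_V (w : ℝ × Eu d → ℝ) (l0 : ℝ) (p : ZS d) : ZS d :=
  (1, (-Fv w (l0 - p.1 ^ 2, p.2.2), p.2.1 - p.1 • Fv w (l0 - p.1 ^ 2, p.2.2)))

/-- The derivative along the field. -/
noncomputable def pr_R (w : ℝ × Eu d → ℝ) (l0 : ℝ) (U : ZS d → ℝ) : ZS d → ℝ :=
  fun p => fderiv ℝ U p (pr_V w l0 p)

theorem pr_F_smooth {w : ℝ × Eu d → ℝ} (hw : CG (Ioi 0) w) {l0 : ℝ} (hl0 : 3 / 4 ≤ l0)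
    (k : Fin d) : pr_Sm (fun p : ZS d => dy k w (l0 - p.1 ^ 2, p.2.2)) := by
  intro n
  have h1 : ContDiffOn ℝ n (dy k w) (Ioi 0 ×ˢ univ) := (hw.dy k).contDiffOn isOpen_Ioi n
  have h2 : ContDiff ℝ n (fun p : ZS d => (l0 - p.1 ^ 2, p.2.2)) := by fun_prop
  refine h1.comp h2.contDiffOn fun p hp => ⟨?_, trivial⟩
  obtain ⟨h3, h4⟩ := hp.1
  show 0 < l0 - p.1 ^ 2
  (refine lt_of_not_ge fun hng_ => ?_; linarith only [mul_nonneg (le_of_lt (sub_pos.2 h3)) (sub_nonneg.2 hng_), mul_nonneg (le_of_lt (sub_pos.2 h4)) (sub_nonneg.2 hng_), mul_nonneg (sub_nonneg.2 hl0) (le_of_lt (sub_pos.2 h3)), mul_pos (sub_pos.2 h3) (sub_pos.2 h4), mul_nonneg (sub_nonneg.2 hl0) (le_of_lt (sub_pos.2 h4))])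

theorem pr_V_smooth {w : ℝ × Eu d → ℝ} (hw : CG (Ioi 0) w) {l0 : ℝ} (hl0 : 3 / 4 ≤ l0) (n : ℕ) :
    ContDiffOn ℝ n (pr_V (d := d) w l0) (JT ×ˢ univ) := by
  have h1 : ContDiffOn ℝ n (fun p : ZS d => Fv w (l0 - p.1 ^ 2, p.2.2)) (JT ×ˢ univ) := by
    rw [contDiffOn_euclidean]
    intro k
    exact pr_F_smooth hw hl0 k n
  have h2 : ContDiffOn ℝ n (fun p : ZS d => p.2.1) (JT ×ˢ univ) :=
    (by fun_prop : ContDiff ℝ n (fun p : ZS d => p.2.1)).contDiffOn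
  have h3 : ContDiffOn ℝ n (fun p : ZS d => p.1) (JT ×ˢ univ) :=
    (by fun_prop : ContDiff ℝ n (fun p : ZS d => p.1)).contDiffOn
  exact contDiffOn_const.prodMk (h1.neg.prodMk (h2.sub (h3.smul h1)))

theorem pr_R_smooth {w : ℝ × Eu d → ℝ} (hw : CG (Ioi 0) w) {l0 : ℝ} (hl0 : 3 / 4 ≤ l0)
    {U : ZS d → ℝ} (hU : pr_Sm U) : pr_Sm (pr_R w l0 U) := by
  intro n
  have h1 : ContDiffOn ℝ n (fderiv ℝ U) (JT ×ˢ univ) := by
    refine ContDiffOn.fderiv_of_isOpen (hU (n + 1)) (isOpen_JT.prod isOpen_univ) ?_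
    push_cast
    exact le_rfl
  exact h1.clm_apply (pr_V_smooth hw hl0 n)

/-- The change of coordinates. -/
def pr_Ψ (c : Eu d) (p : ZS d) : ZS d := (p.1, (p.2.1, c + p.1 • p.2.1))

theorem pr_Ψ_deriv (c : Eu d) (p v : ZS d) :
    HasFDerivAt (pr_Ψ c) (fderiv ℝ (pr_Ψ c) p) p ∧
      fderiv ℝ (pr_Ψ c) p v = (v.1, (v.2.1, p.1 • v.2.1 + v.1 • p.2.1)) := by
  have h1 : HasFDerivAt (fun p : ZS d => p.1) (ContinuousLinearMap.fst ℝ ℝ (Eu d × Eu d)) p :=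
    hasFDerivAt_fst
  have h2 : HasFDerivAt (fun p : ZS d => p.2.1) ((ContinuousLinearMap.fst ℝ (Eu d) (Eu d)).comp
      (ContinuousLinearMap.snd ℝ ℝ (Eu d × Eu d))) p :=
    ((ContinuousLinearMap.fst ℝ (Eu d) (Eu d)).comp
      (ContinuousLinearMap.snd ℝ ℝ (Eu d × Eu d))).hasFDerivAt
  have h3 := h1.prodMk (h2.prodMk ((h1.smul h2).const_add c))
  have h4 : HasFDerivAt (pr_Ψ c) _ p := h3
  refine ⟨h4.differentiableAt.hasFDerivAt, ?_⟩
  rw [h4.fderiv]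
  simp

theorem pr_Dtot_Ψ (w : ℝ × Eu d → ℝ) (κ l0 : ℝ) (c : Eu d) {u U : ZS d → ℝ} (hU : pr_Sm U)
    (hu : ∀ p : ZS d, p.1 ∈ JT → u p = U (pr_Ψ c p)) {p : ZS d} (hp : p.1 ∈ JT) :
    (Dat.mk w κ l0 0 c).Dtot u p = pr_R w l0 U (pr_Ψ c p) := by
  have h1 : fderiv ℝ u p = fderiv ℝ (fun q => U (pr_Ψ c q)) p := by
    apply Filter.EventuallyEq.fderiv_eq
    filter_upwards [(isOpen_JT.prod isOpen_univ).mem_nhds
      (⟨hp, trivial⟩ : p ∈ JT ×ˢ (univ : Set (Eu d × Eu d)))] with q hq using hu q hq.1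
  have h2 : DifferentiableAt ℝ U (pr_Ψ c p) := by
    have h3 : pr_Ψ c p ∈ JT ×ˢ (univ : Set (Eu d × Eu d)) := ⟨hp, trivial⟩
    exact (((hU 1).differentiableOn (by norm_num)) _ h3).differentiableAt
      ((isOpen_JT.prod isOpen_univ).mem_nhds h3)
  have h4 : HasFDerivAt (fun q => U (pr_Ψ c q))
      ((fderiv ℝ U (pr_Ψ c p)).comp (fderiv ℝ (pr_Ψ c) p)) p :=
    h2.hasFDerivAt.comp p (pr_Ψ_deriv c p 0).1
  rw [← pr_fderiv, h1, h4.fderiv, pr_Xa, pr_Xg]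
  show fderiv ℝ U (pr_Ψ c p) (fderiv ℝ (pr_Ψ c) p _) = fderiv ℝ U (pr_Ψ c p) _
  rw [(pr_Ψ_deriv c p _).2]
  congr 1
  simp only [pr_V, pr_Ψ]
  refine Prod.ext rfl (Prod.ext rfl ?_)
  simp only [smul_neg, one_smul]
  abel

theorem pr_exists_U (w : ℝ × Eu d → ℝ) (hw : CG (Ioi 0) w) (κ : ℝ) {l0 : ℝ} (hl0 : 3 / 4 ≤ l0)
    (k : Fin d) (j : ℕ) : ∃ U : ZS d → ℝ, pr_Sm U ∧ ∀ (c : Eu d) (p : ZS d), p.1 ∈ JT →
      (Dat.mk w κ l0 0 c).Dtot^[j] (fF (Dat.mk w κ l0 0 c) (ek k)) p = U (pr_Ψ c p) := by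
  induction j with
  | zero =>
    refine ⟨_, pr_F_smooth hw hl0 k, fun c p _ => ?_⟩
    simp only [Function.iterate_zero, id_eq, pr_fF]
    rfl
  | succ j ih =>
    obtain ⟨U, hU, hU2⟩ := ih
    refine ⟨pr_R w l0 U, pr_R_smooth hw hl0 hU, fun c p hp => ?_⟩
    rw [Function.iterate_succ_apply']
    exact pr_Dtot_Ψ w κ l0 c hU (hU2 c) hp

theorem pr_plain {W : Eu d → ZS d → Eu d} {A : ℝ → Eu d × Eu d → Eu d} {T B : ℝ} (hT : 0 < T)
    (hT1 : T ≤ 1 / 2) (hB : 0 ≤ B)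
    (hv : ContinuousOn (fun p : ℝ × (Eu d × Eu d) => W p.2.1 (p.1, (A p.1 p.2, 0)))
      (Icc 0 T ×ˢ univ))
    (hAc : ContinuousOn (fun p : ℝ × (Eu d × Eu d) => A p.1 p.2) (IT ×ˢ univ))
    (mu : Eu d → ℝ → Measure (Eu d × Eu d))
    (hmu : ∀ c, ∀ t ∈ IT, (mu c t).map Prod.fst = (gam (Eu d)).map (fun a => A t (c, a)))
    (hWc : ∀ c, ContinuousOn (W c) (JT ×ˢ univ))
    (hnoG : ∀ c t, ∀ z : Eu d × Eu d, W c (t, z) = W c (t, (z.1, 0)))
    (hb : ∀ c, ∀ t ∈ IT, Integrable (fun z => ‖W c (t, z)‖ ^ 2) (mu c t) ∧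
      ∫ z, ‖W c (t, z)‖ ^ 2 ∂(mu c t) ≤ B ^ 2) :
    Measurable (fun q : Eu d × Eu d => ∫ t in (0 : ℝ)..T, ‖W q.1 (t, (A t q, 0))‖) ∧
      ∀ c, Integrable (fun v => ∫ t in (0 : ℝ)..T, ‖W c (t, (A t (c, v), 0))‖) (gam (Eu d)) ∧
      ∫ v, (∫ t in (0 : ℝ)..T, ‖W c (t, (A t (c, v), 0))‖) ∂(gam (Eu d)) ≤ T * B := by
  refine ⟨(pr_cont (v := fun t (q : Eu d × Eu d) => W q.1 (t, (A t q, 0))) hT hv).measurable,
    fun c => ?_⟩
  have hvc : ContinuousOn (fun p : ℝ × Eu d => W c (p.1, (A p.1 (c, p.2), 0)))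
      (Icc 0 T ×ˢ univ) := by
    have h1 : Continuous (fun p : ℝ × Eu d => ((p.1, (c, p.2)) : ℝ × (Eu d × Eu d))) := by
      fun_prop
    exact hv.comp h1.continuousOn fun p hp => ⟨hp.1, trivial⟩
  refine pr_core (v := fun t v => W c (t, (A t (c, v), 0))) hT hvc (P := gam (Eu d)) hB
    fun t ht => ?_
  have ht' : t ∈ IT := pr_Icc hT1 ht
  obtain ⟨h1, h2⟩ := hb c t ht'
  simp only [hnoG] at h1 h2
  have hc1 : Continuous (fun a : Eu d => A t (c, a)) := by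
    have h3 : Continuous (fun a : Eu d => ((t, (c, a)) : ℝ × (Eu d × Eu d))) := by fun_prop
    exact hAc.comp_continuous h3 fun z => ⟨ht', trivial⟩
  have hc2 : Continuous (fun a : Eu d => ‖W c (t, (a, 0))‖ ^ 2) := by
    have h3 : Continuous (fun a : Eu d => ((t, (a, 0)) : ZS d)) := by fun_prop
    exact ((hWc c).comp_continuous h3 fun z => ⟨IT_subset_JT ht', trivial⟩).norm.pow 2
  have h3 : Integrable (fun a : Eu d => ‖W c (t, (a, 0))‖ ^ 2) ((mu c t).map Prod.fst) :=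
    (integrable_map_measure hc2.aestronglyMeasurable measurable_fst.aemeasurable).2 h1
  have h4 : ∫ a, ‖W c (t, (a, 0))‖ ^ 2 ∂((mu c t).map Prod.fst) ≤ B ^ 2 := by
    rw [integral_map measurable_fst.aemeasurable hc2.aestronglyMeasurable]
    exact h2
  rw [hmu c t ht'] at h3 h4
  constructor
  · exact (integrable_map_measure hc2.aestronglyMeasurable hc1.measurable.aemeasurable).1 h3
  · rw [integral_map hc1.measurable.aemeasurable hc2.aestronglyMeasurable] at h4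
    exact h4

/-- `L¹` bound along the plain flow; jointly measurable in the centre `c` and the base point `v`. -/
theorem PFl.path_L1 (m : ℕ) : ∃ C, 0 ≤ C ∧ ∀ (d : ℕ) (w : ℝ × Eu d → ℝ) (κ l0 : ℝ)
    (A : ℝ → Eu d × Eu d → Eu d), Heat κ w → 0 < κ → κ ≤ 1 → 3 / 4 ≤ l0 → l0 ≤ 1 → PFl w l0 A →
    ∀ T, 0 < T → T ≤ 1 / 2 →
    Measurable (fun q : Eu d × Eu d => ∫ t in (0 : ℝ)..T, ‖vecD (Dat.mk w κ l0 0 q.1) (m + 1)
        (fun k => fF (Dat.mk w κ l0 0 q.1) (ek k)) (t, (A t q, 0))‖) ∧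
      ∀ c, Integrable (fun v => ∫ t in (0 : ℝ)..T, ‖vecD (Dat.mk w κ l0 0 c) (m + 1)
        (fun k => fF (Dat.mk w κ l0 0 c) (ek k)) (t, (A t (c, v), 0))‖) (gam (Eu d)) ∧
      ∫ v, (∫ t in (0 : ℝ)..T, ‖vecD (Dat.mk w κ l0 0 c) (m + 1)
        (fun k => fF (Dat.mk w κ l0 0 c) (ek k)) (t, (A t (c, v), 0))‖) ∂(gam (Eu d))
        ≤ C * κ * T * √d := by
  obtain ⟨C, hC, hreg⟩ := reg_F m
  refine ⟨C, hC, fun d w κ l0 A hw hκ0 hκ1 hl0 hl1 hA T hT hT1 => ?_⟩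
  have hOk : ∀ c : Eu d, (Dat.mk w κ l0 0 c).Ok := fun c => ⟨hw, hκ0, hκ1, hl0, hl1, by simp⟩
  choose U hU1 hU2 using fun k : Fin d => pr_exists_U w hw.cg κ hl0 k (m + 1)
  obtain ⟨W, hW⟩ : ∃ W : Eu d → ZS d → Eu d, ∀ c p, W c p = vecD (Dat.mk w κ l0 0 c) (m + 1)
      (fun k => fF (Dat.mk w κ l0 0 c) (ek k)) p := ⟨_, fun c p => rfl⟩
  simp only [← hW]
  have hf : ∀ (c : Eu d) (k : Fin d), CG JT (fF (Dat.mk w κ l0 0 c) (ek k)) :=
    fun c k => fF_cg d _ (hOk c) (ek k)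
  have hWU : ∀ (c : Eu d) (p : ZS d), p.1 ∈ JT →
      W c p = WithLp.toLp 2 fun k => U k (pr_Ψ c p) := by
    intro c p hp
    rw [hW]
    simp only [vecD]
    congr 1
    funext k
    exact hU2 k c p hp
  have hWc : ∀ c, ContinuousOn (W c) (JT ×ˢ univ) := by
    intro c
    have h1 : W c = vecD (Dat.mk w κ l0 0 c) (m + 1)
      (fun k => fF (Dat.mk w κ l0 0 c) (ek k)) := funext fun p => hW c p
    rw [h1]
    exact pr_vec_cont (hOk c) (hf c) (m + 1)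
  have hnoG : ∀ c t, ∀ z : Eu d × Eu d, W c (t, z) = W c (t, (z.1, 0)) := by
    intro c t z
    rw [hW, hW]
    exact pr_vec_noG w κ l0 c (m + 1) t z.1 z.2
  have hb : ∀ c, ∀ t ∈ IT, Integrable (fun z => ‖W c (t, z)‖ ^ 2) ((Dat.mk w κ l0 0 c).mu t) ∧
      ∫ z, ‖W c (t, z)‖ ^ 2 ∂((Dat.mk w κ l0 0 c).mu t) ≤ (C * κ * √d) ^ 2 := by
    intro c t ht
    simp only [hW]
    exact pr_sq_int (hOk c) (hf c) (m + 1) (C := C * κ) (by positivity) ht
      fun k => hreg d _ (hOk c) (ek k) (by simp) t ht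
  have hmu : ∀ c, ∀ t ∈ IT, ((Dat.mk w κ l0 0 c).mu t).map Prod.fst =
      (gam (Eu d)).map (fun a => A t (c, a)) := by
    intro c t ht
    rw [hA.law c t ht, Dat.mu, Measure.map_fst_prod, measure_univ, one_smul]
  have hUc : ContinuousOn (fun p : ZS d => (WithLp.toLp 2 fun k => U k p : Eu d)) (JT ×ˢ univ) :=
    (PiLp.continuous_toLp 2 _).comp_continuousOn
      (continuousOn_pi.2 fun k => (hU1 k 0).continuousOn)
  have hpath : ContinuousOn (fun p : ℝ × (Eu d × Eu d) => pr_Ψ p.2.1 (p.1, (A p.1 p.2, 0)))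
      (IT ×ˢ univ) := by
    have h1 := hA.cA
    simp only [pr_Ψ]
    refine continuousOn_fst.prodMk (h1.prodMk ?_)
    exact (continuous_fst.comp continuous_snd).continuousOn.add (continuousOn_fst.smul h1)
  have hv : ContinuousOn (fun p : ℝ × (Eu d × Eu d) => W p.2.1 (p.1, (A p.1 p.2, 0)))
      (Icc 0 T ×ˢ univ) := by
    have h1 := (hUc.comp hpath fun p hp => ⟨IT_subset_JT hp.1, trivial⟩).mono
      (prod_mono (pr_Icc hT1) (le_refl (univ : Set (Eu d × Eu d))))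
    refine h1.congr fun p hp => ?_
    exact hWU p.2.1 (p.1, (A p.1 p.2, 0)) (IT_subset_JT (pr_Icc hT1 hp.1))
  have hB : 0 ≤ C * κ * √d := by positivity
  obtain ⟨h1, h2⟩ := pr_plain hT hT1 hB hv hA.cA (fun c t => (Dat.mk w κ l0 0 c).mu t) hmu hWc
    hnoG hb
  refine ⟨h1, fun c => ⟨(h2 c).1, ((h2 c).2).trans (le_of_eq (by ring))⟩⟩

end Vale.Agent.P347.Z
end

section

/-! P347-Z-F2b. The nodes of the `lam`-flow satisfy the collocation equations up to a small error.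

Node times `τ_i = (i+1)/p T`, centre `Y`, top level `l0 = 1`.
PROOF. `A' = -F + (lam κ) B0 Q` and `d/dτ (Q + lam F) = (lam κ)² τ B0² Q` along the flow (`Dtot_gate`; `Q' = Xg`,
or componentwise: the path of `lam fF e_k + g_k`). Integrate from 0 to `τ_i` (fundamental theorem of
calculus), apply `InterpData.errA` to the towers of `F` (order `p`, `reg_F` with `j = p - 1`), `B0 Q`
(`reg_B`), `τ ↦ τ B0² Q`: the tower of the function `q ↦ q.1 * fBB (q)` (its `Dtot^[p]` is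
`τ Dtot^[p] fBB + p Dtot^[p-1] fBB` by the Leibniz rule, `Dtot τ = 1`, bounded by `reg_BB`). Set
`R = K T^p ∫_0^T (‖∂^p F‖ + 2 ‖∂^p (B0 Q)‖ + 2 ‖∂^p (τ B0² Q)‖) dt`. `L¹` bound by `LFl.path_L1`. -/

open MeasureTheory Filter Module Set
open scoped ENNReal NNReal

namespace Vale.Agent.P347.Z

variable {d : ℕ}

theorem ln_sum_ek (k : Fin d) (f : Fin d → ℝ) : ∑ i, (ek k : Eu d) i * f i = f k := by
  rw [Finset.sum_eq_single k]
  · simp
  · intro b _ hb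
    simp [hb]
  · simp

theorem ln_vecF (D : Dat d) (t : ℝ) (a g : Eu d) :
    vecD D 0 (fun k => fF D (ek k)) (t, (a, g)) = Fv D.w (D.l0 - t ^ 2, D.Y + t • a) := by
  ext k
  simp only [vecD, Fv, fF, Function.iterate_zero, id]
  rw [ln_sum_ek]
  rfl

theorem ln_vecB (D : Dat d) (t : ℝ) (a g : Eu d) :
    vecD D 0 (fun k => fB D (ek k)) (t, (a, g)) =
      B0L D.κ D.w (D.l0 - t ^ 2, D.Y + t • a) g := by
  ext k
  simp only [vecD, fB, Function.iterate_zero, id]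
  have : ∀ i, ∑ j, (ek k : Eu d) i * D.up (B0 D.κ D.w i j) (t, (a, g)) * g j =
      (ek k : Eu d) i * ∑ j, D.up (B0 D.κ D.w i j) (t, (a, g)) * g j := fun i => by
    rw [Finset.mul_sum]
    exact Finset.sum_congr rfl fun j _ => mul_assoc _ _ _
  simp only [this]
  rw [ln_sum_ek]
  rfl

theorem ln_vecBB (D : Dat d) (t : ℝ) (a g : Eu d) :
    vecD D 0 (fun k => fBB D (ek k)) (t, (a, g)) =
      B0L D.κ D.w (D.l0 - t ^ 2, D.Y + t • a) (B0L D.κ D.w (D.l0 - t ^ 2, D.Y + t • a) g) := by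
  ext k
  simp only [vecD, fBB, Function.iterate_zero, id]
  have : ∀ l, ∑ i, ∑ j, (ek k : Eu d) l * D.up (B0 D.κ D.w l i) (t, (a, g)) *
      D.up (B0 D.κ D.w i j) (t, (a, g)) * g j =
      (ek k : Eu d) l * ∑ i, D.up (B0 D.κ D.w l i) (t, (a, g)) *
        ∑ j, D.up (B0 D.κ D.w i j) (t, (a, g)) * g j := fun l => by
    rw [Finset.mul_sum]
    refine Finset.sum_congr rfl fun i _ => ?_
    rw [Finset.mul_sum, Finset.mul_sum]
    exact Finset.sum_congr rfl fun j _ => by ring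
  simp only [this]
  rw [ln_sum_ek]
  rfl

theorem ln_Xa (D : Dat d) (t : ℝ) (a g : Eu d) (hκ : D.κ ≠ 0) :
    D.Xa (t, (a, g)) = -Fv D.w (D.l0 - t ^ 2, D.Y + t • a) +
      (D.lam * D.κ) • B0L D.κ D.w (D.l0 - t ^ 2, D.Y + t • a) g := by
  ext k
  simp only [Dat.Xa, Dat.Xf, Fv, Bool.false_eq_true, if_false, PiLp.add_apply, PiLp.neg_apply,
    PiLp.smul_apply, smul_eq_mul]
  have h : B0L D.κ D.w (D.l0 - t ^ 2, D.Y + t • a) g k =
      ∑ j, B0 D.κ D.w k j (D.l0 - t ^ 2, D.Y + t • a) * g j := rfl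
  rw [h]
  congr 1
  rw [mul_assoc]
  congr 1
  rw [Finset.mul_sum]
  refine Finset.sum_congr rfl fun j _ => ?_
  simp only [Dat.up, B0]
  field_simp

theorem ln_Dtot_congr (D : Dat d) {u v : ZS d → ℝ} (h : ∀ p ∈ JT ×ˢ univ, v p = u p) {p : ZS d}
    (hp : p ∈ JT ×ˢ (univ : Set (Eu d × Eu d))) : D.Dtot v p = D.Dtot u p := by
  simp only [Dat.Dtot, dtau, dz]
  rw [cgl_fderiv_congr isOpen_JT h hp]

theorem ln_iter_cg {D : Dat d} (hD : D.Ok) {u : ZS d → ℝ} (hu : CG JT u) (n : ℕ) :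
    CG JT ((D.Dtot)^[n] u) := by
  induction n with
  | zero => exact hu
  | succ n ih =>
    rw [Function.iterate_succ_apply']
    exact Dtot_cg d D hD ih

theorem ln_diffAt {u : ZS d → ℝ} (hu : CG JT u) {p : ZS d}
    (hp : p ∈ JT ×ˢ (univ : Set (Eu d × Eu d))) : DifferentiableAt ℝ u p :=
  (hu.diff p hp).differentiableAt ((isOpen_JT.prod isOpen_univ).mem_nhds hp)

/-- Leibniz rule for `τ u + c v`. -/
theorem ln_Dtot_tau (D : Dat d) {u v : ZS d → ℝ} (hu : CG JT u) (hv : CG JT v) (c : ℝ) {p : ZS d}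
    (hp : p ∈ JT ×ˢ (univ : Set (Eu d × Eu d))) :
    D.Dtot (fun q => q.1 * u q + c * v q) p = p.1 * D.Dtot u p + u p + c * D.Dtot v p := by
  have h1 : HasFDerivAt (fun q : ZS d => q.1 * u q + c * v q)
      ((p.1 • fderiv ℝ u p + u p • ContinuousLinearMap.fst ℝ ℝ (Eu d × Eu d)) +
        c • fderiv ℝ v p) p := by
    apply HasFDerivAt.add
    · exact (hasFDerivAt_fst).mul (ln_diffAt hu hp).hasFDerivAt
    · exact (ln_diffAt hv hp).hasFDerivAt.const_mul c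
  simp only [Dat.Dtot, dtau, dz]
  rw [h1.fderiv]
  have h2 : ∀ m : Sl d, (((p.1 • fderiv ℝ u p + u p • ContinuousLinearMap.fst ℝ ℝ (Eu d × Eu d)) +
        c • fderiv ℝ v p) : ZS d →L[ℝ] ℝ) (0, if m.1 then (0, ek m.2) else (ek m.2, 0)) =
      p.1 * fderiv ℝ u p (0, if m.1 then (0, ek m.2) else (ek m.2, 0)) +
        c * fderiv ℝ v p (0, if m.1 then (0, ek m.2) else (ek m.2, 0)) := fun m => by simp
  simp only [h2]
  have h3 : (((p.1 • fderiv ℝ u p + u p • ContinuousLinearMap.fst ℝ ℝ (Eu d × Eu d)) +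
        c • fderiv ℝ v p) : ZS d →L[ℝ] ℝ) (1, 0) =
      p.1 * fderiv ℝ u p (1, 0) + u p + c * fderiv ℝ v p (1, 0) := by simp
  rw [h3]
  simp only [mul_add, Finset.sum_add_distrib, Finset.mul_sum]
  have e1 : ∑ m, D.Xf m p * (p.1 * fderiv ℝ u p (0, if m.1 then (0, ek m.2) else (ek m.2, 0))) =
      ∑ m, p.1 * (D.Xf m p * fderiv ℝ u p (0, if m.1 then (0, ek m.2) else (ek m.2, 0))) :=
    Finset.sum_congr rfl fun m _ => by ring
  have e2 : ∑ m, D.Xf m p * (c * fderiv ℝ v p (0, if m.1 then (0, ek m.2) else (ek m.2, 0))) =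
      ∑ m, c * (D.Xf m p * fderiv ℝ v p (0, if m.1 then (0, ek m.2) else (ek m.2, 0))) :=
    Finset.sum_congr rfl fun m _ => by ring
  rw [e1, e2]
  ring

theorem ln_iter_tau {D : Dat d} (hD : D.Ok) {u : ZS d → ℝ} (hu : CG JT u) (n : ℕ) :
    ∀ p ∈ JT ×ˢ (univ : Set (Eu d × Eu d)), (D.Dtot)^[n + 1] (fun q => q.1 * u q) p =
      p.1 * (D.Dtot)^[n + 1] u p + ((n : ℝ) + 1) * (D.Dtot)^[n] u p := by
  induction n with
  | zero =>
    intro p hp
    have h1 := ln_Dtot_tau D hu hu 0 hp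
    have h2 : (fun q : ZS d => q.1 * u q + 0 * u q) = fun q => q.1 * u q := by
      funext q; ring
    rw [h2] at h1
    simp only [zero_add, Function.iterate_one, Function.iterate_zero, id, Nat.cast_zero, one_mul]
    rw [h1]
    ring
  | succ n ih =>
    intro p hp
    rw [Function.iterate_succ_apply' (f := D.Dtot) (n := n + 1), ln_Dtot_congr D ih hp,
      ln_Dtot_tau D (ln_iter_cg hD hu (n + 1)) (ln_iter_cg hD hu n) _ hp,
      ← Function.iterate_succ_apply' (f := D.Dtot), ← Function.iterate_succ_apply' (f := D.Dtot)]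
    push_cast
    ring


theorem ln_reg_tBB (n : ℕ) : ∃ C, 0 ≤ C ∧ ∀ (d : ℕ) (D : Dat d), D.Ok → ∀ e : Eu d, ‖e‖ ≤ 1 →
    ∀ τ ∈ IT, ∫ z, ((D.Dtot)^[n + 1] (fun q => q.1 * fBB D e q) (τ, z)) ^ 2 ∂(D.mu τ) ≤ C ^ 2 := by
  obtain ⟨C1, hC1, h1⟩ := reg_BB (n + 1)
  obtain ⟨C2, hC2, h2⟩ := reg_BB n
  refine ⟨C1 + 2 * ((n : ℝ) + 1) * C2, by positivity, ?_⟩
  intro d D hD e he τ hτ
  have hτJ : τ ∈ JT := IT_subset_JT hτ
  have hcg := fBB_cg d D hD e
  have c1 := ln_iter_cg hD hcg (n + 1)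
  have c2 := ln_iter_cg hD hcg n
  have i1 : Integrable (fun z => ((D.Dtot)^[n + 1] (fBB D e) (τ, z)) ^ 2) (D.mu τ) := by
    have := mu_integrable hD hτJ (c1.mul isOpen_JT c1)
    simpa only [← pow_two] using this
  have i2 : Integrable (fun z => ((D.Dtot)^[n] (fBB D e) (τ, z)) ^ 2) (D.mu τ) := by
    have := mu_integrable hD hτJ (c2.mul isOpen_JT c2)
    simpa only [← pow_two] using this
  have hτ2 : τ ^ 2 ≤ 1 / 4 := by
    have h0 := hτ.1
    have h1 := hτ.2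
    linarith only [mul_nonneg (sub_nonneg.2 h1) (sub_nonneg.2 h1), mul_nonneg h0 (sub_nonneg.2 h1)]
  calc ∫ z, ((D.Dtot)^[n + 1] (fun q => q.1 * fBB D e q) (τ, z)) ^ 2 ∂(D.mu τ)
      = ∫ z, (τ * (D.Dtot)^[n + 1] (fBB D e) (τ, z) +
          ((n : ℝ) + 1) * (D.Dtot)^[n] (fBB D e) (τ, z)) ^ 2 ∂(D.mu τ) := by
        congr 1
        funext z
        rw [ln_iter_tau hD hcg n (τ, z) ⟨hτJ, mem_univ _⟩]
    _ ≤ ∫ z, (((D.Dtot)^[n + 1] (fBB D e) (τ, z)) ^ 2 +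
          (2 * ((n : ℝ) + 1)) ^ 2 * ((D.Dtot)^[n] (fBB D e) (τ, z)) ^ 2) ∂(D.mu τ) := by
        apply integral_mono_of_nonneg
        · exact Eventually.of_forall fun z => sq_nonneg _
        · exact i1.add (i2.const_mul _)
        · refine Eventually.of_forall fun z => ?_
          simp only
          generalize (D.Dtot)^[n + 1] (fBB D e) (τ, z) = x
          generalize (D.Dtot)^[n] (fBB D e) (τ, z) = y
          have h3 : (τ * x + ((n : ℝ) + 1) * y) ^ 2 ≤ 2 * (τ * x) ^ 2 + 2 * (((n : ℝ) + 1) * y) ^ 2 := by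
            (refine le_of_not_gt fun hng_ => ?_; linarith only [mul_nonneg (le_of_lt (sub_pos.2 hng_)) (sq_nonneg (τ * x - ((n : ℝ) + 1) * y)), mul_pos (sub_pos.2 hng_) (sub_pos.2 hng_)])
          have h4 : (τ * x) ^ 2 ≤ 1 / 4 * x ^ 2 := by
            rw [mul_pow]
            exact mul_le_mul_of_nonneg_right hτ2 (sq_nonneg _)
          have h5 : 0 ≤ (((n : ℝ) + 1) * y) ^ 2 := sq_nonneg _
          have h6 : (2 * ((n : ℝ) + 1)) ^ 2 * y ^ 2 = 4 * (((n : ℝ) + 1) * y) ^ 2 := by ring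
          rw [h6]
          (refine le_of_not_gt fun hng_ => ?_; linarith only [mul_pos (sub_pos.2 hng_) (sub_pos.2 hng_), mul_nonneg (sub_nonneg.2 h4) (le_of_lt (sub_pos.2 hng_)), mul_nonneg h5 (le_of_lt (sub_pos.2 hng_)), mul_nonneg (le_of_lt (sub_pos.2 hng_)) (sq_nonneg x), mul_nonneg (sq_nonneg x) (sq_nonneg x), mul_nonneg h5 h5, mul_nonneg (sub_nonneg.2 h4) h5, mul_nonneg h5 (sq_nonneg x), mul_nonneg (sub_nonneg.2 h4) (sub_nonneg.2 h4), mul_nonneg (sub_nonneg.2 h4) (sq_nonneg x)])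
    _ = (∫ z, ((D.Dtot)^[n + 1] (fBB D e) (τ, z)) ^ 2 ∂(D.mu τ)) +
          (2 * ((n : ℝ) + 1)) ^ 2 * ∫ z, ((D.Dtot)^[n] (fBB D e) (τ, z)) ^ 2 ∂(D.mu τ) := by
        rw [integral_add i1 (i2.const_mul _), integral_const_mul]
    _ ≤ C1 ^ 2 + (2 * ((n : ℝ) + 1)) ^ 2 * C2 ^ 2 := by
        gcongr
        · exact h1 d D hD e he τ hτ
        · exact h2 d D hD e he τ hτ
    _ ≤ (C1 + 2 * ((n : ℝ) + 1) * C2) ^ 2 := by
        have : 0 ≤ C1 * (2 * ((n : ℝ) + 1) * C2) := by positivity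
        nlinarith only [this]

theorem ln_ftc {E : Type} [NormedAddCommGroup E] [NormedSpace ℝ E] [CompleteSpace E] {T : ℝ}
    {f f' : ℝ → E} (h : ∀ t ∈ Icc 0 T, HasDerivWithinAt f (f' t) (Icc 0 T) t)
    (hc : ContinuousOn f' (Icc 0 T)) {t : ℝ} (ht : t ∈ Icc 0 T) :
    ∫ s in (0 : ℝ)..t, f' s = f t - f 0 := by
  have hsub : Icc 0 t ⊆ Icc 0 T := Icc_subset_Icc_right ht.2
  apply intervalIntegral.integral_eq_sub_of_hasDerivAt_of_le ht.1
  · exact fun x hx => ((h x (hsub hx)).continuousWithinAt).mono hsub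
  · intro x hx
    exact (h x ⟨hx.1.le, hx.2.le.trans ht.2⟩).hasDerivAt
      (Icc_mem_nhds hx.1 (hx.2.trans_le ht.2))
  · apply ContinuousOn.intervalIntegrable
    rw [uIcc_of_le ht.1]
    exact hc.mono hsub

theorem ln_int {E : Type} [NormedAddCommGroup E] [NormedSpace ℝ E] {T : ℝ} {f : ℝ → E}
    (hc : ContinuousOn f (Icc 0 T)) {t : ℝ} (ht : t ∈ Icc 0 T) :
    IntervalIntegrable f volume 0 t := by
  apply ContinuousOn.intervalIntegrable
  rw [uIcc_of_le ht.1]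
  exact hc.mono (Icc_subset_Icc_right ht.2)

theorem ln_Ok {w : ℝ × Eu d → ℝ} {κ lam : ℝ} (hw : Heat κ w) (h0 : 0 < κ) (h1 : κ ≤ 1)
    (hl : |lam| * κ ≤ 2) (Y : Eu d) : (Dat.mk w κ 1 lam Y).Ok :=
  ⟨hw, h0, h1, by norm_num, le_rfl, hl⟩

theorem ln_tau_cg {D : Dat d} (hD : D.Ok) (e : Eu d) : CG JT (fun q : ZS d => q.1 * fBB D e q) :=
  (CG.lin isOpen_JT (ContinuousLinearMap.fst ℝ ℝ (Eu d × Eu d))).mul isOpen_JT (fBB_cg d D hD e)

/-- The gate quantity `lam F_e + g_e`. -/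
noncomputable def lnU (D : Dat d) (e : Eu d) : ZS d → ℝ :=
  fun q => D.lam * fF D e q + ∑ k, e k * q.2.2 k

theorem ln_U_cg {D : Dat d} (hD : D.Ok) (e : Eu d) : CG JT (lnU D e) := by
  unfold lnU
  apply CG.add isOpen_JT
  · exact (CG.const isOpen_JT _).mul isOpen_JT (fF_cg d D hD e)
  · have : (fun q : ZS d => ∑ k, e k * q.2.2 k) =
        fun q => ((innerSL ℝ e).comp ((ContinuousLinearMap.snd ℝ (Eu d) (Eu d)).comp
          (ContinuousLinearMap.snd ℝ ℝ (Eu d × Eu d)))) q := by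
      funext q
      simp [PiLp.inner_apply, mul_comm]
    rw [this]
    exact CG.lin isOpen_JT _

theorem ln_vecU0 (D : Dat d) (t : ℝ) (a g : Eu d) :
    vecD D 0 (fun k => lnU D (ek k)) (t, (a, g)) =
      D.lam • Fv D.w (D.l0 - t ^ 2, D.Y + t • a) + g := by
  rw [← ln_vecF D t a g]
  ext k
  simp only [vecD, lnU, Function.iterate_zero, id, PiLp.add_apply, PiLp.smul_apply, smul_eq_mul]
  rw [ln_sum_ek]

theorem ln_vecU1 {D : Dat d} (hD : D.Ok) {t : ℝ} (ht : t ∈ JT) (a g : Eu d) :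
    vecD D 1 (fun k => lnU D (ek k)) (t, (a, g)) =
      ((D.lam * D.κ) ^ 2) • vecD D 0 (fun k => fun q => q.1 * fBB D (ek k) q) (t, (a, g)) := by
  ext k
  simp only [vecD, Function.iterate_zero, Function.iterate_one, id, PiLp.smul_apply, smul_eq_mul]
  have := Dtot_gate d D hD (ek k) (p := (t, (a, g))) ht
  unfold lnU
  rw [this, mul_assoc]

theorem ln_vecT (D : Dat d) (t : ℝ) (a g : Eu d) :
    vecD D 0 (fun k => fun q => q.1 * fBB D (ek k) q) (t, (a, g)) =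
      t • B0L D.κ D.w (D.l0 - t ^ 2, D.Y + t • a)
        (B0L D.κ D.w (D.l0 - t ^ 2, D.Y + t • a) g) := by
  rw [← ln_vecBB D t a g]
  ext k
  simp only [vecD, Function.iterate_zero, id, PiLp.smul_apply, smul_eq_mul]


theorem ln_nt_mem {p : ℕ} {T : ℝ} (hT : 0 < T) (i : Fin p) : nt p T i ∈ Icc 0 T := by
  have hp : (0 : ℝ) < p := by
    have : 0 < p := i.pos
    exact_mod_cast this
  have h1 : ((i : ℝ) + 1) / p ≤ 1 := by
    rw [div_le_one hp]
    have : (i : ℕ) + 1 ≤ p := i.isLt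
    exact_mod_cast this
  have h0 : 0 ≤ ((i : ℝ) + 1) / p := by positivity
  unfold nt
  constructor
  · positivity
  · linarith only [mul_nonneg (le_of_lt hT) (sub_nonneg.2 h1)]

/-- The path integrals. -/
noncomputable def lnI (D : Dat d) (A Q : ℝ → Eu d × (Eu d × Eu d) → Eu d) (T : ℝ) (m : ℕ)
    (f : Fin d → ZS d → ℝ) (z : Eu d × Eu d) : ℝ :=
  ∫ t in (0 : ℝ)..T, ‖vecD D m f (t, (A t (D.Y, z), Q t (D.Y, z)))‖

theorem ln_I_nonneg (D : Dat d) (A Q : ℝ → Eu d × (Eu d × Eu d) → Eu d) {T : ℝ} (hT : 0 ≤ T)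
    (m : ℕ) (f : Fin d → ZS d → ℝ) (z : Eu d × Eu d) : 0 ≤ lnI D A Q T m f z :=
  intervalIntegral.integral_nonneg hT fun _ _ => norm_nonneg _

theorem lam_nodes {p : ℕ} (hp : 2 ≤ p) {cA : Fin p → Fin p → ℝ} {α β : Fin (p + 1) → ℝ} {K : ℝ}
    (hI : InterpData p cA α β K) : ∃ C, 0 ≤ C ∧
    ∀ (d : ℕ) (w : ℝ × Eu d → ℝ) (κ lam : ℝ) (A Q : ℝ → Eu d × (Eu d × Eu d) → Eu d), Heat κ w →
      0 < κ → κ ≤ 1 → |lam| * κ ≤ 2 → LFl w κ 1 lam A Q → ∀ (Y : Eu d) (T : ℝ), 0 < T →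
      T ≤ 1 / 2 → ∃ R : Eu d × Eu d → ℝ, Measurable R ∧ (∀ z, 0 ≤ R z) ∧
        Integrable R ((gam (Eu d)).prod (gam (Eu d))) ∧
        ∫ z, R z ∂((gam (Eu d)).prod (gam (Eu d))) ≤ C * T ^ (p + 1) * √d ∧
        ∀ z : Eu d × Eu d, ∀ i : Fin p,
          ‖A (nt p T i) (Y, z) - (z.1
            - T • ∑ j, cA i j • Fv w (1 - nt p T j ^ 2, Y + nt p T j • A (nt p T j) (Y, z))
            + (lam * κ * T) • ∑ j, cA i j •
              B0L κ w (1 - nt p T j ^ 2, Y + nt p T j • A (nt p T j) (Y, z))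
                (Q (nt p T j) (Y, z)))‖ ≤ R z ∧
          ‖Q (nt p T i) (Y, z) - (z.2
            - lam • (Fv w (1 - nt p T i ^ 2, Y + nt p T i • A (nt p T i) (Y, z)) - Fv w (1, Y))
            + ((lam * κ) ^ 2 * T) • ∑ j, (cA i j * nt p T j) •
              B0L κ w (1 - nt p T j ^ 2, Y + nt p T j • A (nt p T j) (Y, z))
                (B0L κ w (1 - nt p T j ^ 2, Y + nt p T j • A (nt p T j) (Y, z))
                  (Q (nt p T j) (Y, z))))‖ ≤ (lam * κ) ^ 2 * R z := by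
  obtain ⟨n, hn⟩ : ∃ n, p = n + 1 := ⟨p - 1, by omega⟩
  have r1 := reg_F n
  have r3 := ln_reg_tBB n
  rw [← hn] at r1 r3
  obtain ⟨C1, hC1, b1⟩ := r1
  obtain ⟨C2, hC2, b2⟩ := reg_B p
  obtain ⟨C3, hC3, b3⟩ := r3
  have hK := hI.K0
  refine ⟨K * (C1 + 2 * C2 + C3), by positivity, ?_⟩
  intro d w κ lam A Q hw h0 h1 hl hA Y T hT hT1
  set D : Dat d := Dat.mk w κ 1 lam Y with hDdef
  have hD : D.Ok := ln_Ok hw h0 h1 hl Y
  set fFk : Fin d → ZS d → ℝ := fun k => fF D (ek k) with hfF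
  set fBk : Fin d → ZS d → ℝ := fun k => fB D (ek k) with hfB
  set fTk : Fin d → ZS d → ℝ := fun k => fun q => q.1 * fBB D (ek k) q with hfT
  have cF : ∀ k, CG JT (fFk k) := fun k => fF_cg d D hD _
  have cB : ∀ k, CG JT (fBk k) := fun k => fB_cg d D hD _
  have cT : ∀ k, CG JT (fTk k) := fun k => ln_tau_cg hD _
  have hek : ∀ k : Fin d, ‖(ek k : Eu d)‖ ≤ 1 := fun k => by simp
  have pF := hA.path_L1 hD cF hT hT1 p (C := C1 * κ) (by positivity)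
    (fun k τ hτ => b1 d D hD (ek k) (hek k) τ hτ)
  have pB := hA.path_L1 hD cB hT hT1 p (C := C2) hC2
    (fun k τ hτ => b2 d D hD (ek k) (hek k) τ hτ)
  have pT := hA.path_L1 hD cT hT hT1 p (C := C3) hC3
    (fun k τ hτ => b3 d D hD (ek k) (hek k) τ hτ)
  set I1 := lnI D A Q T p fFk with hI1
  set I2 := lnI D A Q T p fBk with hI2
  set I3 := lnI D A Q T p fTk with hI3
  have n1 : ∀ z, 0 ≤ I1 z := fun z => ln_I_nonneg D A Q hT.le p fFk z
  have n2 : ∀ z, 0 ≤ I2 z := fun z => ln_I_nonneg D A Q hT.le p fBk z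
  have n3 : ∀ z, 0 ≤ I3 z := fun z => ln_I_nonneg D A Q hT.le p fTk z
  have m1 : Measurable I1 := pF.1
  have m2 : Measurable I2 := pB.1
  have m3 : Measurable I3 := pT.1
  have j1 : Integrable I1 ((gam (Eu d)).prod (gam (Eu d))) := pF.2.1
  have j2 : Integrable I2 ((gam (Eu d)).prod (gam (Eu d))) := pB.2.1
  have j3 : Integrable I3 ((gam (Eu d)).prod (gam (Eu d))) := pT.2.1
  have v1 : ∫ z, I1 z ∂((gam (Eu d)).prod (gam (Eu d))) ≤ T * (C1 * κ * √d) := pF.2.2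
  have v2 : ∫ z, I2 z ∂((gam (Eu d)).prod (gam (Eu d))) ≤ T * (C2 * √d) := pB.2.2
  have v3 : ∫ z, I3 z ∂((gam (Eu d)).prod (gam (Eu d))) ≤ T * (C3 * √d) := pT.2.2
  refine ⟨fun z => K * T ^ p * (I1 z + 2 * I2 z + I3 z), ?_, ?_, ?_, ?_, ?_⟩
  · exact ((m1.add (m2.const_mul 2)).add m3).const_mul _
  · intro z
    have := n1 z
    have := n2 z
    have := n3 z
    positivity
  · exact ((j1.add (j2.const_mul 2)).add j3).const_mul _
  · have hJ : ∫ z, (I1 z + 2 * I2 z + I3 z) ∂((gam (Eu d)).prod (gam (Eu d))) =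
        ∫ z, I1 z ∂((gam (Eu d)).prod (gam (Eu d))) +
          2 * ∫ z, I2 z ∂((gam (Eu d)).prod (gam (Eu d))) +
          ∫ z, I3 z ∂((gam (Eu d)).prod (gam (Eu d))) := by
      rw [integral_add (f := fun z => I1 z + 2 * I2 z) (j1.add (j2.const_mul 2)) j3,
        integral_add j1 (j2.const_mul 2), integral_const_mul]
    rw [integral_const_mul, hJ]
    have hd : (0 : ℝ) ≤ √d := Real.sqrt_nonneg _
    have v1' : ∫ z, I1 z ∂((gam (Eu d)).prod (gam (Eu d))) ≤ T * (C1 * √d) := by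
      refine v1.trans ?_
      have : C1 * κ * √d ≤ C1 * √d := by
        have : C1 * κ ≤ C1 * 1 := mul_le_mul_of_nonneg_left h1 hC1
        (refine le_of_not_gt fun hng_ => ?_; linarith only [mul_nonneg (sub_nonneg.2 hT1) (le_of_lt (sub_pos.2 hng_)), mul_pos hT (sub_pos.2 hng_), mul_nonneg hd (sub_nonneg.2 this)])
      exact mul_le_mul_of_nonneg_left this hT.le
    calc K * T ^ p * (∫ z, I1 z ∂((gam (Eu d)).prod (gam (Eu d))) +
          2 * ∫ z, I2 z ∂((gam (Eu d)).prod (gam (Eu d))) +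
          ∫ z, I3 z ∂((gam (Eu d)).prod (gam (Eu d))))
        ≤ K * T ^ p * (T * (C1 * √d) + 2 * (T * (C2 * √d)) + T * (C3 * √d)) := by
          gcongr
      _ = K * (C1 + 2 * C2 + C3) * T ^ (p + 1) * √d := by ring
  · intro z i
    have t1 := hA.tower hD cF hT hT1 p z
    have t2 := hA.tower hD cB hT hT1 p z
    have t3 := hA.tower hD cT hT hT1 p z
    have tU := hA.tower hD (f := fun k => lnU D (ek k)) (fun k => ln_U_cg hD _) hT hT1 1 z
    have e1 := hI.errA (Eu d) T hT _ t1 i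
    have e2 := hI.errA (Eu d) T hT _ t2 i
    have e3 := hI.errA (Eu d) T hT _ t3 i
    have hti := ln_nt_mem hT i
    have hsub : Icc 0 T ⊆ IT := Icc_subset_Icc_right hT1
    -- values of the towers
    have f1 : ∀ t : ℝ, vecD D 0 fFk (t, (A t (Y, z), Q t (Y, z))) =
        Fv w (1 - t ^ 2, Y + t • A t (Y, z)) := fun t => ln_vecF D t _ _
    have f2 : ∀ t : ℝ, vecD D 0 fBk (t, (A t (Y, z), Q t (Y, z))) =
        B0L κ w (1 - t ^ 2, Y + t • A t (Y, z)) (Q t (Y, z)) := fun t => ln_vecB D t _ _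
    have f3 : ∀ t : ℝ, vecD D 0 fTk (t, (A t (Y, z), Q t (Y, z))) =
        t • B0L κ w (1 - t ^ 2, Y + t • A t (Y, z))
          (B0L κ w (1 - t ^ 2, Y + t • A t (Y, z)) (Q t (Y, z))) := fun t => ln_vecT D t _ _
    have c1 : ContinuousOn (fun t => vecD D 0 fFk (t, (A t (Y, z), Q t (Y, z)))) (Icc 0 T) :=
      itp_cont t1 (Nat.zero_le _)
    have c2 : ContinuousOn (fun t => vecD D 0 fBk (t, (A t (Y, z), Q t (Y, z)))) (Icc 0 T) :=
      itp_cont t2 (Nat.zero_le _)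
    have c3 : ContinuousOn (fun t => vecD D 0 fTk (t, (A t (Y, z), Q t (Y, z)))) (Icc 0 T) :=
      itp_cont t3 (Nat.zero_le _)
    have c2' : ContinuousOn (fun t => (lam * κ) • vecD D 0 fBk (t, (A t (Y, z), Q t (Y, z))))
        (Icc 0 T) := c2.const_smul (lam * κ)
    have c3' : ContinuousOn (fun t => ((lam * κ) ^ 2) • vecD D 0 fTk
        (t, (A t (Y, z), Q t (Y, z)))) (Icc 0 T) := c3.const_smul ((lam * κ) ^ 2)
    have c1' : ContinuousOn (fun t => -(vecD D 0 fFk (t, (A t (Y, z), Q t (Y, z)))))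
        (Icc 0 T) := c1.neg
    constructor
    · -- the equation for `A`
      have hft : ∫ s in (0 : ℝ)..(nt p T i),
          (-(vecD D 0 fFk (s, (A s (Y, z), Q s (Y, z)))) +
            (lam * κ) • vecD D 0 fBk (s, (A s (Y, z), Q s (Y, z)))) =
          A (nt p T i) (Y, z) - A 0 (Y, z) := by
        apply ln_ftc (T := T) (f := fun t => A t (Y, z)) _ _ hti
        · intro t ht
          have h := (hA.dA Y z t (hsub ht)).mono hsub
          have hX : (Dat.mk w κ 1 lam Y).Xa (t, (A t (Y, z), Q t (Y, z))) =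
              -(vecD D 0 fFk (t, (A t (Y, z), Q t (Y, z)))) +
                (lam * κ) • vecD D 0 fBk (t, (A t (Y, z), Q t (Y, z))) := by
            rw [f1, f2]
            exact ln_Xa D t _ _ h0.ne'
          rwa [hX] at h
        · exact c1'.add c2'
      rw [intervalIntegral.integral_add (ln_int c1' hti) (ln_int c2' hti),
        intervalIntegral.integral_neg, intervalIntegral.integral_smul, hA.A0] at hft
      have key : A (nt p T i) (Y, z) - (z.1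
            - T • ∑ j, cA i j • Fv w (1 - nt p T j ^ 2, Y + nt p T j • A (nt p T j) (Y, z))
            + (lam * κ * T) • ∑ j, cA i j •
              B0L κ w (1 - nt p T j ^ 2, Y + nt p T j • A (nt p T j) (Y, z))
                (Q (nt p T j) (Y, z))) =
          -((∫ t in (0 : ℝ)..(nt p T i), vecD D 0 fFk (t, (A t (Y, z), Q t (Y, z)))) -
            T • ∑ j, cA i j • vecD D 0 fFk (nt p T j, (A (nt p T j) (Y, z), Q (nt p T j) (Y, z)))) +
          (lam * κ) • ((∫ t in (0 : ℝ)..(nt p T i), vecD D 0 fBk (t, (A t (Y, z), Q t (Y, z)))) -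
            T • ∑ j, cA i j • vecD D 0 fBk (nt p T j, (A (nt p T j) (Y, z), Q (nt p T j) (Y, z)))) := by
        have s1 : ∑ j, cA i j • Fv w (1 - nt p T j ^ 2, Y + nt p T j • A (nt p T j) (Y, z)) =
            ∑ j, cA i j • vecD D 0 fFk
              (nt p T j, (A (nt p T j) (Y, z), Q (nt p T j) (Y, z))) :=
          Finset.sum_congr rfl fun j _ => by rw [f1]
        have s2 : ∑ j, cA i j • B0L κ w (1 - nt p T j ^ 2, Y + nt p T j • A (nt p T j) (Y, z))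
                (Q (nt p T j) (Y, z)) =
            ∑ j, cA i j • vecD D 0 fBk
              (nt p T j, (A (nt p T j) (Y, z), Q (nt p T j) (Y, z))) :=
          Finset.sum_congr rfl fun j _ => by rw [f2]
        rw [s1, s2]
        linear_combination (norm := module) -hft
      rw [key]
      have g1 : ‖(∫ t in (0 : ℝ)..(nt p T i), vecD D 0 fFk (t, (A t (Y, z), Q t (Y, z)))) -
            T • ∑ j, cA i j • vecD D 0 fFk (nt p T j, (A (nt p T j) (Y, z), Q (nt p T j) (Y, z)))‖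
            ≤ K * T ^ p * I1 z := e1
      have g2 : ‖(∫ t in (0 : ℝ)..(nt p T i), vecD D 0 fBk (t, (A t (Y, z), Q t (Y, z)))) -
            T • ∑ j, cA i j • vecD D 0 fBk (nt p T j, (A (nt p T j) (Y, z), Q (nt p T j) (Y, z)))‖
            ≤ K * T ^ p * I2 z := e2
      refine (norm_add_le _ _).trans ?_
      rw [norm_neg, norm_smul]
      have hlk : ‖lam * κ‖ ≤ 2 := by
        rw [Real.norm_eq_abs, abs_mul, abs_of_pos h0]; exact hl
      have hTp : 0 ≤ K * T ^ p := by positivity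
      have g3 := n3 z
      have g4 := n2 z
      calc _ ≤ K * T ^ p * I1 z + 2 * (K * T ^ p * I2 z) := by
            gcongr
        _ ≤ K * T ^ p * (I1 z + 2 * I2 z + I3 z) := by
            have : 0 ≤ K * T ^ p * I3 z := mul_nonneg hTp g3
            (refine le_of_not_gt fun hng_ => ?_; linarith only [mul_pos (sub_pos.2 hng_) (sub_pos.2 hng_), mul_nonneg this (le_of_lt (sub_pos.2 hng_))])
    · -- the equation for `Q`
      have hft : ∫ s in (0 : ℝ)..(nt p T i),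
          ((lam * κ) ^ 2) • vecD D 0 fTk (s, (A s (Y, z), Q s (Y, z))) =
          vecD D 0 (fun k => lnU D (ek k)) (nt p T i, (A (nt p T i) (Y, z), Q (nt p T i) (Y, z))) -
          vecD D 0 (fun k => lnU D (ek k)) (0, (A 0 (Y, z), Q 0 (Y, z))) := by
        apply ln_ftc (T := T)
          (f := fun t => vecD D 0 (fun k => lnU D (ek k)) (t, (A t (Y, z), Q t (Y, z)))) _ _ hti
        · intro t ht
          have h := tU.deriv 0 one_pos t ht
          have hX := ln_vecU1 hD (IT_subset_JT (hsub ht)) (A t (Y, z)) (Q t (Y, z))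
          simp only [zero_add] at h
          rw [← hDdef] at h
          rw [hX] at h
          exact h
        · exact c3'
      rw [intervalIntegral.integral_smul, ln_vecU0, ln_vecU0, hA.A0, hA.Q0] at hft
      have hz : Fv D.w (D.l0 - 0 ^ 2, D.Y + (0 : ℝ) • z.1) = Fv w (1, Y) := by
        simp [hDdef]
      rw [hz] at hft
      change _ = lam • Fv w (1 - nt p T i ^ 2, Y + nt p T i • A (nt p T i) (Y, z)) +
        Q (nt p T i) (Y, z) - (lam • Fv w (1, Y) + z.2) at hft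
      have key : Q (nt p T i) (Y, z) - (z.2
            - lam • (Fv w (1 - nt p T i ^ 2, Y + nt p T i • A (nt p T i) (Y, z)) - Fv w (1, Y))
            + ((lam * κ) ^ 2 * T) • ∑ j, (cA i j * nt p T j) •
              B0L κ w (1 - nt p T j ^ 2, Y + nt p T j • A (nt p T j) (Y, z))
                (B0L κ w (1 - nt p T j ^ 2, Y + nt p T j • A (nt p T j) (Y, z))
                  (Q (nt p T j) (Y, z)))) =
          ((lam * κ) ^ 2) • ((∫ t in (0 : ℝ)..(nt p T i),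
            vecD D 0 fTk (t, (A t (Y, z), Q t (Y, z)))) -
            T • ∑ j, cA i j •
              vecD D 0 fTk (nt p T j, (A (nt p T j) (Y, z), Q (nt p T j) (Y, z)))) := by
        have s3 : ∑ j, (cA i j * nt p T j) •
              B0L κ w (1 - nt p T j ^ 2, Y + nt p T j • A (nt p T j) (Y, z))
                (B0L κ w (1 - nt p T j ^ 2, Y + nt p T j • A (nt p T j) (Y, z))
                  (Q (nt p T j) (Y, z))) =
            ∑ j, cA i j • vecD D 0 fTk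
              (nt p T j, (A (nt p T j) (Y, z), Q (nt p T j) (Y, z))) :=
          Finset.sum_congr rfl fun j _ => by rw [f3, mul_smul]
        rw [s3]
        linear_combination (norm := module) -hft
      rw [key, norm_smul]
      have g3 : ‖(∫ t in (0 : ℝ)..(nt p T i), vecD D 0 fTk (t, (A t (Y, z), Q t (Y, z)))) -
            T • ∑ j, cA i j • vecD D 0 fTk (nt p T j, (A (nt p T j) (Y, z), Q (nt p T j) (Y, z)))‖
            ≤ K * T ^ p * I3 z := e3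
      have hTp : 0 ≤ K * T ^ p := by positivity
      have g1 := n1 z
      have g2 := n2 z
      have g4 := n3 z
      rw [Real.norm_eq_abs, abs_of_nonneg (sq_nonneg _)]
      apply mul_le_mul_of_nonneg_left _ (sq_nonneg _)
      refine g3.trans ?_
      apply mul_le_mul_of_nonneg_left _ hTp
      linarith only [g2, g1]

end Vale.Agent.P347.Z
end

section

/-! P347-Z-F3. Jacobian vector products from the plain flow.

Centre `c`, level `l0`, base point `v`, times `u_j = (j+1)/p T`, `d_j = A u_j (c, v)`.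
PROOF. `f(u) = F(l0-u², c + u A u (c,v))`, `f 0 = F(l0,c)`, `f'(0) = κ B0(l0,c) v` (`PFl.tower`): `InterpData.errα`
(note `(e : Fin (p+1)) / p * T` is `0` for `e = 0` and `nt p T j` for `e = j.succ`), order `p+1`;
`A u_i = v - ∫_0^{u_i} f`: `InterpData.errA`, order `p`. `R = κ⁻¹ K T^(p-1) ∫_0^T ‖f^{(p+1)}‖ + κ⁻¹ K T^p ∫_0^T ‖f^{(p)}‖`,
bounds by `PFl.path_L1`. -/

open MeasureTheory Filter Module Set
open scoped ENNReal NNReal

namespace Vale.Agent.P347.Z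

theorem jvp_nt_mem {p : ℕ} (hp : 2 ≤ p) {T : ℝ} (hT : 0 < T) (j : Fin p) :
    0 ≤ nt p T j ∧ nt p T j ≤ T := by
  have hp0 : (0 : ℝ) < p := by exact_mod_cast (by omega : 0 < p)
  have h1 : (j : ℝ) + 1 ≤ p := by exact_mod_cast j.2
  have h2 : ((j : ℝ) + 1) / p ≤ 1 := (div_le_one hp0).2 h1
  have h3 : 0 ≤ ((j : ℝ) + 1) / p := by (clear * - hp; positivity)
  unfold nt
  refine ⟨by positivity, ?_⟩
  calc ((j : ℝ) + 1) / p * T ≤ 1 * T := mul_le_mul_of_nonneg_right h2 hT.le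
    _ = T := one_mul T

theorem jvp_ok {d : ℕ} {w : ℝ × Eu d → ℝ} {κ l0 : ℝ} (hw : Heat κ w) (h0 : 0 < κ) (h1 : κ ≤ 1)
    (hl : 3 / 4 ≤ l0) (hl1 : l0 ≤ 1) (c : Eu d) : (Dat.mk w κ l0 0 c).Ok :=
  ⟨hw, h0, h1, hl, hl1, by simp only [abs_zero, zero_mul, Nat.ofNat_nonneg]⟩

/-- The plain flow is the integral of the field. -/
theorem jvp_int {d : ℕ} {w : ℝ × Eu d → ℝ} {l0 : ℝ} {A : ℝ → Eu d × Eu d → Eu d}
    (hA : PFl w l0 A) {T : ℝ} (hT1 : T ≤ 1 / 2) {h0 : ℝ → Eu d} (c v : Eu d)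
    (hc : ContinuousOn h0 (Icc 0 T))
    (hh : ∀ t ∈ Icc 0 T, h0 t = Fv w (l0 - t ^ 2, c + t • A t (c, v))) {s : ℝ} (hs : 0 ≤ s)
    (hsT : s ≤ T) : A s (c, v) = v - ∫ t in (0 : ℝ)..s, h0 t := by
  have hsub : Icc 0 s ⊆ Icc 0 T := Icc_subset_Icc_right hsT
  have hsub2 : Icc 0 s ⊆ IT := Icc_subset_Icc_right (hsT.trans hT1)
  have h1 : ∫ t in (0 : ℝ)..s, -h0 t = A s (c, v) - A 0 (c, v) := by
    apply intervalIntegral.integral_eq_sub_of_hasDerivAt_of_le hs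
    · intro t ht
      exact ((hA.dA c v t (hsub2 ht)).continuousWithinAt).mono hsub2
    · intro t ht
      have ht' : t ∈ Icc 0 s := ⟨ht.1.le, ht.2.le⟩
      have h2 := hA.dA c v t (hsub2 ht')
      rw [hh t (hsub ht')]
      apply h2.hasDerivAt
      exact Icc_mem_nhds ht.1 (ht.2.trans_le (hsT.trans hT1))
    · apply ContinuousOn.intervalIntegrable
      rw [uIcc_of_le hs]
      exact (hc.mono hsub).neg
  rw [intervalIntegral.integral_neg, hA.A0] at h1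
  rw [sub_eq_add_neg, h1]
  abel

theorem jvp_nodes {p : ℕ} (hp : 2 ≤ p) {cA : Fin p → Fin p → ℝ} {α β : Fin (p + 1) → ℝ} {K : ℝ}
    (hI : InterpData p cA α β K) : ∃ C, 0 ≤ C ∧
    ∀ (d : ℕ) (w : ℝ × Eu d → ℝ) (κ l0 : ℝ) (A : ℝ → Eu d × Eu d → Eu d), Heat κ w →
      0 < κ → κ ≤ 1 → 3 / 4 ≤ l0 → l0 ≤ 1 → PFl w l0 A → ∀ T : ℝ, 0 < T → T ≤ 1 / 2 →
      ∃ R : Eu d × Eu d → ℝ, Measurable R ∧ (∀ q, 0 ≤ R q) ∧
        (∀ c, Integrable (fun v => R (c, v)) (gam (Eu d)) ∧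
          ∫ v, R (c, v) ∂(gam (Eu d)) ≤ C * T ^ p * √d) ∧
        ∀ c v : Eu d,
          ‖κ • B0L κ w (l0, c) v - T⁻¹ • (α 0 • Fv w (l0, c) + ∑ j : Fin p, α j.succ •
            Fv w (l0 - nt p T j ^ 2, c + nt p T j • A (nt p T j) (c, v)))‖ ≤ κ * R (c, v) ∧
          ∀ i : Fin p, ‖A (nt p T i) (c, v) - (v - T • ∑ j : Fin p, cA i j •
            Fv w (l0 - nt p T j ^ 2, c + nt p T j • A (nt p T j) (c, v)))‖ ≤ κ * R (c, v) := by
  obtain ⟨C1, hC1, H1⟩ := PFl.path_L1 p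
  obtain ⟨C2, hC2, H2⟩ := PFl.path_L1 (p - 1)
  have hpp : p - 1 + 1 = p := by omega
  rw [hpp] at H2
  have hK := hI.K0
  refine ⟨K * (C1 + C2), by (clear * - hK hC1 hC2; positivity), ?_⟩
  intro d w κ l0 A hw hκ hκ1 hl hl1 hA T hT hT1
  obtain ⟨m1, b1⟩ := H1 d w κ l0 A hw hκ hκ1 hl hl1 hA T hT hT1
  obtain ⟨m2, b2⟩ := H2 d w κ l0 A hw hκ hκ1 hl hl1 hA T hT hT1
  clear H1 H2
  let I1 : Eu d × Eu d → ℝ := fun q => ∫ t in (0 : ℝ)..T, ‖vecD (Dat.mk w κ l0 0 q.1) (p + 1)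
        (fun k => fF (Dat.mk w κ l0 0 q.1) (ek k)) (t, (A t q, 0))‖
  let I2 : Eu d × Eu d → ℝ := fun q => ∫ t in (0 : ℝ)..T, ‖vecD (Dat.mk w κ l0 0 q.1) p
        (fun k => fF (Dat.mk w κ l0 0 q.1) (ek k)) (t, (A t q, 0))‖
  have hI1 : ∀ q, 0 ≤ I1 q := fun q =>
    intervalIntegral.integral_nonneg hT.le fun _ _ => norm_nonneg _
  have hI2 : ∀ q, 0 ≤ I2 q := fun q =>
    intervalIntegral.integral_nonneg hT.le fun _ _ => norm_nonneg _
  have m1' : Measurable I1 := m1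
  have m2' : Measurable I2 := m2
  have hκi : 0 < κ⁻¹ := inv_pos.2 hκ
  refine ⟨fun q => κ⁻¹ * (K * T ^ (p - 1) * I1 q) + κ⁻¹ * (K * T ^ p * I2 q), ?_, ?_, ?_, ?_⟩
  · exact ((m1'.const_mul _).const_mul _).add ((m2'.const_mul _).const_mul _)
  · intro q
    have := hI1 q
    have := hI2 q
    (clear hp C1 hC1 C2 hC2 hpp hw hκ1 hl hl1 hA hT1 m1 b1 m2 b2 m1' m2' hκi; positivity)
  · intro c
    obtain ⟨i1, e1⟩ := b1 c
    obtain ⟨i2, e2⟩ := b2 c
    have i1' : Integrable (fun v => I1 (c, v)) (gam (Eu d)) := i1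
    have i2' : Integrable (fun v => I2 (c, v)) (gam (Eu d)) := i2
    have e1' : ∫ v, I1 (c, v) ∂(gam (Eu d)) ≤ C1 * κ * T * √d := e1
    have e2' : ∫ v, I2 (c, v) ∂(gam (Eu d)) ≤ C2 * κ * T * √d := e2
    refine ⟨((i1'.const_mul _).const_mul _).add ((i2'.const_mul _).const_mul _), ?_⟩
    rw [integral_add ((i1'.const_mul _).const_mul _) ((i2'.const_mul _).const_mul _)]
    simp only [integral_const_mul]
    have hTp : T ^ p = T ^ (p - 1) * T := by rw [← pow_succ, hpp]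
    have hd : 0 ≤ √(d : ℝ) := Real.sqrt_nonneg _
    have a1 : κ⁻¹ * (K * T ^ (p - 1) * ∫ v, I1 (c, v) ∂(gam (Eu d)))
        ≤ κ⁻¹ * (K * T ^ (p - 1) * (C1 * κ * T * √d)) := by gcongr
    have a2 : κ⁻¹ * (K * T ^ p * ∫ v, I2 (c, v) ∂(gam (Eu d)))
        ≤ κ⁻¹ * (K * T ^ p * (C2 * κ * T * √d)) := by (clear * - e2 hK hT hκ; gcongr)
    have a3 : κ⁻¹ * (K * T ^ (p - 1) * (C1 * κ * T * √d)) = K * C1 * T ^ p * √d := by
      rw [hTp]; (clear * - hκ hT; field_simp)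
    have a4 : κ⁻¹ * (K * T ^ p * (C2 * κ * T * √d)) = K * C2 * T ^ p * √d * T := by
      (clear * - hκ hT; field_simp)
    have a5 : K * C2 * T ^ p * √d * T ≤ K * C2 * T ^ p * √d * 1 :=
      mul_le_mul_of_nonneg_left (by linarith only [hT1]) (by (clear * - hK hC2 hT; positivity))
    calc _ ≤ K * C1 * T ^ p * √d + K * C2 * T ^ p * √d * 1 := by linarith only [a3, a1, a2, a4, a5]
      _ = K * (C1 + C2) * T ^ p * √d := by ring
  · intro c v
    have hD := jvp_ok hw hκ hκ1 hl hl1 c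
    obtain ⟨t1, t2, t3⟩ := hA.tower hD hT hT1 (p + 1) v
    obtain ⟨t1', -, -⟩ := hA.tower hD hT hT1 p v
    set h : ℕ → ℝ → Eu d := fun j t => vecD (Dat.mk w κ l0 0 c) j
      (fun k => fF (Dat.mk w κ l0 0 c) (ek k)) (t, (A t (c, v), 0)) with hh
    have hh0 : ∀ t ∈ Icc 0 T, h 0 t = Fv w (l0 - t ^ 2, c + t • A t (c, v)) := t2
    have hnode : ∀ j : Fin p, h 0 (((j : ℝ) + 1) / p * T)
        = Fv w (l0 - nt p T j ^ 2, c + nt p T j • A (nt p T j) (c, v)) := by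
      intro j
      exact hh0 _ (jvp_nt_mem hp hT j)
    have hκR : κ * (κ⁻¹ * (K * T ^ (p - 1) * I1 (c, v)) + κ⁻¹ * (K * T ^ p * I2 (c, v)))
        = K * T ^ (p - 1) * I1 (c, v) + K * T ^ p * I2 (c, v) := by
      (clear * - hκ; field_simp)
    have p1 : 0 ≤ K * T ^ (p - 1) * I1 (c, v) := by
      have := hI1 (c, v)
      (clear * - hK hT this; positivity)
    have p2 : 0 ≤ K * T ^ p * I2 (c, v) := by
      have := hI2 (c, v)
      (clear * - hK hT this; positivity)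
    refine ⟨?_, ?_⟩
    · have e1 := hI.errα (Eu d) T hT h t1
      have e2 : h 1 0 = κ • B0L κ w (l0, c) v := by
        rw [← t3, hh]
        simp only [hA.A0]
      have e3 : ∑ e : Fin (p + 1), α e • h 0 ((e : ℝ) / p * T)
          = α 0 • Fv w (l0, c) + ∑ j : Fin p, α j.succ •
            Fv w (l0 - nt p T j ^ 2, c + nt p T j • A (nt p T j) (c, v)) := by
        rw [Fin.sum_univ_succ]
        congr 1
        · rw [hh0 _ (by simp only [Fin.coe_ofNat_eq_mod, Nat.zero_mod, CharP.cast_eq_zero, zero_div, zero_mul, mem_Icc, Std.le_refl, hT.le, and_self])]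
          simp
        · apply Finset.sum_congr rfl
          intro j _
          rw [← hnode j]
          simp only [Fin.val_succ, Nat.cast_add, Nat.cast_one]
      rw [e2, e3] at e1
      refine e1.trans ?_
      show K * T ^ (p - 1) * I1 (c, v) ≤ _
      dsimp only
      rw [hκR]
      linarith only [p2]
    · intro i
      have e1 := hI.errA (Eu d) T hT h t1' i
      simp only [hnode] at e1
      have hc0 : ContinuousOn (h 0) (Icc 0 T) :=
        fun t ht => (t1.deriv 0 (by omega) t ht).continuousWithinAt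
      have e2 := jvp_int hA hT1 c v hc0 hh0 (jvp_nt_mem hp hT i).1 (jvp_nt_mem hp hT i).2
      have e3 : A (nt p T i) (c, v) - (v - T • ∑ j : Fin p, cA i j •
            Fv w (l0 - nt p T j ^ 2, c + nt p T j • A (nt p T j) (c, v)))
          = -((∫ t in (0 : ℝ)..(((i : ℝ) + 1) / p * T), h 0 t) - T • ∑ j : Fin p, cA i j •
            Fv w (l0 - nt p T j ^ 2, c + nt p T j • A (nt p T j) (c, v))) := by
        have e4 : A (nt p T i) (c, v) = v - ∫ t in (0 : ℝ)..(((i : ℝ) + 1) / p * T), h 0 t := e2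
        generalize (∑ j : Fin p, cA i j •
            Fv w (l0 - nt p T j ^ 2, c + nt p T j • A (nt p T j) (c, v))) = S
        rw [e4]
        abel
      rw [e3, norm_neg]
      refine e1.trans ?_
      show K * T ^ p * I2 (c, v) ≤ _
      dsimp only
      rw [hκR]
      linarith only [p1]

end Vale.Agent.P347.Z
end

section
attribute [-instance] ProperSMul.toContinuousSMul IsTopologicalTorsor.toContinuousSMul IdemSemiring.toCanonicallyOrderedAdd IdemSemiring.toMulLeftMono IdemSemiring.toMulRightMono AddQuantale.instAddLeftMono AddQuantale.instAddRightMono Quantale.instMulLeftMono Quantale.instMulRightMono FiniteDimensional.rclike_to_real IsScalarTower.complexToReal FiniteDimensional.complexToReal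

/-! P347-Z-E4. The plain flow: existence, exact law, contraction of `Y ↦ Y + τ A`.

PROOF. Existence and law as in LFlow.lean (simpler: state `(Y,a)`, field `(0, -F(l0-τ²,Y+τ a))`; density
`exp(-nuU w l0 Y τ a)`, continuity equation `∂_τ nuU - F·∇_a nuU = -τ Δ w = div(-F)`).
Contraction: let `u = Y - Y'`, `e(τ) = (Y + τ A τ (Y,a)) - (Y' + τ A τ (Y',a))`, `f(τ) = F(.., c_τ) - F(.., c'_τ)`. Then
`e(τ) = u - τ ∫_0^τ f`, `‖f‖ ≤ κ ‖e‖`, so `‖e(τ) - u‖ ≤ κ τ² M` with `M = sup ‖e‖ ≤ ‖u‖/(1-κτ²) ≤ (4/3)‖u‖`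
(`κτ² ≤ 1/4`), and `⟨u, f(t)⟩ = ⟨e(t), f(t)⟩ + ⟨u - e(t), f(t)⟩ ≥ m ‖e(t)‖² - κ² t² M²`,
`‖e(t)‖ ≥ (1 - (4/3)κt²)‖u‖`. Hence
`‖e(τ)‖² = ‖u‖² - 2τ ∫⟨u,f⟩ + τ²‖∫f‖² ≤ ‖u‖² (1 - 2 m τ² (1 - (8/3)κτ²) + C κ² τ⁴)` with `C ≤ 4`. With
`m ≥ (3/8) κ` and `κ τ² ≤ 1/32` this is `≤ ‖u‖² (1 - m τ²/2)²`... (statement: factor `1 - m τ²/2`). -/

open MeasureTheory Filter Module Set
open scoped ENNReal NNReal

namespace Vale.Agent.P347.Z

variable {d : ℕ} {κ : ℝ} {w : ℝ × Eu d → ℝ}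

theorem pf_lev {l0 : ℝ} (hl : 3 / 4 ≤ l0) (hl1 : l0 ≤ 1) {t : ℝ} (ht : t ∈ IT) :
    l0 - t ^ 2 ∈ Lev := by
  obtain ⟨h1, h2⟩ := ht
  constructor <;> (first | linarith only [mul_nonneg (sub_nonneg.2 h2) (sub_nonneg.2 h2), mul_nonneg (sub_nonneg.2 hl) (sub_nonneg.2 h2), mul_nonneg (sub_nonneg.2 hl) h1, mul_nonneg h1 (sub_nonneg.2 h2)] | (refine le_of_not_gt fun hng_ => ?_; linarith only [mul_nonneg (sq_nonneg (t)) (le_of_lt (sub_pos.2 hng_)), mul_pos (sub_pos.2 hng_) (sub_pos.2 hng_), mul_nonneg (sub_nonneg.2 hl1) (le_of_lt (sub_pos.2 hng_))]))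

theorem pf_pos {l0 : ℝ} (hl : 3 / 4 ≤ l0) {t : ℝ} (ht : t ∈ JT) : 0 < l0 - t ^ 2 := by
  obtain ⟨h1, h2⟩ := ht
  (refine lt_of_not_ge fun hng_ => ?_; linarith only [mul_nonneg (le_of_lt (sub_pos.2 h1)) (sub_nonneg.2 hng_), mul_nonneg (le_of_lt (sub_pos.2 h2)) (sub_nonneg.2 hng_), mul_nonneg (sub_nonneg.2 hl) (le_of_lt (sub_pos.2 h1)), mul_pos (sub_pos.2 h1) (sub_pos.2 h2), mul_nonneg (sub_nonneg.2 hl) (le_of_lt (sub_pos.2 h2))])

theorem pf_Fv_contDiff (hw : Heat κ w) : ContDiffOn ℝ 1 (Fv w) (Ioi 0 ×ˢ univ) := by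
  rw [contDiffOn_euclidean]
  intro k
  have := (hw.cg.dy k).contDiffOn isOpen_Ioi 1
  exact_mod_cast this

theorem pf_w_contDiff (hw : Heat κ w) : ContDiffOn ℝ 1 w (Ioi 0 ×ˢ univ) := by
  have := hw.cg.contDiffOn isOpen_Ioi 1
  exact_mod_cast this

/-- the field with the parameter as a variable -/
noncomputable def pfX (w : ℝ × Eu d → ℝ) (l0 : ℝ) (p : ℝ × (Eu d × Eu d)) : Eu d × Eu d :=
  (0, -Fv w (l0 - p.1 ^ 2, p.2.1 + p.1 • p.2.2))

/-- the field with a fixed parameter -/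
noncomputable def pfY (w : ℝ × Eu d → ℝ) (l0 : ℝ) (Y : Eu d) (p : ℝ × Eu d) : Eu d :=
  -Fv w (l0 - p.1 ^ 2, Y + p.1 • p.2)

theorem pfX_contDiff (hw : Heat κ w) {l0 : ℝ} (hl : 3 / 4 ≤ l0) :
    ContDiffOn ℝ 1 (pfX w l0) (JT ×ˢ univ) := by
  unfold pfX
  refine contDiffOn_const.prodMk ?_
  refine ContDiffOn.neg ?_
  refine (pf_Fv_contDiff hw).comp (t := Ioi 0 ×ˢ univ)
    (f := fun p : ℝ × (Eu d × Eu d) => (l0 - p.1 ^ 2, p.2.1 + p.1 • p.2.2)) ?_ ?_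
  · refine ContDiff.contDiffOn ?_
    fun_prop
  · intro p hp
    exact ⟨pf_pos hl hp.1, mem_univ _⟩

theorem pfY_contDiff (hw : Heat κ w) {l0 : ℝ} (hl : 3 / 4 ≤ l0) (Y : Eu d) :
    ContDiffOn ℝ 1 (pfY w l0 Y) (JT ×ˢ univ) := by
  unfold pfY
  refine ContDiffOn.neg ?_
  refine (pf_Fv_contDiff hw).comp (t := Ioi 0 ×ˢ univ)
    (f := fun p : ℝ × Eu d => (l0 - p.1 ^ 2, Y + p.1 • p.2)) ?_ ?_
  · refine ContDiff.contDiffOn ?_
    fun_prop
  · intro p hp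
    exact ⟨pf_pos hl hp.1, mem_univ _⟩

theorem pf_growth (hw : Heat κ w) (h0 : 0 < κ) (h1 : κ ≤ 1) {l0 : ℝ} (hl : 3 / 4 ≤ l0)
    (hl1 : l0 ≤ 1) {t : ℝ} (ht : t ∈ IT) (Y a : Eu d) :
    ‖Fv w (l0 - t ^ 2, Y + t • a)‖ ≤ ‖Y‖ + ‖a‖ + √d := by
  have h2 := pf_lev hl hl1 ht
  have h3 := hw.norm_Fv h0.le (l := l0 - t ^ 2) (by linarith only [h2.1]) h2.2 (Y + t • a)
  have h4 : ‖Y + t • a‖ ≤ ‖Y‖ + ‖a‖ := by
    refine (norm_add_le _ _).trans (add_le_add le_rfl ?_)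
    rw [norm_smul, Real.norm_eq_abs, abs_of_nonneg ht.1]
    have : t ≤ 1 := by linarith only [ht.2]
    exact mul_le_of_le_one_left (norm_nonneg _) this
  have h5 : 0 ≤ √(d : ℝ) := Real.sqrt_nonneg _
  have h6 : κ * (‖Y + t • a‖ + √d) ≤ 1 * (‖Y + t • a‖ + √d) :=
    mul_le_mul_of_nonneg_right h1 (by (clear * -; positivity))
  linarith only [h4, h3, h6]

/-- the potential as a function of time and space -/
theorem pf_hasFDerivAt_U (hw : Heat κ w) {l0 : ℝ} (Y : Eu d) {p : ℝ × Eu d}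
    (hp : 0 < l0 - p.1 ^ 2) :
    HasFDerivAt (fun p : ℝ × Eu d => nuU w l0 Y p.1 p.2)
      ((innerSL ℝ p.2).comp (ContinuousLinearMap.snd ℝ ℝ (Eu d)) +
        (fderiv ℝ w (l0 - p.1 ^ 2, Y + p.1 • p.2)).comp
          (((-(2 * p.1)) • ContinuousLinearMap.fst ℝ ℝ (Eu d)).prod
            (p.1 • ((ContinuousLinearMap.id ℝ (Eu d)).comp (ContinuousLinearMap.snd ℝ ℝ (Eu d))) +
          (ContinuousLinearMap.fst ℝ ℝ (Eu d)).smulRight ((ContinuousLinearMap.id ℝ (Eu d)) p.2)))) p := by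
  have h1 := (gam_fderiv (E := Eu d) p.2).comp p (hasFDerivAt_snd (𝕜 := ℝ) (p := p))
  have h2 := cgl_hasFDerivAt_up (W := Eu d) (W' := Eu d) (ContinuousLinearMap.id ℝ (Eu d)) l0 Y p
  have h3 := (ha_hasFDerivAt hw.cg (p := (l0 - p.1 ^ 2, Y + p.1 • p.2)) hp).comp p h2
  exact h1.add h3

theorem pf_U_time (hw : Heat κ w) {l0 : ℝ} (Y : Eu d) {t : ℝ} {z : Eu d}
    (hp : 0 < l0 - t ^ 2) :
    fderiv ℝ (fun p : ℝ × Eu d => nuU w l0 Y p.1 p.2) (t, z) (1, 0)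
      = -(2 * t) * dlev w (l0 - t ^ 2, Y + t • z)
        + ∑ k, z k * dy k w (l0 - t ^ 2, Y + t • z) := by
  rw [(pf_hasFDerivAt_U hw Y (p := (t, z)) hp).fderiv]
  have e : ((-(2 * t) * 1, t • (0 : Eu d) + (1 : ℝ) • z) : ℝ × Eu d) =
      (-(2 * t)) • ((1 : ℝ), (0 : Eu d)) + ((0 : ℝ), z) := by
    ext <;> simp
  show inner ℝ z (0 : Eu d) + fderiv ℝ w (l0 - t ^ 2, Y + t • z)
    (-(2 * t) * 1, t • (0 : Eu d) + (1 : ℝ) • z) = _
  rw [inner_zero_right, zero_add, e, map_add, map_smul, ha_expand]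
  rfl

theorem pf_U_space (hw : Heat κ w) {l0 : ℝ} (Y : Eu d) {t : ℝ} {z : Eu d}
    (hp : 0 < l0 - t ^ 2) (h : Eu d) :
    fderiv ℝ (fun p : ℝ × Eu d => nuU w l0 Y p.1 p.2) (t, z) (0, h)
      = inner ℝ z h + t * ∑ k, h k * dy k w (l0 - t ^ 2, Y + t • z) := by
  rw [(pf_hasFDerivAt_U hw Y (p := (t, z)) hp).fderiv]
  have e : ((-(2 * t) * 0, t • h + (0 : ℝ) • z) : ℝ × Eu d) = t • ((0 : ℝ), h) := by
    ext <;> simp
  show inner ℝ z h + fderiv ℝ w (l0 - t ^ 2, Y + t • z)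
    (-(2 * t) * 0, t • h + (0 : ℝ) • z) = _
  rw [e, map_smul, ha_expand]
  rfl

theorem pfY_div (hw : Heat κ w) {l0 : ℝ} (hl : 3 / 4 ≤ l0) (Y : Eu d) {t : ℝ} (ht : t ∈ JT)
    (z : Eu d) (i : Fin d) :
    (fderiv ℝ (pfY w l0 Y) (t, z) (0, ek i)) i
      = -(t * dy i (dy i w) (l0 - t ^ 2, Y + t • z)) := by
  have hmem : ((t, z) : ℝ × Eu d) ∈ JT ×ˢ (univ : Set (Eu d)) := ⟨ht, mem_univ _⟩
  have hd : DifferentiableAt ℝ (pfY w l0 Y) (t, z) :=
    ((pfY_contDiff hw hl Y).differentiableOn one_ne_zero (t, z) hmem).differentiableAt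
      ((isOpen_JT.prod isOpen_univ).mem_nhds hmem)
  have h1 : HasFDerivAt (fun p => pfY w l0 Y p i)
      ((EuclideanSpace.proj i : Eu d →L[ℝ] ℝ).comp (fderiv ℝ (pfY w l0 Y) (t, z))) (t, z) :=
    (EuclideanSpace.proj i : Eu d →L[ℝ] ℝ).hasFDerivAt.comp (t, z) hd.hasFDerivAt
  have h2 : fderiv ℝ (fun p => pfY w l0 Y p i) (t, z) (0, ek i) =
      (fderiv ℝ (pfY w l0 Y) (t, z) (0, ek i)) i := by
    rw [h1.fderiv]
    rfl
  rw [← h2]
  have h3 : (fun p : ℝ × Eu d => pfY w l0 Y p i) =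
      fun p => -(dy i w (l0 - p.1 ^ 2, Y + p.1 • (ContinuousLinearMap.id ℝ (Eu d)) p.2)) := rfl
  rw [h3, fderiv_fun_neg]
  have h4 := cgl_fderiv_up (W := Eu d) (W' := Eu d) isOpen_Ioi (hw.cg.dy i).diff
    (ContinuousLinearMap.id ℝ (Eu d)) l0 Y (p := (t, z)) (pf_pos hl ht) (0, ek i)
  have e : ((-(2 * t) * 0, t • ek i + (0 : ℝ) • z) : ℝ × Eu d) = t • ((0 : ℝ), ek i) := by
    ext <;> simp
  show -(fderiv ℝ (fun p : ℝ × Eu d =>
    dy i w (l0 - p.1 ^ 2, Y + p.1 • (ContinuousLinearMap.id ℝ (Eu d)) p.2)) (t, z) (0, ek i)) = _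
  rw [h4]
  show -(fderiv ℝ (dy i w) (l0 - t ^ 2, Y + t • z)
    (-(2 * t) * 0, t • ek i + (0 : ℝ) • z)) = _
  rw [e, map_smul]
  rfl

/-- continuity equation -/
theorem pf_ce (hw : Heat κ w) {l0 : ℝ} (hl : 3 / 4 ≤ l0) (Y : Eu d) (Z0 : ℝ) {t : ℝ}
    (ht : t ∈ JT) (z : Eu d) :
    fderiv ℝ (fun p : ℝ × Eu d => Real.exp (-nuU w l0 Y p.1 p.2) / Z0) (t, z) (1, 0)
      + fderiv ℝ (fun p : ℝ × Eu d => Real.exp (-nuU w l0 Y p.1 p.2) / Z0) (t, z)
        (0, pfY w l0 Y (t, z))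
      + (Real.exp (-nuU w l0 Y t z) / Z0) * ∑ i, (EuclideanSpace.basisFun (Fin d) ℝ).toBasis.repr
        (fderiv ℝ (pfY w l0 Y) (t, z) (0, (EuclideanSpace.basisFun (Fin d) ℝ).toBasis i)) i = 0 := by
  have hp := pf_pos hl ht
  set q : ℝ × Eu d := (l0 - t ^ 2, Y + t • z) with hq
  have hU := (pf_hasFDerivAt_U hw Y (p := (t, z)) hp).differentiableAt.hasFDerivAt
  have hρ : HasFDerivAt (fun p : ℝ × Eu d => Real.exp (-nuU w l0 Y p.1 p.2) / Z0)
      ((-(Real.exp (-nuU w l0 Y t z) / Z0)) •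
        fderiv ℝ (fun p : ℝ × Eu d => nuU w l0 Y p.1 p.2) (t, z)) (t, z) := by
    have h1 := (hU.fun_neg.exp).mul_const Z0⁻¹
    have h2 : (fun p : ℝ × Eu d => Real.exp (-nuU w l0 Y p.1 p.2) / Z0) =
        fun p => Real.exp (-nuU w l0 Y p.1 p.2) * Z0⁻¹ := by
      funext p; rw [div_eq_mul_inv]
    rw [h2]
    refine h1.congr_fderiv ?_
    ext v
    · simp only [smul_neg, ContinuousLinearMap.neg_comp, ContinuousLinearMap.smul_comp, neg_apply, smul_apply, ContinuousLinearMap.comp_apply, ContinuousLinearMap.inl_apply, smul_eq_mul, div_eq_mul_inv, neg_smul, neg_inj]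
      ring
    · simp only [smul_neg, ContinuousLinearMap.neg_comp, ContinuousLinearMap.smul_comp, neg_apply, smul_apply, ContinuousLinearMap.comp_apply, ContinuousLinearMap.inr_apply, smul_eq_mul, div_eq_mul_inv, neg_smul, neg_inj]
      ring
  rw [hρ.fderiv]
  have hb : ∀ i, (EuclideanSpace.basisFun (Fin d) ℝ).toBasis.repr
        (fderiv ℝ (pfY w l0 Y) (t, z) (0, (EuclideanSpace.basisFun (Fin d) ℝ).toBasis i)) i =
      -(t * dy i (dy i w) q) := by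
    intro i
    rw [← pfY_div hw hl Y ht z i]
    simp
  simp only [hb]
  show -(Real.exp (-nuU w l0 Y t z) / Z0) *
      fderiv ℝ (fun p : ℝ × Eu d => nuU w l0 Y p.1 p.2) (t, z) (1, 0) +
    -(Real.exp (-nuU w l0 Y t z) / Z0) *
      fderiv ℝ (fun p : ℝ × Eu d => nuU w l0 Y p.1 p.2) (t, z) (0, pfY w l0 Y (t, z)) + _ = 0
  rw [pf_U_time hw Y hp, pf_U_space hw Y hp]
  have e1 : inner ℝ z (pfY w l0 Y (t, z)) = -∑ k, z k * dy k w q := by
    rw [PiLp.inner_apply, ← Finset.sum_neg_distrib]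
    refine Finset.sum_congr rfl fun k _ => ?_
    show (-(dy k w q)) * z k = _
    ring
  have e2 : ∑ k, (pfY w l0 Y (t, z)) k * dy k w q = -∑ k, (dy k w q) ^ 2 := by
    rw [← Finset.sum_neg_distrib]
    refine Finset.sum_congr rfl fun k _ => ?_
    show (-(dy k w q)) * dy k w q = _
    ring
  have e3 : ∑ i, -(t * dy i (dy i w) q) = -(t * ∑ i, dy i (dy i w) q) := by
    rw [Finset.sum_neg_distrib, Finset.mul_sum]
  rw [e1, e2, e3]
  have hpde := hw.pde q hp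
  rw [hpde]
  ring

theorem pf_gibbs (U : Eu d → ℝ) : gibbs U = (volume : Measure (Eu d)).withDensity
    (fun a => ENNReal.ofReal (Real.exp (-U a) / ∫ x, Real.exp (-U x))) := rfl

theorem pf_gam (w : ℝ × Eu d → ℝ) (l0 : ℝ) (Y : Eu d) : gam (Eu d) = nu w l0 Y 0 := by
  unfold gam nu
  rw [pf_gibbs, pf_gibbs]
  congr 1
  funext a
  congr 1
  have h1 : ∀ x : Eu d, nuU w l0 Y 0 x = ‖x‖ ^ 2 / 2 + w (l0 - 0 ^ 2, Y) := by
    intro x
    simp [nuU]
  have h2 : ∀ x : Eu d, Real.exp (-nuU w l0 Y 0 x) =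
      Real.exp (-(w (l0 - 0 ^ 2, Y))) * Real.exp (-(‖x‖ ^ 2 / 2)) := by
    intro x
    rw [h1, ← Real.exp_add]
    congr 1
    ring
  simp only [h2]
  rw [integral_const_mul, mul_div_mul_left _ _ (Real.exp_ne_zero _)]

theorem exists_PFl (hw : Heat κ w) (h0 : 0 < κ) (h1 : κ ≤ 1) {l0 : ℝ} (hl : 3 / 4 ≤ l0)
    (hl1 : l0 ≤ 1) : ∃ A, PFl w l0 A := by
  have hT : (0 : ℝ) ≤ 1 / 2 := by norm_num
  have hs : 0 ≤ √(d : ℝ) := Real.sqrt_nonneg _
  obtain ⟨Φ, hΦ0, hΦd, hΦc, -⟩ := exists_flow (W := Eu d × Eu d) isOpen_JT hT IT_subset_JT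
    (pfX_contDiff hw hl) (C := 2 + √d) (fun t ht z => by
      have h2 := pf_growth hw h0 h1 hl hl1 ht z.1 z.2
      have h3 : ‖pfX w l0 (t, z)‖ = ‖Fv w (l0 - t ^ 2, z.1 + t • z.2)‖ := by
        unfold pfX
        rw [Prod.norm_def]
        simp only [norm_zero, norm_neg, norm_nonneg, sup_of_le_right]
      have h4 : ‖z.1‖ ≤ ‖z‖ := norm_fst_le z
      have h5 : ‖z.2‖ ≤ ‖z‖ := norm_snd_le z
      have h6 : 0 ≤ √(d : ℝ) * ‖z‖ := by (clear * -; positivity)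
      rw [h3]
      linarith only [h5, h2, h4, h6])
  have hfst : ∀ z, ∀ t ∈ IT, (Φ t z).1 = z.1 := by
    intro z t ht
    have hd : ∀ t ∈ IT, HasDerivWithinAt (fun t => (Φ t z).1) (0 : Eu d) IT t := fun t ht =>
      (hΦd z t ht).fst
    have h2 := constant_of_has_deriv_right_zero (f := fun t => (Φ t z).1) (a := 0) (b := 1 / 2)
      (fun t ht => (hd t ht).continuousWithinAt)
      (fun t ht => (hd t ⟨ht.1, ht.2.le⟩).mono_of_mem_nhdsWithin (Icc_mem_nhdsGE_of_mem ht)) t ht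
    beta_reduce at h2
    rw [h2, hΦ0]
  have hder : ∀ Y a, ∀ τ ∈ IT, HasDerivWithinAt (fun t => (Φ t (Y, a)).2)
      (pfY w l0 Y (τ, (Φ τ (Y, a)).2)) IT τ := by
    intro Y a τ hτ
    have h2 : HasDerivWithinAt (fun t => (Φ t (Y, a)).2) (pfX w l0 (τ, Φ τ (Y, a))).2 IT τ :=
      (ContinuousLinearMap.snd ℝ (Eu d) (Eu d)).hasFDerivAt.comp_hasDerivWithinAt τ
        (hΦd (Y, a) τ hτ)
    have h3 : (pfX w l0 (τ, Φ τ (Y, a))).2 = pfY w l0 Y (τ, (Φ τ (Y, a)).2) := by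
      unfold pfX pfY
      rw [hfst (Y, a) τ hτ]
    rw [h3] at h2
    exact h2
  refine ⟨fun τ z => (Φ τ z).2, ⟨fun Y a => by rw [hΦ0], hder, ?_, ?_⟩⟩
  · exact continuous_snd.comp_continuousOn hΦc
  · intro Y τ hτ
    -- transport for a fixed parameter
    set Z0 := ∫ x : Eu d, Real.exp (-nuU w l0 Y 0 x) with hZ0
    have hadm : ∀ t ∈ JT, Adm (nuU w l0 Y t) := fun t ht =>
      nuU_adm hw h0.le h1 (pf_pos hl ht) Y
    have h0J : (0 : ℝ) ∈ JT := IT_subset_JT ⟨le_rfl, hT⟩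
    have hZpos : 0 < Z0 := (hadm 0 h0J).integral_exp_pos
    have hρc : ContDiffOn ℝ 1 (fun p : ℝ × Eu d => Real.exp (-nuU w l0 Y p.1 p.2) / Z0)
        (JT ×ˢ univ) := by
      refine ContDiffOn.div_const ?_ _
      refine (ContDiffOn.neg ?_).exp
      unfold nuU
      refine ContDiffOn.add ?_ ?_
      · exact ((contDiff_norm_sq ℝ).comp contDiff_snd).div_const 2 |>.contDiffOn
      · refine (pf_w_contDiff hw).comp (t := Ioi 0 ×ˢ univ)
          (f := fun p : ℝ × Eu d => (l0 - p.1 ^ 2, Y + p.1 • p.2)) ?_ ?_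
        · refine ContDiff.contDiffOn ?_
          fun_prop
        · intro p hp
          exact ⟨pf_pos hl hp.1, mem_univ _⟩
    have htr := transport (W := Eu d) volume (EuclideanSpace.basisFun (Fin d) ℝ).toBasis
      isOpen_JT hT IT_subset_JT (pfY_contDiff hw hl Y) (C := 1 + ‖Y‖ + √d)
      (fun t ht z => by
        have h2 := pf_growth hw h0 h1 hl hl1 ht Y z
        have h3 : ‖pfY w l0 Y (t, z)‖ = ‖Fv w (l0 - t ^ 2, Y + t • z)‖ := by
          unfold pfY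
          rw [norm_neg]
        have h6 : 0 ≤ (‖Y‖ + √(d : ℝ)) * ‖z‖ := by (clear * -; positivity)
        have h7 := norm_nonneg z
        rw [h3]
        linarith only [h6, h2])
      hρc (fun p => by (clear * - hZpos; positivity))
      (fun t ht => ((hadm t (IT_subset_JT ht)).integrable_exp).div_const _)
      (fun t ht z => pf_ce hw hl Y Z0 (IT_subset_JT ht) z)
      (Φ := fun t z => (Φ t (Y, z)).2) (fun z => by rw [hΦ0])
      (fun z t ht => hder Y z t ht)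
      (by
        refine (continuous_snd.comp_continuousOn hΦc).comp
          (f := fun p : ℝ × Eu d => (p.1, (Y, p.2))) (by fun_prop) ?_
        intro p hp
        exact ⟨hp.1, mem_univ _⟩) τ hτ
    have e0 : (volume : Measure (Eu d)).withDensity
        (fun z => ENNReal.ofReal (Real.exp (-nuU w l0 Y 0 z) / Z0)) = gam (Eu d) := by
      rw [pf_gam w l0 Y]
      rfl
    have htr' : (gam (Eu d)).map (fun a => (Φ τ (Y, a)).2) = (volume : Measure (Eu d)).withDensity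
        (fun z => ENNReal.ofReal (Real.exp (-nuU w l0 Y τ z) / Z0)) := by
      rw [← e0]
      exact htr
    -- the total mass
    have hmeas : Measurable (fun a => (Φ τ (Y, a)).2) := by
      have : Continuous (fun a => (Φ τ (Y, a)).2) := by
        refine continuous_snd.comp ?_
        exact hΦc.comp_continuous (f := fun a : Eu d => (τ, (Y, a))) (by fun_prop)
          (fun a => ⟨hτ, mem_univ _⟩)
      exact this.measurable
    have hprob : IsProbabilityMeasure ((volume : Measure (Eu d)).withDensity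
        (fun z => ENNReal.ofReal (Real.exp (-nuU w l0 Y τ z) / Z0))) := by
      rw [← htr']
      exact Measure.isProbabilityMeasure_map hmeas.aemeasurable
    have hmass : ∫ z : Eu d, Real.exp (-nuU w l0 Y τ z) / Z0 = 1 := by
      have h2 : ∫⁻ z : Eu d, ENNReal.ofReal (Real.exp (-nuU w l0 Y τ z) / Z0) = 1 := by
        have := hprob.measure_univ
        rwa [withDensity_apply _ MeasurableSet.univ, Measure.restrict_univ] at this
      rw [integral_eq_lintegral_of_nonneg_ae (Eventually.of_forall fun z => by (clear * - hZpos; positivity))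
        (((hadm τ (IT_subset_JT hτ)).integrable_exp).div_const _).aestronglyMeasurable, h2]
      simp
    have hZ : ∫ x : Eu d, Real.exp (-nuU w l0 Y τ x) = Z0 := by
      rw [integral_div] at hmass
      rwa [div_eq_one_iff_eq hZpos.ne'] at hmass
    rw [htr']
    unfold nu
    rw [pf_gibbs, hZ]

/-- the scalar inequality behind the contraction -/
theorem pf_scalar {κ m θ U M s : ℝ} (hκ : 0 < κ) (hm : 3 / 8 * κ ≤ m) (hs : 0 ≤ s)
    (hθ : θ = κ * s) (hθ1 : θ ≤ 1 / 16) (hM0 : 0 ≤ M)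
    (hM : M ≤ 16 / 15 * U) :
    U ^ 2 - 2 * s * (m * (14 / 15 * U) ^ 2 - κ * θ * M ^ 2) + s ^ 2 * (κ ^ 2 * M ^ 2)
      ≤ (1 - m * s / 2) ^ 2 * U ^ 2 := by
  have hM2 : M ^ 2 ≤ (16 / 15 * U) ^ 2 := pow_le_pow_left₀ hM0 hM 2
  have e1 : U ^ 2 - 2 * s * (m * (14 / 15 * U) ^ 2 - κ * θ * M ^ 2) + s ^ 2 * (κ ^ 2 * M ^ 2)
      = U ^ 2 - (392 / 225) * (m * s) * U ^ 2 + 3 * θ ^ 2 * M ^ 2 := by
    rw [hθ]; ring
  have h0 : 0 ≤ θ := by rw [hθ]; positivity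
  have h1 : 3 * θ ^ 2 * M ^ 2 ≤ 3 * θ ^ 2 * (16 / 15 * U) ^ 2 := by (clear * - hM2; gcongr)
  have h2 : 3 / 8 * θ ≤ m * s := by
    rw [hθ]
    have := mul_le_mul_of_nonneg_right hm hs
    linarith only [this]
  have h3 : θ ^ 2 ≤ θ * (1 / 16) := by
    rw [sq]
    exact mul_le_mul_of_nonneg_left hθ1 h0
  have h4 : 0 ≤ U ^ 2 := sq_nonneg U
  have h5 : 3 * θ ^ 2 * (16 / 15 * U) ^ 2 ≤ (167 / 225) * (m * s) * U ^ 2 := by
    have h6 : 3 * θ ^ 2 * (16 / 15) ^ 2 ≤ (167 / 225) * (m * s) := by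
      have : 3 * θ ^ 2 * (16 / 15 : ℝ) ^ 2 ≤ 3 * (θ * (1 / 16)) * (16 / 15) ^ 2 := by (clear * - h3; gcongr)
      linarith only [h2, h0, this]
    have h7 := mul_le_mul_of_nonneg_right h6 h4
    calc 3 * θ ^ 2 * (16 / 15 * U) ^ 2 = 3 * θ ^ 2 * (16 / 15) ^ 2 * U ^ 2 := by ring
      _ ≤ _ := h7
  have h8 : (1 - m * s) * U ^ 2 ≤ (1 - m * s / 2) ^ 2 * U ^ 2 := by
    apply mul_le_mul_of_nonneg_right _ h4
    (refine le_of_not_gt fun hng_ => ?_; linarith only [mul_nonneg (le_of_lt (sub_pos.2 hng_)) (sq_nonneg (m * s)), mul_pos (sub_pos.2 hng_) (sub_pos.2 hng_)])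
  rw [e1]
  linarith only [h5, h1, h8]

theorem PFl.contract (hw : Heat κ w) (h0 : 0 < κ) (h1 : κ ≤ 1) {l0 : ℝ} (hl : 3 / 4 ≤ l0)
    (hl1 : l0 ≤ 1) {A : ℝ → Eu d × Eu d → Eu d} (hA : PFl w l0 A) {m : ℝ} (hm : 3 / 8 * κ ≤ m)
    (hF : ∀ l ∈ Lev, ∀ x y, m * ‖x - y‖ ^ 2 ≤ inner ℝ (Fv w (l, x) - Fv w (l, y)) (x - y))
    {τ : ℝ} (hτ : τ ∈ IT) (hτκ : κ * τ ^ 2 ≤ 1 / 16) (Y Y' a : Eu d) :
    ‖(Y + τ • A τ (Y, a)) - (Y' + τ • A τ (Y', a))‖ ≤ (1 - m * τ ^ 2 / 2) * ‖Y - Y'‖ := by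
  obtain ⟨u, hu⟩ : ∃ u : Eu d, u = Y - Y' := ⟨_, rfl⟩
  set D : ℝ → Eu d := fun t => A t (Y, a) - A t (Y', a) with hD
  set e : ℝ → Eu d := fun t => u + t • D t with he
  set f : ℝ → Eu d := fun t => Fv w (l0 - t ^ 2, Y + t • A t (Y, a))
    - Fv w (l0 - t ^ 2, Y' + t • A t (Y', a)) with hf
  have hcc : ∀ t, (Y + t • A t (Y, a)) - (Y' + t • A t (Y', a)) = e t := by
    intro t
    simp only [he, hD, hu, smul_sub]
    abel
  have hD0 : D 0 = 0 := by simp only [hD, hA.A0, sub_self]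
  have hDd : ∀ t ∈ IT, HasDerivWithinAt D (-f t) IT t := by
    intro t ht
    have := (hA.dA Y a t ht).sub (hA.dA Y' a t ht)
    refine this.congr_deriv ?_
    simp only [hf]
    abel
  have hsub : Icc 0 τ ⊆ IT := Icc_subset_Icc le_rfl hτ.2
  have hDc : ContinuousOn D (Icc 0 τ) := fun t ht =>
    ((hDd t (hsub ht)).continuousWithinAt).mono hsub
  have hec : ContinuousOn e (Icc 0 τ) := by
    simp only [he]
    exact continuousOn_const.add (continuousOn_id.smul hDc)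
  -- the maximum of the norm
  obtain ⟨t0, ht0, hmax⟩ := isCompact_Icc.exists_isMaxOn (nonempty_Icc.2 hτ.1) hec.norm
  set M := ‖e t0‖ with hM
  have hMle : ∀ t ∈ Icc 0 τ, ‖e t‖ ≤ M := fun t ht => hmax ht
  have hM0 : 0 ≤ M := norm_nonneg _
  have hfle : ∀ t ∈ Icc 0 τ, ‖f t‖ ≤ κ * M := by
    intro t ht
    have h2 := hw.lip h0.le h1 (l := l0 - t ^ 2) (by
      have := (pf_lev hl hl1 (hsub ht)).1
      linarith only [this]) (Y + t • A t (Y, a)) (Y' + t • A t (Y', a))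
    rw [hcc] at h2
    exact h2.trans (mul_le_mul_of_nonneg_left (hMle t ht) h0.le)
  have hDle : ∀ t ∈ Icc 0 τ, ‖D t‖ ≤ κ * M * t := by
    intro t ht
    have h2 : Icc 0 t ⊆ Icc 0 τ := Icc_subset_Icc le_rfl ht.2
    have h3 := norm_image_sub_le_of_norm_deriv_le_segment' (f := D) (f' := fun t => -f t)
      (a := 0) (b := t) (C := κ * M)
      (fun s hs => (hDd s (hsub (h2 hs))).mono (h2.trans hsub))
      (fun s hs => by
        rw [norm_neg]
        exact hfle s (h2 ⟨hs.1, hs.2.le⟩)) t ⟨ht.1, le_rfl⟩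
    rwa [hD0, sub_zero, sub_zero] at h3
  have hθ : ∀ t ∈ Icc 0 τ, κ * t ^ 2 ≤ κ * τ ^ 2 := fun t ht =>
    mul_le_mul_of_nonneg_left (pow_le_pow_left₀ ht.1 ht.2 2) h0.le
  have heu : ∀ t ∈ Icc 0 τ, ‖e t - u‖ ≤ κ * τ ^ 2 * M := by
    intro t ht
    have h2 : e t - u = t • D t := by simp only [he]; abel
    rw [h2, norm_smul, Real.norm_eq_abs, abs_of_nonneg ht.1]
    calc t * ‖D t‖ ≤ t * (κ * M * t) := mul_le_mul_of_nonneg_left (hDle t ht) ht.1
      _ = κ * t ^ 2 * M := by ring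
      _ ≤ κ * τ ^ 2 * M := mul_le_mul_of_nonneg_right (hθ t ht) hM0
  have hMU : M ≤ 16 / 15 * ‖u‖ := by
    have h2 : M ≤ ‖u‖ + ‖e t0 - u‖ := by
      have := norm_add_le u (e t0 - u)
      rwa [add_sub_cancel] at this
    have h3 := heu t0 ht0
    have h4 : κ * τ ^ 2 * M ≤ 1 / 16 * M := mul_le_mul_of_nonneg_right hτκ hM0
    linarith only [h3, h2, h4]
  have hU0 : 0 ≤ ‖u‖ := norm_nonneg u
  have helow : ∀ t ∈ Icc 0 τ, 14 / 15 * ‖u‖ ≤ ‖e t‖ := by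
    intro t ht
    have h2 : ‖u‖ ≤ ‖e t‖ + ‖e t - u‖ := by
      have := norm_sub_le (e t) (e t - u)
      rwa [sub_sub_cancel] at this
    have h3 := heu t ht
    have h4 : κ * τ ^ 2 * M ≤ 1 / 16 * M := mul_le_mul_of_nonneg_right hτκ hM0
    linarith only [h3, hMU, h2, h4]
  have hm0 : 0 ≤ m := by
    have : 0 ≤ 3 / 8 * κ := by positivity
    linarith only [this, hm]
  -- the inner product
  set β := m * (14 / 15 * ‖u‖) ^ 2 - κ * (κ * τ ^ 2) * M ^ 2 with hβ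
  have hfu : ∀ t ∈ Icc 0 τ, β ≤ inner ℝ (f t) u := by
    intro t ht
    have h2 := hF (l0 - t ^ 2) (pf_lev hl hl1 (hsub ht)) (Y + t • A t (Y, a))
      (Y' + t • A t (Y', a))
    rw [hcc] at h2
    have h3 : inner ℝ (f t) u = inner ℝ (f t) (e t) - inner ℝ (f t) (e t - u) := by
      rw [← inner_sub_right, sub_sub_cancel]
    have h4 : inner ℝ (f t) (e t - u) ≤ (κ * M) * (κ * τ ^ 2 * M) :=
      (real_inner_le_norm _ _).trans
        (mul_le_mul (hfle t ht) (heu t ht) (norm_nonneg _) (by (clear * - h0; positivity)))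
    have h5 : m * (14 / 15 * ‖u‖) ^ 2 ≤ m * ‖e t‖ ^ 2 :=
      mul_le_mul_of_nonneg_left (pow_le_pow_left₀ (by (clear * -; positivity)) (helow t ht) 2) hm0
    have h6 : (κ * M) * (κ * τ ^ 2 * M) = κ * (κ * τ ^ 2) * M ^ 2 := by ring
    rw [h3, hβ]
    linarith only [h4, h2, h5]
  have hDu : inner ℝ (D τ) u ≤ -(β * τ) := by
    have h2 : AntitoneOn (fun t => inner ℝ (D t) u + β * t) (Icc 0 τ) := by
      refine antitoneOn_of_hasDerivWithinAt_nonpos (f' := fun t => inner ℝ (-f t) u + β)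
        (convex_Icc 0 τ) ?_ ?_ ?_
      · exact (hDc.inner continuousOn_const).add (continuousOn_const.mul continuousOn_id)
      · intro t ht
        have h3 := interior_subset ht
        have h4 : HasDerivWithinAt D (-f t) (interior (Icc 0 τ)) t :=
          (hDd t (hsub h3)).mono (interior_subset.trans hsub)
        have h5 := h4.inner ℝ (hasDerivWithinAt_const t (interior (Icc 0 τ)) u)
        have h6 : HasDerivWithinAt (fun t => β * t) β (interior (Icc 0 τ)) t := by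
          simpa only [interior_Icc, id_eq, mul_one] using (hasDerivWithinAt_id t (interior (Icc 0 τ))).const_mul β
        refine (h5.add h6).congr_deriv ?_
        simp only [inner_zero_right, inner_neg_left, zero_add]
      · intro t ht
        have := hfu t (interior_subset ht)
        rw [inner_neg_left]
        linarith only [this]
    have h3 := h2 (left_mem_Icc.2 hτ.1) (right_mem_Icc.2 hτ.1) hτ.1
    simp only [hD0, inner_zero_left, mul_zero, add_zero] at h3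
    linarith only [h3]
  -- conclusion
  have hDτ := hDle τ ⟨hτ.1, le_rfl⟩
  have hnorm : ‖e τ‖ ^ 2 ≤ (1 - m * τ ^ 2 / 2) ^ 2 * ‖u‖ ^ 2 := by
    have h2 : ‖e τ‖ ^ 2 = ‖u‖ ^ 2 + 2 * τ * inner ℝ (D τ) u + τ ^ 2 * ‖D τ‖ ^ 2 := by
      simp only [he]
      rw [norm_add_sq_real, norm_smul, real_inner_smul_right, mul_pow, Real.norm_eq_abs, sq_abs,
        real_inner_comm]
      ring
    have h3 : 2 * τ * inner ℝ (D τ) u ≤ 2 * τ * (-(β * τ)) :=
      mul_le_mul_of_nonneg_left hDu (by linarith only [hτ.1])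
    have h4 : τ ^ 2 * ‖D τ‖ ^ 2 ≤ τ ^ 2 * (κ * M * τ) ^ 2 :=
      mul_le_mul_of_nonneg_left (pow_le_pow_left₀ (norm_nonneg _) hDτ 2) (sq_nonneg _)
    have h5 := pf_scalar (U := ‖u‖) h0 hm (sq_nonneg τ) rfl hτκ hM0 hMU
    have h6 : ‖u‖ ^ 2 - 2 * τ ^ 2 * (m * (14 / 15 * ‖u‖) ^ 2 - κ * (κ * τ ^ 2) * M ^ 2)
        + (τ ^ 2) ^ 2 * (κ ^ 2 * M ^ 2)
        = ‖u‖ ^ 2 + 2 * τ * (-(β * τ)) + τ ^ 2 * (κ * M * τ) ^ 2 := by
      rw [hβ]; ring
    linarith only [h4, h2, h3, h5, h6]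
  rw [hcc, ← hu]
  rcases eq_or_lt_of_le hU0 with hz | hz
  · rw [← hz] at hnorm ⊢
    have : ‖e τ‖ ^ 2 ≤ 0 := by simpa using hnorm
    have h2 : ‖e τ‖ = 0 := by
      have := norm_nonneg (e τ)
      nlinarith only [hnorm]
    rw [h2, mul_zero]
  · have hmκ : m ≤ κ := by
      have h2 := hF (l0 - 0 ^ 2) (pf_lev hl hl1 ⟨le_rfl, by norm_num⟩) Y Y'
      have h3 := hw.lip h0.le h1 (l := l0 - 0 ^ 2) (by
        have := (pf_lev hl hl1 (t := 0) ⟨le_rfl, by norm_num⟩).1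
        linarith only [this]) Y Y'
      rw [← hu] at h2 h3
      have h4 := (real_inner_le_norm (Fv w (l0 - 0 ^ 2, Y) - Fv w (l0 - 0 ^ 2, Y')) u).trans
        (mul_le_mul_of_nonneg_right h3 hU0)
      have h5 : m * ‖u‖ ^ 2 ≤ κ * ‖u‖ ^ 2 := by
        calc m * ‖u‖ ^ 2 ≤ _ := h2
          _ ≤ _ := h4
          _ = κ * ‖u‖ ^ 2 := by ring
      exact le_of_mul_le_mul_right h5 (by (clear * - hz; positivity))
    have hfac : 0 ≤ 1 - m * τ ^ 2 / 2 := by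
      have := mul_le_mul_of_nonneg_right hmκ (sq_nonneg τ)
      linarith only [this, hτκ]
    refine le_of_sq_le_sq ?_ (mul_nonneg hfac hU0)
    rw [mul_pow]
    exact hnorm

end Vale.Agent.P347.Z
end

section

/-! P347-Z-F5c. The certificate at unit scale.

PROOF. Given `p0 ≥ 1` use `p = p0 + 1 ≥ 2` internally, `exists_interpData`, `exists_LFl` (`l0 = 1`),
`exists_PFl` at the levels `1 - τ_i² ≥ 3/4`, `exists_carrier`, `lam_nodes`, `jvp_nodes` (`T = √θ ≤ 1/2`; `θ ≤ 1/8`), giving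
a `Fam` with `Fam.Ok`; `unit_res`.
`X k = Xn ((num p).symm k)`, `Z ω = gp (last) ω - lam F(1,Y)` (at the last index `nt = T = √θ`),
`R = 2 C Rtot`. Node equation: `unit_res` and
`ev (Ln n) (xe ω) = Y + t a + cg g + cP P + ∑ w F` (`Ln_Y`, split the sum over `Fin 4 ⊕ Nd p`, reindex with `num`). Output:
`unit_res` with `i = last`, `(lam κ)² ≤ 2 |lam| κ`, `Lq_coef`. Law: `LFl.law` at `τ = T` and the marginal of `μ_τ`
(the law of `Q` is `γ`); the third factor of `gam3` is irrelevant.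
Expectation of `Rtot`: `R2` by `lam_nodes`; `∫ R3 i (cp, vx)`: the law of `(cp i, vx i v)` is `ρ_i ⊗ γ`, `ρ_i` = law of `cp i`
(for `v = none`: `LFl.law`, `mu = nu.prod gam`; for `some`: `carrier_law` applied to `(cp i, gp i, P)` whose law is
`ρ_i ⊗ γ ⊗ γ`), then `∫ ∫ R3 i (c,v) dγ dρ ≤ C T^p √d` (`lintegral`/Tonelli for integrability); `∫ ‖gp i‖ ≤ √d`,
`∫ ‖P‖ ≤ √d` (`gam_sq`). Total `≤ C (T^(p+1) + T^p/b + b^(p-1)) √d ≤ 3 C (√θ^p0 / b + b^(p0-1)) √d`.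
Moments: `∫ ‖A (nt i)‖ ≤ (d + τ²‖F(1,Y)‖²)^{1/2} ≤ √d + τ κ (‖Y‖+√d)` (`nu_sq`, `Heat.norm_Fv`), so
`∫ ‖c_i‖ ≤ ‖Y‖ + τ √d + τ² κ (‖Y‖+√d)`; nodes `(i,v,f)`: given `c`, the law of `Ap i (u) (c, ·)` is `nu w l_i c u`:
`∫ ‖..‖ ≤ ∫‖c_i‖ + u √d + u² κ (∫‖c_i‖ + √d)`, with `τ, u ≤ √(1/8)`: total `≤ 1.3 ‖Y‖ + 1.1 √d`.
Measurability: continuity of the flows at fixed times. -/

open MeasureTheory Filter Module Set
open scoped ENNReal NNReal

namespace Vale.Agent.P347.Z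

/-! ### Measure theory -/

theorem uc_first_moment {α : Type*} [MeasurableSpace α] {μ : Measure α} [IsProbabilityMeasure μ]
    {f : α → ℝ} (hf : Integrable f μ) (hf2 : Integrable (fun x => f x ^ 2) μ) {M : ℝ} (hM : 0 ≤ M)
    (h : ∫ x, f x ^ 2 ∂μ ≤ M ^ 2) : ∫ x, f x ∂μ ≤ M := by
  set m := ∫ x, f x ∂μ with hm
  have h1 : 0 ≤ ∫ x, (f x - m) ^ 2 ∂μ := integral_nonneg fun x => sq_nonneg _
  have h2 : ∫ x, (f x - m) ^ 2 ∂μ = ∫ x, f x ^ 2 ∂μ - m ^ 2 := by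
    have e : (fun x => (f x - m) ^ 2) = fun x => f x ^ 2 - (2 * m * f x - m ^ 2) := by
      funext x; ring
    have i1 : Integrable (fun x => 2 * m * f x) μ := hf.const_mul _
    have i2 : Integrable (fun x => 2 * m * f x - m ^ 2) μ := i1.sub (integrable_const _)
    rw [e, integral_sub hf2 i2, integral_sub i1 (integrable_const _), integral_const_mul, ← hm]
    simp
    ring
  rw [h2] at h1
  have h3 : m ^ 2 ≤ M ^ 2 := by linarith only [h1, h]
  exact le_of_abs_le (abs_le_of_sq_le_sq h3 hM)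

theorem uc_comp {α β : Type*} [MeasurableSpace α] [MeasurableSpace β] {μ : Measure α}
    {ν : Measure β} {φ : α → β} (h : MeasurePreserving φ μ ν) {f : β → ℝ} (hf : Measurable f)
    (hi : Integrable f ν) :
    Integrable (fun x => f (φ x)) μ ∧ ∫ x, f (φ x) ∂μ = ∫ y, f y ∂ν := by
  refine ⟨h.integrable_comp_of_integrable hi, ?_⟩
  rw [← h.map_eq]
  exact (integral_map h.measurable.aemeasurable hf.aestronglyMeasurable).symm

theorem uc_prod {E F : Type*} [MeasurableSpace E] [MeasurableSpace F] {ρ : Measure E}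
    [IsProbabilityMeasure ρ] {γ : Measure F} [IsProbabilityMeasure γ] {f : E × F → ℝ}
    (hf : Measurable f) (h0 : ∀ q, 0 ≤ f q) {B : E → ℝ} (hB : Integrable B ρ)
    (h : ∀ c, Integrable (fun v => f (c, v)) γ ∧ ∫ v, f (c, v) ∂γ ≤ B c) :
    Integrable f (ρ.prod γ) ∧ ∫ q, f q ∂(ρ.prod γ) ≤ ∫ c, B c ∂ρ := by
  have hn : ∀ q, ‖f q‖ = f q := fun q => by rw [Real.norm_eq_abs, abs_of_nonneg (h0 q)]
  have h1 : Integrable (fun c => ∫ v, f (c, v) ∂γ) ρ := by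
    refine hB.mono' hf.aestronglyMeasurable.integral_prod_right' (Eventually.of_forall fun c => ?_)
    rw [Real.norm_eq_abs, abs_of_nonneg (integral_nonneg fun v => h0 _)]
    exact (h c).2
  have h2 : Integrable f (ρ.prod γ) := by
    rw [integrable_prod_iff hf.aestronglyMeasurable]
    refine ⟨Eventually.of_forall fun c => (h c).1, ?_⟩
    simp only [hn]
    exact h1
  refine ⟨h2, ?_⟩
  rw [integral_prod _ h2]
  exact integral_mono h1 hB fun c => (h c).2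

variable {d : ℕ}

theorem uc_gam_prob : IsProbabilityMeasure (gam (Eu d)) := adm_gam.isProb

theorem uc_gam_norm : Integrable (fun z : Eu d => ‖z‖) (gam (Eu d)) ∧
    ∫ z, ‖z‖ ∂(gam (Eu d)) ≤ √d := by
  have hP : IsProbabilityMeasure (gam (Eu d)) := uc_gam_prob
  have hpg : PG (fun z : Eu d => ‖z‖) := PG.id.of_le fun a => by simp
  have i1 : Integrable (fun z : Eu d => ‖z‖) (gam (Eu d)) :=
    adm_gam.integrable hpg continuous_norm.aestronglyMeasurable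
  have i2 : Integrable (fun z : Eu d => ‖z‖ ^ 2) (gam (Eu d)) :=
    adm_gam.integrable (hpg.pow 2) (continuous_norm.pow 2).aestronglyMeasurable
  refine ⟨i1, uc_first_moment i1 i2 (Real.sqrt_nonneg _) ?_⟩
  rw [gam_sq, Real.sq_sqrt (Nat.cast_nonneg d)]
  simp only [finrank_euclideanSpace, Fintype.card_fin, Std.le_refl]

theorem uc_nu_norm {κ : ℝ} {w : ℝ × Eu d → ℝ} (hw : Heat κ w) (h0 : 0 ≤ κ) (h1 : κ ≤ 1)
    {l0 τ : ℝ} (hτ : 0 ≤ τ) (hl : 0 < l0 - τ ^ 2) (hl1 : l0 ≤ 1) (Y : Eu d) :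
    Integrable (fun a => ‖a‖) (nu w l0 Y τ) ∧
      ∫ a, ‖a‖ ∂(nu w l0 Y τ) ≤ √d + τ * κ * (‖Y‖ + √d) := by
  have hA := nuU_adm hw h0 h1 hl Y
  have hP : IsProbabilityMeasure (nu w l0 Y τ) := hA.isProb
  have hpg : PG (fun z : Eu d => ‖z‖) := PG.id.of_le fun a => by simp
  have i1 : Integrable (fun z : Eu d => ‖z‖) (nu w l0 Y τ) :=
    hA.integrable hpg continuous_norm.aestronglyMeasurable
  have i2 : Integrable (fun z : Eu d => ‖z‖ ^ 2) (nu w l0 Y τ) :=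
    hA.integrable (hpg.pow 2) (continuous_norm.pow 2).aestronglyMeasurable
  have hF := norm_nonneg (Fv w (l0, Y))
  have hd : 0 ≤ √(d : ℝ) := Real.sqrt_nonneg _
  have hl0 : 0 < l0 := by (refine lt_of_not_ge fun hng_ => ?_; linarith only [mul_nonneg (le_of_lt hl) (sub_nonneg.2 hng_), mul_nonneg (le_of_lt hl) (sq_nonneg τ), mul_pos hl hl])
  refine ⟨i1, (uc_first_moment i1 i2 (M := √d + τ * ‖Fv w (l0, Y)‖) (by positivity) ?_).trans ?_⟩
  · refine (nu_sq hw h0 h1 hτ hl Y).trans ?_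
    have h2 : (√(d : ℝ)) ^ 2 = d := Real.sq_sqrt (Nat.cast_nonneg d)
    have h3 : 0 ≤ √(d : ℝ) * (τ * ‖Fv w (l0, Y)‖) := by (clear * - hτ; positivity)
    nlinarith only [h2, h3]
  · have h4 := Heat.norm_Fv hw h0 hl0 hl1 Y
    have h5 := mul_le_mul_of_nonneg_left h4 hτ
    linarith only [h5]

/-! ### The normalised Hessian -/

theorem uc_B0L_symm {κ : ℝ} {w : ℝ × Eu d → ℝ} (hw : Heat κ w) {p : ℝ × Eu d} (hp : 0 < p.1)
    (u v : Eu d) : inner ℝ (B0L κ w p u) v = inner ℝ u (B0L κ w p v) := by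
  have h1 : ∀ u v : Eu d, inner ℝ (B0L κ w p u) v
      = ∑ k, ∑ j, v k * (B0 κ w k j p * u j) := by
    intro u v
    rw [PiLp.inner_apply]
    refine Finset.sum_congr rfl fun k _ => ?_
    show v k * (∑ j, B0 κ w k j p * u j) = _
    rw [Finset.mul_sum]
  rw [h1, real_inner_comm, h1, Finset.sum_comm]
  refine Finset.sum_congr rfl fun k _ => Finset.sum_congr rfl fun j _ => ?_
  simp only [B0]
  rw [F1_symm hw j k hp]
  ring

theorem uc_B0L_cont {κ : ℝ} {w : ℝ × Eu d → ℝ} (hw : Heat κ w) {l : ℝ} (hl : 0 < l) :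
    Continuous fun c : Eu d => B0L κ w (l, c) := by
  rw [continuous_clm_apply]
  intro v
  show Continuous fun c : Eu d => (WithLp.toLp 2 fun k => ∑ j, B0 κ w k j (l, c) * v j : Eu d)
  apply (PiLp.continuous_toLp 2 _).comp
  refine continuous_pi fun k => continuous_finsetSum _ fun j _ => ?_
  refine Continuous.mul (Continuous.mul continuous_const ?_) continuous_const
  exact nuc_cont ((hw.cg.dy j).dy k) hl

/-! ### Laws -/

namespace Fam

variable {p : ℕ} {S : Fam d p}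

theorem uc_T (hS : S.Ok) : S.T ≤ 9 / 25 := by
  have h1 := hS.T1
  have h0 := hS.T0
  (refine le_of_not_gt fun hng_ => ?_; linarith only [mul_nonneg (sq_nonneg (1 * S.T)) (le_of_lt (sub_pos.2 hng_)), mul_pos h0 (sub_pos.2 hng_), mul_nonneg (sub_nonneg.2 h1) (le_of_lt h0), mul_pos h0 h0])

theorem uc_nt (hS : S.Ok) (hp : 2 ≤ p) (i : Fin p) : 0 ≤ nt p S.T i ∧ nt p S.T i ≤ S.T :=
  jvp_nt_mem hp hS.T0 i

theorem uc_nt_sq (hS : S.Ok) (hp : 2 ≤ p) (i : Fin p) : nt p S.T i ^ 2 ≤ 1 / 8 :=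
  (pow_le_pow_left₀ (uc_nt hS hp i).1 (uc_nt hS hp i).2 2).trans hS.T1

theorem uc_nt_IT (hS : S.Ok) (hp : 2 ≤ p) (i : Fin p) : nt p S.T i ∈ IT :=
  ⟨(uc_nt hS hp i).1, (uc_nt hS hp i).2.trans ((uc_T hS).trans (by norm_num))⟩

theorem uc_cont_A (hS : S.Ok) {τ : ℝ} (hτ : τ ∈ IT) : Continuous fun z => S.A τ z :=
  hS.lfl.cA.comp_continuous (f := fun z => (τ, z)) (by fun_prop) fun z => ⟨hτ, trivial⟩

theorem uc_cont_Q (hS : S.Ok) {τ : ℝ} (hτ : τ ∈ IT) : Continuous fun z => S.Q τ z :=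
  hS.lfl.cQ.comp_continuous (f := fun z => (τ, z)) (by fun_prop) fun z => ⟨hτ, trivial⟩

theorem uc_cont_Ap (hS : S.Ok) (i : Fin p) {τ : ℝ} (hτ : τ ∈ IT) :
    Continuous fun z => S.Ap i τ z :=
  (hS.pfl i).cA.comp_continuous (f := fun z => (τ, z)) (by fun_prop) fun z => ⟨hτ, trivial⟩

/-- The law of the `i`-th centre. -/
noncomputable def rho (S : Fam d p) (i : Fin p) : Measure (Eu d) :=
  (nu S.w 1 S.Y (nt p S.T i)).map (fun a => S.Y + nt p S.T i • a)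

theorem uc_nu_prob (hS : S.Ok) (hp : 2 ≤ p) (i : Fin p) :
    IsProbabilityMeasure (nu S.w 1 S.Y (nt p S.T i)) :=
  (nuU_adm hS.heat hS.κ0.le hS.κ1 (by have := uc_nt_sq hS hp i; linarith only [this]) S.Y).isProb

theorem uc_rho_mp (S : Fam d p) (i : Fin p) :
    MeasurePreserving (fun a => S.Y + nt p S.T i • a) (nu S.w 1 S.Y (nt p S.T i)) (S.rho i) :=
  ⟨by fun_prop, rfl⟩

theorem uc_rho_prob (hS : S.Ok) (hp : 2 ≤ p) (i : Fin p) : IsProbabilityMeasure (S.rho i) := by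
  have := uc_nu_prob hS hp i
  exact Measure.isProbabilityMeasure_map (by fun_prop)

/-- Joint law of the centre, the vector `g_i` and `P`. -/
theorem uc_law3 (hS : S.Ok) (hp : 2 ≤ p) (i : Fin p) :
    MeasurePreserving (fun ω => (S.cp i ω, (S.gp i ω, ω.2.2))) (gam3 (Eu d))
      ((S.rho i).prod ((gam (Eu d)).prod (gam (Eu d)))) := by
  have hP : IsProbabilityMeasure (gam (Eu d)) := uc_gam_prob
  have hN := uc_nu_prob hS hp i
  have hR := uc_rho_prob hS hp i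
  have hτ := uc_nt_IT hS hp i
  have m1 : MeasurePreserving (fun z : Eu d × Eu d =>
      (S.A (nt p S.T i) (S.Y, z), S.Q (nt p S.T i) (S.Y, z)))
      ((gam (Eu d)).prod (gam (Eu d)))
      ((nu S.w 1 S.Y (nt p S.T i)).prod (gam (Eu d))) := by
    refine ⟨?_, hS.lfl.law S.Y _ hτ⟩
    have c1 := (uc_cont_A hS hτ).comp (Continuous.prodMk_right S.Y)
    have c2 := (uc_cont_Q hS hτ).comp (Continuous.prodMk_right S.Y)
    exact (c1.prodMk c2).measurable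
  have m2 := (measurePreserving_prodAssoc (gam (Eu d)) (gam (Eu d)) (gam (Eu d))).symm
  have m3 := m1.prod (MeasurePreserving.id (gam (Eu d)))
  have m4 := measurePreserving_prodAssoc (nu S.w 1 S.Y (nt p S.T i)) (gam (Eu d)) (gam (Eu d))
  have m5 := (uc_rho_mp S i).prod (MeasurePreserving.id ((gam (Eu d)).prod (gam (Eu d))))
  exact m5.comp (m4.comp (m3.comp m2))

theorem uc_pair (hS : S.Ok) (hp : 2 ≤ p) (hC : Carrier d S.Cg S.CP) (i : Fin p) (v : Vv p) :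
    MeasurePreserving (fun ω => (S.cp i ω, S.vx i v ω)) (gam3 (Eu d))
      ((S.rho i).prod (gam (Eu d))) := by
  have hP : IsProbabilityMeasure (gam (Eu d)) := uc_gam_prob
  have hR := uc_rho_prob hS hp i
  have hl : 0 < 1 - nt p S.T i ^ 2 := by have := uc_nt_sq hS hp i; linarith only [this]
  have hB := uc_B0L_cont hS.heat hl
  have hs : ∀ c u v, inner ℝ (B0L S.κ S.w (1 - nt p S.T i ^ 2, c) u) v
      = inner ℝ u (B0L S.κ S.w (1 - nt p S.T i ^ 2, c) v) := fun c u v =>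
    uc_B0L_symm hS.heat hl u v
  have hL := uc_law3 hS hp i
  match v with
  | none =>
    have m1 : MeasurePreserving (Prod.map id Prod.fst : Eu d × (Eu d × Eu d) → Eu d × Eu d)
        ((S.rho i).prod ((gam (Eu d)).prod (gam (Eu d)))) ((S.rho i).prod (gam (Eu d))) :=
      (MeasurePreserving.id (S.rho i)).prod measurePreserving_fst
    exact m1.comp hL
  | some (false, e) =>
    have m1 : MeasurePreserving (fun q : Eu d × (Eu d × Eu d) =>
        (q.1, S.Cg (((e : ℝ) + 1) / p * S.b) (B0L S.κ S.w (1 - nt p S.T i ^ 2, q.1)) q.2))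
        ((S.rho i).prod ((gam (Eu d)).prod (gam (Eu d)))) ((S.rho i).prod (gam (Eu d))) := by
      refine ⟨?_, (carrier_law hC hB.measurable hs _).1⟩
      have c1 : Continuous fun q : Eu d × (Eu d × Eu d) =>
          S.Cg (((e : ℝ) + 1) / p * S.b) (B0L S.κ S.w (1 - nt p S.T i ^ 2, q.1)) q.2 :=
        hC.cg.comp (continuous_const.prodMk ((hB.comp continuous_fst).prodMk continuous_snd))
      exact (continuous_fst.prodMk c1).measurable
    exact m1.comp hL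
  | some (true, e) =>
    have m1 : MeasurePreserving (fun q : Eu d × (Eu d × Eu d) =>
        (q.1, S.CP (((e : ℝ) + 1) / p * S.b) (B0L S.κ S.w (1 - nt p S.T i ^ 2, q.1)) q.2))
        ((S.rho i).prod ((gam (Eu d)).prod (gam (Eu d)))) ((S.rho i).prod (gam (Eu d))) := by
      refine ⟨?_, (carrier_law hC hB.measurable hs _).2⟩
      have c1 : Continuous fun q : Eu d × (Eu d × Eu d) =>
          S.CP (((e : ℝ) + 1) / p * S.b) (B0L S.κ S.w (1 - nt p S.T i ^ 2, q.1)) q.2 :=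
        hC.cP.comp (continuous_const.prodMk ((hB.comp continuous_fst).prodMk continuous_snd))
      exact (continuous_fst.prodMk c1).measurable
    exact m1.comp hL

/-- The law of `g_i`. -/
theorem uc_gp_law (hS : S.Ok) (hp : 2 ≤ p) (i : Fin p) :
    MeasurePreserving (S.gp i) (gam3 (Eu d)) (gam (Eu d)) := by
  have hP : IsProbabilityMeasure (gam (Eu d)) := uc_gam_prob
  have hR := uc_rho_prob hS hp i
  have m1 : MeasurePreserving (Prod.snd : Eu d × (Eu d × Eu d) → _)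
      ((S.rho i).prod ((gam (Eu d)).prod (gam (Eu d)))) ((gam (Eu d)).prod (gam (Eu d))) :=
    measurePreserving_snd
  have m2 : MeasurePreserving (Prod.fst : Eu d × Eu d → _)
      ((gam (Eu d)).prod (gam (Eu d))) (gam (Eu d)) := measurePreserving_fst
  exact m2.comp (m1.comp (uc_law3 hS hp i))

theorem uc_P_law : MeasurePreserving (fun ω : Eu d × Eu d × Eu d => ω.2.2) (gam3 (Eu d))
    (gam (Eu d)) := by
  have hP : IsProbabilityMeasure (gam (Eu d)) := uc_gam_prob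
  have m1 : MeasurePreserving (Prod.snd : Eu d × (Eu d × Eu d) → _)
      ((gam (Eu d)).prod ((gam (Eu d)).prod (gam (Eu d)))) ((gam (Eu d)).prod (gam (Eu d))) :=
    measurePreserving_snd
  have m2 : MeasurePreserving (Prod.snd : Eu d × Eu d → _)
      ((gam (Eu d)).prod (gam (Eu d))) (gam (Eu d)) := measurePreserving_snd
  exact m2.comp m1

theorem uc_ag_law : MeasurePreserving (fun ω : Eu d × Eu d × Eu d => (ω.1, ω.2.1)) (gam3 (Eu d))
    ((gam (Eu d)).prod (gam (Eu d))) := by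
  have hP : IsProbabilityMeasure (gam (Eu d)) := uc_gam_prob
  exact (MeasurePreserving.id (gam (Eu d))).prod measurePreserving_fst

/-! ### Moments -/

theorem uc_rho_norm (hS : S.Ok) (hp : 2 ≤ p) (i : Fin p) :
    Integrable (fun c => ‖c‖) (S.rho i) ∧ ∫ c, ‖c‖ ∂(S.rho i)
      ≤ ‖S.Y‖ + nt p S.T i * √d + nt p S.T i ^ 2 * S.κ * (‖S.Y‖ + √d) := by
  have hN := uc_nu_prob hS hp i
  have h2 := uc_nt_sq hS hp i
  have ht := (uc_nt hS hp i).1
  obtain ⟨i1, e1⟩ := uc_nu_norm hS.heat hS.κ0.le hS.κ1 ht (l0 := 1) (by linarith only [h2]) le_rfl S.Y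
  have i2 : Integrable (fun a => ‖S.Y‖ + nt p S.T i * ‖a‖) (nu S.w 1 S.Y (nt p S.T i)) :=
    (integrable_const _).add (i1.const_mul _)
  have hle : ∀ a : Eu d, ‖S.Y + nt p S.T i • a‖ ≤ ‖S.Y‖ + nt p S.T i * ‖a‖ := fun a => by
    refine (norm_add_le _ _).trans ?_
    rw [norm_smul, Real.norm_eq_abs, abs_of_nonneg ht]
  have i3 : Integrable (fun a => ‖S.Y + nt p S.T i • a‖) (nu S.w 1 S.Y (nt p S.T i)) := by
    refine i2.mono' (by fun_prop) (Eventually.of_forall fun a => ?_)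
    rw [norm_norm]
    exact hle a
  have hm : AEMeasurable (fun a => S.Y + nt p S.T i • a) (nu S.w 1 S.Y (nt p S.T i)) := by
    fun_prop
  refine ⟨?_, ?_⟩
  · exact (integrable_map_measure (by fun_prop) hm).2 i3
  · unfold rho
    rw [integral_map hm (by fun_prop)]
    refine (integral_mono i3 i2 hle).trans ?_
    rw [integral_add (integrable_const _) (i1.const_mul _), integral_const_mul]
    simp only [integral_const, probReal_univ, one_smul]
    have := mul_le_mul_of_nonneg_left e1 ht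
    linarith only [this]

theorem uc_cp_norm (hS : S.Ok) (hp : 2 ≤ p) (i : Fin p) :
    Integrable (fun ω => ‖S.cp i ω‖) (gam3 (Eu d)) ∧ ∫ ω, ‖S.cp i ω‖ ∂(gam3 (Eu d))
      ≤ ‖S.Y‖ + nt p S.T i * √d + nt p S.T i ^ 2 * S.κ * (‖S.Y‖ + √d) := by
  have hP : IsProbabilityMeasure (gam (Eu d)) := uc_gam_prob
  have hR := uc_rho_prob hS hp i
  have hL := uc_law3 hS hp i
  have m1 : MeasurePreserving (Prod.fst : Eu d × (Eu d × Eu d) → _)
      ((S.rho i).prod ((gam (Eu d)).prod (gam (Eu d)))) (S.rho i) := measurePreserving_fst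
  have m2 : MeasurePreserving (S.cp i) (gam3 (Eu d)) (S.rho i) := m1.comp hL
  obtain ⟨i1, e1⟩ := uc_rho_norm hS hp i
  obtain ⟨i2, e2⟩ := uc_comp m2 (f := fun c : Eu d => ‖c‖) measurable_norm i1
  exact ⟨i2, e2.trans_le e1⟩

theorem uc_node_norm (hS : S.Ok) (hp : 2 ≤ p) (hC : Carrier d S.Cg S.CP) (i : Fin p) (v : Vv p)
    {u : ℝ} (hu0 : 0 ≤ u) (hu : u ^ 2 ≤ 1 / 8) :
    Integrable (fun ω => ‖S.cp i ω + u • S.Ap i u (S.cp i ω, S.vx i v ω)‖) (gam3 (Eu d)) ∧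
      ∫ ω, ‖S.cp i ω + u • S.Ap i u (S.cp i ω, S.vx i v ω)‖ ∂(gam3 (Eu d))
      ≤ (∫ c, ‖c‖ ∂(S.rho i)) + u * √d + u ^ 2 * S.κ * ((∫ c, ‖c‖ ∂(S.rho i)) + √d) := by
  have hP : IsProbabilityMeasure (gam (Eu d)) := uc_gam_prob
  have hR := uc_rho_prob hS hp i
  have h2 := uc_nt_sq hS hp i
  have huI : u ∈ IT := ⟨hu0, by (refine le_of_not_gt fun hng_ => ?_; linarith only [mul_nonneg (sq_nonneg (1 * u)) (le_of_lt (sub_pos.2 hng_)), mul_pos (sub_pos.2 hng_) (sub_pos.2 hng_), mul_nonneg (sub_nonneg.2 hu) (le_of_lt (sub_pos.2 hng_)), mul_nonneg hu0 (sub_nonneg.2 hu)])⟩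
  have cA := uc_cont_Ap hS i huI
  obtain ⟨ic, -⟩ := uc_rho_norm hS hp i
  have hlaw := (hS.pfl i).law
  have key := uc_prod (ρ := S.rho i) (γ := gam (Eu d))
    (f := fun q : Eu d × Eu d => ‖S.Ap i u q‖) cA.norm.measurable (fun q => norm_nonneg _)
    (B := fun c => √d + u * S.κ * (‖c‖ + √d))
    ((integrable_const _).add ((ic.add (integrable_const _)).const_mul _)) (fun c => by
      have hN := uc_nu_norm hS.heat hS.κ0.le hS.κ1 hu0 (l0 := 1 - nt p S.T i ^ 2)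
        (by linarith only [h2, hu]) (by (refine le_of_not_gt fun hng_ => ?_; linarith only [mul_nonneg (le_of_lt (sub_pos.2 hng_)) (sq_nonneg (nt p S.T i)), mul_pos (sub_pos.2 hng_) (sub_pos.2 hng_)])) c
      have hm : MeasurePreserving (fun a => S.Ap i u (c, a)) (gam (Eu d))
          (nu S.w (1 - nt p S.T i ^ 2) c u) :=
        ⟨(cA.comp (Continuous.prodMk_right c)).measurable, hlaw c u huI⟩
      obtain ⟨j1, j2⟩ := uc_comp hm (f := fun a : Eu d => ‖a‖) measurable_norm hN.1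
      exact ⟨j1, j2.trans_le hN.2⟩)
  obtain ⟨k1, k2⟩ := key
  have hpair := uc_pair hS hp hC i v
  obtain ⟨i2, e2⟩ := uc_comp hpair (f := fun q : Eu d × Eu d => ‖S.Ap i u q‖)
    cA.norm.measurable k1
  have hmcp : MeasurePreserving (S.cp i) (gam3 (Eu d)) (S.rho i) :=
    (measurePreserving_fst (μ := S.rho i) (ν := gam (Eu d))).comp hpair
  obtain ⟨i3, e3⟩ := uc_comp hmcp (f := fun c : Eu d => ‖c‖) measurable_norm ic
  have i4 : Integrable (fun ω => ‖S.cp i ω‖ + u * ‖S.Ap i u (S.cp i ω, S.vx i v ω)‖)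
      (gam3 (Eu d)) := i3.add (i2.const_mul _)
  have hle : ∀ ω, ‖S.cp i ω + u • S.Ap i u (S.cp i ω, S.vx i v ω)‖
      ≤ ‖S.cp i ω‖ + u * ‖S.Ap i u (S.cp i ω, S.vx i v ω)‖ := fun ω => by
    refine (norm_add_le _ _).trans ?_
    rw [norm_smul, Real.norm_eq_abs, abs_of_nonneg hu0]
  have hmeas : Measurable fun ω => S.cp i ω + u • S.Ap i u (S.cp i ω, S.vx i v ω) :=
    hmcp.measurable.add ((cA.measurable.comp hpair.measurable).const_smul u)
  have i5 : Integrable (fun ω => ‖S.cp i ω + u • S.Ap i u (S.cp i ω, S.vx i v ω)‖)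
      (gam3 (Eu d)) := by
    refine i4.mono' hmeas.norm.aestronglyMeasurable (Eventually.of_forall fun ω => ?_)
    rw [norm_norm]
    exact hle ω
  refine ⟨i5, (integral_mono i5 i4 hle).trans ?_⟩
  rw [integral_add i3 (i2.const_mul _), integral_const_mul, e3, e2]
  have hB : ∫ c, (√d + u * S.κ * (‖c‖ + √d)) ∂(S.rho i)
      = √d + u * S.κ * ((∫ c, ‖c‖ ∂(S.rho i)) + √d) := by
    have j1 : Integrable (fun c : Eu d => ‖c‖ + √(d : ℝ)) (S.rho i) := ic.add (integrable_const _)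
    rw [integral_add (integrable_const _) (j1.const_mul _),
      integral_const_mul, integral_add ic (integrable_const _)]
    simp
  rw [hB] at k2
  have := mul_le_mul_of_nonneg_left k2 hu0
  linarith only [this]

/-! ### The total residual -/

theorem uc_Rtot (hS : S.Ok) (hp : 2 ≤ p) (hC : Carrier d S.Cg S.CP) {C3 C4 : ℝ}
    {R2 : Eu d × Eu d → ℝ} (hm2 : Measurable R2) (h20 : ∀ z, 0 ≤ R2 z)
    (hi2 : Integrable R2 ((gam (Eu d)).prod (gam (Eu d))))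
    (he2 : ∫ z, R2 z ∂((gam (Eu d)).prod (gam (Eu d))) ≤ C3 * S.T ^ (p + 1) * √d)
    {R3 : Fin p → Eu d × Eu d → ℝ} (hm3 : ∀ i, Measurable (R3 i)) (h30 : ∀ i q, 0 ≤ R3 i q)
    (he3 : ∀ i c, Integrable (fun v => R3 i (c, v)) (gam (Eu d)) ∧
      ∫ v, R3 i (c, v) ∂(gam (Eu d)) ≤ C4 * S.T ^ p * √d) :
    Measurable (S.Rtot R2 R3) ∧ (∀ ω, 0 ≤ S.Rtot R2 R3 ω) ∧
      Integrable (S.Rtot R2 R3) (gam3 (Eu d)) ∧
      ∫ ω, S.Rtot R2 R3 ω ∂(gam3 (Eu d)) ≤ C3 * S.T ^ (p + 1) * √d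
        + S.b⁻¹ * (p * (Fintype.card (Vv p) * (C4 * S.T ^ p * √d)))
        + S.b ^ (p - 1) * (p * (√d + √d)) := by
  have hP : IsProbabilityMeasure (gam (Eu d)) := uc_gam_prob
  have hb := hS.b0
  have hpair := fun i v => uc_pair hS hp hC i v
  have hmg := fun i => uc_gp_law hS hp i
  have hmP := uc_P_law (d := d)
  have hmag := uc_ag_law (d := d)
  -- the three parts
  obtain ⟨i1, e1⟩ := uc_comp hmag hm2 hi2
  have hR3 : ∀ i v, Integrable (fun ω => R3 i (S.cp i ω, S.vx i v ω)) (gam3 (Eu d)) ∧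
      ∫ ω, R3 i (S.cp i ω, S.vx i v ω) ∂(gam3 (Eu d)) ≤ C4 * S.T ^ p * √d := by
    intro i v
    have hR := uc_rho_prob hS hp i
    obtain ⟨k1, k2⟩ := uc_prod (ρ := S.rho i) (γ := gam (Eu d)) (hm3 i) (h30 i)
      (B := fun _ => C4 * S.T ^ p * √d) (integrable_const _) (he3 i)
    obtain ⟨j1, j2⟩ := uc_comp (hpair i v) (hm3 i) k1
    refine ⟨j1, j2.trans_le (k2.trans ?_)⟩
    simp
  obtain ⟨g1, g2⟩ := uc_gam_norm (d := d)
  have hG : ∀ i, Integrable (fun ω => ‖S.gp i ω‖ + ‖ω.2.2‖) (gam3 (Eu d)) ∧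
      ∫ ω, (‖S.gp i ω‖ + ‖ω.2.2‖) ∂(gam3 (Eu d)) ≤ √d + √d := by
    intro i
    obtain ⟨a1, a2⟩ := uc_comp (hmg i) (f := fun c : Eu d => ‖c‖) measurable_norm g1
    obtain ⟨b1, b2⟩ := uc_comp hmP (f := fun c : Eu d => ‖c‖) measurable_norm g1
    refine ⟨a1.add b1, ?_⟩
    rw [integral_add a1 b1, a2, b2]
    exact add_le_add g2 g2
  have s1 : Integrable (fun ω => ∑ i, ∑ v : Vv p, R3 i (S.cp i ω, S.vx i v ω)) (gam3 (Eu d)) :=
    integrable_finsetSum _ fun i _ => integrable_finsetSum _ fun v _ => (hR3 i v).1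
  have s2 : Integrable (fun ω => ∑ i, (‖S.gp i ω‖ + ‖ω.2.2‖)) (gam3 (Eu d)) :=
    integrable_finsetSum _ fun i _ => (hG i).1
  refine ⟨?_, ?_, ?_, ?_⟩
  · unfold Rtot
    refine Measurable.add (Measurable.add (hm2.comp hmag.measurable) ?_) ?_
    · refine Measurable.const_mul ?_ _
      exact Finset.measurable_sum _ fun i _ => Finset.measurable_sum _ fun v _ =>
        (hm3 i).comp (hpair i v).measurable
    · refine Measurable.const_mul ?_ _
      exact Finset.measurable_sum _ fun i _ => (hmg i).measurable.norm.add hmP.measurable.norm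
  · intro ω
    unfold Rtot
    have a1 := h20 (ω.1, ω.2.1)
    have a2 : 0 ≤ ∑ i, ∑ v : Vv p, R3 i (S.cp i ω, S.vx i v ω) :=
      Finset.sum_nonneg fun i _ => Finset.sum_nonneg fun v _ => h30 _ _
    have a3 : 0 ≤ ∑ i, (‖S.gp i ω‖ + ‖ω.2.2‖) :=
      Finset.sum_nonneg fun i _ => by (clear * -; positivity)
    (clear * - a1 hb a2; positivity)
  · exact (i1.add (s1.const_mul _)).add (s2.const_mul _)
  · have e0 : ∫ ω, S.Rtot R2 R3 ω ∂(gam3 (Eu d)) = ∫ ω, R2 (ω.1, ω.2.1) ∂(gam3 (Eu d))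
        + S.b⁻¹ * ∑ i, ∑ v : Vv p, ∫ ω, R3 i (S.cp i ω, S.vx i v ω) ∂(gam3 (Eu d))
        + S.b ^ (p - 1) * ∑ i, ∫ ω, (‖S.gp i ω‖ + ‖ω.2.2‖) ∂(gam3 (Eu d)) := by
      unfold Rtot
      have i12 : Integrable (fun ω : Eu d × Eu d × Eu d => R2 (ω.1, ω.2.1)
          + S.b⁻¹ * ∑ i, ∑ v : Vv p, R3 i (S.cp i ω, S.vx i v ω)) (gam3 (Eu d)) :=
        i1.add (s1.const_mul _)
      rw [integral_add i12 (s2.const_mul _),
        integral_add i1 (s1.const_mul _), integral_const_mul, integral_const_mul,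
        integral_finsetSum _ fun i _ => (hG i).1,
        integral_finsetSum _ fun i _ => integrable_finsetSum _ fun v _ => (hR3 i v).1]
      congr 2
      congr 1
      refine Finset.sum_congr rfl fun i _ => ?_
      rw [integral_finsetSum _ fun v _ => (hR3 i v).1]
    rw [e0, e1]
    have t2 : ∑ i, ∑ v : Vv p, ∫ ω, R3 i (S.cp i ω, S.vx i v ω) ∂(gam3 (Eu d))
        ≤ p * (Fintype.card (Vv p) * (C4 * S.T ^ p * √d)) := by
      calc _ ≤ ∑ _i : Fin p, ∑ _v : Vv p, (C4 * S.T ^ p * √d) :=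
            Finset.sum_le_sum fun i _ => Finset.sum_le_sum fun v _ => (hR3 i v).2
        _ = _ := by
            rw [Finset.sum_const, Finset.sum_const, nsmul_eq_mul, nsmul_eq_mul, Finset.card_univ,
              Finset.card_univ, Fintype.card_fin]
    have t3 : ∑ i : Fin p, ∫ ω, (‖S.gp i ω‖ + ‖ω.2.2‖) ∂(gam3 (Eu d)) ≤ p * (√d + √d) := by
      calc _ ≤ ∑ _i : Fin p, (√(d : ℝ) + √d) := Finset.sum_le_sum fun i _ => (hG i).2
        _ = _ := by rw [Finset.sum_const, nsmul_eq_mul, Finset.card_univ, Fintype.card_fin]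
    have hbi : 0 ≤ S.b⁻¹ := by positivity
    have hbp : 0 ≤ S.b ^ (p - 1) := by positivity
    have := mul_le_mul_of_nonneg_left t2 hbi
    have := mul_le_mul_of_nonneg_left t3 hbp
    linarith

theorem uc_Xn_meas (hS : S.Ok) (hp : 2 ≤ p) (hC : Carrier d S.Cg S.CP) (n : Nd p) :
    Measurable (S.Xn n) := by
  match n with
  | none => exact measurable_const
  | some (Sum.inl i) =>
    exact measurable_fst.comp (uc_law3 hS hp i).measurable
  | some (Sum.inr (i, v, f)) =>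
    have h1 := (uc_pair hS hp hC i v).measurable
    have cA := uc_cont_Ap hS i (uc_nt_IT hS hp f)
    exact (measurable_fst.comp h1).add ((cA.measurable.comp h1).const_smul (nt p S.T f))

theorem uc_Xn_mom (hS : S.Ok) (hp : 2 ≤ p) (hC : Carrier d S.Cg S.CP) (n : Nd p) :
    Integrable (fun ω => ‖S.Xn n ω‖) (gam3 (Eu d)) ∧
      ∫ ω, ‖S.Xn n ω‖ ∂(gam3 (Eu d)) ≤ 2 * (‖S.Y‖ + √d) := by
  have hP : IsProbabilityMeasure (gam (Eu d)) := uc_gam_prob
  have hT := uc_T hS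
  have hκ0 := hS.κ0
  have hκ1 := hS.κ1
  have hY := norm_nonneg S.Y
  have hd : 0 ≤ √(d : ℝ) := Real.sqrt_nonneg _
  have hM : ∀ i, ‖S.Y‖ + nt p S.T i * √d + nt p S.T i ^ 2 * S.κ * (‖S.Y‖ + √d)
      ≤ 9 / 8 * ‖S.Y‖ + 97 / 200 * √d := by
    intro i
    have h1 := (uc_nt hS hp i).2.trans hT
    have h2 := uc_nt_sq hS hp i
    have h3 : nt p S.T i * √d ≤ 9 / 25 * √d := mul_le_mul_of_nonneg_right h1 hd
    have h4 : nt p S.T i ^ 2 * S.κ ≤ 1 / 8 * 1 :=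
      mul_le_mul h2 hκ1 hκ0.le (by (clear * -; norm_num))
    have h5 : nt p S.T i ^ 2 * S.κ * (‖S.Y‖ + √d) ≤ 1 / 8 * 1 * (‖S.Y‖ + √d) :=
      mul_le_mul_of_nonneg_right h4 (by (clear * -; positivity))
    linarith only [h5, h3]
  match n with
  | none =>
    show Integrable (fun _ : Eu d × Eu d × Eu d => ‖S.Y‖) (gam3 (Eu d)) ∧
      ∫ _ω, ‖S.Y‖ ∂(gam3 (Eu d)) ≤ _
    refine ⟨integrable_const _, ?_⟩
    simp only [integral_const, probReal_univ, one_smul]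
    linarith only [hd, hY]
  | some (Sum.inl i) =>
    obtain ⟨h1, h2⟩ := uc_cp_norm hS hp i
    refine ⟨h1, h2.trans ((hM i).trans ?_)⟩
    linarith only [hd, hY]
  | some (Sum.inr (i, v, f)) =>
    obtain ⟨h1, h2⟩ := uc_node_norm hS hp hC i v (uc_nt hS hp f).1 (uc_nt_sq hS hp f)
    refine ⟨h1, le_trans h2 ?_⟩
    have h3 := (uc_rho_norm hS hp i).2.trans (hM i)
    have h0 : 0 ≤ ∫ c, ‖c‖ ∂(S.rho i) := integral_nonneg fun c => norm_nonneg _
    clear h1 h2 hM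
    generalize (∫ c, ‖c‖ ∂(S.rho i)) = M at h3 h0 ⊢
    have h4 := (uc_nt hS hp f).2.trans hT
    have h5 := uc_nt_sq hS hp f
    have h6 : nt p S.T f * √d ≤ 9 / 25 * √d := mul_le_mul_of_nonneg_right h4 hd
    have h7 : nt p S.T f ^ 2 * S.κ ≤ 1 / 8 * 1 :=
      mul_le_mul h5 hκ1 hκ0.le (by norm_num)
    have h8 : nt p S.T f ^ 2 * S.κ * (M + √d) ≤ 1 / 8 * 1 * (M + √d) :=
      mul_le_mul_of_nonneg_right h7 (add_nonneg h0 hd)
    linarith only [h0, hd, h3, h6, h8]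

end Fam

/-! ### The certificate -/

theorem uc_good_mono {N : ℕ} {net : Net N} {s θ W Wq μ W' Wq' : ℝ} (h : net.Good s θ W Wq μ)
    (hW : W ≤ W') (hWq : Wq ≤ Wq') : net.Good s θ W' Wq' μ :=
  { h with
    w_le := fun i j => (h.w_le i j).trans hW
    q_le := fun j => (h.q_le j).trans hWq }

theorem uc_ev {p : ℕ} {E : Type} [AddCommGroup E] [Module ℝ E] (L : LF p)
    (x : Fin 4 ⊕ Nd p → E) :
    ev L x = L (Sum.inl 0) • x (Sum.inl 0) + L (Sum.inl 1) • x (Sum.inl 1)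
      + L (Sum.inl 2) • x (Sum.inl 2) + L (Sum.inl 3) • x (Sum.inl 3)
      + ∑ k, L (Sum.inr ((Par.num p).symm k)) • x (Sum.inr ((Par.num p).symm k)) := by
  unfold ev
  rw [Fintype.sum_sum_type, Fin.sum_univ_four]
  congr 1
  exact ((Par.num p).symm.sum_comp fun n => L (Sum.inr n) • x (Sum.inr n)).symm

theorem uc_cert {p : ℕ} (hp : 2 ≤ p) {cA : Fin p → Fin p → ℝ} {α β : Fin (p + 1) → ℝ}
    {S : Fam d p} (hS : S.Ok) (hC : Carrier d S.Cg S.CP) {θ : ℝ} (hθ : S.T ^ 2 = θ)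
    (hθ' : S.T = √θ) {l : Fin p} (hl : nt p S.T l = S.T) {C2 C3 C4 C err : ℝ} (hC2 : 1 ≤ C2)
    (hC1 : 1 ≤ C)
    {R2 : Eu d × Eu d → ℝ} (hm2 : Measurable R2) (h20 : ∀ z, 0 ≤ R2 z)
    (hi2 : Integrable R2 ((gam (Eu d)).prod (gam (Eu d))))
    (he2 : ∫ z, R2 z ∂((gam (Eu d)).prod (gam (Eu d))) ≤ C3 * S.T ^ (p + 1) * √d)
    {R3 : Fin p → Eu d × Eu d → ℝ} (hm3 : ∀ i, Measurable (R3 i)) (h30 : ∀ i q, 0 ≤ R3 i q)
    (he3 : ∀ i c, Integrable (fun v => R3 i (c, v)) (gam (Eu d)) ∧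
      ∫ v, R3 i (c, v) ∂(gam (Eu d)) ≤ C4 * S.T ^ p * √d)
    (herr : 2 * C2 * (C3 * S.T ^ (p + 1) * √d
        + S.b⁻¹ * (p * (Fintype.card (Vv p) * (C4 * S.T ^ p * √d)))
        + S.b ^ (p - 1) * (p * (√d + √d))) ≤ err)
    (hres : ∀ ω : Eu d × Eu d × Eu d,
        (∀ n, ‖S.Xn n ω - ev ((Par.mk cA α β S.T S.b S.κ S.lam).Ln n)
            (S.xe (Par.mk cA α β S.T S.b S.κ S.lam) ω)‖ ≤ C2 * S.Rtot R2 R3 ω) ∧
        ∀ i, ‖S.gp i ω - (ω.2.1
            - S.lam • (Fv S.w (1 - nt p S.T i ^ 2, S.cp i ω) - Fv S.w (1, S.Y))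
            + ev ((Par.mk cA α β S.T S.b S.κ S.lam).Lq i)
              (S.xe (Par.mk cA α β S.T S.b S.κ S.lam) ω))‖
          ≤ (S.lam * S.κ) ^ 2 * C2 * S.Rtot R2 R3 ω) :
    ((Par.mk cA α β S.T S.b S.κ S.lam).net l).CertU (fun l x => Fv S.w (l, x)) θ S.κ S.lam err C
      S.Y (fun k => S.Xn ((Par.num p).symm k)) (fun ω => S.gp l ω - S.lam • Fv S.w (1, S.Y))
      (fun ω => 2 * C2 * S.Rtot R2 R3 ω) := by
  have hP : IsProbabilityMeasure (gam (Eu d)) := uc_gam_prob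
  set P : Par p := Par.mk cA α β S.T S.b S.κ S.lam with hPdef
  obtain ⟨r1, r2, r3, r4⟩ := Fam.uc_Rtot hS hp hC hm2 h20 hi2 he2 hm3 h30 he3
  have hgl := Fam.uc_gp_law hS hp l
  have htop : (Par.num p).symm (P.net l).top = Par.nc l := by
    show (Par.num p).symm (Par.num p (Par.nc l)) = _
    rw [Equiv.symm_apply_apply]
  have hroot : (Par.num p).symm (P.net l).root = none := by
    show (Par.num p).symm (Par.num p none) = _
    rw [Equiv.symm_apply_apply]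
  have hT0 := hS.T0
  refine ⟨fun i => Fam.uc_Xn_meas hS hp hC _, hgl.measurable.sub_const _, r1.const_mul _, ?_, ?_,
    ?_, ?_, ?_, r3.const_mul _, ?_, fun i => (Fam.uc_Xn_mom hS hp hC _).1,
    fun i => (Fam.uc_Xn_mom hS hp hC _).2, ?_⟩
  · intro ω
    have := r2 ω
    (clear * - hC2 this; positivity)
  · intro ω
    show S.Xn ((Par.num p).symm (P.net l).root) ω = S.Y
    rw [hroot]
    rfl
  · intro i ω
    have h1 := (hres ω).1 ((Par.num p).symm i)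
    rw [uc_ev, Ln_Y, one_smul] at h1
    have h2 := r2 ω
    refine le_trans h1 ?_
    linarith only [mul_nonneg (sub_nonneg.2 hC2) h2, h2]
  · have h1 : (fun ω => S.gp l ω - S.lam • Fv S.w (1, S.Y) + S.lam • Fv S.w (1, S.Y)) = S.gp l := by
      funext ω
      exact sub_add_cancel _ _
    show (gam3 (Eu d)).map (fun ω => S.gp l ω - S.lam • Fv S.w (1, S.Y)
      + S.lam • Fv S.w (1, S.Y)) = gam (Eu d)
    rw [h1]
    exact hgl.map_eq
  · intro ω
    have h1 := (hres ω).2 l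
    rw [uc_ev, Lq_coef, Lq_coef, Lq_coef, Lq_coef, zero_smul, zero_smul, zero_smul, zero_smul,
      zero_add, zero_add, zero_add, zero_add, hl, hθ] at h1
    show ‖ω.2.1 - S.lam • Fv S.w (1 - θ, S.Xn ((Par.num p).symm (P.net l).top) ω)
      + ∑ j, P.Lq l (Sum.inr ((Par.num p).symm j)) • Fv S.w (P.lv ((Par.num p).symm j),
        S.Xn ((Par.num p).symm j) ω) - (S.gp l ω - S.lam • Fv S.w (1, S.Y))‖
      ≤ |S.lam| * S.κ * (2 * C2 * S.Rtot R2 R3 ω)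
    rw [htop]
    have h2 : ω.2.1 - S.lam • Fv S.w (1 - θ, S.Xn (Par.nc l) ω)
      + ∑ j, P.Lq l (Sum.inr ((Par.num p).symm j)) • Fv S.w (P.lv ((Par.num p).symm j),
        S.Xn ((Par.num p).symm j) ω) - (S.gp l ω - S.lam • Fv S.w (1, S.Y))
      = -(S.gp l ω - (ω.2.1
            - S.lam • (Fv S.w (1 - θ, S.cp l ω) - Fv S.w (1, S.Y))
            + ∑ j, P.Lq l (Sum.inr ((Par.num p).symm j)) •
              S.xe P ω (Sum.inr ((Par.num p).symm j)))) := by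
      have e1 : S.Xn (Par.nc l) ω = S.cp l ω := rfl
      have e2 : ∑ j, P.Lq l (Sum.inr ((Par.num p).symm j)) • Fv S.w (P.lv ((Par.num p).symm j),
          S.Xn ((Par.num p).symm j) ω) = ∑ j, P.Lq l (Sum.inr ((Par.num p).symm j)) •
              S.xe P ω (Sum.inr ((Par.num p).symm j)) := rfl
      rw [smul_sub, e1, e2]
      abel
    rw [h2, norm_neg]
    refine h1.trans ?_
    have h3 := r2 ω
    have h4 := hS.hlam
    have h5 : (S.lam * S.κ) ^ 2 ≤ |S.lam| * S.κ * 2 := by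
      have h6 : (S.lam * S.κ) ^ 2 = (|S.lam| * S.κ) * (|S.lam| * S.κ) := by
        rw [mul_pow, ← sq_abs S.lam]; ring
      rw [h6]
      have : 0 ≤ |S.lam| * S.κ := mul_nonneg (abs_nonneg _) hS.κ0.le
      exact mul_le_mul_of_nonneg_left h4 this
    calc (S.lam * S.κ) ^ 2 * C2 * S.Rtot R2 R3 ω = (S.lam * S.κ) ^ 2 * (C2 * S.Rtot R2 R3 ω) := by
          ring
      _ ≤ |S.lam| * S.κ * 2 * (C2 * S.Rtot R2 R3 ω) :=
          mul_le_mul_of_nonneg_right h5 (by (clear * - hC2 h3; positivity))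
      _ = _ := by ring
  · rw [integral_const_mul]
    refine le_trans ?_ herr
    exact mul_le_mul_of_nonneg_left r4 (by positivity)
  · show ∫ ω, ‖S.Xn ((Par.num p).symm (P.net l).top) ω‖ ∂(gam3 (Eu d)) ≤ _
    rw [htop]
    obtain ⟨-, h2⟩ := Fam.uc_cp_norm hS hp l
    rw [hl, hθ] at h2
    refine le_trans h2 ?_
    rw [hθ']
    have hd : 0 ≤ √(d : ℝ) := Real.sqrt_nonneg _
    have hY := norm_nonneg S.Y
    have hκ := hS.κ0
    have hθ0 : 0 < θ := by rw [← hθ]; (clear * - hT0; positivity)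
    have a1 : 0 ≤ √θ * √d := by (clear * - hθ0; positivity)
    have a2 : 0 ≤ θ * S.κ * (‖S.Y‖ + √d) := by (clear * - hθ0 hκ; positivity)
    linarith only [mul_nonneg (sub_nonneg.2 hC1) a2, mul_nonneg (sub_nonneg.2 hC1) a1]

theorem unit_nodes (p0 : ℕ) (hp0 : 1 ≤ p0) : ∃ (N : ℕ) (C : ℝ), 1 ≤ C ∧
    ∀ θ b κ lam : ℝ, 0 < θ → θ ≤ 1 / (8 * p0) → 0 < b → b ≤ 1 / 8 → 0 < κ → κ ≤ 1 →
      |lam| * κ ≤ 2 → ∃ net : Net N,
        net.Good 1 θ (C * (θ + |lam| * √θ + lam ^ 2 * κ * θ / b + b / κ))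
          (C * (lam ^ 2 * κ * √θ / b)) (1 / (2 * p0)) ∧
        ∀ (d : ℕ) (w : ℝ × Eu d → ℝ), Heat κ w → 1 ≤ d → ∀ y : Eu d, ∃ X Z R,
          net.CertU (fun l x => Fv w (l, x)) θ κ lam (C * ((√θ) ^ p0 / b + b ^ (p0 - 1)) * √d)
            C y X Z R := by
  have hp : 2 ≤ p0 + 1 := by omega
  obtain ⟨cA, α, β, K, hI⟩ := exists_interpData (p0 + 1) hp
  obtain ⟨C1, hC1, H1⟩ := net_good hp0 hI
  obtain ⟨C2, hC2, H2⟩ := unit_res hp hI
  obtain ⟨C3, hC3, H3⟩ := lam_nodes hp hI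
  obtain ⟨C4, hC4, H4⟩ := jvp_nodes hp hI
  set V : ℝ := ((Fintype.card (Vv (p0 + 1)) : ℕ) : ℝ) with hV
  have hV0 : 0 ≤ V := Nat.cast_nonneg _
  set q : ℝ := ((p0 + 1 : ℕ) : ℝ) with hq
  have hq0 : 0 ≤ q := Nat.cast_nonneg _
  set D : ℝ := 2 * C2 * (C3 + q * (V * C4) + q * 2) with hD
  have hD0 : 0 ≤ D := by (clear * - hC2 hC3 hp0 hC4; positivity)
  refine ⟨Fintype.card (Nd (p0 + 1)), C1 + D, by linarith only [hD0, hC1], ?_⟩
  intro θ b κ lam hθ hθ1 hb hb1 hκ hκ1 hlam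
  refine ⟨(Par.mk cA α β (√θ) b κ lam).net (Fin.last p0), ?_, ?_⟩
  · refine uc_good_mono (H1 θ b κ lam hθ hθ1 hb hb1 hκ hκ1 hlam) ?_ ?_
    · exact mul_le_mul_of_nonneg_right (by linarith only [hD0]) (by (clear * - hθ hκ hb; positivity))
    · exact mul_le_mul_of_nonneg_right (by linarith only [hD0]) (by (clear * - hκ hθ hb; positivity))
  · intro d w hw hd y
    have hT0 : 0 < √θ := Real.sqrt_pos.2 hθ
    have hTs : √θ ^ 2 = θ := Real.sq_sqrt hθ.le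
    have hp0r : (1 : ℝ) ≤ p0 := by exact_mod_cast hp0
    have hθ8 : θ ≤ 1 / 8 := hθ1.trans (one_div_le_one_div_of_le (by norm_num) (by linarith only [hp0r]))
    have hT2 : √θ ^ 2 ≤ 1 / 8 := hTs.trans_le hθ8
    have hTh : √θ ≤ 1 / 2 := by (refine le_of_not_gt fun hng_ => ?_; linarith only [mul_pos hκ (sub_pos.2 hng_), mul_pos hT0 (sub_pos.2 hng_), mul_nonneg (sub_nonneg.2 hκ1) (le_of_lt (sub_pos.2 hng_)), mul_nonneg (le_of_lt hκ) (sub_nonneg.2 hT2), mul_nonneg (sub_nonneg.2 hκ1) (sub_nonneg.2 hT2)])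
    have hnt : ∀ i : Fin (p0 + 1), nt (p0 + 1) (√θ) i ^ 2 ≤ 1 / 8 := fun i =>
      (pow_le_pow_left₀ (jvp_nt_mem hp hT0 i).1 (jvp_nt_mem hp hT0 i).2 2).trans hT2
    obtain ⟨A, Q, hLF⟩ := exists_LFl (w := w) (κ := κ) (l0 := 1) (lam := lam)
      fun Y => ⟨hw, hκ, hκ1, by norm_num, le_rfl, hlam⟩
    have hAp : ∀ i : Fin (p0 + 1), ∃ A, PFl w (1 - nt (p0 + 1) (√θ) i ^ 2) A := fun i =>
      exists_PFl hw hκ hκ1 (by have := hnt i; linarith only [this]) (by (refine le_of_not_gt fun hng_ => ?_; linarith only [mul_nonneg (le_of_lt (sub_pos.2 hng_)) (sq_nonneg (nt (p0 + 1) (√θ) i)), mul_pos (sub_pos.2 hng_) (sub_pos.2 hng_)]))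
    choose Ap hAp using hAp
    obtain ⟨Cg, CP, hC⟩ := exists_carrier d
    set S : Fam d (p0 + 1) := ⟨w, κ, lam, √θ, b, y, A, Q, Ap, Cg, CP⟩ with hS
    have hSok : S.Ok := ⟨hw, hκ, hκ1, hlam, hT0, hT2, hb, hb1, hLF, hAp⟩
    obtain ⟨R2, m2, n2, i2, e2, h2⟩ := H3 d w κ lam A Q hw hκ hκ1 hlam hLF y (√θ) hT0 hTh
    have hR3 := fun i : Fin (p0 + 1) => H4 d w κ (1 - nt (p0 + 1) (√θ) i ^ 2) (Ap i) hw hκ hκ1
      (by have := hnt i; linarith only [this]) (by (refine le_of_not_gt fun hng_ => ?_; linarith only [mul_nonneg (le_of_lt (sub_pos.2 hng_)) (sq_nonneg (nt (p0 + 1) (√θ) i)), mul_pos (sub_pos.2 hng_) (sub_pos.2 hng_)])) (hAp i) (√θ)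
      hT0 hTh
    choose R3 m3 n3 e3 h3 using hR3
    have hres := H2 d S hSok hC R2 R3 n2 n3 h2 h3
    refine ⟨_, _, _, uc_cert (C := C1 + D) hp hSok hC hTs rfl (l := Fin.last p0) ?_ hC2
      (by linarith only [hD0, hC1]) m2 n2 i2 e2 m3 n3 e3 ?_ hres⟩
    · show ((((Fin.last p0 : Fin (p0 + 1)) : ℕ) : ℝ) + 1) / ((p0 + 1 : ℕ) : ℝ) * √θ = √θ
      have : ((Fin.last p0 : Fin (p0 + 1)) : ℕ) = p0 := rfl
      rw [this]
      push_cast
      rw [div_self (by positivity), one_mul]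
    · have hd0 : 0 ≤ √(d : ℝ) := Real.sqrt_nonneg _
      have hT1 : √θ ≤ 1 := hTh.trans (by norm_num)
      have hTp : 0 ≤ √θ ^ p0 := by positivity
      have c1 : √θ ^ (p0 + 1 + 1) ≤ √θ ^ p0 / b := by
        have h4 : √θ ^ (p0 + 1 + 1) ≤ √θ ^ p0 :=
          pow_le_pow_of_le_one hT0.le hT1 (by omega)
        refine h4.trans ?_
        rw [le_div_iff₀ hb]
        (refine le_of_not_gt fun hng_ => ?_; linarith only [mul_nonneg (sub_nonneg.2 hTh) (le_of_lt (sub_pos.2 hng_)), mul_pos hT0 (sub_pos.2 hng_), mul_nonneg (sub_nonneg.2 hT1) hTp, mul_nonneg (sub_nonneg.2 hb1) hTp, mul_nonneg (le_of_lt hT0) hTp])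
      have c2 : b⁻¹ * √θ ^ (p0 + 1) ≤ √θ ^ p0 / b := by
        have h4 : √θ ^ (p0 + 1) ≤ √θ ^ p0 := pow_le_pow_of_le_one hT0.le hT1 (by omega)
        rw [div_eq_inv_mul]
        exact mul_le_mul_of_nonneg_left h4 (by positivity)
      have c3 : b ^ (p0 + 1 - 1) ≤ b ^ (p0 - 1) :=
        pow_le_pow_of_le_one hb.le (by linarith only [hb1]) (by omega)
      set E := √θ ^ p0 / b + b ^ (p0 - 1) with hE
      have hE1 : √θ ^ p0 / b ≤ E := by
        have : 0 ≤ b ^ (p0 - 1) := by positivity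
        linarith only [this]
      have hE2 : b ^ (p0 - 1) ≤ E := by
        have : 0 ≤ √θ ^ p0 / b := by positivity
        linarith only [this]
      have hE0 : 0 ≤ E := by positivity
      show 2 * C2 * (C3 * √θ ^ (p0 + 1 + 1) * √d + b⁻¹ * (q * (V * (C4 * √θ ^ (p0 + 1) * √d)))
        + b ^ (p0 + 1 - 1) * (q * (√d + √d))) ≤ (C1 + D) * E * √d
      have d1 : C3 * √θ ^ (p0 + 1 + 1) * √d ≤ C3 * E * √d :=
        mul_le_mul_of_nonneg_right (mul_le_mul_of_nonneg_left (c1.trans hE1) hC3) hd0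
      have d2 : b⁻¹ * (q * (V * (C4 * √θ ^ (p0 + 1) * √d))) ≤ q * (V * C4) * E * √d := by
        have : b⁻¹ * (q * (V * (C4 * √θ ^ (p0 + 1) * √d)))
            = q * (V * C4) * (b⁻¹ * √θ ^ (p0 + 1)) * √d := by ring
        rw [this]
        exact mul_le_mul_of_nonneg_right (mul_le_mul_of_nonneg_left (c2.trans hE1)
          (by (clear * - hp0 hC4; positivity))) hd0
      have d3 : b ^ (p0 + 1 - 1) * (q * (√d + √d)) ≤ q * 2 * E * √d := by
        have : b ^ (p0 + 1 - 1) * (q * (√d + √d)) = q * 2 * b ^ (p0 + 1 - 1) * √d := by ring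
        rw [this]
        exact mul_le_mul_of_nonneg_right (mul_le_mul_of_nonneg_left (c3.trans hE2)
          (by positivity)) hd0
      have d4 : 0 ≤ C1 * E * √d := by positivity
      calc _ ≤ 2 * C2 * (C3 * E * √d + q * (V * C4) * E * √d + q * 2 * E * √d) := by
            refine mul_le_mul_of_nonneg_left ?_ (by positivity)
            linarith only [d2, d1, d3]
        _ = D * E * √d := by rw [hD]; ring
        _ ≤ _ := by linarith only [d4]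

end Vale.Agent.P347.Z
end

section
attribute [-instance] ProperSMul.toContinuousSMul IsTopologicalTorsor.toContinuousSMul IdemSemiring.toCanonicallyOrderedAdd IdemSemiring.toMulLeftMono IdemSemiring.toMulRightMono AddQuantale.instAddLeftMono AddQuantale.instAddRightMono Quantale.instMulLeftMono Quantale.instMulRightMono FiniteDimensional.rclike_to_real IsScalarTower.complexToReal FiniteDimensional.complexToReal

/-! P347-Z-F6. Rescaling: `NodesStatement`.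

PROOF. `κ̂ = 2 s ≤ 1/2`, `lam = κ/√s` (`|lam| κ̂ = 2 |κ| √s ≤ 2`), `w = wS V s`, `ŷ = y/√s`, `unit_nodes` gives
`net̂, X̂, Ẑ, R̂`. Put `t = √s t̂`, `cg = √s ĉg`, `cP = √s ĉP`, `lev = s lev̂`, `w = s ŵ`, `q = √s q̂`,
`X = √s X̂`, `Z = Ẑ`, `R = 2 R̂`. Since `Fv w (l, x) = √s Fp V G (s l) (√s x)` (`Fv_wS`, levels are positive:
`≥ 1 - 2θ > 0`): `√s ŵ_ij F̂ = s ŵ_ij Fp`, `lam F̂ = κ Fp`. Weights:
`s (θ + |lam| √θ + lam² κ̂ θ/b + b/κ̂) = sθ + |κ| √(sθ) + 2κ² (θ s)/b + b/2`,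
`√s lam² κ̂ √θ/b = 2 κ² √(θ s)/b`. Output: `|lam| κ̂ R̂ = 2 |κ| √s R̂`. Moments: multiply by `√s ≤ 1`,
`√s C θ κ̂ (‖ŷ‖+√d) = 2 C θ s (‖y‖ + √s √d)`. New constant `2 C`. -/

open MeasureTheory Filter Module Set
open scoped ENNReal NNReal

namespace Vale.Agent.P347.Z

/-- The rescaled network. -/
noncomputable def nfNet {N : ℕ} (net : Net N) (s : ℝ) : Net N where
  t i := √s * net.t i
  cg i := √s * net.cg i
  cP i := √s * net.cP i
  lev i := s * net.lev i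
  w i j := s * net.w i j
  q j := √s * net.q j
  top := net.top
  root := net.root

theorem nf_W {C0 s θ b κ : ℝ} (hC : 1 ≤ C0) (hs : 0 < s) (hθ : 0 < θ) (hb : 0 < b) :
    s * (C0 * (θ + |κ / √s| * √θ + (κ / √s) ^ 2 * (2 * s) * θ / b + b / (2 * s))) ≤
      2 * C0 * (θ * s + |κ| * √(θ * s) + κ ^ 2 * (θ * s) / b + b) := by
  have h1 : 0 < √s := Real.sqrt_pos.2 hs
  have h2 : √s * √s = s := Real.mul_self_sqrt hs.le
  have h3 : √(θ * s) = √θ * √s := Real.sqrt_mul hθ.le s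
  have e1 : s * |κ / √s| = |κ| * √s := by
    rw [abs_div, abs_of_pos h1, mul_div_assoc', div_eq_iff h1.ne', mul_assoc, h2, mul_comm]
  have e2 : (κ / √s) ^ 2 * (2 * s) = 2 * κ ^ 2 := by
    rw [div_pow, Real.sq_sqrt hs.le]
    field_simp
  have e3 : s * (b / (2 * s)) = b / 2 := by field_simp
  have e4 : s * (C0 * (θ + |κ / √s| * √θ + (κ / √s) ^ 2 * (2 * s) * θ / b + b / (2 * s))) =
      C0 * (θ * s + |κ| * √(θ * s) + 2 * (κ ^ 2 * (θ * s) / b) + b / 2) := by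
    calc s * (C0 * (θ + |κ / √s| * √θ + (κ / √s) ^ 2 * (2 * s) * θ / b + b / (2 * s)))
        = C0 * (θ * s + (s * |κ / √s|) * √θ + s * (((κ / √s) ^ 2 * (2 * s)) * θ / b) +
          s * (b / (2 * s))) := by ring
      _ = _ := by rw [e1, e2, e3, h3]; ring
  rw [e4]
  have p1 : 0 ≤ θ * s := by positivity
  have p2 : 0 ≤ |κ| * √(θ * s) := by (clear * - hθ hs; positivity)
  have p3 : 0 ≤ κ ^ 2 * (θ * s) / b := by (clear * - hθ hs hb; positivity)
  have p4 : θ * s + |κ| * √(θ * s) + 2 * (κ ^ 2 * (θ * s) / b) + b / 2 ≤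
      2 * (θ * s + |κ| * √(θ * s) + κ ^ 2 * (θ * s) / b + b) := by linarith only [p1, hb, p2]
  calc _ ≤ C0 * (2 * (θ * s + |κ| * √(θ * s) + κ ^ 2 * (θ * s) / b + b)) :=
        mul_le_mul_of_nonneg_left p4 (by linarith only [hC])
    _ = _ := by ring

theorem nf_q {C0 s θ b κ : ℝ} (hs : 0 < s) (hθ : 0 < θ) :
    √s * (C0 * ((κ / √s) ^ 2 * (2 * s) * √θ / b)) = 2 * C0 * (κ ^ 2 * √(θ * s) / b) := by
  have h3 : √(θ * s) = √θ * √s := Real.sqrt_mul hθ.le s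
  have e2 : (κ / √s) ^ 2 * (2 * s) = 2 * κ ^ 2 := by
    rw [div_pow, Real.sq_sqrt hs.le]
    field_simp
  rw [e2, h3]
  ring

theorem nf_good {N : ℕ} {net : Net N} {C0 s θ b κ μ : ℝ} (hC : 1 ≤ C0) (hs : 0 < s)
    (hθ : 0 < θ) (hb : 0 < b)
    (h : net.Good 1 θ (C0 * (θ + |κ / √s| * √θ + (κ / √s) ^ 2 * (2 * s) * θ / b + b / (2 * s)))
      (C0 * ((κ / √s) ^ 2 * (2 * s) * √θ / b)) μ) :
    (nfNet net s).Good s θ (2 * C0 * (θ * s + |κ| * √(θ * s) + κ ^ 2 * (θ * s) / b + b))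
      (2 * C0 * (κ ^ 2 * √(θ * s) / b)) μ := by
  have h1 : 0 < √s := Real.sqrt_pos.2 hs
  have h2 : √(θ * s) = √s * √(θ * 1) := by
    rw [mul_one, Real.sqrt_mul hθ.le s, mul_comm]
  constructor
  · change √s * net.t net.root = 0
    rw [h.root_t, mul_zero]
  · change √s * net.cg net.root = 0
    rw [h.root_g, mul_zero]
  · change √s * net.cP net.root = 0
    rw [h.root_P, mul_zero]
  · intro j
    change s * net.w net.root j = 0
    rw [h.root_w, mul_zero]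
  · change s * net.lev net.root = s
    rw [h.root_lev, mul_one]
  · change √s * net.t net.top = √(θ * s)
    rw [h.top_t, h2]
  · change √s * net.cg net.top = 0
    rw [h.top_g, mul_zero]
  · change √s * net.cP net.top = 0
    rw [h.top_P, mul_zero]
  · change s * net.lev net.top = (1 - θ) * s
    rw [h.top_lev]
    ring
  · intro i
    exact mul_nonneg h1.le (h.t_nonneg i)
  · intro i
    change √s * net.t i ≤ √(θ * s)
    rw [h2]
    exact mul_le_mul_of_nonneg_left (h.t_le i) h1.le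
  · intro i hi
    have h3 := h.margin i hi
    change (1 - √s * net.t i / √(θ * s)) ^ 2 * s ≤ (1 - μ) * (s * net.lev i)
    rw [h2, mul_div_mul_left _ _ h1.ne']
    rw [mul_one] at h3
    calc _ ≤ ((1 - μ) * net.lev i) * s := mul_le_mul_of_nonneg_right h3 hs.le
      _ = _ := by ring
  · intro i
    have h3 := h.lev_lo i
    rw [mul_one] at h3
    change (1 - 2 * θ) * s ≤ s * net.lev i
    calc _ ≤ net.lev i * s := mul_le_mul_of_nonneg_right h3 hs.le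
      _ = _ := by ring
  · intro i
    have h3 := h.lev_hi i
    change s * net.lev i ≤ s
    calc _ ≤ s * 1 := mul_le_mul_of_nonneg_left h3 hs.le
      _ = _ := by ring
  · intro i j
    change |s * net.w i j| ≤ _
    rw [abs_mul, abs_of_pos hs]
    exact (mul_le_mul_of_nonneg_left (h.w_le i j) hs.le).trans (nf_W hC hs hθ hb)
  · intro j
    change |√s * net.q j| ≤ _
    rw [abs_mul, abs_of_pos h1, ← nf_q hs hθ]
    exact mul_le_mul_of_nonneg_left (h.q_le j) h1.le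

theorem nf_cert {N : ℕ} {net : Net N} {C0 s θ κ err W Wq μ : ℝ} (hC : 1 ≤ C0) (hs : 0 < s)
    (hs4 : s ≤ 1 / 4) (hθ : 0 < θ) (hθ2 : θ ≤ 1 / 8) (hg : net.Good 1 θ W Wq μ) {d : ℕ}
    {V : Eu d → ℝ} {G : Eu d → Eu d} {H : Eu d → Eu d →L[ℝ] Eu d} (hV : Pot V G H) (y : Eu d)
    {X : Fin N → Eu d × Eu d × Eu d → Eu d} {Z : Eu d × Eu d × Eu d → Eu d}
    {R : Eu d × Eu d × Eu d → ℝ}
    (h : net.CertU (fun l x => Fv (wS V s) (l, x)) θ (2 * s) (κ / √s) err C0 ((√s)⁻¹ • y) X Z R) :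
    (nfNet net s).Cert G (Fp V G) s θ κ (2 * err) (2 * C0) y (fun i ω => √s • X i ω) Z
      (fun ω => 2 * R ω) := by
  have h1 : 0 < √s := Real.sqrt_pos.2 hs
  have h1' : √s ≤ 1 := by
    rw [Real.sqrt_le_one]
    linarith only [hs4]
  have h2 : √s * √s = s := Real.mul_self_sqrt hs.le
  have hsqd : 0 ≤ √(d : ℝ) := Real.sqrt_nonneg _
  have hF : ∀ l x, 0 < l → Fv (wS V s) (l, x) = √s • Fp V G (s * l) (√s • x) := fun l x hl =>
    Fv_wS hV hs (p := (l, x)) hl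
  have hlev : ∀ j, 0 < net.lev j := fun j => by
    have := hg.lev_lo j
    rw [mul_one] at this
    linarith only [this, hθ2]
  have hy : √s • ((√s)⁻¹ • y) = y := by
    rw [smul_smul, mul_inv_cancel₀ h1.ne', one_smul]
  have hny : √s * ‖(√s)⁻¹ • y‖ = ‖y‖ := by
    rw [norm_smul, norm_inv, Real.norm_of_nonneg h1.le, ← mul_assoc, mul_inv_cancel₀ h1.ne',
      one_mul]
  have hfin : (finrank ℝ (Eu d) : ℝ) = d := by simp only [finrank_euclideanSpace, Fintype.card_fin]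
  have hκ : κ / √s * √s = κ := by (clear * - hs; field_simp)
  constructor
  · intro i
    exact (h.measX i).const_smul (√s)
  · exact h.measZ
  · exact h.measR.const_mul _
  · intro ω
    have := h.R0 ω
    (clear * - this; positivity)
  · intro ω
    change √s • X net.root ω = y
    rw [h.root, hy]
  · intro i ω
    have h3 := h.node i ω
    have h4 : √s • X i ω - (y + (nfNet net s).t i • ω.1 + (nfNet net s).cg i • ω.2.1
        + (nfNet net s).cP i • ω.2.2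
        + ∑ j, (nfNet net s).w i j • Fp V G ((nfNet net s).lev j) (√s • X j ω)) =
        √s • (X i ω - ((√s)⁻¹ • y + net.t i • ω.1 + net.cg i • ω.2.1 + net.cP i • ω.2.2
        + ∑ j, net.w i j • Fv (wS V s) (net.lev j, X j ω))) := by
      have h5 : ∀ j, (nfNet net s).w i j • Fp V G ((nfNet net s).lev j) (√s • X j ω) =
          √s • (net.w i j • Fv (wS V s) (net.lev j, X j ω)) := by
        intro j
        rw [hF _ _ (hlev j), smul_smul, smul_smul]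
        change (s * net.w i j) • Fp V G (s * net.lev j) (√s • X j ω) = _
        congr 1
        rw [← h2]
        have h6 : √(√s * √s) = √s := by rw [h2]
        rw [h6]
        ring
      simp only [h5, smul_sub, smul_add, Finset.smul_sum, hy, smul_smul]
      rfl
    rw [h4, norm_smul, Real.norm_of_nonneg h1.le]
    have h5 := h.R0 ω
    calc √s * _ ≤ √s * R ω := mul_le_mul_of_nonneg_left h3 h1.le
      _ ≤ 1 * R ω := mul_le_mul_of_nonneg_right h1' h5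
      _ ≤ 2 * R ω := by linarith only [h5]
  · have h3 := h.law
    have h4 : (κ / √s) • Fv (wS V s) (1, (√s)⁻¹ • y) = κ • Fp V G s y := by
      rw [hF _ _ one_pos, smul_smul, hκ, hy, mul_one]
    simp only [h4] at h3
    exact h3
  · intro ω
    have h3 := h.out ω
    have h4 : (κ / √s) • Fv (wS V s) (1 - θ, X net.top ω) =
        κ • Fp V G ((1 - θ) * s) (√s • X net.top ω) := by
      rw [hF _ _ (by linarith only [hθ2]), smul_smul, hκ, mul_comm s]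
    have h5 : ∀ j, net.q j • Fv (wS V s) (net.lev j, X j ω) =
        (nfNet net s).q j • Fp V G ((nfNet net s).lev j) (√s • X j ω) := by
      intro j
      rw [hF _ _ (hlev j), smul_smul, mul_comm (net.q j)]
      rfl
    simp only [h4, h5] at h3
    refine h3.trans (le_of_eq ?_)
    rw [abs_div, abs_of_pos h1]
    have h6 : |κ| / √s * (2 * s) = 2 * (|κ| * √s) := by
      rw [div_mul_eq_mul_div, div_eq_iff h1.ne', mul_assoc 2, mul_assoc |κ|, h2]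
      ring
    rw [h6]
    ring
  · exact h.intR.const_mul _
  · rw [integral_const_mul]
    exact mul_le_mul_of_nonneg_left h.err (by norm_num)
  · intro i
    simp only [norm_smul, Real.norm_of_nonneg h1.le]
    exact (h.intX i).const_mul _
  · intro i
    simp only [norm_smul, Real.norm_of_nonneg h1.le]
    rw [integral_const_mul, hfin]
    have h3 := mul_le_mul_of_nonneg_left (h.momX i) h1.le
    have h4 : √s * √(d : ℝ) ≤ 1 * √d := mul_le_mul_of_nonneg_right h1' hsqd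
    calc _ ≤ √s * (2 * (‖(√s)⁻¹ • y‖ + √d)) := h3
      _ = 2 * (√s * ‖(√s)⁻¹ • y‖ + √s * √d) := by ring
      _ ≤ _ := by rw [hny]; linarith only [h4]
  · simp only [norm_smul, Real.norm_of_nonneg h1.le]
    rw [integral_const_mul, hfin]
    have h3 := mul_le_mul_of_nonneg_left h.momTop h1.le
    have h4 : √s * √(d : ℝ) ≤ 1 * √d := mul_le_mul_of_nonneg_right h1' hsqd
    have h5 : √(θ * s) = √θ * √s := Real.sqrt_mul hθ.le s
    have h6 : 0 ≤ C0 * (√θ * √s) * √d := by (clear * - hC hθ hs; positivity)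
    have h7 : C0 * θ * (2 * s) * (√s * √d) ≤ C0 * θ * (2 * s) * (1 * √d) :=
      mul_le_mul_of_nonneg_left h4 (by positivity)
    calc _ ≤ √s * (‖(√s)⁻¹ • y‖ + C0 * √θ * √d + C0 * θ * (2 * s) * (‖(√s)⁻¹ • y‖ + √d)) := h3
      _ = √s * ‖(√s)⁻¹ • y‖ + C0 * (√θ * √s) * √d + C0 * θ * (2 * s) * (√s * ‖(√s)⁻¹ • y‖)
          + C0 * θ * (2 * s) * (√s * √d) := by ring
      _ ≤ _ := by
        rw [hny, h5]
        (refine le_of_not_gt fun hng_ => ?_; linarith only [mul_pos (sub_pos.2 hng_) (sub_pos.2 hng_), mul_nonneg h6 (le_of_lt (sub_pos.2 hng_)), mul_nonneg (sub_nonneg.2 h7) (le_of_lt (sub_pos.2 hng_))])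

theorem nodes : NodesStatement := by
  intro p hp
  obtain ⟨N, C0, hC0, h⟩ := unit_nodes p (by omega)
  refine ⟨N, 2 * C0, by linarith only [hC0], ?_⟩
  intro s θ b κ hs hs4 hθ hθp hb hb8 hκ
  have h1 : 0 < √s := Real.sqrt_pos.2 hs
  have h2 : √s * √s = s := Real.mul_self_sqrt hs.le
  have hp2 : (2 : ℝ) ≤ p := by exact_mod_cast hp
  have hθ8 : θ ≤ 1 / 8 := by
    refine hθp.trans ?_
    rw [div_le_div_iff₀ (by positivity) (by norm_num)]
    linarith only [hp2]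
  have hlam : |κ / √s| * (2 * s) ≤ 2 := by
    rw [abs_div, abs_of_pos h1]
    have h6 : |κ| / √s * (2 * s) = 2 * (|κ| * √s) := by
      rw [div_mul_eq_mul_div, div_eq_iff h1.ne', mul_assoc 2, mul_assoc |κ|, h2]
      ring
    rw [h6]
    linarith only [hκ]
  obtain ⟨net, hg, hc⟩ := h θ b (2 * s) (κ / √s) hθ hθp hb hb8 (by positivity) (by linarith only [hs4]) hlam
  refine ⟨nfNet net s, nf_good hC0 hs hθ hb hg, ?_⟩
  intro d V G H hV hd y
  obtain ⟨X, Z, R, hX⟩ := hc d (wS V s) (heat_wS hV hs) hd ((√s)⁻¹ • y)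
  have h3 := nf_cert hC0 hs hs4 hθ hθ8 hg hV y hX
  refine ⟨fun i ω => √s • X i ω, Z, fun ω => 2 * R ω, ?_⟩
  have h4 : 2 * C0 * ((√θ) ^ p / b + b ^ (p - 1)) * √(d : ℝ) =
      2 * (C0 * ((√θ) ^ p / b + b ^ (p - 1)) * √(d : ℝ)) := by ring
  rw [h4]
  exact h3

end Vale.Agent.P347.Z
end

section
attribute [-instance] ProperSMul.toContinuousSMul IsTopologicalTorsor.toContinuousSMul IdemSemiring.toCanonicallyOrderedAdd IdemSemiring.toMulLeftMono IdemSemiring.toMulRightMono AddQuantale.instAddLeftMono AddQuantale.instAddRightMono Quantale.instMulLeftMono Quantale.instMulRightMono FiniteDimensional.rclike_to_real IsScalarTower.complexToReal FiniteDimensional.complexToReal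

/-! P347-Z-F7. `DownStatement`: the plain down step (`l0 = 1`, `T = √θ`, `c y a = √s (ŷ + T A T (ŷ, a))`,
`ŷ = y / √s`), with the interpolation weights of `exists_interpData`. -/


open MeasureTheory Filter Module Set
open scoped ENNReal NNReal

namespace Vale.Agent.P347.Z

/-- Completing the square. -/
theorem df_square {d : ℕ} {s t : ℝ} (hs : 0 < s) (ht : 0 < t) (x y z : Eu d) :
    ‖z - x‖ ^ 2 / (2 * s) + ‖x - y‖ ^ 2 / (2 * t)
      = (s + t) / (2 * s * t) * ‖x - (s + t)⁻¹ • (t • z + s • y)‖ ^ 2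
        + ‖z - y‖ ^ 2 / (2 * (s + t)) := by
  obtain ⟨P, hP⟩ : ∃ P, P = x - y := ⟨_, rfl⟩
  obtain ⟨Q, hQ⟩ : ∃ Q, Q = x - z := ⟨_, rfl⟩
  have e1 : x - (s + t)⁻¹ • (t • z + s • y) = (s + t)⁻¹ • (t • Q + s • P) := by
    have h : x = (s + t)⁻¹ • ((s + t) • x) := by
      rw [smul_smul, inv_mul_cancel₀ (by positivity), one_smul]
    nth_rewrite 1 [h]
    rw [← smul_sub, hP, hQ]
    congr 1
    module
  have e2 : z - y = P - Q := by rw [hP, hQ]; abel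
  rw [e1, e2, norm_sub_rev z x, ← hP, ← hQ, norm_smul, mul_pow, norm_add_sq_real,
    norm_sub_sq_real, norm_smul, norm_smul, inner_smul_left, inner_smul_right,
    Real.norm_of_nonneg ht.le, Real.norm_of_nonneg hs.le, Real.norm_of_nonneg (by positivity),
    real_inner_comm P Q]
  simp only [conj_trivial]
  field_simp
  ring

theorem df_exp_sq_int {d : ℕ} {b : ℝ} (hb : 0 < b) (m : Eu d) :
    Integrable (fun x : Eu d => Real.exp (-(b * ‖x - m‖ ^ 2))) :=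
  (integrable_exp_neg_sq (E := Eu d) hb).comp_sub_right m

/-- Gaussian semigroup for the smoothed potential. -/
theorem df_semigroup {d : ℕ} {V : Eu d → ℝ} {G : Eu d → Eu d} {H : Eu d → Eu d →L[ℝ] Eu d}
    (hV : Pot V G H) {s t : ℝ} (hs : 0 < s) (ht : 0 < t) :
    ∃ c, 0 < c ∧ ∀ y, ∫ x, Real.exp (-post (Wp V s) t y x) = c * Real.exp (-Wp V (s + t) y) := by
  have hb : 0 < (s + t) / (2 * s * t) := by positivity
  set c := ∫ x : Eu d, Real.exp (-((s + t) / (2 * s * t) * ‖x‖ ^ 2)) with hc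
  have hc0 : 0 < c := MeasureTheory.integral_exp_pos (integrable_exp_neg_sq (E := Eu d) hb)
  refine ⟨c, hc0, fun y => ?_⟩
  have hcm : ∀ m : Eu d, ∫ x : Eu d, Real.exp (-((s + t) / (2 * s * t) * ‖x - m‖ ^ 2)) = c :=
    fun m => integral_sub_right_eq_self
      (fun x : Eu d => Real.exp (-((s + t) / (2 * s * t) * ‖x‖ ^ 2))) m
  have hW : ∀ {r : ℝ}, 0 < r → ∀ x, Real.exp (-Wp V r x) = ∫ z, Real.exp (-post V r x z) := by
    intro r hr x
    unfold Wp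
    rw [neg_neg, Real.exp_log (hV.cpot.post_adm hr x).integral_exp_pos]
  -- the kernel
  have hk : ∀ x z : Eu d, Real.exp (-post V s x z) * Real.exp (-(‖x - y‖ ^ 2 / (2 * t)))
      = Real.exp (-post V (s + t) y z) *
        Real.exp (-((s + t) / (2 * s * t) * ‖x - (s + t)⁻¹ • (t • z + s • y)‖ ^ 2)) := by
    intro x z
    rw [← Real.exp_add, ← Real.exp_add]
    congr 1
    unfold post
    have := df_square hs ht x y z
    linarith
  have cV := hV.cpot.contW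
  have hcont : Continuous fun q : Eu d × Eu d =>
      Real.exp (-post V s q.1 q.2) * Real.exp (-(‖q.1 - y‖ ^ 2 / (2 * t))) := by
    unfold post; fun_prop
  have hint : Integrable (fun q : Eu d × Eu d =>
      Real.exp (-post V s q.1 q.2) * Real.exp (-(‖q.1 - y‖ ^ 2 / (2 * t))))
      ((volume : Measure (Eu d)).prod volume) := by
    rw [integrable_prod_iff' hcont.aestronglyMeasurable]
    constructor
    · refine Eventually.of_forall fun z => ?_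
      simp only [hk]
      exact (df_exp_sq_int hb _).const_mul _
    · have h1 : ∀ z : Eu d, ∫ x, ‖Real.exp (-post V s x z) *
          Real.exp (-(‖x - y‖ ^ 2 / (2 * t)))‖ = Real.exp (-post V (s + t) y z) * c := by
        intro z
        rw [← hcm ((s + t)⁻¹ • (t • z + s • y)), ← integral_const_mul]
        refine integral_congr_ae (Eventually.of_forall fun x => ?_)
        simp only
        rw [← hk x z, Real.norm_of_nonneg (by positivity)]
      simp only [h1]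
      exact (hV.cpot.post_adm (by positivity) y).integrable_exp.mul_const c
  have h1 : ∫ x, Real.exp (-post (Wp V s) t y x)
      = ∫ x, ∫ z, Real.exp (-post V s x z) * Real.exp (-(‖x - y‖ ^ 2 / (2 * t))) := by
    refine integral_congr_ae (Eventually.of_forall fun x => ?_)
    simp only
    rw [integral_mul_const, ← hW hs x, ← Real.exp_add]
    unfold post
    congr 1
    ring
  rw [h1, integral_integral_swap (f := fun x z => Real.exp (-post V s x z) *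
    Real.exp (-(‖x - y‖ ^ 2 / (2 * t)))) hint, hW (by positivity) y, ← integral_const_mul]
  refine integral_congr_ae (Eventually.of_forall fun z => ?_)
  simp only [hk]
  rw [integral_const_mul, hcm, mul_comm]

/-- Semigroup property: mixture of the posteriors of the smoothed potential. -/
theorem mix_law {d : ℕ} {V : Eu d → ℝ} {G : Eu d → Eu d} {H : Eu d → Eu d →L[ℝ] Eu d}
    (hV : Pot V G H) {s s' : ℝ} (hs' : 0 < s') (hs : s' < s) {f : Eu d → ℝ} (hf : Measurable f)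
    (hb : ∃ C, ∀ x, |f x| ≤ C) :
    ∫ y, ∫ x, f x ∂(gibbs (post (Wp V s') (s - s') y)) ∂(gibbs (Wp V s))
      = ∫ x, f x ∂(gibbs (Wp V s')) := by
  have ht : 0 < s - s' := sub_pos.2 hs
  obtain ⟨c, hc0, hc⟩ := df_semigroup hV hs' ht
  rw [add_sub_cancel] at hc
  set t := s - s' with htdef
  set W := Wp V s' with hWdef
  have hWA : Adm W := Wp_adm hV hs'
  have cW : Continuous W := hWA.cont
  obtain ⟨C, hC⟩ := hb
  set k := ∫ y : Eu d, Real.exp (-(‖y‖ ^ 2 / (2 * t))) with hk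
  have hki : Integrable (fun y : Eu d => Real.exp (-(‖y‖ ^ 2 / (2 * t)))) := by
    have := integrable_exp_neg_sq (E := Eu d) (b := 1 / (2 * t)) (by positivity)
    refine this.congr (Eventually.of_forall fun x => ?_)
    simp only
    congr 2
    ring
  have hk0 : 0 < k := MeasureTheory.integral_exp_pos hki
  have hkx : ∀ x : Eu d, ∫ y : Eu d, Real.exp (-(‖y - x‖ ^ 2 / (2 * t))) = k := fun x =>
    integral_sub_right_eq_self (fun y : Eu d => Real.exp (-(‖y‖ ^ 2 / (2 * t)))) x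
  have hpost : ∀ x y, Real.exp (-post W t y x)
      = Real.exp (-W x) * Real.exp (-(‖y - x‖ ^ 2 / (2 * t))) := fun x y => by
    rw [← Real.exp_add]
    unfold post
    rw [norm_sub_rev x y]
    congr 1
    ring
  have key : ∀ g : Eu d → ℝ, Measurable g → (∃ C, ∀ x, |g x| ≤ C) →
      ∫ y, ∫ x, Real.exp (-post W t y x) * g x = k * ∫ x, Real.exp (-W x) * g x := by
    intro g hg ⟨C, hC⟩
    have i0 : Integrable (fun x => Real.exp (-W x) * g x) :=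
      hWA.integrable_exp.mul_bdd (c := C) hg.aestronglyMeasurable
        (Eventually.of_forall fun x => by rw [Real.norm_eq_abs]; exact hC x)
    have hcont : Continuous fun q : Eu d × Eu d => Real.exp (-post W t q.2 q.1) := by
      unfold post; fun_prop
    have hm : AEStronglyMeasurable (fun q : Eu d × Eu d =>
        Real.exp (-post W t q.2 q.1) * g q.1) ((volume : Measure (Eu d)).prod volume) :=
      (hcont.measurable.mul (hg.comp measurable_fst)).aestronglyMeasurable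
    have hint : Integrable (fun q : Eu d × Eu d =>
        Real.exp (-post W t q.2 q.1) * g q.1) ((volume : Measure (Eu d)).prod volume) := by
      rw [integrable_prod_iff hm]
      constructor
      · refine Eventually.of_forall fun x => ?_
        simp only [hpost]
        have h1 : Integrable (fun y : Eu d => Real.exp (-(‖y - x‖ ^ 2 / (2 * t)))) :=
          hki.comp_sub_right x
        exact (h1.const_mul _).mul_const _
      · have h1 : ∀ x : Eu d, ∫ y, ‖Real.exp (-post W t y x) * g x‖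
            = k * ‖Real.exp (-W x) * g x‖ := by
          intro x
          rw [← hkx x, ← integral_mul_const]
          refine integral_congr_ae (Eventually.of_forall fun y => ?_)
          simp only
          rw [hpost x y, norm_mul, norm_mul, norm_mul,
            Real.norm_of_nonneg (Real.exp_pos (-(‖y - x‖ ^ 2 / (2 * t)))).le]
          ring
        simp only [h1]
        exact i0.norm.const_mul k
    rw [← integral_integral_swap (f := fun x y => Real.exp (-post W t y x) * g x) hint,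
      ← integral_const_mul]
    refine integral_congr_ae (Eventually.of_forall fun x => ?_)
    simp only [hpost]
    rw [integral_mul_const, integral_const_mul, hkx x]
    ring
  have hZ := key (fun _ => 1) measurable_const ⟨1, by simp⟩
  simp only [mul_one] at hZ
  have hF := key f hf ⟨C, hC⟩
  rw [gibbs_integral, gibbs_integral]
  simp only [smul_eq_mul]
  have h1 : ∀ y, Real.exp (-Wp V s y) = c⁻¹ * ∫ x, Real.exp (-post W t y x) := fun y => by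
    rw [hc y, ← mul_assoc, inv_mul_cancel₀ hc0.ne', one_mul]
  have h2 : ∀ y, Real.exp (-Wp V s y) * ∫ x, f x ∂(gibbs (post W t y))
      = c⁻¹ * ∫ x, Real.exp (-post W t y x) * f x := fun y => by
    have hp : (∫ x, Real.exp (-post W t y x)) ≠ 0 := by
      rw [hc y]; positivity
    rw [gibbs_integral, smul_eq_mul, h1 y]
    simp only [smul_eq_mul]
    field_simp
  simp only [h2]
  simp only [h1]
  rw [integral_const_mul, integral_const_mul, hZ, hF]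
  have h3 : (∫ x, Real.exp (-W x)) ≠ 0 := hWA.integral_exp_pos.ne'
  field_simp

/-! ### The nodes of the plain flow -/

/-- Node times. -/
noncomputable def df_nt (p : ℕ) (T : ℝ) (i : Fin p) : ℝ := ((i : ℝ) + 1) / p * T

theorem df_nt_nonneg {p : ℕ} {T : ℝ} (hT : 0 ≤ T) (i : Fin p) : 0 ≤ df_nt p T i := by
  unfold df_nt; positivity

theorem df_nt_le {p : ℕ} {T : ℝ} (hT : 0 ≤ T) (i : Fin p) : df_nt p T i ≤ T := by
  have hp : 0 < p := i.pos
  have hp' : (0 : ℝ) < p := by exact_mod_cast hp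
  have h1 : ((i : ℝ) + 1) / p ≤ 1 := by
    rw [div_le_one hp']
    exact_mod_cast i.2
  unfold df_nt
  calc _ ≤ 1 * T := mul_le_mul_of_nonneg_right h1 hT
    _ = T := one_mul T

theorem df_nt_last {p : ℕ} (hp : 0 < p) (T : ℝ) :
    df_nt p T ⟨p - 1, Nat.sub_lt hp one_pos⟩ = T := by
  have hp' : (0 : ℝ) < p := by exact_mod_cast hp
  have h2 : (((p - 1 : ℕ) : ℝ) + 1) = p := by
    rw [Nat.cast_sub hp]
    push_cast
    ring
  unfold df_nt
  show (((p - 1 : ℕ) : ℝ) + 1) / p * T = T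
  rw [h2, div_self hp'.ne', one_mul]

/-- The derivative vector of order `p` along the flow. -/
noncomputable def df_I {d : ℕ} (p : ℕ) (w : ℝ × Eu d → ℝ) (κ l0 T : ℝ)
    (A : ℝ → Eu d × Eu d → Eu d) (q : Eu d × Eu d) : ℝ :=
  ∫ t in (0 : ℝ)..T, ‖vecD (Dat.mk w κ l0 0 q.1) p
    (fun k => fF (Dat.mk w κ l0 0 q.1) (ek k)) (t, (A t q, 0))‖

theorem df_I_nonneg {d : ℕ} (p : ℕ) (w : ℝ × Eu d → ℝ) (κ l0 : ℝ) {T : ℝ} (hT : 0 ≤ T)
    (A : ℝ → Eu d × Eu d → Eu d) (q : Eu d × Eu d) : 0 ≤ df_I p w κ l0 T A q :=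
  intervalIntegral.integral_nonneg hT fun _ _ => norm_nonneg _

theorem df_node {d p : ℕ} {w : ℝ × Eu d → ℝ} {κ l0 : ℝ} {A : ℝ → Eu d × Eu d → Eu d}
    (hA : PFl w l0 A) {Y : Eu d} (hD : (Dat.mk w κ l0 0 Y).Ok) {cA : Fin p → Fin p → ℝ}
    {α β : Fin (p + 1) → ℝ} {K : ℝ} (hI : InterpData p cA α β K) {T : ℝ} (hT : 0 < T)
    (hT1 : T ≤ 1 / 2) (a : Eu d) (i : Fin p) :
    ‖A (df_nt p T i) (Y, a) - (a - T • ∑ j, cA i j • Fv w (l0 - df_nt p T j ^ 2,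
        Y + df_nt p T j • A (df_nt p T j) (Y, a)))‖ ≤ K * T ^ p * df_I p w κ l0 T A (Y, a) := by
  obtain ⟨hTow, h0, -⟩ := hA.tower (κ := κ) hD hT hT1 p a
  set h : ℕ → ℝ → Eu d := fun j t => vecD (Dat.mk w κ l0 0 Y) j
    (fun k => fF (Dat.mk w κ l0 0 Y) (ek k)) (t, (A t (Y, a), 0)) with hh
  have hmem : ∀ j : Fin p, df_nt p T j ∈ Icc 0 T := fun j => ⟨df_nt_nonneg hT.le j, df_nt_le hT.le j⟩
  have hsub : Icc 0 T ⊆ IT := Icc_subset_Icc_right hT1
  have herr := hI.errA (Eu d) T hT h hTow i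
  have hc0 : ContinuousOn (h 0) (Icc 0 T) := itp_cont hTow (Nat.zero_le _)
  have hi : (df_nt p T i) ∈ Icc 0 T := hmem i
  have hftc : ∫ t in (0 : ℝ)..(df_nt p T i), h 0 t = a - A (df_nt p T i) (Y, a) := by
    have h1 : ∫ t in (0 : ℝ)..(df_nt p T i), -h 0 t
        = A (df_nt p T i) (Y, a) - A 0 (Y, a) := by
      apply intervalIntegral.integral_eq_sub_of_hasDerivAt_of_le (f := fun t => A t (Y, a))
        (f' := fun t => -h 0 t) hi.1
      · intro t ht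
        exact ((hA.dA Y a t (hsub ⟨ht.1, ht.2.trans hi.2⟩)).continuousWithinAt).mono
          ((Icc_subset_Icc_right hi.2).trans hsub)
      · intro t ht
        have ht' : t ∈ Icc 0 T := ⟨ht.1.le, ht.2.le.trans hi.2⟩
        have h2 := (hA.dA Y a t (hsub ht')).hasDerivAt
          (Icc_mem_nhds ht.1 (ht.2.trans_le (hi.2.trans hT1)))
        rw [← h0 t ht'] at h2
        exact h2
      · apply ContinuousOn.intervalIntegrable
        rw [uIcc_of_le hi.1]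
        exact (hc0.mono (Icc_subset_Icc_right hi.2)).neg
    rw [intervalIntegral.integral_neg, hA.A0] at h1
    rw [← neg_sub (A (df_nt p T i) (Y, a)) a, ← h1, neg_neg]
  have e1 : ∀ j : Fin p, h 0 (((j : ℝ) + 1) / p * T) = Fv w (l0 - df_nt p T j ^ 2,
      Y + df_nt p T j • A (df_nt p T j) (Y, a)) := fun j => h0 _ (hmem j)
  have e2 : (∫ t in (0 : ℝ)..(((i : ℝ) + 1) / p * T), h 0 t)
      = a - A (df_nt p T i) (Y, a) := hftc
  rw [e2] at herr
  simp only [e1] at herr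
  rw [← norm_neg]
  refine le_trans (le_of_eq ?_) herr
  congr 1
  abel

/-- The network of the down step. -/
noncomputable def df_net (p : ℕ) (hp : 0 < p) (cA : Fin p → Fin p → ℝ) (s θ : ℝ) : DNet p where
  t i := √s * df_nt p (√θ) i
  lev i := s * (1 - df_nt p (√θ) i ^ 2)
  w i j := -(s * df_nt p (√θ) i * √θ * cA i j)
  wo j := -(s * √θ * √θ * cA ⟨p - 1, Nat.sub_lt hp one_pos⟩ j)

theorem df_good {p : ℕ} (hp : 0 < p) {cA : Fin p → Fin p → ℝ} {K C : ℝ}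
    (hA : ∀ i j, |cA i j| ≤ K) (hC : K ≤ C) {s θ : ℝ} (hs : 0 < s) (hθ : 0 < θ) :
    (df_net p hp cA s θ).Good s θ (C * (θ * s)) := by
  have hT : 0 < √θ := Real.sqrt_pos.2 hθ
  have hTT : √θ * √θ = θ := Real.mul_self_sqrt hθ.le
  have hnt0 := fun i : Fin p => df_nt_nonneg hT.le i
  have hntT := fun i : Fin p => df_nt_le hT.le i
  have hsq : ∀ i : Fin p, df_nt p (√θ) i ^ 2 ≤ θ := fun i => by
    have := pow_le_pow_left₀ (hnt0 i) (hntT i) 2
    rwa [Real.sq_sqrt hθ.le] at this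
  have hw : ∀ i j : Fin p, s * df_nt p (√θ) i * √θ * |cA i j| ≤ C * (θ * s) := fun i j => by
    calc s * df_nt p (√θ) i * √θ * |cA i j| ≤ s * √θ * √θ * K := by
          gcongr
          · exact hntT i
          · exact hA i j
      _ = K * (θ * s) := by rw [mul_assoc s, hTT]; ring
      _ ≤ C * (θ * s) := by gcongr
  refine ⟨fun i => ?_, fun i => ?_, fun i => ?_, fun i => ?_, fun i j => ?_, fun j => ?_⟩
  · exact mul_nonneg (Real.sqrt_nonneg _) (hnt0 i)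
  · show √s * df_nt p (√θ) i ≤ √(θ * s)
    rw [Real.sqrt_mul hθ.le, mul_comm]
    exact mul_le_mul_of_nonneg_right (hntT i) (Real.sqrt_nonneg _)
  · show (1 - 2 * θ) * s ≤ s * (1 - df_nt p (√θ) i ^ 2)
    linarith only [mul_nonneg (le_of_lt hs) (sub_nonneg.2 (hsq i)), mul_pos hs hθ]
  · show s * (1 - df_nt p (√θ) i ^ 2) ≤ s
    linarith only [mul_nonneg (le_of_lt hs) (sq_nonneg (df_nt p (√θ) i))]
  · show |-(s * df_nt p (√θ) i * √θ * cA i j)| ≤ C * (θ * s)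
    rw [abs_neg, abs_mul, abs_of_nonneg (mul_nonneg (mul_nonneg hs.le (hnt0 i)) hT.le)]
    exact hw i j
  · show |-(s * √θ * √θ * cA ⟨p - 1, Nat.sub_lt hp one_pos⟩ j)| ≤ C * (θ * s)
    have h1 := hw ⟨p - 1, Nat.sub_lt hp one_pos⟩ j
    rw [df_nt_last hp] at h1
    rw [abs_neg, abs_mul, abs_of_nonneg (by positivity)]
    exact h1

section scaled

variable {d : ℕ} {V : Eu d → ℝ} {G : Eu d → Eu d} {H : Eu d → Eu d →L[ℝ] Eu d}

/-- The down map. -/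
noncomputable def df_c (s τ : ℝ) (A : ℝ → Eu d × Eu d → Eu d) (y a : Eu d) : Eu d :=
  √s • ((√s)⁻¹ • y + τ • A τ ((√s)⁻¹ • y, a))

theorem df_c_eq {s : ℝ} (hs : 0 < s) (τ : ℝ) (A : ℝ → Eu d × Eu d → Eu d) (y a : Eu d) :
    df_c s τ A y a = y + (√s * τ) • A τ ((√s)⁻¹ • y, a) := by
  have h : √s ≠ 0 := (Real.sqrt_pos.2 hs).ne'
  unfold df_c
  rw [smul_add, smul_smul, mul_inv_cancel₀ h, one_smul, smul_smul]

theorem df_c_cont {s τ : ℝ} {w : ℝ × Eu d → ℝ} {l0 : ℝ} {A : ℝ → Eu d × Eu d → Eu d}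
    (hA : PFl w l0 A) (hτ : τ ∈ IT) : Continuous (fun z : Eu d × Eu d => df_c s τ A z.1 z.2) := by
  have h1 : Continuous fun z : Eu d × Eu d => A τ ((√s)⁻¹ • z.1, z.2) := by
    have h2 := hA.cA.comp_continuous (f := fun z : Eu d × Eu d => (τ, ((√s)⁻¹ • z.1, z.2)))
      (by fun_prop) (fun z => ⟨hτ, mem_univ _⟩)
    exact h2
  have h3 : Continuous fun z : Eu d × Eu d => (√s)⁻¹ • z.1 := by fun_prop
  unfold df_c
  exact (h3.add (h1.const_smul τ)).const_smul √s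

theorem df_cont_a {τ : ℝ} {w : ℝ × Eu d → ℝ} {l0 : ℝ} {A : ℝ → Eu d × Eu d → Eu d}
    (hA : PFl w l0 A) (hτ : τ ∈ IT) (Y : Eu d) : Continuous (fun a : Eu d => A τ (Y, a)) :=
  hA.cA.comp_continuous (f := fun a : Eu d => (τ, (Y, a))) (by fun_prop)
    (fun z => ⟨hτ, mem_univ _⟩)

/-- The law of the down map for fixed `y`. -/
theorem df_law {s θ : ℝ} (hs : 0 < s) (hθ : 0 < θ) (hθ1 : θ ≤ 1 / 16)
    {A : ℝ → Eu d × Eu d → Eu d} (hA : PFl (wS V s) 1 A) (y : Eu d) {f : Eu d → ℝ}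
    (hf : Measurable f) :
    ∫ a, f (df_c s (√θ) A y a) ∂(gam (Eu d))
      = ∫ x, f x ∂(gibbs (post (Wp V ((1 - θ) * s)) (s - (1 - θ) * s) y)) := by
  have hT : 0 < √θ := Real.sqrt_pos.2 hθ
  have hT2 : √θ ^ 2 = θ := Real.sq_sqrt hθ.le
  have hs0 : 0 < √s := Real.sqrt_pos.2 hs
  have hTI : √θ ∈ IT := ⟨hT.le, by
    rw [Real.sqrt_le_left (by norm_num)]
    linarith only [hθ1]⟩
  set Y := (√s)⁻¹ • y with hY
  have hYy : √s • Y = y := by rw [hY, smul_smul, mul_inv_cancel₀ hs0.ne', one_smul]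
  have e1 : ∀ a, df_c s (√θ) A y a = y + (√s * √θ) • A (√θ) (Y, a) := fun a => df_c_eq hs _ A y a
  have hm : Measurable (fun a : Eu d => A (√θ) (Y, a)) := (df_cont_a hA hTI Y).measurable
  have hg : Measurable (fun b : Eu d => f (y + (√s * √θ) • b)) := hf.comp (by fun_prop)
  have h1 : ∫ a, f (df_c s (√θ) A y a) ∂(gam (Eu d))
      = ∫ b, f (y + (√s * √θ) • b) ∂(nu (wS V s) 1 Y (√θ)) := by
    rw [← hA.law Y _ hTI, integral_map hm.aemeasurable hg.aestronglyMeasurable]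
    simp only [e1]
  have h2 : nuU (wS V s) 1 Y (√θ) = fun a => (fun x =>
      post (Wp V ((1 - θ) * s)) (s - (1 - θ) * s) y x + d / 2 * Real.log (1 - θ))
        (y + (√s * √θ) • a) := by
    funext a
    unfold nuU wS post
    simp only
    rw [hT2, smul_add, hYy, smul_smul, add_sub_cancel_left, norm_smul,
      Real.norm_of_nonneg (by positivity), mul_pow, mul_pow, hT2, Real.sq_sqrt hs.le,
      mul_comm s (1 - θ)]
    have e3 : s - (1 - θ) * s = θ * s := by ring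
    rw [e3]
    field_simp
    ring
  rw [h1]
  unfold nu
  rw [h2, nuc_gibbs (by positivity : 0 < √s * √θ) y (fun x =>
    post (Wp V ((1 - θ) * s)) (s - (1 - θ) * s) y x + d / 2 * Real.log (1 - θ)) f,
    gibbs_add_const]

end scaled

section final

variable {d : ℕ} {V : Eu d → ℝ} {G : Eu d → Eu d} {H : Eu d → Eu d →L[ℝ] Eu d}

theorem df_sqrt_s {s : ℝ} (hs1 : s ≤ 1 / 4) : √s ≤ 1 / 2 := by
  rw [Real.sqrt_le_left (by norm_num)]
  linarith only [hs1]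

theorem df_mom (hV : Pot V G H) {s τ : ℝ} (hs : 0 < s) (hs1 : s ≤ 1 / 4)
    {A : ℝ → Eu d × Eu d → Eu d} (hA : PFl (wS V s) 1 A) (hτ : τ ∈ IT) (y : Eu d) :
    Integrable (fun a => ‖df_c s τ A y a‖) (gam (Eu d)) ∧
      ∫ a, ‖df_c s τ A y a‖ ∂(gam (Eu d)) ≤ 2 * (‖y‖ + √d) := by
  have hw := heat_wS hV hs
  have h0 : (0 : ℝ) ≤ 2 * s := by positivity
  have h1 : 2 * s ≤ 1 := by linarith only [hs1]
  have hl : 0 < 1 - τ ^ 2 := by (refine lt_of_not_ge fun hng_ => ?_; linarith only [mul_nonneg (sub_nonneg.2 hng_) (sub_nonneg.2 hτ.2), mul_nonneg (sub_nonneg.2 hng_) hτ.1, mul_nonneg (sub_nonneg.2 hτ.2) (sub_nonneg.2 hτ.2), mul_nonneg hτ.1 (sub_nonneg.2 hτ.2)])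
  set Y := (√s)⁻¹ • y with hY
  have hs0 : 0 < √s := Real.sqrt_pos.2 hs
  have hs2 := df_sqrt_s hs1
  have hAd := nuU_adm hw h0 h1 hl Y
  have hP := hAd.isProb
  have hm : Measurable (fun a : Eu d => A τ (Y, a)) := (df_cont_a hA hτ Y).measurable
  have hlaw := hA.law Y τ hτ
  unfold nu at hlaw
  have j1 : Integrable (fun a : Eu d => ‖a‖) (gibbs (nuU (wS V s) 1 Y τ)) :=
    hAd.integrable PG.id.norm continuous_norm.aestronglyMeasurable
  have j2 : Integrable (fun a : Eu d => ‖a‖ ^ 2) (gibbs (nuU (wS V s) 1 Y τ)) :=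
    hAd.integrable (PG.id.norm.pow 2) (continuous_norm.pow 2).aestronglyMeasurable
  have i1 : Integrable (fun a : Eu d => ‖A τ (Y, a)‖) (gam (Eu d)) := by
    have := j1
    rw [← hlaw, integrable_map_measure (by rw [hlaw]; exact j1.aestronglyMeasurable)
      hm.aemeasurable] at this
    exact this
  have e1 : ∫ a, ‖A τ (Y, a)‖ ∂(gam (Eu d)) = ∫ a, ‖a‖ ∂(gibbs (nuU (wS V s) 1 Y τ)) := by
    rw [← hlaw, integral_map hm.aemeasurable (by rw [hlaw]; exact j1.aestronglyMeasurable)]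
  set M := ∫ a, ‖A τ (Y, a)‖ ∂(gam (Eu d)) with hM
  have hM0 : 0 ≤ M := integral_nonneg fun _ => norm_nonneg _
  have h2 : M ^ 2 ≤ d + τ ^ 2 * ‖Fv (wS V s) (1, Y)‖ ^ 2 := by
    have h3 := nu_sq hw h0 h1 hτ.1 hl Y
    have h4 := var_nonneg j1 j2
    unfold nu at h3
    rw [← e1] at h4
    linarith only [h4, h3]
  have hF := hw.norm_Fv h0 one_pos le_rfl Y
  have hYn : √s * ‖Y‖ = ‖y‖ := by
    rw [hY, norm_smul, norm_inv, Real.norm_of_nonneg hs0.le, ← mul_assoc,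
      mul_inv_cancel₀ hs0.ne', one_mul]
  have hd : √(d : ℝ) ^ 2 = d := Real.sq_sqrt (Nat.cast_nonneg d)
  have hM1 : M ≤ √d + τ * (2 * s * (‖Y‖ + √d)) := by
    refine le_of_sq_le_sq (h2.trans ?_) ?_
    · have h5 : (τ * ‖Fv (wS V s) (1, Y)‖) ^ 2 ≤ (τ * (2 * s * (‖Y‖ + √d))) ^ 2 :=
        pow_le_pow_left₀ (mul_nonneg hτ.1 (norm_nonneg _)) (mul_le_mul_of_nonneg_left hF hτ.1) 2
      have h6 : 0 ≤ √d * (τ * (2 * s * (‖Y‖ + √d))) :=
        mul_nonneg (Real.sqrt_nonneg _) (mul_nonneg hτ.1 (by positivity))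
      nlinarith only [hd, h5, h6]
    · exact add_nonneg (Real.sqrt_nonneg _) (mul_nonneg hτ.1 (by positivity))
  have h7 : ∀ a, ‖df_c s τ A y a‖ ≤ ‖y‖ + √s * τ * ‖A τ (Y, a)‖ := fun a => by
    rw [df_c_eq hs]
    refine (norm_add_le _ _).trans (le_of_eq ?_)
    rw [norm_smul, Real.norm_of_nonneg (mul_nonneg hs0.le hτ.1)]
  have hcm : Continuous (fun a => df_c s τ A y a) :=
    (df_c_cont (s := s) hA hτ).comp (by fun_prop : Continuous fun a : Eu d => (y, a))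
  have i2 : Integrable (fun a : Eu d => ‖y‖ + √s * τ * ‖A τ (Y, a)‖) (gam (Eu d)) :=
    (integrable_const _).add (i1.const_mul _)
  have i3 : Integrable (fun a => ‖df_c s τ A y a‖) (gam (Eu d)) :=
    i2.mono' hcm.norm.aestronglyMeasurable (Eventually.of_forall fun a => by
      rw [norm_norm]; exact h7 a)
  refine ⟨i3, (integral_mono i3 i2 h7).trans ?_⟩
  rw [integral_add (integrable_const _) (i1.const_mul _), integral_const, probReal_univ,
    one_smul, integral_const_mul, ← hM]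
  have h8 : √s * τ * M ≤ √s * τ * (√d + τ * (2 * s * (‖Y‖ + √d))) :=
    mul_le_mul_of_nonneg_left hM1 (mul_nonneg hs0.le hτ.1)
  have h9 : √s * τ * (√d + τ * (2 * s * (‖Y‖ + √d)))
      = τ ^ 2 * (2 * s) * (√s * ‖Y‖) + √s * τ * (1 + τ * (2 * s)) * √d := by ring
  rw [h9, hYn] at h8
  have h10 : τ ^ 2 * (2 * s) ≤ 1 := by
    have : τ ^ 2 ≤ 1 := by (refine le_of_not_gt fun hng_ => ?_; linarith only [mul_nonneg (le_of_lt (sub_pos.2 hng_)) (sub_nonneg.2 hτ.2), mul_nonneg (le_of_lt (sub_pos.2 hng_)) hτ.1, mul_nonneg (sub_nonneg.2 hτ.2) (sub_nonneg.2 hτ.2), mul_nonneg hτ.1 (sub_nonneg.2 hτ.2)])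
    calc τ ^ 2 * (2 * s) ≤ 1 * 1 := mul_le_mul this h1 h0 zero_le_one
      _ = 1 := one_mul 1
  have h11 : √s * τ * (1 + τ * (2 * s)) ≤ 2 := by
    have a1 : √s * τ ≤ 1 := by
      calc √s * τ ≤ 1 * 1 := mul_le_mul (by linarith only [hs2]) (by linarith only [hτ.2]) hτ.1 zero_le_one
        _ = 1 := one_mul 1
    have a2 : τ * (2 * s) ≤ 1 := by
      calc τ * (2 * s) ≤ 1 * 1 := mul_le_mul (by linarith only [hτ.2]) h1 h0 zero_le_one
        _ = 1 := one_mul 1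
    calc √s * τ * (1 + τ * (2 * s)) ≤ 1 * 2 := mul_le_mul a1 (by linarith only [a2])
          (by have := mul_nonneg hτ.1 h0; linarith only [this]) zero_le_one
      _ = 2 := one_mul 2
  have h12 := mul_le_mul_of_nonneg_right h10 (norm_nonneg y)
  have h13 := mul_le_mul_of_nonneg_right h11 (Real.sqrt_nonneg (d : ℝ))
  linarith only [h12, h8, h13]

theorem df_ok (hV : Pot V G H) {s : ℝ} (hs : 0 < s) (hs1 : s ≤ 1 / 4) (Y : Eu d) :
    (Dat.mk (wS V s) (2 * s) 1 0 Y).Ok where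
  heat := heat_wS hV hs
  κ0 := by show 0 < 2 * s; positivity
  κ1 := by show 2 * s ≤ 1; linarith only [hs1]
  l0a := by show (3 : ℝ) / 4 ≤ 1; norm_num
  l0b := le_refl (1 : ℝ)
  hlam := by show |(0 : ℝ)| * (2 * s) ≤ 2; simp

theorem df_res (hV : Pot V G H) {s θ : ℝ} (hs : 0 < s) (hs1 : s ≤ 1 / 4) (hθ : 0 < θ)
    (hθ1 : θ ≤ 1 / 16) {A : ℝ → Eu d × Eu d → Eu d} (hA : PFl (wS V s) 1 A) {p : ℕ}
    {cA : Fin p → Fin p → ℝ} {α β : Fin (p + 1) → ℝ} {K : ℝ} (hI : InterpData p cA α β K)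
    (y a : Eu d) (i : Fin p) :
    ‖df_c s (df_nt p (√θ) i) A y a - (y + (√s * df_nt p (√θ) i) • a
        + ∑ j, (-(s * df_nt p (√θ) i * √θ * cA i j)) •
          Fp V G (s * (1 - df_nt p (√θ) j ^ 2)) (df_c s (df_nt p (√θ) j) A y a))‖
      ≤ √s * √θ * (K * √θ ^ p * df_I p (wS V s) (2 * s) 1 (√θ) A ((√s)⁻¹ • y, a)) := by
  have hT : 0 < √θ := Real.sqrt_pos.2 hθ
  have hs0 : 0 < √s := Real.sqrt_pos.2 hs
  have hT1 : √θ ≤ 1 / 4 := by
    rw [Real.sqrt_le_left (by norm_num)]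
    linarith only [hθ1]
  set Y := (√s)⁻¹ • y with hY
  have h1 := df_node hA (df_ok hV hs hs1 Y) hI hT (by linarith only [hT1]) a i
  have hn0 := df_nt_nonneg (p := p) hT.le
  have hnT := df_nt_le (p := p) hT.le
  have e1 : ∀ j : Fin p, Fv (wS V s) (1 - df_nt p (√θ) j ^ 2,
      Y + df_nt p (√θ) j • A (df_nt p (√θ) j) (Y, a))
      = √s • Fp V G (s * (1 - df_nt p (√θ) j ^ 2)) (df_c s (df_nt p (√θ) j) A y a) := fun j => by
    rw [Fv_wS hV hs]
    · rfl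
    · show 0 < 1 - df_nt p (√θ) j ^ 2
      (refine lt_of_not_ge fun hng_ => ?_; linarith only [mul_nonneg (sub_nonneg.2 hng_) (hn0 j), mul_nonneg (sub_nonneg.2 hT1) (sub_nonneg.2 hng_), mul_nonneg (sub_nonneg.2 hng_) (sub_nonneg.2 (hnT j)), mul_nonneg (sub_nonneg.2 (hnT j)) (sub_nonneg.2 (hnT j)), mul_nonneg (sub_nonneg.2 hT1) (sub_nonneg.2 (hnT j)), mul_nonneg (sub_nonneg.2 hT1) (sub_nonneg.2 hT1), mul_nonneg (sub_nonneg.2 hT1) (hn0 j), mul_nonneg (hn0 j) (sub_nonneg.2 (hnT j))])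
  simp only [e1] at h1
  have e2 : df_c s (df_nt p (√θ) i) A y a - (y + (√s * df_nt p (√θ) i) • a
        + ∑ j, (-(s * df_nt p (√θ) i * √θ * cA i j)) •
          Fp V G (s * (1 - df_nt p (√θ) j ^ 2)) (df_c s (df_nt p (√θ) j) A y a))
      = (√s * df_nt p (√θ) i) • (A (df_nt p (√θ) i) (Y, a) - (a - √θ • ∑ j, cA i j •
          √s • Fp V G (s * (1 - df_nt p (√θ) j ^ 2)) (df_c s (df_nt p (√θ) j) A y a))) := by
    have e3 : ∑ j, (-(s * df_nt p (√θ) i * √θ * cA i j)) •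
          Fp V G (s * (1 - df_nt p (√θ) j ^ 2)) (df_c s (df_nt p (√θ) j) A y a)
        = -((√s * df_nt p (√θ) i) • √θ • ∑ j, cA i j •
          √s • Fp V G (s * (1 - df_nt p (√θ) j ^ 2)) (df_c s (df_nt p (√θ) j) A y a)) := by
      rw [Finset.smul_sum, Finset.smul_sum, ← Finset.sum_neg_distrib]
      refine Finset.sum_congr rfl fun j _ => ?_
      rw [smul_smul, smul_smul, smul_smul, ← neg_smul]
      congr 1
      nth_rewrite 1 [← Real.mul_self_sqrt hs.le]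
      ring
    rw [e3, df_c_eq hs (df_nt p (√θ) i) A y a, ← hY, smul_sub, smul_sub]
    abel
  rw [e2, norm_smul, Real.norm_of_nonneg (mul_nonneg hs0.le (hn0 i))]
  exact mul_le_mul (mul_le_mul_of_nonneg_left (hnT i) hs0.le) h1 (norm_nonneg _)
    (by positivity)

end final

theorem down : DownStatement := by
  intro p hp
  obtain ⟨cA, α, β, K, hI⟩ := exists_interpData p hp
  obtain ⟨q, rfl⟩ : ∃ q, p = q + 1 := ⟨p - 1, by omega⟩
  obtain ⟨C1, hC1, hL1⟩ := PFl.path_L1 q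
  have hK := hI.K0
  refine ⟨1 + K + K * C1, by (refine le_of_not_gt fun hng_ => ?_; linarith only [mul_nonneg (le_of_lt (sub_pos.2 hng_)) (mul_nonneg hK hC1), mul_nonneg hK (le_of_lt (sub_pos.2 hng_)), mul_pos (sub_pos.2 hng_) (sub_pos.2 hng_)]), fun s θ hs hs1 hθ hθp => ?_⟩
  have hp0 : 0 < q + 1 := Nat.succ_pos q
  have hθ1 : θ ≤ 1 / 16 := by
    refine hθp.trans ?_
    have h2 : (2 : ℝ) ≤ ((q + 1 : ℕ) : ℝ) := by exact_mod_cast hp
    rw [div_le_div_iff₀ (by positivity) (by norm_num)]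
    linarith only [h2]
  have hT : 0 < √θ := Real.sqrt_pos.2 hθ
  have hs0 : 0 < √s := Real.sqrt_pos.2 hs
  have hs2 := df_sqrt_s hs1
  have hT2 : √θ ^ 2 = θ := Real.sq_sqrt hθ.le
  have hT1 : √θ ≤ 1 / 4 := by
    rw [Real.sqrt_le_left (by norm_num)]
    linarith only [hθ1]
  have hTI : √θ ∈ IT := ⟨hT.le, by linarith only [hT1]⟩
  have hnI : ∀ i : Fin (q + 1), df_nt (q + 1) (√θ) i ∈ IT := fun i =>
    ⟨df_nt_nonneg hT.le i, (df_nt_le hT.le i).trans (by linarith only [hT1])⟩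
  refine ⟨df_net (q + 1) hp0 cA s θ, df_good hp0 hI.A_le
    (by (refine le_of_not_gt fun hng_ => ?_; linarith only [mul_nonneg (le_of_lt (sub_pos.2 hng_)) (mul_nonneg hK hC1), mul_pos hs0 (sub_pos.2 hng_), mul_nonneg (sub_nonneg.2 hs2) (le_of_lt (sub_pos.2 hng_)), mul_pos (sub_pos.2 hng_) (sub_pos.2 hng_)])) hs hθ, fun d V G H hV hd => ?_⟩
  have hw := heat_wS hV hs
  have hκ0 : 0 < 2 * s := by positivity
  have hκ1 : 2 * s ≤ 1 := by linarith only [hs1]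
  obtain ⟨A, hA⟩ := exists_PFl hw hκ0 hκ1 (l0 := 1) (by norm_num) le_rfl
  obtain ⟨hmeas, hint⟩ := hL1 d (wS V s) (2 * s) 1 A hw hκ0 hκ1 (by norm_num) le_rfl hA (√θ) hT
    (by linarith only [hT1])
  have hcc : Continuous (fun z : Eu d × Eu d => df_c s (√θ) A z.1 z.2) := df_c_cont hA hTI
  refine ⟨df_c s (√θ) A, hcc, fun y y' a => ?_, ?_, fun y => ?_⟩
  · -- contraction
    have hF : ∀ l ∈ Lev, ∀ x y, (3 / 4 * s) * ‖x - y‖ ^ 2
        ≤ inner ℝ (Fv (wS V s) (l, x) - Fv (wS V s) (l, y)) (x - y) := by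
      intro l hl x y
      have hl0 : 0 < l := lt_of_lt_of_le (by norm_num) hl.1
      have h1 := Fp_strong hV (s := s * l) (by positivity)
        (by (refine le_of_not_gt fun hng_ => ?_; linarith only [mul_pos hθ (sub_pos.2 hng_), mul_nonneg (sub_nonneg.2 hθ1) (le_of_lt (sub_pos.2 hng_)), mul_nonneg (sub_nonneg.2 hl.2) (sub_nonneg.2 hl.2), mul_nonneg (sub_nonneg.2 hs1) (le_of_lt hl0), mul_nonneg (le_of_lt hl0) (sub_nonneg.2 hl.2)])) (√s • x) (√s • y)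
      rw [Fv_wS hV hs (p := (l, x)) hl0, Fv_wS hV hs (p := (l, y)) hl0]
      simp only
      rw [← smul_sub, norm_smul, mul_pow, Real.norm_of_nonneg hs0.le, Real.sq_sqrt hs.le,
        inner_smul_right] at h1
      rw [← smul_sub, real_inner_smul_left]
      linarith only [h1]
    have h2 := PFl.contract hw hκ0 hκ1 (by norm_num) le_rfl hA (m := 3 / 4 * s)
      (by linarith only []) hF hTI (by rw [hT2]; (refine le_of_not_gt fun hng_ => ?_; linarith only [mul_pos hT (sub_pos.2 hng_), mul_nonneg (sub_nonneg.2 hT1) (le_of_lt (sub_pos.2 hng_)), mul_nonneg (sub_nonneg.2 hκ1) (sub_nonneg.2 hκ1), mul_nonneg (sub_nonneg.2 hθ1) (le_of_lt hκ0), mul_nonneg (le_of_lt hκ0) (sub_nonneg.2 hκ1)])) ((√s)⁻¹ • y) ((√s)⁻¹ • y') a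
    rw [hT2] at h2
    have h3 : df_c s (√θ) A y a - df_c s (√θ) A y' a
        = √s • (((√s)⁻¹ • y + √θ • A (√θ) ((√s)⁻¹ • y, a))
          - ((√s)⁻¹ • y' + √θ • A (√θ) ((√s)⁻¹ • y', a))) := by
      unfold df_c
      rw [smul_sub]
    rw [h3, norm_smul, Real.norm_of_nonneg hs0.le]
    have h4 : ‖(√s)⁻¹ • y - (√s)⁻¹ • y'‖ = (√s)⁻¹ * ‖y - y'‖ := by
      rw [← smul_sub, norm_smul, norm_inv, Real.norm_of_nonneg hs0.le]
    rw [h4] at h2
    calc √s * ‖((√s)⁻¹ • y + √θ • A (√θ) ((√s)⁻¹ • y, a))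
          - ((√s)⁻¹ • y' + √θ • A (√θ) ((√s)⁻¹ • y', a))‖
        ≤ √s * ((1 - 3 / 4 * s * θ / 2) * ((√s)⁻¹ * ‖y - y'‖)) :=
          mul_le_mul_of_nonneg_left h2 hs0.le
      _ = (1 - 3 / 4 * s * θ / 2) * ‖y - y'‖ := by
          field_simp
      _ ≤ (1 - θ * s / 4) * ‖y - y'‖ := by
          refine mul_le_mul_of_nonneg_right ?_ (norm_nonneg _)
          (refine le_of_not_gt fun hng_ => ?_; linarith only [mul_pos (sub_pos.2 hng_) (mul_pos hs hθ), mul_pos (mul_pos hs hθ) (mul_pos hs hθ)])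
  · -- law
    have hWs := Wp_adm hV hs
    have hs' : 0 < (1 - θ) * s := by
      have : 0 < 1 - θ := by linarith only [hθ1]
      positivity
    have hlt : (1 - θ) * s < s := by (refine lt_of_not_ge fun hng_ => ?_; linarith only [mul_nonneg (sub_nonneg.2 hκ1) (sub_nonneg.2 hng_), mul_nonneg (sub_nonneg.2 hθ1) (sub_nonneg.2 hng_), mul_nonneg (le_of_lt hκ0) (sub_nonneg.2 hng_), mul_pos hθ hs'])
    have hWs' := Wp_adm hV hs'
    have i1 := hWs.isProb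
    have i2 := hWs'.isProb
    have i3 : IsProbabilityMeasure (((gibbs (Wp V s)).prod (gam (Eu d))).map
        (fun z => df_c s (√θ) A z.1 z.2)) :=
      Measure.isProbabilityMeasure_map hcc.measurable.aemeasurable
    refine Measure.ext fun B hB => ?_
    rw [← measureReal_eq_measureReal_iff]
    have hmB : Measurable (B.indicator fun _ : Eu d => (1 : ℝ)) := measurable_const.indicator hB
    have hbB : ∀ x : Eu d, |B.indicator (fun _ : Eu d => (1 : ℝ)) x| ≤ 1 := fun x => by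
      by_cases hx : x ∈ B
      · rw [indicator_of_mem hx]; simp
      · rw [indicator_of_notMem hx]; simp
    have e1 : ((((gibbs (Wp V s)).prod (gam (Eu d))).map
        (fun z => df_c s (√θ) A z.1 z.2))).real B
        = ∫ y, ∫ a, B.indicator (fun _ : Eu d => (1 : ℝ)) (df_c s (√θ) A y a) ∂(gam (Eu d))
          ∂(gibbs (Wp V s)) := by
      have h5 := integral_indicator_const (μ := (((gibbs (Wp V s)).prod (gam (Eu d))).map
        (fun z => df_c s (√θ) A z.1 z.2))) (1 : ℝ) hB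
      rw [smul_eq_mul, mul_one] at h5
      rw [← h5, integral_map hcc.measurable.aemeasurable hmB.aestronglyMeasurable]
      exact integral_prod _ (Integrable.of_bound (hmB.comp hcc.measurable).aestronglyMeasurable 1
        (Eventually.of_forall fun z => hbB _))
    have e2 : (gibbs (Wp V ((1 - θ) * s))).real B
        = ∫ x, B.indicator (fun _ : Eu d => (1 : ℝ)) x ∂(gibbs (Wp V ((1 - θ) * s))) := by
      rw [integral_indicator_const _ hB, smul_eq_mul, mul_one]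
    rw [e1, e2, ← mix_law hV hs' hlt hmB ⟨1, hbB⟩]
    congr 1
    funext y
    exact df_law hs hθ hθ1 hA y hmB
  · -- nodes
    set Y := (√s)⁻¹ • y with hY
    obtain ⟨hi1, hi2⟩ := hint Y
    have hmI : Measurable (fun a : Eu d => df_I (q + 1) (wS V s) (2 * s) 1 (√θ) A (Y, a)) :=
      hmeas.comp (by fun_prop : Measurable fun a : Eu d => (Y, a))
    have hlast := df_nt_last hp0 (√θ)
    refine ⟨fun i a => df_c s (df_nt (q + 1) (√θ) i) A y a,
      fun a => √s * √θ * (K * √θ ^ (q + 1) * df_I (q + 1) (wS V s) (2 * s) 1 (√θ) A (Y, a)),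
      fun i => ?_, ?_, fun a => ?_, fun i a => ?_, fun a => ?_, ?_, ?_, fun i => ?_, fun i => ?_⟩
    · exact ((df_c_cont (s := s) hA (hnI i)).comp
        (by fun_prop : Continuous fun a : Eu d => (y, a))).measurable
    · exact (hmI.const_mul _).const_mul _
    · have := df_I_nonneg (q + 1) (wS V s) (2 * s) 1 hT.le A (Y, a)
      positivity
    · exact df_res hV hs hs1 hθ hθ1 hA hI y a i
    · have h1 := df_res hV hs hs1 hθ hθ1 hA hI y a ⟨q + 1 - 1, Nat.sub_lt hp0 one_pos⟩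
      rw [hlast] at h1
      rw [Real.sqrt_mul hθ.le, mul_comm (√θ) (√s)]
      exact h1
    · exact (hi1.const_mul _).const_mul _
    · rw [integral_const_mul, integral_const_mul]
      have hi2' : ∫ a, df_I (q + 1) (wS V s) (2 * s) 1 (√θ) A (Y, a) ∂(gam (Eu d))
          ≤ C1 * (2 * s) * √θ * √d := hi2
      calc √s * √θ * (K * √θ ^ (q + 1) *
            ∫ a, df_I (q + 1) (wS V s) (2 * s) 1 (√θ) A (Y, a) ∂(gam (Eu d)))
          ≤ 1 * 1 * (K * √θ ^ (q + 1) * (C1 * 1 * 1 * √d)) := by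
            refine mul_le_mul (mul_le_mul (by linarith only [hs2]) (by linarith only [hT1]) hT.le zero_le_one) ?_ ?_
              (by norm_num)
            · refine mul_le_mul_of_nonneg_left (hi2'.trans ?_) (by positivity)
              refine mul_le_mul_of_nonneg_right ?_ (Real.sqrt_nonneg _)
              exact mul_le_mul (mul_le_mul_of_nonneg_left hκ1 hC1) (by linarith only [hT1]) hT.le
                (by linarith only [hC1])
            · refine mul_nonneg (by positivity) (integral_nonneg fun a => ?_)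
              exact df_I_nonneg (q + 1) (wS V s) (2 * s) 1 hT.le A (Y, a)
        _ = K * C1 * √θ ^ (q + 1) * √d := by ring
        _ ≤ (1 + K + K * C1) * √θ ^ (q + 1) * √d := by
            refine mul_le_mul_of_nonneg_right ?_ (Real.sqrt_nonneg _)
            refine mul_le_mul_of_nonneg_right ?_ (by positivity)
            linarith only [hK]
    · exact (df_mom hV hs hs1 hA (hnI i) y).1
    · exact (df_mom hV hs hs1 hA (hnI i) y).2

end Vale.Agent.P347.Z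
end
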