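import Vale.Agent.P347.MathlibUsed
import Vale.Agent.P347.Bdl.B5
import Vale.Agent.P347.Bdl.B3
import Vale.Agent.P347.Bdl.B6
import Vale.Agent.P347.Bdl.B1
import Vale.Agent.P347.Bdl.B2
import Vale.Agent.P347.Bdl.B4

set_option linter.all false

section

/-! Proof of `Kop_chi` and `stage1_noise` (task J, P347). -/

open MeasureTheory Filter Module Set
open scoped ENNReal NNReal

namespace Vale.Agent.P347

variable {E : Type*} [NormedAddCommGroup E] [InnerProductSpace ℝ E] [FiniteDimensional ℝ E]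
  [MeasurableSpace E] [BorelSpace E]

omit [InnerProductSpace ℝ E] [FiniteDimensional ℝ E] [MeasurableSpace E] [BorelSpace E] in
theorem lip_cont {G : E → E} (hG : ∀ x y, ‖G x - G y‖ ≤ 2 * ‖x - y‖) : Continuous G := by
  have : LipschitzWith (Real.toNNReal 2) G :=
    LipschitzWith.of_dist_le_mul fun x y => by
      rw [dist_eq_norm, dist_eq_norm, Real.coe_toNNReal _ (by positivity)]
      exact hG x y
  exact this.continuous

/-- the random position -/
noncomputable def alY (G : E → E) (s h : ℝ) (z : E × E) (ω : E × E × E) : E :=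
  upY h z.1 z.2 (G (ev G s z.1 ω.1)) (G (ev G s (z.1 + (h / 2) • z.2) ω.2.1))
    (G (ev G s (z.1 + h • z.2) ω.2.2))

/-! ### Markov operators on bounded measurable functions -/

theorem BM.const {S : Type*} [MeasurableSpace S] (a : ℝ) : BM fun _ : S => a :=
  ⟨measurable_const, |a|, fun _ => le_rfl⟩

theorem BM.affine {S : Type*} [MeasurableSpace S] {f : S → ℝ} (hf : BM f) (a t : ℝ) :
    BM fun z => a + t * f z := by
  obtain ⟨mf, C, hC⟩ := hf
  refine ⟨(mf.const_mul t).const_add a, |a| + |t| * C, fun x => (abs_add_le _ _).trans ?_⟩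
  rw [abs_mul]
  have := mul_le_mul_of_nonneg_left (hC x) (abs_nonneg t)
  linarith

theorem BM.sq {S : Type*} [MeasurableSpace S] {f : S → ℝ} (hf : BM f) :
    BM fun z => f z ^ 2 := by
  obtain ⟨mf, C, hC⟩ := hf
  refine ⟨mf.pow_const 2, C ^ 2, fun x => ?_⟩
  rw [abs_pow]
  exact pow_le_pow_left₀ (abs_nonneg _) (hC x) 2

theorem BM.integrable {S : Type*} [MeasurableSpace S] {f : S → ℝ} (hf : BM f) (μ : Measure S)
    [IsFiniteMeasure μ] : Integrable f μ := by
  obtain ⟨mf, C, hC⟩ := hf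
  exact Integrable.of_bound mf.aestronglyMeasurable C (Eventually.of_forall hC)

/-- Markov operators on bounded measurable functions. -/
structure MkOp {S : Type*} [MeasurableSpace S] (K : (S → ℝ) → S → ℝ) : Prop where
  bm : ∀ f, BM f → BM (K f)
  lin : ∀ f, BM f → ∀ a t : ℝ, K (fun z => a + t * f z) = fun z => a + t * K f z
  mono : ∀ f g, BM f → BM g → (∀ z, f z ≤ g z) → ∀ z, K f z ≤ K g z

theorem MkOp.iter {S : Type*} [MeasurableSpace S] {K : (S → ℝ) → S → ℝ} (hK : MkOp K) (N : ℕ) :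
    MkOp (K^[N]) := by
  induction N with
  | zero => exact ⟨fun f hf => hf, fun f hf a t => rfl, fun f g _ _ h => h⟩
  | succ N ih =>
    refine ⟨fun f hf => ?_, fun f hf a t => ?_, fun f g hf hg h => ?_⟩
    · rw [Function.iterate_succ_apply']
      exact hK.bm _ (ih.bm f hf)
    · rw [Function.iterate_succ_apply', Function.iterate_succ_apply', ih.lin f hf,
        hK.lin _ (ih.bm f hf)]
    · rw [Function.iterate_succ_apply', Function.iterate_succ_apply']
      exact hK.mono _ _ (ih.bm f hf) (ih.bm g hg) (ih.mono f g hf hg h)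

theorem MkOp.const {S : Type*} [MeasurableSpace S] {K : (S → ℝ) → S → ℝ} (hK : MkOp K) (a : ℝ)
    (z : S) : K (fun _ => a) z = a := by
  have h := congrFun (hK.lin (fun _ => 0) (BM.const 0) a 0) z
  simpa using h

theorem MkOp.range {S : Type*} [MeasurableSpace S] {K : (S → ℝ) → S → ℝ} (hK : MkOp K)
    {f : S → ℝ} (hf : BM f) (bf : ∀ z, 0 ≤ f z ∧ f z ≤ 1) (z : S) : 0 ≤ K f z ∧ K f z ≤ 1 := by
  constructor
  · have := hK.mono _ _ (BM.const 0) hf (fun z => (bf z).1) z
    rwa [hK.const] at this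
  · have := hK.mono _ _ hf (BM.const 1) (fun z => (bf z).2) z
    rwa [hK.const] at this

/-- A general source of Markov operators. -/
theorem MkOp.of_kernel {S Ω : Type*} [MeasurableSpace S] [MeasurableSpace Ω] {ν : Measure Ω}
    [IsProbabilityMeasure ν] {step : S → Ω → S} (hstep : ∀ z, Measurable (step z))
    {K : (S → ℝ) → S → ℝ} (hK : ∀ f z, K f z = ∫ w, f (step z w) ∂ν)
    (hbm : ∀ f, BM f → BM (K f)) : MkOp K := by
  have hb : ∀ f, BM f → ∀ z, BM fun w => f (step z w) := fun f hf z => by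
    obtain ⟨mf, C, hC⟩ := hf
    exact ⟨mf.comp (hstep z), C, fun w => hC _⟩
  refine ⟨hbm, fun f hf a t => ?_, fun f g hf hg h z => ?_⟩
  · funext z
    rw [hK, hK, integral_add (integrable_const _) (((hb f hf z).integrable ν).const_mul t),
      integral_const_mul]
    simp
  · rw [hK, hK]
    exact integral_mono ((hb f hf z).integrable ν) ((hb g hg z).integrable ν) fun w => h _

theorem sq_integral_le {S : Type*} [MeasurableSpace S] {μ : Measure S} [IsProbabilityMeasure μ]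
    {f : S → ℝ} (hf : BM f) : (∫ z, f z ∂μ) ^ 2 ≤ ∫ z, f z ^ 2 ∂μ := by
  set m := ∫ z, f z ∂μ with hm
  have h1 : 0 ≤ ∫ z, (f z - m) ^ 2 ∂μ := integral_nonneg fun z => sq_nonneg _
  have h2 : ∫ z, (f z - m) ^ 2 ∂μ = ∫ z, f z ^ 2 ∂μ - m ^ 2 := by
    have e : ∀ z, (f z - m) ^ 2 = f z ^ 2 - (2 * m * f z - m ^ 2) := fun z => by ring
    simp_rw [e]
    have i1 : Integrable (fun z => 2 * m * f z) μ := (hf.integrable μ).const_mul (2 * m)
    have i2 : Integrable (fun z => 2 * m * f z - m ^ 2) μ := i1.sub (integrable_const _)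
    rw [integral_sub (hf.sq.integrable μ) i2, integral_sub i1 (integrable_const _),
      integral_const_mul, ← hm]
    simp only [integral_const, probReal_univ, smul_eq_mul, one_mul, sub_right_inj]
    ring
  linarith only [h1, h2]

theorem muPh_isProb {V : E → ℝ} {G : E → E} {H : E → E →L[ℝ] E} (hV : Pot V G H) {s : ℝ}
    (hs : 0 < s) : IsProbabilityMeasure (muPh V s) := by
  have : IsProbabilityMeasure (gibbs (Wp V s)) := (Wp_adm hV hs).isProb
  unfold muPh
  infer_instance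

end Vale.Agent.P347
end

section

/-! Task J (P347): effect of the gradient noise, in dual chi-square form. Task K: contraction. -/

open MeasureTheory Filter Module Set
open scoped ENNReal NNReal

namespace Vale.Agent.P347

variable {E : Type*} [NormedAddCommGroup E] [InnerProductSpace ℝ E] [FiniteDimensional ℝ E]
  [MeasurableSpace E] [BorelSpace E]

/-- Lyapunov function. -/
noncomputable def Phi (z : E × E) : ℝ :=
  ‖z.1‖ ^ 2 + (1 / 4) * inner ℝ z.1 z.2 + (1 / 2) * ‖z.2‖ ^ 2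

omit [FiniteDimensional ℝ E] [MeasurableSpace E] [BorelSpace E] in
theorem half_le_Phi (z : E × E) : ‖z.1‖ ^ 2 ≤ 2 * Phi z := by
  unfold Phi
  have h1 := (abs_le.1 (abs_real_inner_le_norm z.1 z.2)).1
  nlinarith only [h1]

omit [FiniteDimensional ℝ E] [MeasurableSpace E] [BorelSpace E] in
theorem Phi_le (z : E × E) : Phi z ≤ 2 * ‖z.1‖ ^ 2 + 2 * ‖z.2‖ ^ 2 := by
  unfold Phi
  have h1 := (abs_le.1 (abs_real_inner_le_norm z.1 z.2)).2
  nlinarith only [h1]

end Vale.Agent.P347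
end

section

/-! Task I for the general-node scheme (P347, exponent 1/5): the ideal chain `Pop` versus the
averaged numerical chain `Kb5`. -/

open MeasureTheory Filter Module Set
open scoped ENNReal NNReal

namespace Vale.Agent.P347

variable {E : Type*} [NormedAddCommGroup E] [InnerProductSpace ℝ E] [FiniteDimensional ℝ E]
  [MeasurableSpace E] [BorelSpace E]

/-- Data: the force along the flow has `m` time derivatives, the last one with second moment at
most `A`. -/
structure FD (V : E → ℝ) (G : E → E) (s : ℝ) (Y P : ℝ → E × E → E) (m : ℕ) (A : ℝ)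
    (D : ℕ → E × E → E) : Prop where
  zero : ∀ z, D 0 z = Fp V G s z.1
  cont : ∀ k ≤ m, Continuous (D k)
  der : ∀ k < m, ∀ z, ∀ t ∈ Ioo (-(1 / 4) : ℝ) (1 / 4),
    HasDerivAt (fun t => D k (Y t z, P t z)) (D (k + 1) (Y t z, P t z)) t
  int : Integrable (fun z => ‖D m z‖ ^ 2) (muPh V s)
  bd : ∫ z, ‖D m z‖ ^ 2 ∂(muPh V s) ≤ A

theorem K5_bm {V : E → ℝ} {G : E → E} {H : E → E →L[ℝ] E} (hV : Pot V G H) {s h : ℝ} {J : ℕ}
    {c w : Fin J → ℝ} {f : E × E → ℝ} (hf : BM f) : BM (K5 G s h c w f) :=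
  K5_bm' (oneaux_contG hV) hf

theorem Kb5_bm {V : E → ℝ} {G : E → E} {H : E → E →L[ℝ] E} (hV : Pot V G H) {s h : ℝ} {J : ℕ}
    {c w : Fin J → ℝ} {f : E × E → ℝ} (hf : BM f) : BM (Kb5 G s h c w f) :=
  Kb5_bm' (oneaux_contG hV) hf

/-- The fully averaged gradient at the node `a` against the force on the exact trajectory. -/
theorem mg_err {V : E → ℝ} {G : E → E} {H : E → E →L[ℝ] E} (hV : Pot V G H) {s h : ℝ}
    (hs : 0 < s) (hs1 : s ≤ 1 / 8) (hh : 0 < h) (hh1 : h ≤ 1 / 8) {Y P : ℝ → E × E → E}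
    (hF : HamFlow (Fp V G s) Y P) {a : ℝ} (ha : 0 ≤ a) (ha1 : a ≤ 1) :
    ∃ r : E × E → ℝ, Integrable r (muPh V s) ∧
      (∀ z, ‖Fp V G s (Y (a * h) z) - mg G s h a z‖ ^ 2 ≤ r z) ∧
      ∫ z, r z ∂(muPh V s) ≤ 100000 * (finrank ℝ E : ℝ) * (s ^ 3 + h ^ 6) :=
  mg_err' hV hs hs1 hh hh1 hF ha ha1

/-- One-step comparison in dual relative entropy, with integrated error. -/
theorem onestep5_dv {V : E → ℝ} {G : E → E} {H : E → E →L[ℝ] E} (hV : Pot V G H) {s h : ℝ}
    (hs : 0 < s) (hs1 : s ≤ 1 / 8) (hh : 0 < h) (hh1 : h ≤ 1 / 8) {Y P : ℝ → E × E → E}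
    (hF : HamFlow (Fp V G s) Y P) {m J : ℕ} (hm : 0 < m) {c w : Fin J → ℝ} (hq : QN m c w)
    {A : ℝ} {D : ℕ → E × E → E} (hD : FD V G s Y P m A D) :
    ∃ k : E × E → ℝ, Integrable k (muPh V s) ∧
      (∫ z, k z ∂(muPh V s)
        ≤ 10000000 * h * (h ^ (2 * m) * A + (finrank ℝ E : ℝ) * (s ^ 3 + h ^ 5))) ∧
      ∀ f : E × E → ℝ, BM f → ∀ z,
        Pop (Wp V s) h Y P f z ≤ k z + Real.log (Kb5 G s h c w (fun z => Real.exp (f z)) z) := by
  have hW := Wp_cpot hV hs
  have ha := Wp_adm hV hs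
  have hpW := W_prob hV hs
  have hFc := hW.contF
  have hw := hq.w0
  have hw1 : ∑ j, w j = 1 := by
    have := hq.mom 0 (Nat.zero_le m)
    simpa only [pow_zero, mul_one, CharP.cast_eq_zero, zero_add, ne_eq, one_ne_zero, not_false_eq_true,     div_self] using this
  choose r ri rp rb using fun j => mg_err hV hs hs1 hh hh1 hF (hq.c0 j) (hq.c1 j)
  obtain ⟨r1, r1i, r1p, r1b⟩ := mg_err hV hs hs1 hh hh1 hF (zero_le_one (α := ℝ)) le_rfl
  simp only [one_mul] at r1p
  set n : ℝ := (finrank ℝ E : ℝ) with hn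
  have hn0 : 0 ≤ n := Nat.cast_nonneg _
  set R : ℝ := 100000 * n * (s ^ 3 + h ^ 6) with hR
  have hmu : muPh V s = (gibbs (Wp V s)).prod (gam E) := rfl
  have hp : IsProbabilityMeasure (muPh V s) := by rw [hmu]; infer_instance
  have hth' : h ∈ Icc 0 h := ⟨by linarith only [hh], le_rfl⟩
  -- basic quantities
  have b2 : Integrable (fun y : E => ‖Fp V G s y‖ ^ 2) (gibbs (Wp V s)) :=
    ha.integrable ((PG.of_lip hW.lip).norm.pow 2) (hFc.norm.pow 2).aestronglyMeasurable
  have c2 : Integrable (fun z : E × E => ‖Fp V G s z.1‖ ^ 2) (muPh V s) := b2.comp_fst _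
  have v2 : ∫ z : E × E, ‖Fp V G s z.1‖ ^ 2 ∂(muPh V s) ≤ 4 * n := by
    rw [hmu, integral_fun_fst (fun y : E => ‖Fp V G s y‖ ^ 2), probReal_univ, one_smul]
    exact moment_F hV hs
  have hA : 0 ≤ A := (integral_nonneg fun z => sq_nonneg ‖D m z‖).trans hD.bd
  obtain ⟨d3, w3⟩ := flow_int hW ha hF hh1 hth' c2
  obtain ⟨d5, w5⟩ := time_avg hW ha hF hh hh1 (φ := fun z : E × E => ‖D m z‖ ^ 2)
    ((hD.cont m le_rfl).norm.pow 2) (fun z => sq_nonneg _) hD.int
  rw [← hmu] at d3 w3 d5 w5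
  set Jm : E × E → ℝ := fun z => ∫ t in (0 : ℝ)..h, ‖D m (Y t z, P t z)‖ ^ 2 with hJm
  set Sr : E × E → ℝ := fun z => ∑ j, w j * r j z with hSr
  have Si : Integrable Sr (muPh V s) := integrable_finsetSum _ fun j _ => (ri j).const_mul (w j)
  have Sb : ∫ z, Sr z ∂(muPh V s) ≤ R := by
    have e1 : ∫ z, Sr z ∂(muPh V s) = ∑ j, w j * ∫ z, r j z ∂(muPh V s) := by
      rw [hSr, integral_finsetSum _ fun j _ => (ri j).const_mul (w j)]
      simp only [integral_const_mul]
    rw [e1]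
    calc ∑ j, w j * ∫ z, r j z ∂(muPh V s) ≤ ∑ j, w j * R :=
          Finset.sum_le_sum fun j _ => mul_le_mul_of_nonneg_left (rb j) (hw j)
      _ = R := by rw [← Finset.sum_mul, hw1, one_mul]
  have i0 : Integrable (fun _ : E × E => 100 * (h ^ 6 * n + h ^ 9 * (8 * h ^ 3 * n) +
    h ^ 3 * (8 * h ^ 3 * n))) (muPh V s) := integrable_const _
  have i1 := i0.add (d5.const_mul (36 / 7 * h ^ (2 * m)))
  have i2 := i1.add (Si.const_mul (9 / 7 * h))
  have i3 := i2.add (r1i.const_mul (200 * h ^ 9 + 200 * h ^ 3))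
  have i4 := i3.add (d3.const_mul (400 * h ^ 9))
  refine ⟨_, i4, ?_, ?_⟩
  · simp only [Pi.add_apply]
    rw [integral_add (by exact i3) (d3.const_mul _), integral_add (by exact i2)
      (r1i.const_mul _), integral_add (by exact i1) (Si.const_mul _),
      integral_add i0 (d5.const_mul _), integral_const, probReal_univ, one_smul,
      integral_const_mul, integral_const_mul, integral_const_mul, integral_const_mul, w3, w5]
    refine le_trans ?_ (onestep5_num m hn0 hA hs hh hh1 hR)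
    have hbd := hD.bd
    (clear hs1 hh1 hF hm hW ha hFc rp r1i r1p hn hn0 hR hth' b2 c2 hA d3 w3 Jm d5 w5 hJm Si i0 i1 i2 i3 i4; gcongr)
  · intro f hf z
    obtain ⟨hm', C, hC⟩ := hf
    have h3 : 0 < h ^ 3 := by positivity
    have h3' : h ^ 3 ≤ 1 / 8 := by
      have := pow_le_pow_left₀ hh.le hh1 3
      norm_num at this ⊢
      linarith only [this]
    have hsg : 0 < sg2 h := by unfold sg2; nlinarith only [hh, hh1]
    set g : Fin J → E := fun j => mg G s h (c j) z with hg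
    set ge := mg G s h 1 z with hge
    have main := step_dv hW ha h3 h3' hsg (Y h z) (upY5 h c w z.1 z.2 g ge + h ^ 3 • ge) ge
      ((1 - 2 * h) • P h z) (upP5 h w z.2 g) hm' hC
    rw [add_sub_cancel_right] at main
    -- quadrature along the trajectory
    have hsub := fun t (ht : t ∈ Icc 0 h) => HamFlow.sub_Ioo hh1 ht
    have hcm : ContinuousOn (fun t => D m (Y t z, P t z)) (Icc 0 h) :=
      (hD.cont m le_rfl).comp_continuousOn ((hF.contYt hh1 z).prodMk (hF.contPt hh1 z))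
    obtain ⟨q1, q2⟩ := quad_err hq (f := fun k t => D k (Y t z, P t z)) hh hm
      (fun k hk t ht => hD.der k hk z t (hsub t ht)) hcm
    simp only [hD.zero] at q1 q2
    have hJJ := oneaux_sq_integral_le hh hcm.norm
    have hI0 : 0 ≤ ∫ t in (0 : ℝ)..h, ‖D m (Y t z, P t z)‖ :=
      intervalIntegral.integral_nonneg hh.le fun t _ => norm_nonneg _
    have Q1 := pow_le_pow_left₀ (norm_nonneg _) q1 2
    have Q2 := pow_le_pow_left₀ (norm_nonneg _) q2 2
    have Q1' : (2 * h ^ m * ∫ t in (0 : ℝ)..h, ‖D m (Y t z, P t z)‖) ^ 2 ≤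
        4 * h ^ (2 * m) * (h * Jm z) := by
      calc (2 * h ^ m * ∫ t in (0 : ℝ)..h, ‖D m (Y t z, P t z)‖) ^ 2
          = 4 * h ^ (2 * m) * (∫ t in (0 : ℝ)..h, ‖D m (Y t z, P t z)‖) ^ 2 := by
            rw [mul_pow, mul_pow, ← pow_mul, mul_comm m 2]; norm_num
        _ ≤ 4 * h ^ (2 * m) * (h * Jm z) := mul_le_mul_of_nonneg_left hJJ (by positivity)
    have Q2' : (2 * h ^ (m + 1) * ∫ t in (0 : ℝ)..h, ‖D m (Y t z, P t z)‖) ^ 2 ≤
        4 * h ^ (2 * m) * h ^ 2 * (h * Jm z) := by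
      calc (2 * h ^ (m + 1) * ∫ t in (0 : ℝ)..h, ‖D m (Y t z, P t z)‖) ^ 2
          = 4 * h ^ (2 * m) * h ^ 2 * (∫ t in (0 : ℝ)..h, ‖D m (Y t z, P t z)‖) ^ 2 := by ring
        _ ≤ 4 * h ^ (2 * m) * h ^ 2 * (h * Jm z) :=
          mul_le_mul_of_nonneg_left hJJ (by positivity)
    have eP := P5_err hh hh1 hw hw1 (p := z.2) (g := g) (Q1.trans Q1') (r := fun j => r j z)
      (fun j => rp j z)
    have eY := Y5_err hh hw hw1 hq.c0 hq.c1 (y := z.1) (p := z.2) (ge := ge) (g := g)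
      (Q2.trans Q2') (r := fun j => r j z) (fun j => rp j z)
    have eR := R5_err hW hh (Y h z) ge (r1p z)
    rw [← hF.P_eq hFc hh.le hh1 z] at eP
    rw [← hF.Y_eq hFc hh.le hh1 z] at eY
    have eL : Pop (Wp V s) h Y P f z =
      ∫ w, (∫ y', f (y', (1 - 2 * h) • P h z + √(sg2 h) • w.2)
      ∂(gibbs (post (Wp V s) (h ^ 3) (Y h z + √(h ^ 3) • w.1)))) ∂((gam E).prod (gam E)) := rfl
    have eK : Kb5 G s h c w (fun z => Real.exp (f z)) z =
      ∫ ω, Real.exp (f (upY5 h c w z.1 z.2 g ge + √(2 * h ^ 3) • ω.1,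
        upP5 h w z.2 g + √(sg2 h) • ω.2)) ∂((gam E).prod (gam E)) := rfl
    rw [← eL, ← eK] at main
    refine main.trans (add_le_add ?_ le_rfl)
    refine (add_le_add (add_le_add eP eY) eR).trans (le_of_eq ?_)
    simp only [Pi.add_apply]
    have hh0 : h ≠ 0 := hh.ne'
    have hSz : ∑ j, w j * r j z = Sr z := rfl
    have hJz : (∫ t in (0 : ℝ)..h, ‖D m (Y t z, P t z)‖ ^ 2) = Jm z := rfl
    rw [hSz]
    have x1 : (2 * (4 * h ^ (2 * m) * (h * Jm z)) + 2 * h ^ 2 * Sr z) / (7 * h) =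
        8 / 7 * h ^ (2 * m) * Jm z + 2 / 7 * h * Sr z := by
      field_simp
      ring
    have x2 : (2 * (4 * h ^ (2 * m) * h ^ 2 * (h * Jm z)) + 2 * h ^ 4 * Sr z) / (2 * h ^ 3) =
        4 * h ^ (2 * m) * Jm z + h * Sr z := by
      (clear * - hh0; field_simp)
    rw [x1, x2]
    ring

/-- Iterated comparison. -/
theorem stage1_ideal5 {V : E → ℝ} {G : E → E} {H : E → E →L[ℝ] E} (hV : Pot V G H) {s h : ℝ}
    (hs : 0 < s) (hs1 : s ≤ 1 / 8) (hh : 0 < h) (hh1 : h ≤ 1 / 8) {Y P : ℝ → E × E → E}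
    (hF : HamFlow (Fp V G s) Y P) {m J : ℕ} (hm : 0 < m) {c w : Fin J → ℝ} (hq : QN m c w)
    {A : ℝ} {D : ℕ → E × E → E} (hD : FD V G s Y P m A D) (N : ℕ) {f : E × E → ℝ}
    (hf : Measurable f) (bf : ∀ z, 0 ≤ f z ∧ f z ≤ 1) :
    |(∫ z, f z ∂(muPh V s)) - ∫ z, (Kb5 G s h c w)^[N] f z ∂(muPh V s)|
      ≤ 2 * √(N * (10000000 * h * (h ^ (2 * m) * A + (finrank ℝ E : ℝ) * (s ^ 3 + h ^ 5)))) := by
  obtain ⟨k, hk, hkb, hdv⟩ := onestep5_dv hV hs hs1 hh hh1 hF hm hq hD
  exact stage1_ideal5_of hV hs hh hh1 hF (fun f hf => Kb5_bm hV hf) hk hkb hdv N hf bf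

end Vale.Agent.P347
end

section

/-! Task K for the general-node scheme (P347, exponent 1/5): contraction of stage 1. -/

open MeasureTheory Filter Module Set
open scoped ENNReal NNReal

namespace Vale.Agent.P347

variable {E : Type*} [NormedAddCommGroup E] [InnerProductSpace ℝ E] [FiniteDimensional ℝ E]
  [MeasurableSpace E] [BorelSpace E]

theorem k_second5 {h y2 u2 c2 au bu ac bc uc t2 : ℝ} (ht2 : 0 ≤ t2)
    (hu2 : 0 ≤ u2) (hc2 : 0 ≤ c2) (hh : 0 < h) (hh1 : h ≤ 1 / 10000)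
    (b8 : y2 ≤ t2) (b6 : u2 ≤ 484 / 100 * t2) (b7 : c2 ≤ 441 / 100 * t2)
    (c1 : |au| ≤ 22 / 10 * t2) (c2h : |bu| ≤ 22 / 10 * t2) (c3 : |ac| ≤ 21 / 10 * t2)
    (c4 : |bc| ≤ 21 / 10 * t2) (c5 : |uc| ≤ 462 / 100 * t2) :
    y2 + 2 * au + 2 * (h * bu) + h * (h * u2)
        + (1 / 4) * (bu - bc - h * uc - 2 * (y2 - ac)
          - 2 * (h * bu) + 2 * (h * bc) + 2 * (h * (h * uc)))
        + (c2 / 2 + 4 * bc + 2 * y2 - 2 * (h * c2)
          - 4 * (h * bc) + 2 * (h * (h * c2))) ≤ 30 * t2 := by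
  have mulh : ∀ z M : ℝ, |z| ≤ M → |h * z| ≤ M / 1000 := by
    intro z M hz
    have hM : 0 ≤ M := (abs_nonneg z).trans hz
    rw [abs_mul, abs_of_pos hh]
    calc h * |z| ≤ 1 / 10000 * M := mul_le_mul hh1 hz (abs_nonneg z) (by norm_num)
      _ ≤ M / 1000 := by linarith only [hM]
  obtain ⟨l1, r1⟩ := abs_le.1 c1
  obtain ⟨l2, r2⟩ := abs_le.1 c2h
  obtain ⟨l3, r3⟩ := abs_le.1 c3
  obtain ⟨l4, r4⟩ := abs_le.1 c4
  obtain ⟨l5, r5⟩ := abs_le.1 (mulh _ _ c2h)
  obtain ⟨l6, r6⟩ := abs_le.1 (mulh _ _ c4)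
  obtain ⟨l7, r7⟩ := abs_le.1 (mulh _ _ c5)
  obtain ⟨l8, r8⟩ := abs_le.1 (mulh _ _ (mulh _ _ c5))
  have a6 : |u2| ≤ 484 / 100 * t2 := by rw [abs_of_nonneg hu2]; exact b6
  have a7 : |c2| ≤ 441 / 100 * t2 := by rw [abs_of_nonneg hc2]; exact b7
  obtain ⟨l9, r9⟩ := abs_le.1 (mulh _ _ (mulh _ _ a6))
  obtain ⟨l10, r10⟩ := abs_le.1 (mulh _ _ a7)
  obtain ⟨l11, r11⟩ := abs_le.1 (mulh _ _ (mulh _ _ a7))
  linarith only [ht2, b8, b7, r1, r2, r3, r4, r5, l6, l7, r8, r9, l10, r11]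

omit [FiniteDimensional ℝ E] [MeasurableSpace E] [BorelSpace E] in
theorem phi2_contract5 {h : ℝ} (hh : 0 < h) (hh1 : h ≤ 1 / 10000) {a b u c r : E}
    (hc : c = (3 / 2 : ℝ) • a + r) (hu : ‖u‖ ≤ 22 / 10 * (‖a‖ + ‖b‖))
    (hr : ‖r‖ ≤ 51 / 100 * ‖a‖ + 21 / 10 * h * ‖b‖) :
    Phi2 (a + h • b + h ^ 2 • u) ((1 - 2 * h) • (b - h • c)) ≤ (1 - h / 100) * Phi2 a b := by
  have hac : (inner ℝ a c : ℝ) = 3 / 2 * ‖a‖ ^ 2 + inner ℝ a r := by
    rw [hc, inner_add_right, real_inner_smul_right, real_inner_self_eq_norm_sq]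
  have hbc : (inner ℝ b c : ℝ) = 3 / 2 * inner ℝ a b + inner ℝ b r := by
    rw [hc, inner_add_right, real_inner_smul_right, real_inner_comm a b]
  have hcn : ‖c‖ ≤ 21 / 10 * (‖a‖ + ‖b‖) := by
    rw [hc]
    refine (norm_add_le _ _).trans ?_
    rw [norm_smul, Real.norm_eq_abs, abs_of_pos (by norm_num : (0 : ℝ) < 3 / 2)]
    have := norm_nonneg a
    have hb := norm_nonneg b
    nlinarith only [hr, this, hb, hh1]
  rw [phi2_expand]
  have iab := abs_real_inner_le_norm a b
  have iau := abs_real_inner_le_norm a u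
  have ibu := abs_real_inner_le_norm b u
  have iac := abs_real_inner_le_norm a c
  have ibc := abs_real_inner_le_norm b c
  have iuc := abs_real_inner_le_norm u c
  have iar := abs_real_inner_le_norm a r
  have ibr := abs_real_inner_le_norm b r
  unfold Phi2
  set x := ‖a‖ with hx
  set y := ‖b‖ with hy
  have hx0 : 0 ≤ x := norm_nonneg a
  have hy0 : 0 ≤ y := norm_nonneg b
  have hu0 := norm_nonneg u
  have hc0 := norm_nonneg c
  have hr0 := norm_nonneg r
  set t := x + y with ht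
  have ht0 : 0 ≤ t := by (clear * -; positivity)
  have hxt : x ≤ t := by linarith only [hy0]
  have hyt : y ≤ t := by linarith only [hx0]
  have b1 : x * ‖u‖ ≤ 22 / 10 * t ^ 2 := by
    calc x * ‖u‖ ≤ t * (22 / 10 * t) := mul_le_mul hxt hu hu0 ht0
      _ = _ := by ring
  have b2 : y * ‖u‖ ≤ 22 / 10 * t ^ 2 := by
    calc y * ‖u‖ ≤ t * (22 / 10 * t) := mul_le_mul hyt hu hu0 ht0
      _ = _ := by ring
  have b3 : x * ‖c‖ ≤ 21 / 10 * t ^ 2 := by
    calc x * ‖c‖ ≤ t * (21 / 10 * t) := mul_le_mul hxt hcn hc0 ht0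
      _ = _ := by ring
  have b4 : y * ‖c‖ ≤ 21 / 10 * t ^ 2 := by
    calc y * ‖c‖ ≤ t * (21 / 10 * t) := mul_le_mul hyt hcn hc0 ht0
      _ = _ := by ring
  have b5 : ‖u‖ * ‖c‖ ≤ 462 / 100 * t ^ 2 := by
    calc ‖u‖ * ‖c‖ ≤ (22 / 10 * t) * (21 / 10 * t) := mul_le_mul hu hcn hc0 (by (clear * -; positivity))
      _ = _ := by ring
  have b6 : ‖u‖ ^ 2 ≤ 484 / 100 * t ^ 2 := by
    calc ‖u‖ ^ 2 ≤ (22 / 10 * t) ^ 2 := pow_le_pow_left₀ hu0 hu 2
      _ = _ := by ring
  have b7 : ‖c‖ ^ 2 ≤ 441 / 100 * t ^ 2 := by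
    calc ‖c‖ ^ 2 ≤ (21 / 10 * t) ^ 2 := pow_le_pow_left₀ hc0 hcn 2
      _ = _ := by ring
  have b8 : y ^ 2 ≤ t ^ 2 := pow_le_pow_left₀ hy0 hyt 2
  have hE := k_second5 (h := h) (y2 := y ^ 2) (u2 := ‖u‖ ^ 2) (c2 := ‖c‖ ^ 2) (t2 := t ^ 2)
    (sq_nonneg _) (sq_nonneg _) (sq_nonneg _) hh hh1 b8 b6 b7
    (iau.trans b1) (ibu.trans b2) (iac.trans b3) (ibc.trans b4) (iuc.trans b5)
  set Er : ℝ := y ^ 2 + 2 * inner ℝ a u + 2 * (h * inner ℝ b u) + h * (h * ‖u‖ ^ 2)
        + (1 / 4) * (inner ℝ b u - inner ℝ b c - h * inner ℝ u c - 2 * (y ^ 2 - inner ℝ a c)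
          - 2 * (h * inner ℝ b u) + 2 * (h * inner ℝ b c) + 2 * (h * (h * inner ℝ u c)))
        + (‖c‖ ^ 2 / 2 + 4 * inner ℝ b c + 2 * y ^ 2 - 2 * (h * ‖c‖ ^ 2)
          - 4 * (h * inner ℝ b c) + 2 * (h * (h * ‖c‖ ^ 2))) with hEr
  clear_value Er
  have hhE : h * Er ≤ 20 * (x + y) ^ 2 / 1000 := by
    have ht2 : 0 ≤ t ^ 2 := sq_nonneg t
    calc h * Er ≤ h * (30 * t ^ 2) := mul_le_mul_of_nonneg_left hE hh.le
      _ ≤ 1 / 10000 * (30 * t ^ 2) := mul_le_mul_of_nonneg_right hh1 (by (clear * -; positivity))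
      _ ≤ 20 * t ^ 2 / 1000 := by linarith only [ht2]
      _ = _ := by rw [ht]
  -- the first order terms
  have d1 : x * ‖r‖ ≤ x * (51 / 100 * x + 21 / 10 * h * y) := mul_le_mul_of_nonneg_left hr hx0
  have d2 : y * ‖r‖ ≤ y * (51 / 100 * x + 21 / 10 * h * y) := mul_le_mul_of_nonneg_left hr hy0
  have hfin := k_real (h := h) hx0 hy0 (hh1.trans (by norm_num)) hac hbc
    (abs_le.1 (iar.trans d1)).1 (abs_le.1 (ibr.trans d2)).1 (abs_le.1 iab).2 hhE
  have hneg := mul_nonpos_of_nonneg_of_nonpos hh.le hfin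
  have e7 : x ^ 2 + 1 / 4 * (inner ℝ a b : ℝ) + 1 / 2 * y ^ 2 +
        h * (3 / 2 * inner ℝ a b - 7 / 4 * y ^ 2 - 1 / 4 * inner ℝ a c - inner ℝ b c) +
      h ^ 2 * Er = (1 - h / 100) * (x ^ 2 + 1 / 4 * inner ℝ a b + 1 / 2 * y ^ 2) +
      h * (3 / 2 * inner ℝ a b - 7 / 4 * y ^ 2 - 1 / 4 * inner ℝ a c - inner ℝ b c + h * Er +
        1 / 100 * (x ^ 2 + 1 / 4 * inner ℝ a b + 1 / 2 * y ^ 2)) := by ring
  rw [e7]
  linarith only [hneg]

omit [FiniteDimensional ℝ E] [MeasurableSpace E] [BorelSpace E] in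
/-- Convex combinations: `‖∑ w_j v_j‖ ≤ M` when `‖v_j‖ ≤ M` and the weights have sum `≤ 1`. -/
theorem sum_smul_le {J : ℕ} {w : Fin J → ℝ} (hw : ∀ j, 0 ≤ w j) (hw1 : ∑ j, w j ≤ 1)
    {v : Fin J → E} {M : ℝ} (hM : 0 ≤ M) (hv : ∀ j, ‖v j‖ ≤ M) : ‖∑ j, w j • v j‖ ≤ M := by
  refine (norm_sum_le _ _).trans ?_
  calc ∑ j, ‖w j • v j‖ ≤ ∑ j, w j * M := Finset.sum_le_sum fun j _ => by
        rw [norm_smul, Real.norm_of_nonneg (hw j)]
        exact mul_le_mul_of_nonneg_left (hv j) (hw j)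
    _ = (∑ j, w j) * M := by rw [Finset.sum_mul]
    _ ≤ 1 * M := mul_le_mul_of_nonneg_right hw1 hM
    _ = M := one_mul M

/-- Pathwise contraction, in terms of `Phi2`. -/
theorem step5_contract' {V : E → ℝ} {G : E → E} {H : E → E →L[ℝ] E} (hV : Pot V G H) {s h : ℝ}
    (hs : 0 < s) (hs1 : s ≤ 1 / 1000) (hh : 0 < h) (hh1 : h ≤ 1 / 10000) {J : ℕ}
    {c w : Fin J → ℝ} (hq : QN 0 c w) (z z' : E × E) (ω : Noise5 J E) :
    Phi2 (step5 G s h c w z ω - step5 G s h c w z' ω).1
      (step5 G s h c w z ω - step5 G s h c w z' ω).2 ≤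
      (1 - h / 100) * Phi2 (z - z').1 (z - z').2 := by
  have hw1 : ∑ j, w j = 1 := by
    have := hq.mom 0 le_rfl
    simpa only [pow_zero, mul_one, CharP.cast_eq_zero, zero_add, ne_eq, one_ne_zero, not_false_eq_true,     div_self] using this
  have hwc : ∀ j, 0 ≤ w j * (1 - c j) := fun j =>
    mul_nonneg (hq.w0 j) (by linarith only [hq.c1 j])
  have hwc1 : ∑ j, w j * (1 - c j) ≤ 1 := by
    rw [← hw1]
    exact Finset.sum_le_sum fun j _ => by nlinarith only [hw1, hq.w0 j, mul_nonneg (hq.w0 j) (hq.c0 j)]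
  set a := (z - z').1 with ha
  set b := (z - z').2 with hb
  have ha' : a = z.1 - z'.1 := rfl
  have hb' : b = z.2 - z'.2 := rfl
  set g0 := G (ev G s z.1 ω.1) with hg0
  set g0' := G (ev G s z'.1 ω.1) with hg0'
  set δ0 := g0 - g0' with hδ0
  set nd : ℝ → E := fun t => node h t z.1 z.2 g0 with hnd
  set nd' : ℝ → E := fun t => node h t z'.1 z'.2 g0' with hnd'
  set δ : ℝ → E → E := fun t q => G (ev G s (nd t) q) - G (ev G s (nd' t) q) with hδ
  have hx0 := norm_nonneg a
  have hy0 := norm_nonneg b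
  have hhb0 : 0 ≤ h * ‖b‖ := by (clear * - hh; positivity)
  have n0 : ‖δ0 - (3 / 2 : ℝ) • a‖ ≤ 504 / 1000 * ‖a‖ := ev_diff hV hs hs1 z.1 z'.1 ω.1
  have k0 : ‖δ0‖ ≤ 2004 / 1000 * ‖a‖ := by
    have h3 := norm_add_le (δ0 - (3 / 2 : ℝ) • a) ((3 / 2 : ℝ) • a)
    rw [sub_add_cancel, norm_smul, Real.norm_eq_abs,
      abs_of_pos (by norm_num : (0 : ℝ) < 3 / 2)] at h3
    linarith only [n0, h3]
  -- node differences
  have hd : ∀ t, nd t - nd' t = a + ((t * h) • b - ((t * h) ^ 2 / 2) • δ0) := by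
    intro t
    simp only [hnd, node, hnd']
    rw [ha', hb', hδ0]
    module
  have hv : ∀ t, 0 ≤ t → t ≤ 1 → ‖(t * h) • b - ((t * h) ^ 2 / 2) • δ0‖ ≤
      h * ‖b‖ + 1 / 5000 * ‖a‖ := by
    intro t ht0 ht1
    have e1 : 0 ≤ t * h := by (clear * - ht0 hh; positivity)
    have e2 : t * h ≤ h := by nlinarith only [hh, ht1]
    have e3 : (t * h) ^ 2 / 2 ≤ 1 / 20000 := by nlinarith only [hh1, e2, e1]
    refine (norm_sub_le _ _).trans ?_
    rw [norm_smul, norm_smul, Real.norm_of_nonneg e1, Real.norm_of_nonneg (by (clear * -; positivity))]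
    have h4 : t * h * ‖b‖ ≤ h * ‖b‖ := mul_le_mul_of_nonneg_right e2 hy0
    have h5 : (t * h) ^ 2 / 2 * ‖δ0‖ ≤ 1 / 20000 * (2004 / 1000 * ‖a‖) :=
      mul_le_mul e3 k0 (norm_nonneg _) (by norm_num)
    linarith only [hx0, h4, h5]
  have hdn : ∀ t, 0 ≤ t → t ≤ 1 → ‖nd t - nd' t‖ ≤ 5001 / 5000 * ‖a‖ + h * ‖b‖ := by
    intro t ht0 ht1
    rw [hd t]
    refine (norm_add_le _ _).trans ?_
    have := hv t ht0 ht1
    (clear * - this; linarith)
  have hδn : ∀ t q, 0 ≤ t → t ≤ 1 → ‖δ t q - (3 / 2 : ℝ) • (nd t - nd' t)‖ ≤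
      504 / 1000 * (5001 / 5000 * ‖a‖ + h * ‖b‖) := by
    intro t q ht0 ht1
    refine (ev_diff hV hs hs1 (nd t) (nd' t) q).trans ?_
    exact mul_le_mul_of_nonneg_left (hdn t ht0 ht1) (by norm_num)
  have hδb : ∀ t q, 0 ≤ t → t ≤ 1 → ‖δ t q‖ ≤
      2004 / 1000 * (5001 / 5000 * ‖a‖ + h * ‖b‖) := by
    intro t q ht0 ht1
    have h3 := norm_add_le (δ t q - (3 / 2 : ℝ) • (nd t - nd' t)) ((3 / 2 : ℝ) • (nd t - nd' t))
    rw [sub_add_cancel, norm_smul, Real.norm_eq_abs,
      abs_of_pos (by norm_num : (0 : ℝ) < 3 / 2)] at h3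
    have h4 := hδn t q ht0 ht1
    have h5 := hdn t ht0 ht1
    linarith only [h3, h4, h5]
  set u : E := -(∑ j, (w j * (1 - c j)) • δ (c j) (ω.2.2.1 j)) - h • δ 1 ω.2.1 with hu
  set cc : E := ∑ j, w j • δ (c j) (ω.2.2.1 j) with hc
  set r : E := cc - (3 / 2 : ℝ) • a with hr
  have e1 : (step5 G s h c w z ω - step5 G s h c w z' ω).1 = a + h • b + h ^ 2 • u := by
    rw [Prod.fst_sub]
    simp only [step5, upY5]
    have e3 : ∑ j, (w j * (1 - c j)) • δ (c j) (ω.2.2.1 j) =
        (∑ j, (w j * (1 - c j)) • G (ev G s (nd (c j)) (ω.2.2.1 j))) -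
        ∑ j, (w j * (1 - c j)) • G (ev G s (nd' (c j)) (ω.2.2.1 j)) := by
      rw [← Finset.sum_sub_distrib]
      exact Finset.sum_congr rfl fun j _ => smul_sub _ _ _
    rw [hu, e3, ha', hb']
    simp only [hδ, hnd, hnd', hg0, hg0']
    module
  have e2 : (step5 G s h c w z ω - step5 G s h c w z' ω).2 = (1 - 2 * h) • (b - h • cc) := by
    rw [Prod.snd_sub]
    simp only [step5, upP5]
    have e3 : cc = (∑ j, w j • G (ev G s (nd (c j)) (ω.2.2.1 j))) -
        ∑ j, w j • G (ev G s (nd' (c j)) (ω.2.2.1 j)) := by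
      rw [hc, ← Finset.sum_sub_distrib]
      exact Finset.sum_congr rfl fun j _ => smul_sub _ _ _
    rw [e3, hb']
    simp only [hnd, hnd', hg0, hg0']
    module
  rw [e1, e2]
  have hhb : h * ‖b‖ ≤ 1 / 10000 * ‖b‖ := mul_le_mul_of_nonneg_right hh1 hy0
  refine phi2_contract5 hh hh1 (r := r) (by rw [hr]; abel) ?_ ?_
  · rw [hu]
    refine (norm_sub_le _ _).trans ?_
    rw [norm_neg]
    have h1 := sum_smul_le hwc hwc1 (M := 2004 / 1000 * (5001 / 5000 * ‖a‖ + h * ‖b‖))
      (by (clear * - hh; positivity)) (v := fun j => δ (c j) (ω.2.2.1 j))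
      (fun j => hδb (c j) _ (hq.c0 j) (hq.c1 j))
    have h2 : ‖h • δ 1 ω.2.1‖ ≤ 1 / 10000 * (2004 / 1000 * (5001 / 5000 * ‖a‖ + h * ‖b‖)) := by
      rw [norm_smul, Real.norm_eq_abs, abs_of_pos hh]
      exact mul_le_mul hh1 (hδb 1 _ (by norm_num) le_rfl) (norm_nonneg _) (by norm_num)
    linarith
  · have e3 : r = (∑ j, w j • (δ (c j) (ω.2.2.1 j) - (3 / 2 : ℝ) • (nd (c j) - nd' (c j)))) +
        ∑ j, w j • ((3 / 2 : ℝ) • ((c j * h) • b - ((c j * h) ^ 2 / 2) • δ0)) := by
      rw [hr, hc, ← Finset.sum_add_distrib]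
      have e4 : (3 / 2 : ℝ) • a = ∑ j, w j • ((3 / 2 : ℝ) • a) := by
        rw [← Finset.sum_smul, hw1, one_smul]
      rw [e4, ← Finset.sum_sub_distrib]
      refine Finset.sum_congr rfl fun j _ => ?_
      rw [hd (c j)]
      module
    rw [e3]
    refine (norm_add_le _ _).trans ?_
    have h1 := sum_smul_le hq.w0 hw1.le (M := 504 / 1000 * (5001 / 5000 * ‖a‖ + h * ‖b‖))
      (by (clear * - hh; positivity)) (v := fun j => δ (c j) (ω.2.2.1 j) - (3 / 2 : ℝ) • (nd (c j) - nd' (c j)))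
      (fun j => hδn (c j) _ (hq.c0 j) (hq.c1 j))
    have h2 := sum_smul_le hq.w0 hw1.le (M := 3 / 2 * (h * ‖b‖ + 1 / 5000 * ‖a‖))
      (by (clear * - hh; positivity)) (v := fun j => (3 / 2 : ℝ) • ((c j * h) • b - ((c j * h) ^ 2 / 2) • δ0))
      (fun j => by
        rw [norm_smul, Real.norm_eq_abs, abs_of_pos (by norm_num : (0 : ℝ) < 3 / 2)]
        exact mul_le_mul_of_nonneg_left (hv (c j) (hq.c0 j) (hq.c1 j)) (by norm_num))
    linarith only [hx0, hhb0, h1, h2]

instance gamN_isProb (J : ℕ) : IsProbabilityMeasure (gamN J E) := by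
  unfold gamN
  infer_instance

theorem continuous_step5 {G : E → E} (hG : Continuous G) (s h : ℝ) {J : ℕ} (c w : Fin J → ℝ)
    (z : E × E) : Continuous fun ω : Noise5 J E => step5 G s h c w z ω := by
  unfold step5 upY5 upP5 ev node
  (clear * - hG; fun_prop)

theorem K5_lip {V : E → ℝ} {G : E → E} {H : E → E →L[ℝ] E} (hV : Pot V G H) {s h : ℝ}
    (hs : 0 < s) (hs1 : s ≤ 1 / 10000) (hh : 0 < h) (hh1 : h ≤ 1 / 10000) {J : ℕ}
    {c w : Fin J → ℝ} (hq : QN 0 c w) {f : E × E → ℝ}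
    (hf : BM f) {L : ℝ} (hc : 0 ≤ L) (hfl : ∀ z z', |f z - f z'| ≤ L * √(Phi (z - z')))
    (z z' : E × E) :
    |K5 G s h c w f z - K5 G s h c w f z'| ≤ L * √(1 - h / 100) * √(Phi (z - z')) := by
  obtain ⟨hfm, C, hC⟩ := hf
  have hi : ∀ z : E × E, Integrable (fun ω => f (step5 G s h c w z ω)) (gamN J E) := fun z =>
    Integrable.of_bound
      (hfm.comp (continuous_step5 hV.contG s h c w z).measurable).aestronglyMeasurable
      C (Eventually.of_forall fun w => hC _)
  unfold K5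
  rw [← integral_sub (hi z) (hi z'), ← Real.norm_eq_abs]
  have h1 : ∀ ω, ‖f (step5 G s h c w z ω) - f (step5 G s h c w z' ω)‖ ≤
      L * √(1 - h / 100) * √(Phi (z - z')) := by
    intro ω
    rw [Real.norm_eq_abs]
    refine (hfl _ _).trans ?_
    rw [mul_assoc]
    apply mul_le_mul_of_nonneg_left _ hc
    rw [← Real.sqrt_mul (by linarith only [hh1])]
    exact Real.sqrt_le_sqrt (step5_contract' hV hs (hs1.trans (by norm_num)) hh hh1 hq z z' ω)
  have h2 := norm_integral_le_of_norm_le_const (μ := gamN J E) (Eventually.of_forall h1)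
  simpa only [Real.norm_eq_abs, ge_iff_le, probReal_univ, mul_one] using h2

theorem K5_iter_lip {V : E → ℝ} {G : E → E} {H : E → E →L[ℝ] E} (hV : Pot V G H) {s h : ℝ}
    (hs : 0 < s) (hs1 : s ≤ 1 / 10000) (hh : 0 < h) (hh1 : h ≤ 1 / 10000) {J : ℕ}
    {c w : Fin J → ℝ} (hq : QN 0 c w) (N : ℕ) :
    ∀ (f : E × E → ℝ) (_ : BM f) (L : ℝ) (_ : 0 ≤ L)
      (_ : ∀ z z', |f z - f z'| ≤ L * √(Phi (z - z'))),
      BM ((K5 G s h c w)^[N] f) ∧ ∀ z z', |(K5 G s h c w)^[N] f z - (K5 G s h c w)^[N] f z'| ≤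
        L * √((1 - h / 100) ^ N) * √(Phi (z - z')) := by
  induction N with
  | zero =>
    intro f hf L _ hfl
    refine ⟨hf, fun z z' => ?_⟩
    simpa only [Function.iterate_zero, id_eq, pow_zero, Real.sqrt_one, mul_one] using hfl z z'
  | succ N ih =>
    intro f hf L hL hfl
    have h1 : 0 ≤ 1 - h / 100 := by (clear * - hs hs1 hh1; linarith)
    have h2 := ih (K5 G s h c w f) (K5_bm hV hf) (L * √(1 - h / 100)) (by (clear * - hL; positivity))
      (K5_lip hV hs hs1 hh hh1 hq hf hL hfl)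
    rw [Function.iterate_succ_apply]
    refine ⟨h2.1, fun z z' => (h2.2 z z').trans (le_of_eq ?_)⟩
    rw [pow_succ', Real.sqrt_mul h1]
    ring

/-- From a Lipschitz bound to the deviation from the stationary mean. -/
theorem contract_final {V : E → ℝ} {G : E → E} {H : E → E →L[ℝ] E} (hV : Pot V G H) {s q : ℝ}
    (hs : 0 < s) (hs1 : s ≤ 1) (hq : 0 ≤ q) {F : E × E → ℝ} (hFbm : BM F) {L : ℝ}
    (hFl : ∀ z z', |F z - F z'| ≤ |L| * √2 * √q * √(Phi (z - z'))) :
    |F 0 - ∫ z, F z ∂(muPh V s)| ≤ |L| * √(12 * q * (finrank ℝ E : ℝ)) := by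
  have hadm := Wp_adm hV hs
  have hpW : IsProbabilityMeasure (gibbs (Wp V s)) := hadm.isProb
  have hp : IsProbabilityMeasure (muPh V s) := by
    unfold muPh
    infer_instance
  have hFi : Integrable F (muPh V s) := by
    obtain ⟨hm, C, hC⟩ := hFbm
    exact Integrable.of_bound hm.aestronglyMeasurable C (Eventually.of_forall hC)
  -- the dominating function
  have i1 : Integrable (fun z : E × E => ‖z.1‖ ^ 2) (muPh V s) := by
    have := hadm.integrable (f := fun y : E => ‖y‖ ^ 2) (PG.id.norm.pow 2)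
      (by fun_prop : Continuous fun y : E => ‖y‖ ^ 2).aestronglyMeasurable
    exact this.comp_fst _
  have i2 : Integrable (fun z : E × E => ‖z.2‖ ^ 2) (muPh V s) := by
    have := gam_integrable (f := fun y : E => ‖y‖ ^ 2) (PG.id.norm.pow 2)
      (by fun_prop : Continuous fun y : E => ‖y‖ ^ 2).aestronglyMeasurable
    exact this.comp_snd _
  have j1 : ∫ z : E × E, ‖z.1‖ ^ 2 ∂(muPh V s) ≤ 2 * (finrank ℝ E : ℝ) := by
    have e : ∫ z : E × E, ‖z.1‖ ^ 2 ∂(muPh V s) = ∫ y, ‖y‖ ^ 2 ∂(gibbs (Wp V s)) := by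
      unfold muPh at i1 ⊢
      rw [integral_prod _ i1]
      simp only [integral_const, probReal_univ, smul_eq_mul, one_mul]
    rw [e]
    exact moment_W hV hs hs1
  have j2 : ∫ z : E × E, ‖z.2‖ ^ 2 ∂(muPh V s) = (finrank ℝ E : ℝ) := by
    unfold muPh at i2 ⊢
    rw [integral_prod _ i2]
    simp only [gam_sq]
    simp only [integral_const, probReal_univ, smul_eq_mul, one_mul]
  have i3 : Integrable (fun z : E × E => 2 * ‖z.1‖ ^ 2 + 2 * ‖z.2‖ ^ 2) (muPh V s) :=
    (i1.const_mul 2).add (i2.const_mul 2)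
  have j3 : ∫ z : E × E, (2 * ‖z.1‖ ^ 2 + 2 * ‖z.2‖ ^ 2) ∂(muPh V s) ≤
      6 * (finrank ℝ E : ℝ) := by
    rw [integral_add (i1.const_mul 2) (i2.const_mul 2), integral_const_mul, integral_const_mul, j2]
    linarith
  obtain ⟨i4, j4⟩ := integral_sqrt_le (μ := muPh V s) i3 (fun z => by (clear * -; positivity))
  have hn0 : (0 : ℝ) ≤ (finrank ℝ E : ℝ) := Nat.cast_nonneg _
  have e1 : F 0 - ∫ z, F z ∂(muPh V s) = ∫ z, (F 0 - F z) ∂(muPh V s) := by
    rw [integral_sub (integrable_const _) hFi]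
    simp
  rw [e1, ← Real.norm_eq_abs]
  have hb : ∀ z, ‖F 0 - F z‖ ≤
      (|L| * √2 * √q) * √(2 * ‖z.1‖ ^ 2 + 2 * ‖z.2‖ ^ 2) := by
    intro z
    rw [Real.norm_eq_abs]
    refine (hFl 0 z).trans (mul_le_mul_of_nonneg_left (Real.sqrt_le_sqrt ?_) (by (clear * -; positivity)))
    refine (Phi_le _).trans (le_of_eq ?_)
    simp only [zero_sub, Prod.fst_neg, norm_neg, Prod.snd_neg]
  refine (norm_integral_le_of_norm_le (i4.const_mul _) (Eventually.of_forall hb)).trans ?_
  rw [integral_const_mul]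
  have h3 : (|L| * √2 * √q) *
      ∫ z : E × E, √(2 * ‖z.1‖ ^ 2 + 2 * ‖z.2‖ ^ 2) ∂(muPh V s) ≤
      (|L| * √2 * √q) * √(6 * (finrank ℝ E : ℝ)) :=
    mul_le_mul_of_nonneg_left (j4.trans (Real.sqrt_le_sqrt j3)) (by (clear * -; positivity))
  refine h3.trans (le_of_eq ?_)
  have h4 : 12 * q * (finrank ℝ E : ℝ) = 2 * (q * (6 * (finrank ℝ E : ℝ))) := by ring
  rw [h4, Real.sqrt_mul (by norm_num : (0 : ℝ) ≤ 2), Real.sqrt_mul hq]
  ring

theorem stage1_contract5' {V : E → ℝ} {G : E → E} {H : E → E →L[ℝ] E} (hV : Pot V G H) {s h : ℝ}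
    (hs : 0 < s) (hs1 : s ≤ 1 / 10000) (hh : 0 < h) (hh1 : h ≤ 1 / 10000) {J : ℕ}
    {c w : Fin J → ℝ} (hq : QN 0 c w) (N : ℕ) {φ : E → ℝ}
    (hφ : BM φ) {L : ℝ} (hL : ∀ x y, |φ x - φ y| ≤ L * ‖x - y‖) :
    |(K5 G s h c w)^[N] (fun z => φ z.1) 0
        - ∫ z, (K5 G s h c w)^[N] (fun z => φ z.1) z ∂(muPh V s)|
      ≤ L * √(12 * (1 - h / 100) ^ N * (finrank ℝ E : ℝ)) := by
  have hq0 : 0 ≤ 1 - h / 100 := by linarith
  have hqN : 0 ≤ (1 - h / 100) ^ N := pow_nonneg hq0 N
  -- reduction to nonnegative Lipschitz constants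
  have hL' : ∀ x y, |φ x - φ y| ≤ |L| * ‖x - y‖ := fun x y =>
    (hL x y).trans (mul_le_mul_of_nonneg_right (le_abs_self L) (norm_nonneg _))
  have hbm : BM (fun z : E × E => φ z.1) := by
    obtain ⟨hm, C, hC⟩ := hφ
    exact ⟨hm.comp measurable_fst, C, fun z => hC _⟩
  have hbase : ∀ z z' : E × E, |φ z.1 - φ z'.1| ≤ (|L| * √2) * √(Phi (z - z')) := by
    intro z z'
    refine (hL' _ _).trans ?_
    rw [mul_assoc, ← Real.sqrt_mul (by norm_num)]
    apply mul_le_mul_of_nonneg_left _ (abs_nonneg L)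
    apply Real.le_sqrt_of_sq_le
    exact half_le_Phi (z - z')
  obtain ⟨hFbm, hFl⟩ := K5_iter_lip hV hs hs1 hh hh1 hq N _ hbm (|L| * √2) (by positivity) hbase
  have hmain := contract_final hV hs (by linarith only [hs1]) hqN hFbm hFl
  rcases le_or_gt 0 L with hL0 | hL0
  · rwa [abs_of_nonneg hL0] at hmain
  · -- a negative Lipschitz constant forces dimension zero
    have hsub : ∀ x : E, x = 0 := by
      intro x
      by_contra hx
      have h5 := hL x 0
      have h6 : 0 < ‖x - 0‖ := by rw [sub_zero]; exact norm_pos_iff.2 hx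
      have h7 := abs_nonneg (φ x - φ 0)
      nlinarith only [h5, h7, hL0, h6]
    have hfr : (finrank ℝ E : ℝ) = 0 := by
      have : Subsingleton E := ⟨fun x y => by rw [hsub x, hsub y]⟩
      rw [finrank_zero_of_subsingleton]
      simp
    rw [hfr] at hmain ⊢
    simpa only [mul_zero, Real.sqrt_zero, abs_nonpos_iff] using hmain

end Vale.Agent.P347
end

section

/-! Proof of `K5_chi` and `stage1_noise5` (task J of the general-node scheme, P347). -/

open MeasureTheory Filter Module Set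
open scoped ENNReal NNReal

namespace Vale.Agent.P347

variable {E : Type*} [NormedAddCommGroup E] [InnerProductSpace ℝ E] [FiniteDimensional ℝ E]
  [MeasurableSpace E] [BorelSpace E]

variable {J : ℕ}

/-- the random position -/
noncomputable def al5Y (G : E → E) (s h : ℝ) (c w : Fin J → ℝ) (z : E × E)
    (ω : E × E × (Fin J → E)) : E :=
  upY5 h c w z.1 z.2 (fun j => G (ev G s (nd5 G s h z (c j) ω.1) (ω.2.2 j)))
    (G (ev G s (nd5 G s h z 1 ω.1) ω.2.1))

/-- the random momentum -/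
noncomputable def al5P (G : E → E) (s h : ℝ) (c w : Fin J → ℝ) (z : E × E)
    (ω : E × E × (Fin J → E)) : E :=
  upP5 h w z.2 (fun j => G (ev G s (nd5 G s h z (c j) ω.1) (ω.2.2 j)))

/-- the averaged position -/
noncomputable def av5Y (G : E → E) (s h : ℝ) (c w : Fin J → ℝ) (z : E × E) : E :=
  upY5 h c w z.1 z.2 (fun j => mg G s h (c j) z) (mg G s h 1 z)

/-- the averaged momentum -/
noncomputable def av5P (G : E → E) (s h : ℝ) (c w : Fin J → ℝ) (z : E × E) : E :=
  upP5 h w z.2 (fun j => mg G s h (c j) z)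

theorem al5_cont {G : E → E} (hG : Continuous G) (s h : ℝ) (c w : Fin J → ℝ) (z : E × E) :
    Continuous (al5Y G s h c w z) ∧ Continuous (al5P G s h c w z) := by
  constructor
  · unfold al5Y upY5 nd5 node ev
    fun_prop
  · unfold al5P upP5 nd5 node ev
    fun_prop

theorem al5Y_inner (G : E → E) (s h : ℝ) (c w : Fin J → ℝ) (z : E × E)
    (ω : E × E × (Fin J → E)) (u v : E) :
    (inner ℝ u (al5Y G s h c w z ω - av5Y G s h c w z) +
      inner ℝ v (al5P G s h c w z ω - av5P G s h c w z) : ℝ) =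
    inner ℝ (-(h ^ 3) • u) (G (ev G s (nd5 G s h z 1 ω.1) ω.2.1) - mg G s h 1 z) +
      ∑ j, inner ℝ (-(w j) • ((h ^ 2 * (1 - c j)) • u + ((1 - 2 * h) * h) • v))
        (G (ev G s (nd5 G s h z (c j) ω.1) (ω.2.2 j)) - mg G s h (c j) z) := by
  have e1 : al5Y G s h c w z ω - av5Y G s h c w z =
      -(h ^ 3 • (G (ev G s (nd5 G s h z 1 ω.1) ω.2.1) - mg G s h 1 z)) -
      ∑ j, (h ^ 2 * (w j * (1 - c j))) •
        (G (ev G s (nd5 G s h z (c j) ω.1) (ω.2.2 j)) - mg G s h (c j) z) := by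
    unfold al5Y av5Y upY5
    simp only [smul_sub, Finset.sum_sub_distrib, mul_smul, Finset.smul_sum]
    abel
  have e2 : al5P G s h c w z ω - av5P G s h c w z =
      -∑ j, ((1 - 2 * h) * (h * w j)) •
        (G (ev G s (nd5 G s h z (c j) ω.1) (ω.2.2 j)) - mg G s h (c j) z) := by
    unfold al5P av5P upP5
    simp only [Finset.smul_sum, smul_sub, mul_smul, Finset.sum_sub_distrib]
    abel
  rw [e1, e2, inner_sub_right, inner_neg_right, inner_neg_right, inner_sum, inner_sum,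
    real_inner_smul_right, real_inner_smul_left]
  have e3 : ∀ j, (inner ℝ (-(w j) • ((h ^ 2 * (1 - c j)) • u + ((1 - 2 * h) * h) • v))
        (G (ev G s (nd5 G s h z (c j) ω.1) (ω.2.2 j)) - mg G s h (c j) z) : ℝ) =
      -(inner ℝ u ((h ^ 2 * (w j * (1 - c j))) •
        (G (ev G s (nd5 G s h z (c j) ω.1) (ω.2.2 j)) - mg G s h (c j) z))) -
      inner ℝ v (((1 - 2 * h) * (h * w j)) •
        (G (ev G s (nd5 G s h z (c j) ω.1) (ω.2.2 j)) - mg G s h (c j) z)) := by
    intro j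
    rw [real_inner_smul_left, inner_add_left, real_inner_smul_left, real_inner_smul_left,
      real_inner_smul_right, real_inner_smul_right]
    ring
  rw [Finset.sum_congr rfl fun j _ => e3 j, Finset.sum_sub_distrib, Finset.sum_neg_distrib]
  ring

theorem al5_mgf {V : E → ℝ} {G : E → E} {H : E → E →L[ℝ] E} (hV : Pot V G H) {s h : ℝ}
    (hs : 0 < s) (hs1 : s ≤ 1 / 1000) (hh : 0 < h) (hh1 : h ≤ 1 / 1000)
    {c w : Fin J → ℝ} (hq : QN 0 c w) (z : E × E) (u v : E) :
    ∫⁻ ω, ENNReal.ofReal (Real.exp (inner ℝ u (al5Y G s h c w z ω - av5Y G s h c w z) +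
      inner ℝ v (al5P G s h c w z ω - av5P G s h c w z)))
      ∂((gam E).prod ((gam E).prod (Measure.pi fun _ : Fin J => gam E))) ≤
      ENNReal.ofReal (Real.exp (5 * s * (h ^ 2 * ‖u‖ + h * ‖v‖) ^ 2)) := by
  simp_rw [al5Y_inner]
  refine (lint_all hV hs (hs1.trans (by norm_num)) hh z hq.c0 hq.c1 _ _).trans ?_
  refine ENNReal.ofReal_le_ofReal (Real.exp_le_exp.2 ?_)
  have hw1 : ∑ j, w j = 1 := by
    have := hq.mom 0 le_rfl
    simpa only [pow_zero, mul_one, CharP.cast_eq_zero, zero_add, ne_eq, one_ne_zero, not_false_eq_true,     div_self] using this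
  set A := h ^ 2 * ‖u‖ + h * ‖v‖ with hA
  have hA0 : 0 ≤ A := by positivity
  have b1 : ‖-(h ^ 3) • u‖ ≤ 1 / 1000 * A := by
    rw [norm_smul, norm_neg, Real.norm_of_nonneg (by positivity)]
    have h1 : h ^ 3 * ‖u‖ = h * (h ^ 2 * ‖u‖) := by ring
    rw [h1]
    have h2 : h ^ 2 * ‖u‖ ≤ A := by
      rw [hA]
      have : 0 ≤ h * ‖v‖ := by (clear * - hh; positivity)
      linarith only [this]
    exact mul_le_mul hh1 h2 (by (clear * - hh; positivity)) (by (clear * -; norm_num))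
  have b2 : ∀ j, ‖-(w j) • ((h ^ 2 * (1 - c j)) • u + ((1 - 2 * h) * h) • v)‖ ≤ w j * A := by
    intro j
    rw [norm_smul, norm_neg, Real.norm_of_nonneg (hq.w0 j)]
    apply mul_le_mul_of_nonneg_left _ (hq.w0 j)
    refine (norm_add_le _ _).trans ?_
    have h1 : 0 ≤ 1 - c j := by linarith only [hq.c1 j]
    have h2 : 0 ≤ 1 - 2 * h := by linarith only [hh1]
    rw [norm_smul, norm_smul, Real.norm_of_nonneg (by (clear * - hh h1; positivity)),
      Real.norm_of_nonneg (by (clear * - h2 hh; positivity)), hA]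
    have h3 : h ^ 2 * (1 - c j) ≤ h ^ 2 := by
      have := mul_nonneg (sq_nonneg h) (hq.c0 j)
      nlinarith only [this]
    have h4 : (1 - 2 * h) * h ≤ h := by nlinarith
    (clear * - h3 h4; gcongr)
  have hwle : ∀ j, w j ≤ 1 := fun j => by
    rw [← hw1]
    exact Finset.single_le_sum (fun i _ => hq.w0 i) (Finset.mem_univ j)
  have b3 : ∑ j, ‖-(w j) • ((h ^ 2 * (1 - c j)) • u + ((1 - 2 * h) * h) • v)‖ ≤ A := by
    calc _ ≤ ∑ j, w j * A := Finset.sum_le_sum fun j _ => b2 j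
      _ = A := by rw [← Finset.sum_mul, hw1, one_mul]
  have b4 : ∑ j, ‖-(w j) • ((h ^ 2 * (1 - c j)) • u + ((1 - 2 * h) * h) • v)‖ ^ 2 ≤ A ^ 2 := by
    calc _ ≤ ∑ j, w j * A ^ 2 := Finset.sum_le_sum fun j _ => by
          have h1 := pow_le_pow_left₀ (norm_nonneg _) (b2 j) 2
          refine h1.trans ?_
          rw [mul_pow]
          apply mul_le_mul_of_nonneg_right _ (sq_nonneg A)
          have := hwle j
          have h0 := hq.w0 j
          nlinarith only [this, h0]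
      _ = A ^ 2 := by rw [← Finset.sum_mul, hw1, one_mul]
  have b5 : ‖-(h ^ 3) • u‖ ^ 2 ≤ 1 / 1000000 * A ^ 2 := by
    have h1 := pow_le_pow_left₀ (norm_nonneg _) b1 2
    refine h1.trans (le_of_eq ?_)
    ring
  have hs0 : √s ^ 2 = s := Real.sq_sqrt hs.le
  have b6 : (3 * (h ^ 2 * √s) * (‖-(h ^ 3) • u‖ +
      ∑ j, ‖-(w j) • ((h ^ 2 * (1 - c j)) • u + ((1 - 2 * h) * h) • v)‖)) ^ 2 ≤
      1 / 1000 * (s * A ^ 2) := by
    have h1 : (3 * (h ^ 2 * √s) * (‖-(h ^ 3) • u‖ +
      ∑ j, ‖-(w j) • ((h ^ 2 * (1 - c j)) • u + ((1 - 2 * h) * h) • v)‖)) ^ 2 ≤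
      (3 * (h ^ 2 * √s) * (2 * A)) ^ 2 := by
      apply pow_le_pow_left₀ (by (clear * - hh hs; positivity))
      apply mul_le_mul_of_nonneg_left _ (by positivity)
      linarith only [hA0, b1, b3]
    refine h1.trans ?_
    have h2 : (3 * (h ^ 2 * √s) * (2 * A)) ^ 2 = 36 * h ^ 4 * (√s ^ 2 * A ^ 2) := by ring
    rw [h2, hs0]
    have h3 : 36 * h ^ 4 ≤ 1 / 1000 := by
      have : h ^ 4 ≤ (1 / 1000) ^ 4 := pow_le_pow_left₀ hh.le hh1 4
      norm_num at this
      linarith only [this]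
    exact mul_le_mul_of_nonneg_right h3 (by (clear * - hs; positivity))
  have hsA : 0 ≤ s * A ^ 2 := by (clear * - hs; positivity)
  have b7 : 4 * s * (‖-(h ^ 3) • u‖ ^ 2 +
      ∑ j, ‖-(w j) • ((h ^ 2 * (1 - c j)) • u + ((1 - 2 * h) * h) • v)‖ ^ 2) ≤
      4 * s * (1 / 1000000 * A ^ 2 + A ^ 2) := by
    apply mul_le_mul_of_nonneg_left _ (by positivity)
    linarith only [b4, b5]
  calc _ ≤ 4 * s * (1 / 1000000 * A ^ 2 + A ^ 2) + 1 / 1000 * (s * A ^ 2) := add_le_add b7 b6
    _ ≤ 5 * s * A ^ 2 := by nlinarith only [b6]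

/-- Tonelli for the noises of one step. -/
theorem lint_gamN {F : Noise5 J E → ℝ≥0∞} (hF : Measurable F) :
    ∫⁻ w, F w ∂(gamN J E) = ∫⁻ ω, ∫⁻ q, F (ω.1, ω.2.1, ω.2.2, q.1, q.2) ∂((gam E).prod (gam E))
      ∂((gam E).prod ((gam E).prod (Measure.pi fun _ : Fin J => gam E))) := by
  have m1 : Measurable fun q : (E × E × (Fin J → E)) × (E × E) =>
      F (q.1.1, q.1.2.1, q.1.2.2, q.2.1, q.2.2) := by
    apply hF.comp
    fun_prop
  have m2 : Measurable fun ω : E × E × (Fin J → E) => ∫⁻ q : E × E,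
      F (ω.1, ω.2.1, ω.2.2, q.1, q.2) ∂((gam E).prod (gam E)) := m1.lintegral_prod_right'
  rw [lintegral_prod _ m2.aemeasurable]
  unfold gamN
  rw [lintegral_prod _ hF.aemeasurable]
  refine lintegral_congr fun x => ?_
  rw [lintegral_prod _ (by
    have : Measurable fun y : E × (Fin J → E) × E × E => F (x, y) :=
      hF.comp (measurable_const.prodMk measurable_id)
    exact this.aemeasurable)]
  rw [lintegral_prod _ (by
    have : Measurable fun y : E × (Fin J → E) => ∫⁻ q : E × E,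
        F ((x, y).1, (x, y).2.1, (x, y).2.2, q.1, q.2)
        ∂((gam E).prod (gam E)) := m2.comp (measurable_const.prodMk measurable_id)
    exact this.aemeasurable)]
  refine lintegral_congr fun x1 => ?_
  rw [lintegral_prod _ (by
    have : Measurable fun y : (Fin J → E) × E × E => F (x, x1, y) :=
      hF.comp (measurable_const.prodMk (measurable_const.prodMk measurable_id))
    exact this.aemeasurable)]

theorem step5_meas {G : E → E} (hG : Continuous G) (s h : ℝ) (c w : Fin J → ℝ) (z : E × E) :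
    Measurable (step5 G s h c w z) := by
  have : Continuous (step5 G s h c w z) := by
    unfold step5 upY5 upP5 ev node
    fun_prop
  exact this.measurable

theorem K5_chi' {V : E → ℝ} {G : E → E} {H : E → E →L[ℝ] E} (hV : Pot V G H) {s h : ℝ}
    (hs : 0 < s) (hs1 : s ≤ 1 / 1000) (hh : 0 < h) (hh1 : h ≤ 1 / 1000)
    {c w : Fin J → ℝ} (hq : QN 0 c w) {f : E × E → ℝ} (hf : BM f) (z : E × E) :
    (K5 G s h c w f z) ^ 2
      ≤ Real.exp (10000 * s ^ 2 * h ^ 2 * (finrank ℝ E : ℝ)) *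
        Kb5 G s h c w (fun z => f z ^ 2) z := by
  have hG : ∀ x y, ‖G x - G y‖ ≤ 2 * ‖x - y‖ := hV.lipG
  have hGc := lip_cont hG
  obtain ⟨mf, C, hC⟩ := hf
  set g : E × E → ℝ≥0∞ := fun q => ENNReal.ofReal |f q| with hg
  have mg : Measurable g := (measurable_norm.comp mf).ennreal_ofReal
  have hsg : 3 * h ≤ sg2 h := by
    unfold sg2
    nlinarith only [hh, hh1]
  have c1 : 0 < 2 * h ^ 3 := by positivity
  have c2 : 0 < sg2 h := by linarith only [hh, hsg]
  obtain ⟨cY, cP⟩ := al5_cont hGc s h c w z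
  have hA : |K5 G s h c w f z| ≤ (∫⁻ ω, g (step5 G s h c w z ω) ∂(gamN J E)).toReal :=
    norm_integral_le_lintegral_norm (μ := gamN J E) (fun ω => f (step5 G s h c w z ω))
  have hA2 : ∫⁻ ω, g (step5 G s h c w z ω) ∂(gamN J E) =
      ∫⁻ ω, ∫⁻ q, g (al5Y G s h c w z ω + √(2 * h ^ 3) • q.1,
        al5P G s h c w z ω + √(sg2 h) • q.2)
      ∂((gam E).prod (gam E)) ∂((gam E).prod ((gam E).prod (Measure.pi fun _ : Fin J => gam E))) :=
    lint_gamN (mg.comp (step5_meas hGc s h c w z))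
  have key := chi_gauss (ν := (gam E).prod ((gam E).prod (Measure.pi fun _ : Fin J => gam E)))
    c1 c2 (av5Y G s h c w z) (av5P G s h c w z) cY.measurable cP.measurable mg
  have hM := double_mgf (ν := (gam E).prod ((gam E).prod (Measure.pi fun _ : Fin J => gam E)))
    hs hs1 hh hh1 hsg (Ny := fun ω => al5Y G s h c w z ω - av5Y G s h c w z)
    (Np := fun ω => al5P G s h c w z ω - av5P G s h c w z)
    (cY.measurable.sub_const _) (cP.measurable.sub_const _)
    (al5_mgf hV hs hs1 hh hh1 hq z)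
  have mq : Measurable fun q : E × E => (av5Y G s h c w z + √(2 * h ^ 3) • q.1,
      av5P G s h c w z + √(sg2 h) • q.2) := by (clear V H hV hs hs1 hh hh1 hq f hG hGc mf C hC g hg mg hsg c1 c2 cY cP hA hA2 key hM; fun_prop)
  have hB : ∫⁻ q, g (av5Y G s h c w z + √(2 * h ^ 3) • q.1,
      av5P G s h c w z + √(sg2 h) • q.2) ^ 2
      ∂((gam E).prod (gam E)) = ENNReal.ofReal (Kb5 G s h c w (fun z => f z ^ 2) z) := by
    have e1 : Kb5 G s h c w (fun z => f z ^ 2) z = ∫ q, f (av5Y G s h c w z +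
        √(2 * h ^ 3) • q.1, av5P G s h c w z + √(sg2 h) • q.2) ^ 2
        ∂((gam E).prod (gam E)) := rfl
    rw [e1, ofReal_integral_eq_lintegral_ofReal]
    · refine lintegral_congr fun w => ?_
      rw [hg]
      simp only
      rw [← ENNReal.ofReal_pow (abs_nonneg _), sq_abs]
    · apply Integrable.of_bound ((mf.comp mq).pow_const 2).aestronglyMeasurable (C ^ 2)
      refine Eventually.of_forall fun w => ?_
      simp only [Function.comp]
      rw [Real.norm_eq_abs, abs_pow]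
      exact pow_le_pow_left₀ (abs_nonneg _) (hC _) 2
    · exact Eventually.of_forall fun w => sq_nonneg _
  have hKb : 0 ≤ Kb5 G s h c w (fun z => f z ^ 2) z := integral_nonneg fun w => sq_nonneg _
  have hfin : (∫⁻ ω, g (step5 G s h c w z ω) ∂(gamN J E)) ^ 2 ≤
      ENNReal.ofReal (Real.exp (10000 * s ^ 2 * h ^ 2 * (finrank ℝ E : ℝ)) *
        Kb5 G s h c w (fun z => f z ^ 2) z) := by
    rw [hA2, ENNReal.ofReal_mul (Real.exp_pos _).le, ← hB]
    refine key.trans ?_
    (clear hG hGc mf C hC hg mg c1 c2 hA hA2 key mq hB hKb; gcongr)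
  have h3 : ((∫⁻ ω, g (step5 G s h c w z ω) ∂(gamN J E)).toReal) ^ 2 ≤
      Real.exp (10000 * s ^ 2 * h ^ 2 * (finrank ℝ E : ℝ)) *
        Kb5 G s h c w (fun z => f z ^ 2) z := by
    rw [← ENNReal.toReal_pow]
    exact ENNReal.toReal_le_of_le_ofReal (by (clear V H hV hs hs1 hh hh1 hq hG hGc mf C hC g hg mg hsg c1 c2 cY cP hA hA2 key hM mq hB hfin; positivity)) hfin
  rw [← sq_abs]
  exact (pow_le_pow_left₀ (abs_nonneg _) hA 2).trans h3

/-! ### General iteration of the chi-square comparison -/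

theorem chi_iter_gen {S : Type*} [MeasurableSpace S] {K Kb : (S → ℝ) → S → ℝ} (hK : MkOp K)
    (hKb : MkOp Kb) {e : ℝ}
    (hchi : ∀ f, BM f → ∀ z, (K f z) ^ 2 ≤ Real.exp e * Kb (fun z => f z ^ 2) z)
    {f : S → ℝ} (hf : BM f) (N : ℕ) (z : S) :
    (K^[N] f z) ^ 2 ≤ Real.exp (N * e) * Kb^[N] (fun z => f z ^ 2) z := by
  induction N generalizing z with
  | zero => simp
  | succ N ih =>
    rw [Function.iterate_succ_apply', Function.iterate_succ_apply']
    have hKN := hK.iter N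
    have hKbN := hKb.iter N
    refine (hchi _ (hKN.bm f hf) z).trans ?_
    have h1 := hKb.mono (fun z => (K^[N] f z) ^ 2)
      (fun z => 0 + Real.exp (N * e) * Kb^[N] (fun z => f z ^ 2) z)
      (hKN.bm f hf).sq ((hKbN.bm _ hf.sq).affine 0 _) (fun z => by
        rw [zero_add]
        exact ih z) z
    rw [hKb.lin _ (hKbN.bm _ hf.sq)] at h1
    simp only [zero_add] at h1
    have h2 : Real.exp (((N + 1 : ℕ) : ℝ) * e) = Real.exp e * Real.exp (N * e) := by
      rw [← Real.exp_add]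
      congr 1
      push_cast
      ring
    rw [h2, mul_assoc (Real.exp e)]
    exact mul_le_mul_of_nonneg_left h1 (Real.exp_pos _).le

theorem noise_gen {S : Type*} [MeasurableSpace S] {μ : Measure S} [IsProbabilityMeasure μ]
    {K Kb : (S → ℝ) → S → ℝ} (hK0 : MkOp K)
    (hKb0 : MkOp Kb) {e : ℝ} (he : 0 ≤ e)
    (hchi : ∀ f, BM f → ∀ z, (K f z) ^ 2 ≤ Real.exp e * Kb (fun z => f z ^ 2) z)
    (N : ℕ) {f : S → ℝ} (hf : Measurable f) (bf : ∀ z, 0 ≤ f z ∧ f z ≤ 1) {B : ℝ}
    (hB : B = Real.exp (N * e)) :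
    |(∫ z, K^[N] f z ∂μ) - ∫ z, Kb^[N] f z ∂μ| ≤ √(B * (B - 1)) := by
  have hfb : BM f := ⟨hf, 1, fun z => by rw [abs_of_nonneg (bf z).1]; exact (bf z).2⟩
  have hK := hK0.iter N
  have hKb := hKb0.iter N
  set q := ∫ z, Kb^[N] f z ∂μ with hq
  set D := (∫ z, K^[N] f z ∂μ) - q with hD
  have hq0 : 0 ≤ q := integral_nonneg fun z => (hKb.range hfb bf z).1
  have hq1 : q ≤ 1 := by
    have := integral_mono (μ := μ) ((hKb.bm f hfb).integrable μ) (integrable_const (1 : ℝ))
      fun z => (hKb.range hfb bf z).2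
    simpa only [ge_iff_le, integral_const, probReal_univ, smul_eq_mul, mul_one] using this
  set φ : S → ℝ := fun z => (1 - D * q) + D * f z with hφ
  have hφb : BM φ := hfb.affine _ _
  have h1 : ∫ z, K^[N] φ z ∂μ = 1 + D ^ 2 := by
    rw [hφ, hK.lin f hfb]
    rw [integral_add (integrable_const _) (((hK.bm f hfb).integrable μ).const_mul D),
      integral_const_mul]
    simp only [integral_const, probReal_univ, smul_eq_mul, one_mul]
    rw [hD]
    ring
  have h2 : (1 + D ^ 2) ^ 2 ≤ B * ∫ z, Kb^[N] (fun z => φ z ^ 2) z ∂μ := by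
    rw [← h1, ← integral_const_mul]
    refine (sq_integral_le (hK.bm φ hφb)).trans ?_
    refine integral_mono ((hK.bm φ hφb).sq.integrable μ)
      (((hKb.bm _ hφb.sq).integrable μ).const_mul B) fun z => ?_
    rw [hB]
    exact chi_iter_gen hK0 hKb0 hchi hφb N z
  have h3 : ∫ z, Kb^[N] (fun z => φ z ^ 2) z ∂μ ≤ 1 + D ^ 2 := by
    have h4 : ∀ z, Kb^[N] (fun z => φ z ^ 2) z ≤
        (1 + D ^ 2 - 2 * D * q) + 2 * D * Kb^[N] f z := by
      intro z
      have h5 := hKb.mono (fun z => φ z ^ 2) (fun z => (1 + D ^ 2 - 2 * D * q) + 2 * D * f z)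
        hφb.sq (hfb.affine _ _) (fun z => by
          have b := bf z
          have h6 : (f z - q) ^ 2 ≤ 1 := by
            rw [sq_le_one_iff_abs_le_one, abs_le]
            constructor <;> linarith only [hq0, b, hq1]
          have h7 : D ^ 2 * (f z - q) ^ 2 ≤ D ^ 2 * 1 :=
            mul_le_mul_of_nonneg_left h6 (sq_nonneg D)
          simp only [hφ]
          linarith) z
      rwa [hKb.lin f hfb] at h5
    refine (integral_mono ((hKb.bm _ hφb.sq).integrable μ)
      (((hKb.bm f hfb).affine (1 + D ^ 2 - 2 * D * q) (2 * D)).integrable μ) h4).trans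
      (le_of_eq ?_)
    rw [integral_add (integrable_const _) (((hKb.bm f hfb).integrable μ).const_mul (2 * D)),
      integral_const_mul, ← hq]
    simp
  have hB1 : 1 ≤ B := by
    rw [hB]
    apply Real.one_le_exp
    (clear * - he; positivity)
  have h4 : (1 + D ^ 2) ^ 2 ≤ B * (1 + D ^ 2) :=
    h2.trans (mul_le_mul_of_nonneg_left h3 (by linarith only [hB1]))
  have h5 : 1 + D ^ 2 ≤ B := by
    have : 0 < 1 + D ^ 2 := by (clear * -; positivity)
    rw [pow_two] at h4
    exact le_of_mul_le_mul_right h4 this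
  apply Real.abs_le_sqrt
  nlinarith only [h5]

theorem K5_mk {V : E → ℝ} {G : E → E} {H : E → E →L[ℝ] E} (hV : Pot V G H) {s h : ℝ}
    {c w : Fin J → ℝ} : MkOp (K5 G s h c w) := by
  have : IsProbabilityMeasure (gamN J E) := by unfold gamN; infer_instance
  exact MkOp.of_kernel (ν := gamN J E) (step := step5 G s h c w)
    (fun z => step5_meas (lip_cont hV.lipG) s h c w z) (fun f z => rfl) fun f hf => K5_bm hV hf

theorem Kb5_mk {V : E → ℝ} {G : E → E} {H : E → E →L[ℝ] E} (hV : Pot V G H) {s h : ℝ}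
    {c w : Fin J → ℝ} : MkOp (Kb5 G s h c w) := by
  refine MkOp.of_kernel (ν := (gam E).prod (gam E))
    (step := fun z q => (av5Y G s h c w z + √(2 * h ^ 3) • q.1,
      av5P G s h c w z + √(sg2 h) • q.2))
    (fun z => by (clear V H hV; fun_prop)) (fun f z => rfl) fun f hf => Kb5_bm hV hf

theorem stage1_noise5' {V : E → ℝ} {G : E → E} {H : E → E →L[ℝ] E} (hV : Pot V G H) {s h : ℝ}
    (hs : 0 < s) (hs1 : s ≤ 1 / 1000) (hh : 0 < h) (hh1 : h ≤ 1 / 1000)
    {c w : Fin J → ℝ} (hq : QN 0 c w) (N : ℕ) {f : E × E → ℝ}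
    (hf : Measurable f) (bf : ∀ z, 0 ≤ f z ∧ f z ≤ 1) {B : ℝ}
    (hB : B = Real.exp (N * (10000 * s ^ 2 * h ^ 2 * (finrank ℝ E : ℝ)))) :
    |(∫ z, (K5 G s h c w)^[N] f z ∂(muPh V s)) - ∫ z, (Kb5 G s h c w)^[N] f z ∂(muPh V s)|
      ≤ √(B * (B - 1)) := by
  have hprob := muPh_isProb hV hs
  exact noise_gen (K5_mk hV) (Kb5_mk hV) (by positivity)
    (fun f hf z => K5_chi' hV hs hs1 hh hh1 hq hf z) N hf bf hB

end Vale.Agent.P347
end

section

/-! Tasks J, K for the general-node scheme (P347, exponent 1/5). -/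

open MeasureTheory Filter Module Set
open scoped ENNReal NNReal

namespace Vale.Agent.P347

variable {E : Type*} [NormedAddCommGroup E] [InnerProductSpace ℝ E] [FiniteDimensional ℝ E]
  [MeasurableSpace E] [BorelSpace E]

theorem stage1_noise5 {V : E → ℝ} {G : E → E} {H : E → E →L[ℝ] E} (hV : Pot V G H) {s h : ℝ}
    (hs : 0 < s) (hs1 : s ≤ 1 / 1000) (hh : 0 < h) (hh1 : h ≤ 1 / 1000) {J : ℕ}
    {c w : Fin J → ℝ} (hq : QN 0 c w) (N : ℕ) {f : E × E → ℝ}
    (hf : Measurable f) (bf : ∀ z, 0 ≤ f z ∧ f z ≤ 1) {B : ℝ}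
    (hB : B = Real.exp (N * (10000 * s ^ 2 * h ^ 2 * (finrank ℝ E : ℝ)))) :
    |(∫ z, (K5 G s h c w)^[N] f z ∂(muPh V s)) - ∫ z, (Kb5 G s h c w)^[N] f z ∂(muPh V s)|
      ≤ √(B * (B - 1)) :=
  stage1_noise5' hV hs hs1 hh hh1 hq N hf bf hB

theorem stage1_contract5 {V : E → ℝ} {G : E → E} {H : E → E →L[ℝ] E} (hV : Pot V G H) {s h : ℝ}
    (hs : 0 < s) (hs1 : s ≤ 1 / 10000) (hh : 0 < h) (hh1 : h ≤ 1 / 10000) {J : ℕ}
    {c w : Fin J → ℝ} (hq : QN 0 c w) (N : ℕ) {φ : E → ℝ}
    (hφ : BM φ) {L : ℝ} (hL : ∀ x y, |φ x - φ y| ≤ L * ‖x - y‖) :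
    |(K5 G s h c w)^[N] (fun z => φ z.1) 0
        - ∫ z, (K5 G s h c w)^[N] (fun z => φ z.1) z ∂(muPh V s)|
      ≤ L * √(12 * (1 - h / 100) ^ N * (finrank ℝ E : ℝ)) :=
  stage1_contract5' hV hs hs1 hh hh1 hq N hφ hL

end Vale.Agent.P347
end

section

/-! Task L (P347): stage 2. -/

open MeasureTheory Filter Module Set
open scoped ENNReal NNReal

namespace Vale.Agent.P347

variable {E : Type*} [NormedAddCommGroup E] [InnerProductSpace ℝ E] [FiniteDimensional ℝ E]
  [MeasurableSpace E] [BorelSpace E]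

/-- The output operator of stage 2: `m` inner steps started at `x = y`. -/
noncomputable def Sop (G : E → E) (s τ : ℝ) (m : ℕ) (f : E → ℝ) (y : E) : ℝ :=
  (Top G s τ y)^[m] f y

theorem Sop_bm {V : E → ℝ} {G : E → E} {H : E → E →L[ℝ] E} (hV : Pot V G H) {s τ : ℝ}
    (hs : 0 < s) (hτ : 0 < τ) (m : ℕ) {f : E → ℝ} (hf : BM f) : BM (Sop G s τ m f) := by
  have _ := hs
  have _ := hτ
  obtain ⟨h1, C, h2⟩ := TopJ_iter_bm (s := s) (τ := τ) hV m (BM.snd hf)
  have e : Sop G s τ m f = fun y => (TopJ G s τ)^[m] (fun q : E × E => f q.2) (y, y) := by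
    funext y
    exact Top_iter_eq G s τ y m (fun q : E × E => f q.2) y
  rw [e]
  exact ⟨h1.comp (measurable_id.prodMk measurable_id), C, fun y => h2 _⟩

/-- Stage 2 turns `L1` distances of the starting points into total variation. -/
theorem Sop_lip {V : E → ℝ} {G : E → E} {H : E → E →L[ℝ] E} (hV : Pot V G H) {s τ : ℝ}
    (hs : 0 < s) (hτ : 0 < τ) (hτ1 : τ ≤ 1 / 8) {m : ℕ} (hm : 0 < m) {f : E → ℝ}
    (hf : Measurable f) (bf : ∀ x, 0 ≤ f x ∧ f x ≤ 1) (y y' : E) :
    |Sop G s τ m f y - Sop G s τ m f y'| ≤ 2 / √(s * τ / (s + τ)) * ‖y - y'‖ := by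
  obtain ⟨k, rfl⟩ : ∃ k, m = k + 1 := ⟨m - 1, by omega⟩
  refine (Top_lip hV hs hτ hτ1 hf bf k y y y' y').trans (le_of_eq ?_)
  ring

/-- Upper bound for the one-step dual entropy error. -/
noncomputable def kT (E : Type*) [NormedAddCommGroup E] [InnerProductSpace ℝ E] (s τ : ℝ)
    (y x : E) : ℝ :=
  100 * ((s * τ / (s + τ)) ^ 2 * (finrank ℝ E : ℝ)
    + 8 * (s * τ / (s + τ)) ^ 3 * (‖y‖ ^ 2 + ‖x‖ ^ 2 + τ * (finrank ℝ E : ℝ)))

/-- Ideal inner step. -/
noncomputable def PT (V : E → ℝ) (s τ : ℝ) (y : E) (f : E → ℝ) (x : E) : ℝ :=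
  ∫ w, ∫ x', f x' ∂(gibbs (post V (s * τ / (s + τ)) (cen s τ y x w))) ∂(gam E)

section inner

variable {V : E → ℝ} {G : E → E} {H : E → E →L[ℝ] E} {s τ : ℝ}

theorem cen_sq (hs : 0 < s) (hτ : 0 < τ) (y x : E) :
    Integrable (fun w => ‖cen s τ y x w‖ ^ 2) (gam E) ∧
    ∫ w, ‖cen s τ y x w‖ ^ 2 ∂(gam E) ≤ ‖y‖ ^ 2 + ‖x‖ ^ 2 + τ * (finrank ℝ E : ℝ) := by
  obtain ⟨t0, t1, h1, h2, h3⟩ := tau_facts hs hτ
  set α := τ / (s + τ) with hα
  set β := s / (s + τ) with hβ
  have hβ1 : β ≤ 1 := by (clear * - h1 h3; linarith)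
  set q : E := α • y + β • x with hq
  have hqn : ‖q‖ ^ 2 ≤ ‖y‖ ^ 2 + ‖x‖ ^ 2 := by
    have h4 : ‖q‖ ≤ α * ‖y‖ + β * ‖x‖ := by
      refine (norm_add_le _ _).trans ?_
      rw [norm_smul, norm_smul, Real.norm_of_nonneg h1, Real.norm_of_nonneg h2]
    have h5 : ‖q‖ ^ 2 ≤ (α * ‖y‖ + β * ‖x‖) ^ 2 := pow_le_pow_left₀ (norm_nonneg _) h4 2
    refine h5.trans ?_
    have h6 : α = 1 - β := by linarith only [h3]
    rw [h6]
    nlinarith only [h2, h1, h3, mul_nonneg (mul_nonneg h2 (by linarith : 0 ≤ 1 - β)) (sq_nonneg (‖y‖ - ‖x‖))]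
  have e : ∀ w : E, ‖cen s τ y x w‖ ^ 2 =
      ‖q‖ ^ 2 + (2 * (β * √τ) * inner ℝ q w + (β ^ 2 * τ) * ‖w‖ ^ 2) := by
    intro w
    have e1 : cen s τ y x w = q + (β * √τ) • w := by
      unfold cen
      rw [← hα, ← hβ, hq]
      module
    rw [e1, norm_add_sq_real, inner_smul_right, norm_smul,
      Real.norm_of_nonneg (mul_nonneg h2 (Real.sqrt_nonneg _)), mul_pow, mul_pow,
      Real.sq_sqrt hτ.le]
    ring
  have j1 : Integrable (fun z : E => (inner ℝ q z : ℝ)) (gam E) :=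
    gam_integrable ((PG.const q).inner PG.id) (by (clear hs hτ t0 t1 h1 hα h2 h3 hβ hβ1 hq hqn e; fun_prop))
  have j2 : Integrable (fun z : E => ‖z‖ ^ 2) (gam E) :=
    gam_integrable (PG.id.norm.pow 2) (by fun_prop)
  have j3 : Integrable (fun z : E => z) (gam E) := gam_integrable PG.id (by fun_prop)
  have j4 : Integrable (fun w : E => 2 * (β * √τ) * inner ℝ q w + (β ^ 2 * τ) * ‖w‖ ^ 2) (gam E) :=
    (j1.const_mul _).add (j2.const_mul _)
  simp_rw [e]
  refine ⟨(integrable_const _).add j4, ?_⟩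
  rw [integral_add (integrable_const _) j4,
    integral_add (j1.const_mul _) (j2.const_mul _), integral_const_mul, integral_const_mul,
    integral_const, probReal_univ, one_smul, gam_sq, integral_inner (𝕜 := ℝ) j3 q, gam_mean,
    inner_zero_right]
  have hn0 : (0 : ℝ) ≤ (finrank ℝ E : ℝ) := Nat.cast_nonneg _
  have h7 : β ^ 2 ≤ 1 := by nlinarith only [h1, h3, h2]
  have h8 : β ^ 2 * τ * (finrank ℝ E : ℝ) ≤ 1 * τ * (finrank ℝ E : ℝ) := by (clear * - h7 hτ; gcongr)
  linarith only [hqn, h8]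

/-- Completing the square. -/
theorem post_post (hs : 0 < s) (hτ : 0 < τ) (V : E → ℝ) (y x w : E) :
    gibbs (post (post V s y) τ (x + √τ • w)) =
      gibbs (post V (s * τ / (s + τ)) (cen s τ y x w)) := by
  have h0 : 0 < s + τ := by linarith
  set u := x + √τ • w with hu
  have e : post (post V s y) τ u = fun z => post V (s * τ / (s + τ)) (cen s τ y x w) z +
      ‖y - u‖ ^ 2 / (2 * (s + τ)) := by
    funext z
    unfold post cen
    rw [← hu]
    set a := z - y with ha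
    set b := z - u with hb
    have e1 : z - ((τ / (s + τ)) • y + (s / (s + τ)) • u) = (τ / (s + τ)) • a + (s / (s + τ)) • b := by
      have h3 : (1 : ℝ) = τ / (s + τ) + s / (s + τ) := by field_simp; ring
      have h4 : z = (τ / (s + τ) + s / (s + τ)) • z := by rw [← h3, one_smul]
      rw [ha, hb]
      calc z - ((τ / (s + τ)) • y + (s / (s + τ)) • u)
          = (τ / (s + τ) + s / (s + τ)) • z - ((τ / (s + τ)) • y + (s / (s + τ)) • u) := by
            rw [← h4]
        _ = _ := by module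
    have e2 : y - u = b - a := by rw [ha, hb]; abel
    have e3 : ‖(τ / (s + τ)) • a + (s / (s + τ)) • b‖ ^ 2 = (τ / (s + τ)) ^ 2 * ‖a‖ ^ 2 +
        2 * ((τ / (s + τ)) * ((s / (s + τ)) * inner ℝ a b)) + (s / (s + τ)) ^ 2 * ‖b‖ ^ 2 := by
      rw [norm_add_sq_real, norm_smul, norm_smul, real_inner_smul_left, real_inner_smul_right,
        Real.norm_of_nonneg (by positivity), Real.norm_of_nonneg (by positivity)]
      ring
    have e4 : ‖b - a‖ ^ 2 = ‖b‖ ^ 2 - 2 * inner ℝ a b + ‖a‖ ^ 2 := by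
      rw [norm_sub_sq_real, real_inner_comm]
    rw [e1, e2, e3, e4]
    field_simp
    ring
  rw [e]
  exact gibbs_add_const _ _

theorem PT_invariant (hV : Pot V G H) (hs : 0 < s) (hτ : 0 < τ) (y : E) {f : E → ℝ} (hf : BMf f) :
    BMf (PT V s τ y f) ∧
    ∫ x, PT V s τ y f x ∂(gibbs (post V s y)) = ∫ x, f x ∂(gibbs (post V s y)) := by
  obtain ⟨hm, C, hC⟩ := hf
  obtain ⟨t0, t1, h1, h2, h3⟩ := tau_facts hs hτ
  have hcm : Measurable fun q : E × E => cen s τ y q.1 q.2 := by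
    unfold cen
    fun_prop
  refine ⟨⟨?_, C, fun x => ?_⟩, ?_⟩
  · unfold PT
    refine meas_param (ν := gam E) (f := fun q : E × E =>
      ∫ x', f x' ∂(gibbs (post V (s * τ / (s + τ)) (cen s τ y q.1 q.2)))) ?_
    exact meas_gibbs_post hV.adm.cont _ (u := fun q : E × E => cen s τ y q.1 q.2) hcm
      (f := fun p : (E × E) × E => f p.2) (hm.comp measurable_snd)
  · refine bdd_integral fun w => ?_
    have := (hV.cpot.post_adm t0 (cen s τ y x w)).isProb
    exact bdd_integral hC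
  · have hA := hV.cpot.post_adm hs y
    rw [← rgo_balance hA hτ hm hC]
    simp_rw [post_post hs hτ]
    rfl

theorem PT_dv (hV : Pot V G H) (hs : 0 < s) (hτ : 0 < τ) (hτ1 : τ ≤ 1 / 8) (y : E) {f : E → ℝ}
    (hf : BMf f) (x : E) :
    PT V s τ y f x ≤ kT E s τ y x + Real.log (Top G s τ y (fun x => Real.exp (f x)) x) := by
  obtain ⟨hm, C, hC⟩ := hf
  obtain ⟨t0, t1, h1, h2, h3⟩ := tau_facts hs hτ
  set t := s * τ / (s + τ) with ht
  have ht8 : t ≤ 1 / 8 := by linarith
  have hcG := oneaux_contG hV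
  have hGx : ∀ x, ‖G x‖ ≤ 2 * ‖x‖ := fun x => by
    have := hV.lipG x 0
    rwa [hV.gzero, sub_zero, sub_zero] at this
  -- the inner exponential integral
  set I : E → ℝ := fun w => ∫ z, Real.exp (f (stepT G s τ y x (w, z))) ∂(gam E) with hI
  have hms : Measurable fun w : E × E => stepT G s τ y x w :=
    (measurable_stepT hV s τ).comp (measurable_const.prodMk measurable_id : Measurable
      fun w : E × E => ((y, x), w))
  have hem : Measurable fun q : E × E => Real.exp (f (stepT G s τ y x q)) :=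
    Real.measurable_exp.comp (hm.comp hms)
  have heb : ∀ q : E × E, |Real.exp (f (stepT G s τ y x q))| ≤ Real.exp C := fun q => by
    rw [abs_of_pos (Real.exp_pos _)]
    exact Real.exp_le_exp.2 ((le_abs_self _).trans (hC _))
  have hIm : Measurable I := meas_param (ν := gam E)
    (f := fun q : E × E => Real.exp (f (stepT G s τ y x q))) hem
  have hIlo : ∀ w, Real.exp (-C) ≤ I w := by
    intro w
    have h4 : ∫ _z : E, Real.exp (-C) ∂(gam E) ≤ I w := by
      refine integral_mono (integrable_const _) (bdd_integrable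
        (hem.comp (measurable_const.prodMk measurable_id : Measurable fun z : E => (w, z)))
        fun z => heb _) fun z => ?_
      exact Real.exp_le_exp.2 (abs_le.1 (hC _)).1
    simpa only [ge_iff_le, integral_const, probReal_univ, smul_eq_mul, one_mul] using h4
  have hIhi : ∀ w, I w ≤ Real.exp C := fun w => (le_abs_self _).trans (bdd_integral fun z => heb _)
  have hIpos : ∀ w, 0 < I w := fun w => (Real.exp_pos _).trans_le (hIlo w)
  have hlogm : Measurable fun w => Real.log (I w) := Real.measurable_log.comp hIm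
  have hlogb : ∀ w, |Real.log (I w)| ≤ C := by
    intro w
    rw [abs_le]
    constructor
    · have := Real.log_le_log (Real.exp_pos _) (hIlo w)
      rwa [Real.log_exp] at this
    · have := Real.log_le_log (hIpos w) (hIhi w)
      rwa [Real.log_exp] at this
  have hlogi : Integrable (fun w => Real.log (I w)) (gam E) := bdd_integrable hlogm hlogb
  -- pointwise bound
  have hpt : ∀ w, ∫ x', f x' ∂(gibbs (post V t (cen s τ y x w))) ≤
      100 * (t ^ 2 * (finrank ℝ E : ℝ) + 8 * t ^ 3 * ‖cen s τ y x w‖ ^ 2) + Real.log (I w) := by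
    intro w
    have h4 := rgo_dv hV.cpot t0 ht8 (cen s τ y x w) (G (cen s τ y x w)) hm ⟨C, hC⟩
    rw [sub_self, norm_zero] at h4
    refine h4.trans ?_
    have h5 : ‖G (cen s τ y x w)‖ ^ 2 ≤ 4 * ‖cen s τ y x w‖ ^ 2 := by
      have h6 := pow_le_pow_left₀ (norm_nonneg _) (hGx (cen s τ y x w)) 2
      nlinarith only [h6]
    have h7 := mul_le_mul_of_nonneg_left h5 (by positivity : 0 ≤ t ^ 3)
    have h8 : Real.log (∫ z, Real.exp (f (cen s τ y x w - t • G (cen s τ y x w) + √t • z))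
        ∂(gam E)) = Real.log (I w) := rfl
    rw [h8]
    linarith
  obtain ⟨hci, hcb⟩ := cen_sq hs hτ y x
  have hli : Integrable (fun w => ∫ x', f x' ∂(gibbs (post V t (cen s τ y x w)))) (gam E) := by
    have hcm : Measurable fun w : E => cen s τ y x w := by
      unfold cen
      fun_prop
    refine bdd_integrable (C := C) (meas_gibbs_post hV.adm.cont _ (u := fun w : E => cen s τ y x w)
      hcm (f := fun p : E × E => f p.2) (hm.comp measurable_snd)) fun w => ?_
    have := (hV.cpot.post_adm t0 (cen s τ y x w)).isProb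
    exact bdd_integral hC
  have hri : Integrable (fun w => 100 * (t ^ 2 * (finrank ℝ E : ℝ)
      + 8 * t ^ 3 * ‖cen s τ y x w‖ ^ 2)) (gam E) :=
    ((integrable_const _).add (hci.const_mul _)).const_mul _
  have h9 : PT V s τ y f x ≤ ∫ w, (100 * (t ^ 2 * (finrank ℝ E : ℝ)
      + 8 * t ^ 3 * ‖cen s τ y x w‖ ^ 2) + Real.log (I w)) ∂(gam E) :=
    integral_mono hli (hri.add hlogi) hpt
  rw [integral_add hri hlogi, integral_const_mul, integral_add (integrable_const _)
    (hci.const_mul _), integral_const_mul (8 * t ^ 3), integral_const, probReal_univ,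
    one_smul] at h9
  have hexpi : Integrable (fun w => Real.exp (Real.log (I w))) (gam E) := by
    simp_rw [fun w => Real.exp_log (hIpos w)]
    exact bdd_integrable hIm fun w => by
      rw [abs_of_pos (hIpos w)]
      exact hIhi w
  have h10 := rgo_jensen_log (μ := gam E) hlogi hexpi
  simp_rw [fun w => Real.exp_log (hIpos w)] at h10
  have h11 : ∫ w, I w ∂(gam E) = Top G s τ y (fun x => Real.exp (f x)) x := by
    unfold Top
    rw [integral_prod _ (bdd_integrable hem heb)]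
  rw [h11] at h10
  have h12 := mul_le_mul_of_nonneg_left hcb (by positivity : 0 ≤ 8 * t ^ 3)
  unfold kT
  rw [← ht]
  linarith

theorem kT_bound (E : Type*) [NormedAddCommGroup E] [InnerProductSpace ℝ E] [FiniteDimensional ℝ E]
    (hs : 0 < s) (hτ : 0 < τ) : ∃ (C : ℝ) (k : ℕ), ∀ q : E × E,
      |kT E s τ q.2 q.1| ≤ C * (1 + ‖q‖) ^ k := by
  obtain ⟨t0, t1, h1, h2, h3⟩ := tau_facts hs hτ
  set t := s * τ / (s + τ) with ht
  set n : ℝ := (finrank ℝ E : ℝ) with hn
  have hn0 : 0 ≤ n := Nat.cast_nonneg _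
  refine ⟨100 * (t ^ 2 * n + 8 * t ^ 3 * (2 + τ * n)), 2, fun q => ?_⟩
  have ha : ‖q.1‖ ≤ ‖q‖ := norm_fst_le q
  have hb : ‖q.2‖ ≤ ‖q‖ := norm_snd_le q
  have ha2 : ‖q.1‖ ^ 2 ≤ (1 + ‖q‖) ^ 2 := pow_le_pow_left₀ (norm_nonneg _) (by linarith only [ha]) 2
  have hb2 : ‖q.2‖ ^ 2 ≤ (1 + ‖q‖) ^ 2 := pow_le_pow_left₀ (norm_nonneg _) (by linarith only [hb]) 2
  have hone : 1 ≤ (1 + ‖q‖) ^ 2 := one_le_pow₀ (by linarith only [norm_nonneg q])
  unfold kT
  rw [← ht, ← hn, abs_of_nonneg (by (clear * - hs hτ; positivity))]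
  have e : 100 * (t ^ 2 * n + 8 * t ^ 3 * (2 + τ * n)) * (1 + ‖q‖) ^ 2 =
      100 * (t ^ 2 * n * (1 + ‖q‖) ^ 2 + 8 * t ^ 3 * ((1 + ‖q‖) ^ 2 + (1 + ‖q‖) ^ 2
        + τ * n * (1 + ‖q‖) ^ 2)) := by ring
  rw [e]
  have h4 : t ^ 2 * n ≤ t ^ 2 * n * (1 + ‖q‖) ^ 2 := le_mul_of_one_le_right (by positivity) hone
  have h5 : τ * n ≤ τ * n * (1 + ‖q‖) ^ 2 := le_mul_of_one_le_right (by (clear * - hτ; positivity)) hone
  (clear * - h4 hb2 ha2 h5 hs hτ; gcongr)

/-- Averaged error of one inner step. -/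
theorem kT_average (hV : Pot V G H) (hs : 0 < s) (hs1 : s ≤ 1 / 8) (hτ : 0 < τ)
    (hτ1 : τ ≤ 1 / 8) :
    Integrable (fun y => ∫ x, kT E s τ y x ∂(gibbs (post V s y))) (gibbs (Wp V s)) ∧
    ∫ y, ∫ x, kT E s τ y x ∂(gibbs (post V s y)) ∂(gibbs (Wp V s))
      ≤ 500 * τ ^ 2 * (finrank ℝ E : ℝ) := by
  obtain ⟨t0, t1, h1, h2, h3⟩ := tau_facts hs hτ
  have hkm : Measurable fun q : E × E => kT E s τ q.2 q.1 := by
    unfold kT
    fun_prop
  refine ⟨joint_integrable hV hs (f := fun q : E × E => kT E s τ q.2 q.1) hkm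
    (kT_bound E hs hτ), ?_⟩
  rw [joint_law hV hs (f := fun q : E × E => kT E s τ q.2 q.1) hkm (kT_bound E hs hτ)]
  have hA := hV.adm
  have := hA.isProb
  set t := s * τ / (s + τ) with ht
  set n : ℝ := (finrank ℝ E : ℝ) with hn
  have hn0 : 0 ≤ n := Nat.cast_nonneg _
  have e : ∀ x : E, ∫ z, kT E s τ (x + √s • z) x ∂(gam E) =
      100 * (t ^ 2 * n + 8 * t ^ 3 * (2 * ‖x‖ ^ 2 + s * n + τ * n)) := by
    intro x
    have h4 : ∀ z : E, kT E s τ (x + √s • z) x =
        100 * (t ^ 2 * n + 8 * t ^ 3 * (2 * ‖x‖ ^ 2 + τ * n)) +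
          (100 * (8 * t ^ 3) * (2 * √s) * inner ℝ x z + 100 * (8 * t ^ 3) * s * ‖z‖ ^ 2) :=
        fun z => by
      unfold kT
      rw [norm_add_sq_real, inner_smul_right, norm_smul, Real.norm_of_nonneg (Real.sqrt_nonneg _),
        mul_pow, Real.sq_sqrt hs.le]
      ring
    simp_rw [h4]
    have j1 : Integrable (fun z : E => (inner ℝ x z : ℝ)) (gam E) :=
      gam_integrable ((PG.const x).inner PG.id) (by fun_prop)
    have j2 : Integrable (fun z : E => ‖z‖ ^ 2) (gam E) :=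
      gam_integrable (PG.id.norm.pow 2) (by fun_prop)
    have j3 : Integrable (fun z : E => z) (gam E) := gam_integrable PG.id (by fun_prop)
    have j4 : Integrable (fun z : E => 100 * (8 * t ^ 3) * (2 * √s) * inner ℝ x z
        + 100 * (8 * t ^ 3) * s * ‖z‖ ^ 2) (gam E) := (j1.const_mul _).add (j2.const_mul _)
    rw [integral_add (integrable_const _) j4,
      integral_add (j1.const_mul _) (j2.const_mul _),
      integral_const_mul (100 * (8 * t ^ 3) * (2 * √s)), integral_const_mul (100 * (8 * t ^ 3) * s),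
      integral_const, probReal_univ, one_smul, gam_sq, integral_inner (𝕜 := ℝ) j3 x, gam_mean,
      inner_zero_right]
    ring
  have e' : ∀ x : E, ∫ z, kT E s τ (x + √s • z) x ∂(gam E) =
      100 * (t ^ 2 * n + 8 * t ^ 3 * (s * n + τ * n)) + 100 * (8 * t ^ 3 * 2) * ‖x‖ ^ 2 := by
    intro x
    rw [e]
    ring
  change ∫ x, ∫ z, kT E s τ (x + √s • z) x ∂(gam E) ∂(gibbs V) ≤ _
  simp_rw [e']
  rw [integral_add (integrable_const _) ((hA.integrable (PG.id.norm.pow 2)
    (by fun_prop)).const_mul _), integral_const, probReal_univ, one_smul, integral_const_mul]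
  have h5 := mul_le_mul_of_nonneg_left (moment_pi hV) (by positivity : 0 ≤ 100 * (8 * t ^ 3 * 2))
  rw [← hn] at h5
  have h6 : t ^ 2 ≤ τ ^ 2 := pow_le_pow_left₀ t0.le t1 2
  have h7 : t ^ 3 ≤ τ ^ 2 / 8 := by
    calc t ^ 3 = t ^ 2 * t := by ring
      _ ≤ τ ^ 2 * (1 / 8) := by
        apply mul_le_mul h6 (t1.trans hτ1) t0.le (by positivity)
      _ = τ ^ 2 / 8 := by ring
  have h8 : t ^ 3 * (s + τ + 2) ≤ τ ^ 2 / 8 * (1 / 8 + 1 / 8 + 2) :=
    mul_le_mul h7 (by linarith only [hs1, hτ1]) (by (clear * - hs hτ; positivity)) (by positivity)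
  have h9 : 100 * (t ^ 2 + 8 * (t ^ 3 * (s + τ + 2))) ≤ 500 * τ ^ 2 := by
    nlinarith only [h6, h8]
  have h10 := mul_le_mul_of_nonneg_right h9 hn0
  (clear h1 h2 h3 hkm ht hn e e'; nlinarith)

/-- Integrated version of the initial error. -/
theorem dist_average (hV : Pot V G H) (hs : 0 < s) (hs1 : s ≤ 1) :
    Integrable (fun y => ∫ x, ‖y - x‖ ∂(gibbs (post V s y))) (gibbs (Wp V s)) ∧
    ∫ y, ∫ x, ‖y - x‖ ∂(gibbs (post V s y)) ∂(gibbs (Wp V s)) ≤ √(finrank ℝ E : ℝ) := by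
  have hm : Measurable fun q : E × E => ‖q.2 - q.1‖ := by fun_prop
  have hb : ∃ (C : ℝ) (k : ℕ), ∀ q : E × E, |‖q.2 - q.1‖| ≤ C * (1 + ‖q‖) ^ k := by
    refine ⟨2, 1, fun q => ?_⟩
    have ha : ‖q.1‖ ≤ ‖q‖ := norm_fst_le q
    have hb : ‖q.2‖ ≤ ‖q‖ := norm_snd_le q
    rw [abs_of_nonneg (norm_nonneg _), pow_one]
    linarith only [ha, hb, norm_sub_le q.2 q.1]
  refine ⟨joint_integrable hV hs (f := fun q : E × E => ‖q.2 - q.1‖) hm hb, ?_⟩
  have hjl := joint_law hV hs (f := fun q : E × E => ‖q.2 - q.1‖) hm hb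
  simp only at hjl
  rw [hjl]
  have := hV.adm.isProb
  have j2 : Integrable (fun z : E => ‖z‖ ^ 2) (gam E) :=
    gam_integrable (PG.id.norm.pow 2) (by fun_prop)
  obtain ⟨h1, h2⟩ := integral_sqrt_le (μ := gam E) j2 (fun z => by (clear * -; positivity))
  rw [gam_sq] at h2
  have e : ∀ x : E, ∫ z, ‖x + √s • z - x‖ ∂(gam E) = √s * ∫ z, √(‖z‖ ^ 2) ∂(gam E) := by
    intro x
    rw [← integral_const_mul]
    refine integral_congr_ae (Eventually.of_forall fun z => ?_)
    simp only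
    rw [add_sub_cancel_left, norm_smul, Real.norm_of_nonneg (Real.sqrt_nonneg _),
      Real.sqrt_sq (norm_nonneg _)]
  simp_rw [e]
  rw [integral_const, probReal_univ, one_smul]
  have h3 : √s ≤ 1 := Real.sqrt_le_one.2 hs1
  calc √s * ∫ z, √(‖z‖ ^ 2) ∂(gam E) ≤ 1 * ∫ z, √(‖z‖ ^ 2) ∂(gam E) :=
        mul_le_mul_of_nonneg_right h3 (integral_nonneg fun z => Real.sqrt_nonneg _)
    _ ≤ √(finrank ℝ E : ℝ) := by rwa [one_mul]

end inner

/-- Stage 2 samples the posterior, on average over `y`. -/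
theorem stage2 {V : E → ℝ} {G : E → E} {H : E → E →L[ℝ] E} (hV : Pot V G H) {s τ : ℝ}
    (hs : 0 < s) (hs1 : s ≤ 1 / 8) (hτ : 0 < τ) (hτ1 : τ ≤ 1 / 8) {m : ℕ} (hm : 0 < m)
    {f : E → ℝ} (hf : Measurable f) (bf : ∀ x, 0 ≤ f x ∧ f x ≤ 1) :
    |(∫ y, Sop G s τ m f y ∂(gibbs (Wp V s))) - ∫ x, f x ∂(gibbs V)|
      ≤ 2 * √(m * (500 * τ ^ 2 * (finrank ℝ E : ℝ)))
        + 2 * (s / (s + τ)) ^ m * √(finrank ℝ E : ℝ) / √(s * τ / (s + τ)) := by
  have hbf : BM f := ⟨hf, 1, fun x => by rw [abs_of_nonneg (bf x).1]; exact (bf x).2⟩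
  have hW := (Wp_adm hV hs).isProb
  have hpi := hV.adm.isProb
  have hρ : ∀ y, IsProbabilityMeasure (gibbs (post V s y)) := fun y =>
    (hV.cpot.post_adm hs y).isProb
  obtain ⟨t0, t1, h1, h2, h3⟩ := tau_facts hs hτ
  -- the joint function
  obtain ⟨hJm, CJ, hJb⟩ := TopJ_iter_bm (s := s) (τ := τ) hV m (BM.snd hbf)
  have hFJ : ∀ y x, (Top G s τ y)^[m] f x = (TopJ G s τ)^[m] (fun q : E × E => f q.2) (y, x) :=
    fun y x => Top_iter_eq G s τ y m (fun q : E × E => f q.2) x
  have hFm : ∀ y, Measurable fun x => (Top G s τ y)^[m] f x := fun y => by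
    simp_rw [hFJ]
    exact hJm.comp (measurable_const.prodMk measurable_id)
  have hF1 : ∀ y x, |(Top G s τ y)^[m] f x| ≤ 1 := fun y x => by
    obtain ⟨h4, h5⟩ := Top_unit hV s τ y m hf bf x
    rwa [abs_of_nonneg h4]
  -- disintegration of the target
  have hdis : ∫ x, f x ∂(gibbs V) = ∫ y, ∫ x, f x ∂(gibbs (post V s y)) ∂(gibbs (Wp V s)) := by
    have h4 := joint_law hV hs (f := fun q : E × E => f q.1) (hf.comp measurable_fst)
      ⟨1, 0, fun q => by
        rw [pow_zero, mul_one, abs_of_nonneg (bf q.1).1]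
        exact (bf q.1).2⟩
    simp only at h4
    rw [h4]
    refine integral_congr_ae (Eventually.of_forall fun x => ?_)
    simp
  -- measurability and integrability in `y`
  have m1 : Measurable (Sop G s τ m f) := (Sop_bm hV hs hτ m hbf).1
  have i1 : Integrable (Sop G s τ m f) (gibbs (Wp V s)) :=
    bdd_integrable m1 (C := 1) fun y => hF1 y y
  have m2 : Measurable fun y => ∫ x, (Top G s τ y)^[m] f x ∂(gibbs (post V s y)) := by
    simp_rw [hFJ]
    exact meas_gibbs_post hV.adm.cont s (u := fun y : E => y) measurable_id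
      (f := (TopJ G s τ)^[m] (fun q : E × E => f q.2)) hJm
  have i2 : Integrable (fun y => ∫ x, (Top G s τ y)^[m] f x ∂(gibbs (post V s y)))
      (gibbs (Wp V s)) := bdd_integrable m2 (C := 1) fun y => bdd_integral fun x => hF1 y x
  have m3 : Measurable fun y => ∫ x, f x ∂(gibbs (post V s y)) :=
    meas_gibbs_post hV.adm.cont s (u := fun y : E => y) measurable_id
      (f := fun q : E × E => f q.2) (hf.comp measurable_snd)
  have i3 : Integrable (fun y => ∫ x, f x ∂(gibbs (post V s y)))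
      (gibbs (Wp V s)) := bdd_integrable m3 (C := 1) fun y => bdd_integral fun x => by
    rw [abs_of_nonneg (bf x).1]
    exact (bf x).2
  -- splitting
  have hsplit : (∫ y, Sop G s τ m f y ∂(gibbs (Wp V s))) - ∫ x, f x ∂(gibbs V) =
      (∫ y, (Sop G s τ m f y - ∫ x, (Top G s τ y)^[m] f x ∂(gibbs (post V s y)))
        ∂(gibbs (Wp V s))) -
      ∫ y, ((∫ x, f x ∂(gibbs (post V s y))) -
        ∫ x, (Top G s τ y)^[m] f x ∂(gibbs (post V s y))) ∂(gibbs (Wp V s)) := by
    rw [integral_sub i1 i2, integral_sub i3 i2, hdis]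
    ring
  rw [hsplit]
  refine (abs_sub _ _).trans ?_
  rw [add_comm]
  apply add_le_add
  · -- term B
    obtain ⟨k1, k2⟩ := kT_average hV hs hs1 hτ hτ1
    have kn : ∀ y, 0 ≤ ∫ x, kT E s τ y x ∂(gibbs (post V s y)) := fun y =>
      integral_nonneg fun x => by
        unfold kT
        (clear * - hs hτ; positivity)
    have hB : ∀ y, ‖(∫ x, f x ∂(gibbs (post V s y))) -
        ∫ x, (Top G s τ y)^[m] f x ∂(gibbs (post V s y))‖ ≤
        2 * √(m * ∫ x, kT E s τ y x ∂(gibbs (post V s y))) := by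
      intro y
      have hA := hV.cpot.post_adm hs y
      have := hρ y
      have hki : Integrable (kT E s τ y) (gibbs (post V s y)) := by
        have hpg : PG (kT E s τ y) := by
          obtain ⟨C, k, hC⟩ := kT_bound E hs hτ
          refine ⟨|C| * (1 + ‖y‖) ^ k, k, fun x => ?_⟩
          have h4 := hC (x, y)
          simp only at h4
          rw [Real.norm_eq_abs]
          refine h4.trans ?_
          have h5 : 1 + ‖(x, y)‖ ≤ (1 + ‖y‖) * (1 + ‖x‖) := by
            have h6 : ‖(x, y)‖ ≤ ‖x‖ + ‖y‖ := by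
              rw [Prod.norm_def]
              exact max_le (by linarith only [norm_nonneg y]) (by linarith only [norm_nonneg x])
            nlinarith only [h6, mul_nonneg (norm_nonneg x) (norm_nonneg y)]
          calc C * (1 + ‖(x, y)‖) ^ k ≤ |C| * ((1 + ‖y‖) * (1 + ‖x‖)) ^ k := by
                apply mul_le_mul (le_abs_self C) (pow_le_pow_left₀ (by (clear * -; positivity)) h5 k)
                  (by (clear * -; positivity)) (abs_nonneg C)
            _ = |C| * (1 + ‖y‖) ^ k * (1 + ‖x‖) ^ k := by rw [mul_pow]; ring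
        refine hA.integrable hpg ?_
        have : Continuous (kT E s τ y) := by
          unfold kT
          fun_prop
        exact this.aestronglyMeasurable
      exact dv_tv (Top_markov hV s τ y) (fun f hf => PT_invariant hV hs hτ y hf) hki
        (fun f hf x => PT_dv hV hs hτ hτ1 y hf x) m hf bf
    obtain ⟨s1, s2⟩ := integral_sqrt_le (μ := gibbs (Wp V s)) (k1.const_mul (m : ℝ))
      (fun y => mul_nonneg (Nat.cast_nonneg m) (kn y))
    rw [← Real.norm_eq_abs]
    refine (norm_integral_le_of_norm_le (s1.const_mul 2) (Eventually.of_forall hB)).trans ?_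
    rw [integral_const_mul]
    refine mul_le_mul_of_nonneg_left (s2.trans (Real.sqrt_le_sqrt ?_)) (by norm_num)
    rw [integral_const_mul]
    exact mul_le_mul_of_nonneg_left k2 (Nat.cast_nonneg m)
  · -- term A
    obtain ⟨d1, d2⟩ := dist_average hV hs (by linarith only [hs1] : s ≤ 1)
    obtain ⟨j, rfl⟩ : ∃ j, m = j + 1 := ⟨m - 1, by (clear * - hm; omega)⟩
    have hst : 0 < √(s * τ / (s + τ)) := Real.sqrt_pos.2 t0
    have hc0 : 0 ≤ 2 / √(s * τ / (s + τ)) * (s / (s + τ)) ^ (j + 1) := by positivity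
    have hA : ∀ y, ‖Sop G s τ (j + 1) f y -
        ∫ x, (Top G s τ y)^[j + 1] f x ∂(gibbs (post V s y))‖ ≤
        2 / √(s * τ / (s + τ)) * (s / (s + τ)) ^ (j + 1) *
          ∫ x, ‖y - x‖ ∂(gibbs (post V s y)) := by
      intro y
      have := hρ y
      have hAd := hV.cpot.post_adm hs y
      have hi : Integrable (fun x => (Top G s τ y)^[j + 1] f x) (gibbs (post V s y)) :=
        bdd_integrable (hFm y) (hF1 y)
      have e : Sop G s τ (j + 1) f y - ∫ x, (Top G s τ y)^[j + 1] f x ∂(gibbs (post V s y)) =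
          ∫ x, ((Top G s τ y)^[j + 1] f y - (Top G s τ y)^[j + 1] f x)
            ∂(gibbs (post V s y)) := by
        rw [integral_sub (integrable_const _) hi, integral_const, probReal_univ, one_smul]
        rfl
      have hdi : Integrable (fun x => ‖y - x‖) (gibbs (post V s y)) :=
        hAd.integrable ((PG.const y).sub PG.id).norm (by (clear τ hs1 hτ hτ1 f hf bf hbf t0 t1 h1 h2 h3 CJ hdis m3 i3 d1 d2 j hm hJm hJb hFJ hFm hF1 m1 i1 m2 i2 hsplit hst hc0 hAd hi e; fun_prop))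
      rw [e, ← integral_const_mul]
      refine norm_integral_le_of_norm_le (hdi.const_mul _) (Eventually.of_forall fun x => ?_)
      rw [Real.norm_eq_abs]
      refine (Top_lip hV hs hτ hτ1 hf bf j y y y x).trans (le_of_eq ?_)
      rw [sub_self, norm_zero]
      ring
    rw [← Real.norm_eq_abs]
    refine (norm_integral_le_of_norm_le (d1.const_mul _) (Eventually.of_forall hA)).trans ?_
    rw [integral_const_mul]
    refine (mul_le_mul_of_nonneg_left d2 hc0).trans (le_of_eq ?_)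
    ring

end Vale.Agent.P347
end

section

/-! Task M (P347): total error of the two-stage scheme. -/

open MeasureTheory Filter Module Set
open scoped ENNReal NNReal

namespace Vale.Agent.P347

variable {E : Type*} [NormedAddCommGroup E] [InnerProductSpace ℝ E] [FiniteDimensional ℝ E]
  [MeasurableSpace E] [BorelSpace E]

theorem Top_unit_asm {G : E → E} {s τ : ℝ} {y : E} {f : E → ℝ} (bf : ∀ x, 0 ≤ f x ∧ f x ≤ 1)
    (x : E) : 0 ≤ Top G s τ y f x ∧ Top G s τ y f x ≤ 1 := by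
  unfold Top
  refine ⟨integral_nonneg fun w => (bf _).1, ?_⟩
  by_cases hi : Integrable (fun w => f (stepT G s τ y x w)) ((gam E).prod (gam E))
  · refine (integral_mono hi (integrable_const 1) fun w => (bf _).2).trans ?_
    simp
  · rw [integral_undef hi]
    exact zero_le_one

theorem Sop_unit {G : E → E} {s τ : ℝ} (m : ℕ) {f : E → ℝ} (bf : ∀ x, 0 ≤ f x ∧ f x ≤ 1)
    (y : E) : 0 ≤ Sop G s τ m f y ∧ Sop G s τ m f y ≤ 1 := by
  unfold Sop
  have h : ∀ k x, 0 ≤ (Top G s τ y)^[k] f x ∧ (Top G s τ y)^[k] f x ≤ 1 := by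
    intro k
    induction k with
    | zero => exact bf
    | succ k ih =>
      intro x
      rw [Function.iterate_succ_apply']
      exact Top_unit_asm ih x
  exact h m y

end Vale.Agent.P347
end

section

/-! Task G5-M (P347): total error of the two-stage scheme with general nodes. -/

open MeasureTheory Filter Module Set
open scoped ENNReal NNReal

namespace Vale.Agent.P347

variable {E : Type*} [NormedAddCommGroup E] [InnerProductSpace ℝ E] [FiniteDimensional ℝ E]
  [MeasurableSpace E] [BorelSpace E]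

/-- A rule exact to order `m` is exact to order `0`. -/
theorem QN.zero {m J : ℕ} {c w : Fin J → ℝ} (hq : QN m c w) : QN 0 c w :=
  ⟨hq.c0, hq.c1, hq.w0, fun k hk => hq.mom k (hk.trans (Nat.zero_le m))⟩

theorem scheme_error5_aux {V : E → ℝ} {G : E → E} {H : E → E →L[ℝ] E} (hV : Pot V G H)
    {s h τ : ℝ}
    (hs : 0 < s) (hs1 : s ≤ 1 / 10000) (hh : 0 < h) (hh1 : h ≤ 1 / 10000) (hτ : 0 < τ)
    (hτ1 : τ ≤ 1 / 8) (N : ℕ) {M : ℕ} (hM : 0 < M) {Y P : ℝ → E × E → E}
    (hF : HamFlow (Fp V G s) Y P) {m J : ℕ} (hm : 0 < m) {c w : Fin J → ℝ} (hq : QN m c w)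
    {A : ℝ} {D : ℕ → E × E → E} (hD : FD V G s Y P m A D) {f : E → ℝ} (hf : Measurable f)
    (bf : ∀ x, 0 ≤ f x ∧ f x ≤ 1) {n : ℝ} (hn : n = (finrank ℝ E : ℝ)) :
    |(K5 G s h c w)^[N] (fun z => Sop G s τ M f z.1) 0 - ∫ x, f x ∂(gibbs V)|
      ≤ 2 / √(s * τ / (s + τ)) * √(12 * (1 - h / 100) ^ N * n)
  + √(Real.exp (N * (10000 * s ^ 2 * h ^ 2 * n)) * (Real.exp (N * (10000 * s ^ 2 * h ^ 2 * n)) - 1))
  + 2 * √(N * (10000000 * h * (h ^ (2 * m) * A + n * (s ^ 3 + h ^ 5))))
  + (2 * √(M * (500 * τ ^ 2 * n)) + 2 * (s / (s + τ)) ^ M * √n / √(s * τ / (s + τ))) := by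
  subst hn
  set φ : E → ℝ := Sop G s τ M f with hφ
  have bmf : BM f := ⟨hf, 1, fun x => by
    rw [abs_of_nonneg (bf x).1]; exact (bf x).2⟩
  have bφ : BM φ := Sop_bm hV hs hτ M bmf
  have uφ : ∀ y, 0 ≤ φ y ∧ φ y ≤ 1 := Sop_unit M bf
  have lφ : ∀ x y, |φ x - φ y| ≤ 2 / √(s * τ / (s + τ)) * ‖x - y‖ :=
    fun x y => Sop_lip hV hs hτ hτ1 hM hf bf x y
  have mψ : Measurable fun z : E × E => φ z.1 := bφ.1.comp measurable_fst
  have uψ : ∀ z : E × E, 0 ≤ φ z.1 ∧ φ z.1 ≤ 1 := fun z => uφ z.1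
  have a1 := stage1_contract5 hV hs hs1 hh hh1 hq.zero N bφ lφ
  have a2 := stage1_noise5 hV hs (hs1.trans (by norm_num)) hh (hh1.trans (by norm_num)) hq.zero N
    mψ uψ rfl
  have a3 := stage1_ideal5 hV hs (hs1.trans (by norm_num)) hh (hh1.trans (by norm_num)) hF hm hq
    hD N mψ uψ
  have a4 := stage2 hV hs (hs1.trans (by norm_num)) hτ hτ1 hM hf bf
  have pW := (Wp_adm hV hs).isProb
  have e1 : ∫ z, φ z.1 ∂(muPh V s) = ∫ y, φ y ∂(gibbs (Wp V s)) := by
    unfold muPh
    rw [integral_fun_fst]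
    simp
  rw [e1] at a3
  rw [abs_le] at *
  obtain ⟨b1, c1⟩ := a1
  obtain ⟨b2, c2⟩ := a2
  obtain ⟨b3, c3⟩ := a3
  obtain ⟨b4, c4⟩ := a4
  constructor <;> linarith

end Vale.Agent.P347
end

section

/-! Task N2 (P347): the two-stage scheme is realised by an algorithm. -/

open MeasureTheory Filter Set

namespace Vale.Agent.P347

variable {d : ℕ}

/-- One step of stage 2 costs one query. -/
lemma comp_stepT (s τ : ℝ) : Comp d 1
    (fun V (x : (Eu d × Eu d) × (Eu d × Eu d)) =>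
      (x.1.1, stepT (gradient V) s τ x.1.1 x.1.2 x.2)) := by
  have h1 := comp_grad (d := d) (S := (Eu d × Eu d) × (Eu d × Eu d))
    (φ := fun x => (τ / (s + τ)) • x.1.1 + (s / (s + τ)) • (x.1.2 + √τ • x.2.1)) (by fun_prop)
  exact h1.post (f := fun x : ((Eu d × Eu d) × (Eu d × Eu d)) × Eu d =>
    (x.1.1.1, ((τ / (s + τ)) • x.1.1.1 + (s / (s + τ)) • (x.1.1.2 + √τ • x.1.2.1))
      - (s * τ / (s + τ)) • x.2 + √(s * τ / (s + τ)) • x.1.2.2)) (by fun_prop)

end Vale.Agent.P347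
end

section

/-! The general-node two-stage scheme is realised by an algorithm (P347, exponent 1/5). -/

open MeasureTheory Filter Set

namespace Vale.Agent.P347

variable {d : ℕ}

/-- `J` gradient estimates cost `2 J` queries. -/
lemma comp_est_pi {S : Type} [MeasurableSpace S] (s : ℝ) (J : ℕ) {φ ζ : Fin J → S → Eu d}
    (hφ : ∀ j, Measurable (φ j)) (hζ : ∀ j, Measurable (ζ j)) :
    Comp d (2 * J) (fun V (x : S) =>
      (x, fun j => gradient V (ev (gradient V) s (φ j x) (ζ j x)))) := by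
  induction J with
  | zero =>
    have h : (fun (V : Eu d → ℝ) (x : S) =>
        (x, fun j : Fin 0 => gradient V (ev (gradient V) s (φ j x) (ζ j x)))) =
        fun _ => fun x : S => (x, (Fin.elim0 : Fin 0 → Eu d)) := by
      funext V x
      exact Prod.ext rfl (Subsingleton.elim _ _)
    rw [h]
    exact comp_zero (measurable_id.prodMk measurable_const)
  | succ J ih =>
    have h1 := ih (φ := fun j => φ j.castSucc) (ζ := fun j => ζ j.castSucc)
      (fun j => hφ _) (fun j => hζ _)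
    have h2 := comp_est (d := d) (S := S × (Fin J → Eu d)) s (φ := fun x => φ (Fin.last J) x.1)
      (ζ := fun x => ζ (Fin.last J) x.1) ((hφ _).comp measurable_fst) ((hζ _).comp measurable_fst)
    have hm : Measurable (fun x : (S × (Fin J → Eu d)) × Eu d =>
        (x.1.1, (Fin.snoc (α := fun _ => Eu d) x.1.2 x.2 : Fin (J + 1) → Eu d))) := by
      refine (measurable_fst.comp measurable_fst).prodMk (measurable_pi_iff.2 fun j => ?_)
      refine Fin.lastCases ?_ (fun j => ?_) j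
      · simp only [Fin.snoc_last]
        exact measurable_snd
      · simp only [Fin.snoc_castSucc]
        exact (measurable_pi_apply j).comp (measurable_snd.comp measurable_fst)
    have h3 := (h1.trans h2).post hm
    have e : 2 * J + 2 = 2 * (J + 1) := by ring
    rw [e] at h3
    refine (congrArg (fun R => Comp d (2 * (J + 1)) R) ?_).mp h3
    funext V x
    refine Prod.ext rfl (funext fun j => ?_)
    refine Fin.lastCases ?_ (fun j => ?_) j
    · simp only [Fin.snoc_last]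
    · simp only [Fin.snoc_castSucc]

instance gamN_isProbEu (J : ℕ) (d : ℕ) : IsProbabilityMeasure (gamN J (Eu d)) := by
  unfold gamN
  infer_instance

instance noise5_standardBorel (J d : ℕ) : StandardBorelSpace (Noise5 J (Eu d)) := by
  have h1 : StandardBorelSpace (Eu d) := inferInstance
  have h2 : StandardBorelSpace (Fin J → Eu d) := inferInstance
  exact @StandardBorelSpace.prod _ _ _ _ h1 (@StandardBorelSpace.prod _ _ _ _ h1
    (@StandardBorelSpace.prod _ _ _ _ h2 (@StandardBorelSpace.prod _ _ _ _ h1 h1)))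

/-- One step of the general-node stage 1 costs `2 J + 4` queries. -/
lemma comp_step5 (s h : ℝ) {J : ℕ} (c w : Fin J → ℝ) : Comp d (2 * J + 4)
    (fun V (x : (Eu d × Eu d) × Noise5 J (Eu d)) =>
      step5 (gradient V) s h c w x.1 x.2) := by
  have h1 := comp_est (d := d) (S := (Eu d × Eu d) × Noise5 J (Eu d)) s (φ := fun x => x.1.1)
    (ζ := fun x => x.2.1) (by fun_prop) (by fun_prop)
  have h2 := comp_est (d := d) (S := ((Eu d × Eu d) × Noise5 J (Eu d)) × Eu d) s
    (φ := fun x => node h 1 x.1.1.1 x.1.1.2 x.2)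
    (ζ := fun x => x.1.2.2.1) (by unfold node; fun_prop) (by (clear * -; fun_prop))
  have h3 := comp_est_pi (d := d) (S := (((Eu d × Eu d) × Noise5 J (Eu d)) × Eu d) × Eu d) s J
    (φ := fun j x => node h (c j) x.1.1.1.1 x.1.1.1.2 x.1.2)
    (ζ := fun j x => x.1.1.2.2.2.1 j) (fun j => by unfold node; fun_prop) (fun j => by (clear * -; fun_prop))
  have h4 := ((h1.trans h2).trans h3).post
    (f := fun x : ((((Eu d × Eu d) × Noise5 J (Eu d)) × Eu d) × Eu d) × (Fin J → Eu d) =>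
      (upY5 h c w x.1.1.1.1.1 x.1.1.1.1.2 x.2 x.1.2
          + √(2 * h ^ 3) • x.1.1.1.2.2.2.2.1,
        upP5 h w x.1.1.1.1.2 x.2 + √(sg2 h) • x.1.1.1.2.2.2.2.2))
    (by unfold upY5 upP5; fun_prop)
  have e : 2 + 2 + 2 * J = 2 * J + 4 := by ring
  rw [e] at h4
  exact h4

/-- The two-stage scheme is realised by an algorithm with `(2 J + 4) N + M` queries. -/
theorem exists_algo_two5 (d : ℕ) (s h τ : ℝ) {J : ℕ} (c w : Fin J → ℝ) (N M : ℕ) :
    ∃ A : Algo d ((2 * J + 4) * N + M), ∀ V ∈ PotClass d, IsProbabilityMeasure (A.law V) ∧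
      ∀ f : Eu d → ℝ, Measurable f → (∀ x, 0 ≤ f x ∧ f x ≤ 1) →
        ∫ x, f x ∂(A.law V)
          = (K5 (gradient V) s h c w)^[N] (fun z => Sop (gradient V) s τ M f z.1) 0 := by
  obtain ⟨A, hA⟩ := exists_two_stage (d := d) (gamN J (Eu d)) ((gam (Eu d)).prod (gam (Eu d)))
    (K := fun V z ω => step5 (gradient V) s h c w z ω) (comp_step5 s h c w)
    (T := fun V y x w => stepT (gradient V) s τ y x w) (comp_stepT s τ) N M
  have h1 : (2 * J + 4) * N + 1 * M = (2 * J + 4) * N + M := by ring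
  rw [← h1]
  refine ⟨A, fun V hV => ⟨(hA V hV).1, fun f hf bf => ?_⟩⟩
  exact (hA V hV).2 f hf ⟨1, fun x => by rw [abs_le]; constructor <;> linarith only [(bf x).1, (bf x).2]⟩

end Vale.Agent.P347
end

section

/-! Assembly of the general-node scheme (P347, exponent 1/5). -/

open MeasureTheory Filter Module Set
open scoped ENNReal NNReal

namespace Vale.Agent.P347

section abstractE

variable {E : Type*} [NormedAddCommGroup E] [InnerProductSpace ℝ E] [FiniteDimensional ℝ E]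
  [MeasurableSpace E] [BorelSpace E]

/-- Total error bound; `A` bounds the second moment of the `m`-th derivative of the force. -/
noncomputable def errB5 (m : ℕ) (A n s h τ : ℝ) (N M : ℕ) : ℝ :=
  2 / √(s * τ / (s + τ)) * √(12 * (1 - h / 100) ^ N * n)
  + √(Real.exp (N * (10000 * s ^ 2 * h ^ 2 * n)) * (Real.exp (N * (10000 * s ^ 2 * h ^ 2 * n)) - 1))
  + 2 * √(N * (10000000 * h * (h ^ (2 * m) * A + n * (s ^ 3 + h ^ 5))))
  + (2 * √(M * (500 * τ ^ 2 * n)) + 2 * (s / (s + τ)) ^ M * √n / √(s * τ / (s + τ)))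

/-- Error of the two-stage scheme started at the origin. -/
theorem scheme_error5 {V : E → ℝ} {G : E → E} {H : E → E →L[ℝ] E} (hV : Pot V G H) {s h τ : ℝ}
    (hs : 0 < s) (hs1 : s ≤ 1 / 10000) (hh : 0 < h) (hh1 : h ≤ 1 / 10000) (hτ : 0 < τ)
    (hτ1 : τ ≤ 1 / 8) (N : ℕ) {M : ℕ} (hM : 0 < M) {Y P : ℝ → E × E → E}
    (hF : HamFlow (Fp V G s) Y P) {m J : ℕ} (hm : 0 < m) {c w : Fin J → ℝ} (hq : QN m c w)
    {A : ℝ} {D : ℕ → E × E → E} (hD : FD V G s Y P m A D) {f : E → ℝ} (hf : Measurable f)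
    (bf : ∀ x, 0 ≤ f x ∧ f x ≤ 1) :
    |(K5 G s h c w)^[N] (fun z => Sop G s τ M f z.1) 0 - ∫ x, f x ∂(gibbs V)|
      ≤ errB5 m A (finrank ℝ E : ℝ) s h τ N M :=
  scheme_error5_aux hV hs hs1 hh hh1 hτ hτ1 N hM hF hm hq hD hf bf rfl

end abstractE

/-- The two-stage scheme is realised by an algorithm with `(2 J + 4) N + M` queries. -/
theorem exists_algo5 (d : ℕ) (s h τ : ℝ) {J : ℕ} (c w : Fin J → ℝ) (N M : ℕ) :
    ∃ A : Algo d ((2 * J + 4) * N + M), ∀ V ∈ PotClass d, IsProbabilityMeasure (A.law V) ∧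
      ∀ f : Eu d → ℝ, Measurable f → (∀ x, 0 ≤ f x ∧ f x ≤ 1) →
        ∫ x, f x ∂(A.law V)
          = (K5 (gradient V) s h c w)^[N] (fun z => Sop (gradient V) s τ M f z.1) 0 :=
  exists_algo_two5 d s h τ c w N M

/-- Choice of the parameters: for every `δ` there is an order `m` such that for every node set
size `J` and every constant `C` the following holds for large `n`. -/
theorem params5 {δ : ℝ} (hδ : 0 < δ) :
    ∃ m : ℕ, ∀ (J : ℕ) (C : ℝ), ∀ᶠ n : ℕ in atTop, ∃ (s h τ : ℝ) (N M : ℕ),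
      0 < s ∧ s ≤ 1 / 10000 ∧ 0 < h ∧ h ≤ 1 / 10000 ∧
      0 < τ ∧ τ ≤ 1 / 8 ∧ 0 < M ∧
      (((2 * J + 4) * N + M : ℕ) : ℝ) ≤ (n : ℝ) ^ (1 / 5 + δ) ∧
      errB5 (m + 1) (C * n / s ^ m) n s h τ N M ≤ 1 / 10 := by
  have hδ' : 0 < min δ 1 := lt_min hδ one_pos
  set a : ℝ := min δ 1 / 2 with ha
  have ha0 : 0 < a := by rw [ha]; positivity
  have ha1 : a ≤ 1 / 2 := by rw [ha]; (clear * -; linarith [min_le_right δ 1])
  have haδ : 2 * a ≤ δ := by rw [ha]; linarith [min_le_left δ 1]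
  obtain ⟨m, hm⟩ := exists_nat_ge (1 / a)
  have hm' : 1 ≤ a * m := by
    rw [div_le_iff₀ ha0] at hm
    linarith only [hm]
  refine ⟨m, fun J C => ?_⟩
  have hb : 0 < min a (1 / 5) := lt_min ha0 (by norm_num)
  have hK : (0 : ℝ) < 10 ^ 20 * (2 * J + 5 + |C|) := by (clear * -; positivity)
  have hev := (etaP_tendsto hb).eventually (ge_mem_nhds
    (show (0 : ℝ) < 1 / (10 ^ 20 * (2 * J + 5 + |C|)) by positivity))
  filter_upwards [hev, eventually_ge_atTop 1] with n hn hn1
  have hn0 : (0 : ℝ) < n := by exact_mod_cast hn1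
  have hL : 0 ≤ Real.log n := Real.log_nonneg (by exact_mod_cast hn1)
  have hη : 10 ^ 20 * (2 * J + 5 + |C|) * etaP (min a (1 / 5)) (Real.log n) ≤ 1 := by
    rw [le_div_iff₀ hK] at hn
    linarith only [hn]
  obtain ⟨s, h, τ, N, M, hs, hs1, hh, hh1, hτ, hτ1, hM, hq, t1, t2, t3, t4, t5⟩ :=
    params5_fixed (C := C) J m ha0 ha1 rfl hm' hL rfl hη
  have e1 : Real.exp (1 * Real.log n) = n := by rw [one_mul, Real.exp_log hn0]
  rw [e1] at t1 t2 t3 t4 t5
  refine ⟨s, h, τ, N, M, hs, hs1, hh, hh1, hτ, hτ1, hM, hq.trans ?_, ?_⟩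
  · rw [Real.rpow_def_of_pos hn0, mul_comm]
    exact Real.exp_le_exp.2 (mul_le_mul_of_nonneg_left (by linarith only [haδ]) hL)
  · unfold errB5
    linarith only [t1, t2, t3, t4, t5]

end Vale.Agent.P347
end

section

/-! General-order derivative bounds (P347): Appell functions and the bound of all derivatives of
the smoothed force. -/

open MeasureTheory Filter Module Set Topology
open scoped ContDiff

namespace Vale.Agent.P347.Gen

/-! ### Iterated derivatives indexed by tuples -/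

section tuples

variable {X : Type*} [NormedAddCommGroup X] [NormedSpace ℝ X]

/-- Iterated directional derivative along a tuple. -/
noncomputable def Dt : (k : ℕ) → (Fin k → X) → (X → ℝ) → X → ℝ
  | 0, _, u => u
  | k + 1, I, u => Dt k (fun i => I i.succ) (dd (I 0) u)

theorem Dt_zero (I : Fin 0 → X) (u : X → ℝ) : Dt 0 I u = u := rfl
theorem Dt_succ (k : ℕ) (I : Fin (k + 1) → X) (u : X → ℝ) :
    Dt (k + 1) I u = Dt k (fun i => I i.succ) (dd (I 0) u) := rfl

theorem Dt_const_zero (k : ℕ) (I : Fin k → X) : Dt k I (fun _ : X => (0 : ℝ)) = fun _ => 0 := by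
  induction k with
  | zero => rfl
  | succ k ih => rw [Dt_succ, dd_const]; exact ih _

theorem Dt_const (k : ℕ) (I : Fin (k + 1) → X) (c : ℝ) :
    Dt (k + 1) I (fun _ : X => c) = fun _ => 0 := by
  rw [Dt_succ, dd_const]
  exact Dt_const_zero k _

theorem HS_eq_tuples {B : Type} [Fintype B] (vec : B → X) (r : ℕ) (u : X → ℝ) (z : X) :
    HS vec r u z = ∑ I : Fin r → B, (Dt r (fun i => vec (I i)) u z) ^ 2 := by
  induction r generalizing u with
  | zero => simp only [HS_zero, Finset.univ_unique, Dt_zero, Finset.sum_const, Finset.card_singleton, one_smul]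
  | succ r ih =>
    rw [HS_succ]
    simp only [ih]
    rw [← Equiv.sum_comp (Fin.consEquiv (fun _ : Fin (r + 1) => B)), Fintype.sum_prod_type]
    refine Finset.sum_congr rfl fun b _ => ?_
    refine Finset.sum_congr rfl fun I _ => ?_
    rw [Dt_succ]
    simp only [Fin.consEquiv, Equiv.coe_fn_mk, Fin.cons_succ, Fin.cons_zero]

end tuples

variable {E : Type*} [NormedAddCommGroup E] [InnerProductSpace ℝ E] [FiniteDimensional ℝ E]
  [MeasurableSpace E] [BorelSpace E]

variable {V : E → ℝ} {s : ℝ}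

/-- Iterated `Du` along a tuple. -/
noncomputable def Bt (V : E → ℝ) (s : ℝ) : (k : ℕ) → (Fin k → E) → (E → E → ℝ) → E → E → ℝ
  | 0, _, f => f
  | k + 1, I, f => Bt V s k (fun i => I i.succ) (Du V s (I 0) f)

theorem Bt_zero (I : Fin 0 → E) (f : E → E → ℝ) : Bt V s 0 I f = f := rfl
theorem Bt_succ (k : ℕ) (I : Fin (k + 1) → E) (f : E → E → ℝ) :
    Bt V s (k + 1) I f = Bt V s k (fun i => I i.succ) (Du V s (I 0) f) := rfl

theorem PP.Bt {Q : (E → ℝ) → Prop} (hQ : ∀ (u : E) m, Q m → Q (fun x => inner ℝ x u * m x))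
    (hA : Adm V) (hs : 0 < s) (k : ℕ) (I : Fin k → E) {f : E → E → ℝ} (hf : PP Q f) :
    PP Q (Bt V s k I f) := by
  induction k generalizing f with
  | zero => exact hf
  | succ k ih => exact ih _ (hf.Du hQ hA hs (I 0))

/-- Derivatives of posterior expectations. -/
theorem Dt_Ph (hA : Adm V) (hA' : ∀ y, Adm (post V s y)) (hs : 0 < s) (k : ℕ) (I : Fin k → E)
    {f : E → E → ℝ} (hf : PP CP f) :
    Dt k I (fun y => Ph V s (f y) y) = fun y => Ph V s (Bt V s k I f y) y := by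
  induction k generalizing f with
  | zero => rfl
  | succ k ih =>
    rw [Dt_succ, Bt_succ]
    have e : dd (I 0) (fun y => Ph V s (f y) y) = fun y => Ph V s (Du V s (I 0) f y) y := by
      ext y; exact (Ph_PP hA hA' hs hf).2 (I 0) y
    rw [e]
    exact ih _ (hf.Du CP.hQ hA hs (I 0))

theorem Du_lin {Q : (E → ℝ) → Prop} {f g : E → E → ℝ} (hf : PP Q f) (hg : PP Q g) (c : ℝ)
    (u : E) : Du V s u (fun y x => f y x + c * g y x)
      = fun y x => Du V s u f y x + c * Du V s u g y x := by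
  ext y x
  have h1 := hg.muly (contDiff_const (c := c))
  have h2 : dy u (fun y x => c * g y x) = fun y x => c * dy u g y x := by
    ext y x
    exact congrFun (dd_cmul (hg.smy x) c u) y
  unfold Du
  rw [dy_add hf h1, h2]
  ring

theorem Bt_lin {Q : (E → ℝ) → Prop} (hQ : ∀ (u : E) m, Q m → Q (fun x => inner ℝ x u * m x))
    (hA : Adm V) (hs : 0 < s) (k : ℕ) (I : Fin k → E) {f g : E → E → ℝ} (hf : PP Q f)
    (hg : PP Q g) (c : ℝ) : Bt V s k I (fun y x => f y x + c * g y x)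
      = fun y x => Bt V s k I f y x + c * Bt V s k I g y x := by
  induction k generalizing f g with
  | zero => rfl
  | succ k ih =>
    rw [Bt_succ, Du_lin hf hg c]
    exact ih _ (hf.Du hQ hA hs _) (hg.Du hQ hA hs _)

theorem Du_zero (u : E) : Du V s u (fun _ _ => (0 : ℝ)) = fun _ _ => 0 := by
  ext y x
  unfold Du dy
  rw [dd_const]
  ring

theorem Bt_const_zero (k : ℕ) (I : Fin k → E) :
    Bt V s k I (fun _ _ => (0 : ℝ)) = fun _ _ => 0 := by
  induction k with
  | zero => rfl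
  | succ k ih => rw [Bt_succ, Du_zero]; exact ih _

theorem Du_gmul {Q : (E → ℝ) → Prop} (g : E → ℝ) {f : E → E → ℝ} (hf : PP Q f) (u : E) :
    Du V s u (fun y x => g x * f y x) = fun y x => g x * Du V s u f y x := by
  ext y x
  have h2 : dy u (fun y x => g x * f y x) = fun y x => g x * dy u f y x := by
    ext y x
    exact congrFun (dd_cmul (hf.smy x) (g x) u) y
  unfold Du
  rw [h2]
  ring

theorem Bt_gmul {Q : (E → ℝ) → Prop} (hQ : ∀ (u : E) m, Q m → Q (fun x => inner ℝ x u * m x))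
    (hA : Adm V) (hs : 0 < s) (g : E → ℝ) (k : ℕ) (I : Fin k → E) {f : E → E → ℝ}
    (hf : PP Q f) : Bt V s k I (fun y x => g x * f y x) = fun y x => g x * Bt V s k I f y x := by
  induction k generalizing f with
  | zero => rfl
  | succ k ih =>
    rw [Bt_succ, Du_gmul g hf]
    exact ih _ (hf.Du hQ hA hs _)

/-- Commutation of `∂_x` and `Du`. -/
theorem dx_Du {f : E → E → ℝ} (hf : PP Poly f) (e u : E) :
    dx e (Du V s u f) = fun y x => Du V s u (dx e f) y x + (inner ℝ e u / s) * f y x := by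
  ext y x
  have e1 : Du V s u f y = fun x => dy u f y x
      + (1 / s) * ((inner ℝ x u - Ph V s (fun x => inner ℝ x u) y) * f y x) := rfl
  have s1 : ContDiff ℝ ∞ (dy u f y) := (hf.dy u).smx y
  have s2 : ContDiff ℝ ∞ (fun x : E => (inner ℝ x u : ℝ) + -Ph V s (fun x => inner ℝ x u) y) :=
    (Poly.lin u).sm.add contDiff_const
  have s3 : ContDiff ℝ ∞ (f y) := hf.smx y
  have h0 : dx e (Du V s u f) y x = dd e (Du V s u f y) x := rfl
  rw [h0, e1]
  simp only [sub_eq_add_neg]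
  rw [dd_add s1 (contDiff_const.mul (s2.mul s3)), dd_cmul (s2.mul s3), dd_mul s2 s3,
    dd_add (Poly.lin u).sm contDiff_const, dd_lin, dd_const]
  have h1 : dd e (dy u f y) x = dy u (dx e f) y x := congrFun (congrFun (dx_dy hf e u) y) x
  have h2 : dd e (f y) x = dx e f y x := rfl
  beta_reduce
  rw [h1, h2]
  unfold Du
  ring

/-- The Appell property. -/
theorem dx_Bt (hA : Adm V) (hs : 0 < s) (e : E) (k : ℕ) : ∀ (I : Fin (k + 1) → E)
    {f : E → E → ℝ}, PP Poly f →
    dx e (Bt V s (k + 1) I f) = fun y x => Bt V s (k + 1) I (dx e f) y x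
      + ∑ j : Fin (k + 1), (inner ℝ e (I j) / s) * Bt V s k (fun i => I (j.succAbove i)) f y x := by
  induction k with
  | zero =>
    intro I f hf
    rw [Bt_succ, Bt_zero, dx_Du hf]
    ext y x
    rw [Bt_succ, Bt_zero, Fin.sum_univ_one, Bt_zero]
  | succ k ih =>
    intro I f hf
    have hD := hf.Du Poly.hQ hA hs (I 0)
    rw [Bt_succ, ih (fun i => I i.succ) hD, dx_Du hf,
      Bt_lin Poly.hQ hA hs (k + 1) _ ((hf.dx e).Du Poly.hQ hA hs (I 0)) hf]
    ext y x
    rw [Fin.sum_univ_succ (n := k + 1)]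
    have e1 : Bt V s (k + 1 + 1) I (dx e f)
        = Bt V s (k + 1) (fun i => I i.succ) (Du V s (I 0) (dx e f)) := rfl
    have e2 : Bt V s (k + 1) (fun i => I ((0 : Fin (k + 1 + 1)).succAbove i)) f
        = Bt V s (k + 1) (fun i => I i.succ) f := by
      congr 1
    have e3 : ∀ j : Fin (k + 1), Bt V s (k + 1) (fun i => I (j.succ.succAbove i)) f
        = Bt V s k (fun i => I (j.succAbove i).succ) (Du V s (I 0) f) := by
      intro j
      rw [Bt_succ]
      simp only [Fin.succ_succAbove_zero, Fin.succ_succAbove_succ]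
    rw [e1, e2]
    simp only [e3]
    ring

/-! ### The variance bound for Appell functions -/

section var

variable {G : E → E} {H : E → E →L[ℝ] E} {ι : Type} [Fintype ι]

theorem PP.mono {Q Q' : (E → ℝ) → Prop} (h : ∀ m, Q m → Q' m) {f : E → E → ℝ} (hf : PP Q f) :
    PP Q' f := by
  induction hf with
  | base c m hc hm => exact PP.base c m hc (h m hm)
  | add f g _ _ h1 h2 => exact PP.add _ _ h1 h2

theorem pp_one : PP Poly (fun _ _ : E => (1 : ℝ)) := by
  simpa using PP.base (Q := Poly) (fun _ : E => (1 : ℝ)) (fun _ => 1) contDiff_const (Poly.const 1)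

/-- The Appell function of a tuple of (scaled) basis vectors. -/
noncomputable def App (V : E → ℝ) (s : ℝ) (b : OrthonormalBasis ι ℝ E) (k : ℕ) (I : Fin k → ι)
    (y : E) : E → ℝ := Bt V s k (fun i => √s • b (I i)) (fun _ _ => 1) y

variable (hV : Pot V G H) (hs : 0 < s) (b : OrthonormalBasis ι ℝ E)
include hV hs

theorem App_pp (k : ℕ) (I : Fin k → ι) :
    PP Poly (Bt V s k (fun i => √s • b (I i)) (fun _ _ => 1)) :=
  pp_one.Bt Poly.hQ hV.adm hs k _

theorem App_cp (k : ℕ) (I : Fin k → ι) (y : E) : CP (App V s b k I y) :=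
  (App_pp hV hs b k I).cp (fun _ h => h.cp) y

theorem App_sm (k : ℕ) (I : Fin k → ι) (y : E) : ContDiff ℝ ∞ (App V s b k I y) :=
  (App_pp hV hs b k I).smx y

theorem App_mean (k : ℕ) (I : Fin (k + 1) → ι) (y : E) :
    ∫ x, App V s b (k + 1) I y x ∂(gibbs (post V s y)) = 0 := by
  have hA' : ∀ y, Adm (post V s y) := fun y => hV.cpot.post_adm hs y
  have h := congrFun (Dt_Ph hV.adm hA' hs (k + 1) (fun i => √s • b (I i))
    (pp_one.mono fun _ h => h.cp)) y
  have e : (fun y => Ph V s ((fun _ _ : E => (1 : ℝ)) y) y) = fun _ => 1 := by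
    ext y
    have := (hA' y).isProb
    simp only [Ph, integral_const, probReal_univ, smul_eq_mul, mul_one]
  rw [e, Dt_const] at h
  exact h.symm

theorem App_dx (k : ℕ) (I : Fin (k + 1) → ι) (y x : E) (a : ι) :
    dd (b a) (App V s b (k + 1) I y) x
      = ∑ j : Fin (k + 1), (√s / s * inner ℝ (b a) (b (I j)))
        * App V s b k (fun i => I (j.succAbove i)) y x := by
  have h := congrFun (congrFun (dx_Bt hV.adm hs (b a) k (fun i => √s • b (I i)) pp_one) y) x
  have e1 : dx (b a) (fun _ _ : E => (1 : ℝ)) = fun _ _ => 0 := by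
    ext y x
    unfold dx
    rw [dd_const]
  rw [e1, Bt_const_zero] at h
  have e2 : dd (b a) (App V s b (k + 1) I y) x
      = dx (b a) (Bt V s (k + 1) (fun i => √s • b (I i)) (fun _ _ => 1)) y x := rfl
  rw [e2, h, zero_add]
  refine Finset.sum_congr rfl fun j _ => ?_
  rw [inner_smul_right]
  unfold App
  ring

theorem sum_insertNth (k : ℕ) (j : Fin (k + 1)) (f : (Fin (k + 1) → ι) → ℝ) :
    ∑ I, f I = ∑ a, ∑ I' : Fin k → ι, f (j.insertNth a I') := by
  rw [← Equiv.sum_comp (Fin.insertNthEquiv (fun _ : Fin (k + 1) => ι) j), Fintype.sum_prod_type]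
  rfl

theorem App_var (y : E) (k : ℕ) : ∀ T : (Fin k → ι) → ℝ,
    ∫ x, (∑ I, T I * App V s b k I y x) ^ 2 ∂(gibbs (post V s y))
      ≤ (k.factorial : ℝ) ^ 2 * ∑ I, T I ^ 2 := by
  classical
  have hN : Nice (gibbs (post V s y)) s := post_nice hV hs y
  set ρ := gibbs (post V s y) with hρ
  have hcp : ∀ (k : ℕ) (T : (Fin k → ι) → ℝ), CP (fun x => ∑ I, T I * App V s b k I y x) :=
    fun k T => CP.sum _ fun I _ => (CP.const _).mul (App_cp hV hs b k I y)
  induction k with
  | zero =>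
    intro T
    have e : ∀ (I : Fin 0 → ι) x, App V s b 0 I y x = 1 := fun I x => rfl
    simp only [e, mul_one]
    rw [hN.iconst]
    simp only [Finset.univ_unique, Finset.sum_singleton, Nat.factorial_zero, Nat.cast_one, one_pow, one_mul, Std.le_refl]
  | succ k ih =>
    intro T
    set f : E → ℝ := fun x => ∑ I, T I * App V s b (k + 1) I y x with hf
    have sf : ContDiff ℝ ∞ f :=
      smSum _ fun I _ => contDiff_const.mul (App_sm hV hs b (k + 1) I y)
    -- the gradient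
    have hd : ∀ a x, fderiv ℝ f x (b a)
        = ∑ j : Fin (k + 1), √s / s * ∑ I' : Fin k → ι,
          T (j.insertNth a I') * App V s b k I' y x := by
      intro a x
      have h1 : fderiv ℝ f x (b a) = ∑ I, T I * dd (b a) (App V s b (k + 1) I y) x := by
        have h2 := congrFun (dd_sum Finset.univ (f := fun I x => T I * App V s b (k + 1) I y x)
          (fun I _ => contDiff_const.mul (App_sm hV hs b (k + 1) I y)) (b a)) x
        have h3 : fderiv ℝ f x (b a) = dd (b a) f x := rfl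
        rw [h3, hf, h2]
        refine Finset.sum_congr rfl fun I _ => ?_
        rw [dd_cmul (App_sm hV hs b (k + 1) I y)]
      rw [h1]
      simp only [App_dx hV hs b, Finset.mul_sum]
      rw [Finset.sum_comm]
      refine Finset.sum_congr rfl fun j _ => ?_
      rw [sum_insertNth hV hs k j]
      rw [Finset.sum_eq_single a]
      · refine Finset.sum_congr rfl fun I' _ => ?_
        simp only [Fin.insertNth_apply_same, Fin.insertNth_apply_succAbove]
        rw [b.inner_eq_one]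
        ring
      · intro a' _ ha'
        refine Finset.sum_eq_zero fun I' _ => ?_
        simp only [Fin.insertNth_apply_same]
        rw [b.inner_eq_zero (Ne.symm ha')]
        ring
      · intro h; exact absurd (Finset.mem_univ a) h
    have hl : ∀ x, HasFDerivAt f (fderiv ℝ f x) x := fun x => (smDiff sf x).hasFDerivAt
    have cl : ∀ a, CP (fun x => fderiv ℝ f x (b a)) := by
      intro a
      simp only [hd]
      exact CP.sum _ fun j _ => (CP.const _).mul (hcp k _)
    have hp := hN.poinc b hl (hcp (k + 1) T) cl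
    have hm : ∫ x, f x ∂ρ = 0 := by
      rw [hf, integral_finsetSum _ fun I _ =>
        hN.int ((CP.const (T I)).mul (App_cp hV hs b (k + 1) I y))]
      refine Finset.sum_eq_zero fun I _ => ?_
      rw [integral_const_mul, hρ, App_mean hV hs b, mul_zero]
    rw [hm] at hp
    have hb : ∀ a, ∫ x, (fderiv ℝ f x (b a)) ^ 2 ∂ρ
        ≤ (1 / s) * (k + 1) * ∑ j : Fin (k + 1), (k.factorial : ℝ) ^ 2
          * ∑ I' : Fin k → ι, T (j.insertNth a I') ^ 2 := by
      intro a
      have h1 : ∀ x, (fderiv ℝ f x (b a)) ^ 2 ≤ (1 / s) * (k + 1) * ∑ j : Fin (k + 1),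
          (∑ I' : Fin k → ι, T (j.insertNth a I') * App V s b k I' y x) ^ 2 := by
        intro x
        rw [hd, ← Finset.mul_sum, mul_pow]
        have h2 : (√s / s) ^ 2 = 1 / s := by
          rw [div_pow, Real.sq_sqrt hs.le]
          field_simp
        rw [h2, mul_assoc]
        refine mul_le_mul_of_nonneg_left ?_ (by positivity)
        have h3 := sq_sum_le_card_mul_sum_sq (s := (Finset.univ : Finset (Fin (k + 1))))
          (f := fun j => ∑ I' : Fin k → ι, T (j.insertNth a I') * App V s b k I' y x)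
        simpa only [ge_iff_le, Finset.card_univ, Fintype.card_fin, Nat.cast_add, Nat.cast_one] using h3
      refine (integral_mono (hN.int ((cl a).pow 2)) ((integrable_finsetSum _ fun j _ =>
        hN.int ((hcp k _).pow 2)).const_mul _) h1).trans ?_
      rw [integral_const_mul, integral_finsetSum _ fun j _ => hN.int ((hcp k _).pow 2)]
      exact mul_le_mul_of_nonneg_left (Finset.sum_le_sum fun j _ => ih _) (by positivity)
    have hfin : s * ∑ a, ∫ x, (fderiv ℝ f x (b a)) ^ 2 ∂ρ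
        ≤ ((k + 1).factorial : ℝ) ^ 2 * ∑ I, T I ^ 2 := by
      calc s * ∑ a, ∫ x, (fderiv ℝ f x (b a)) ^ 2 ∂ρ
          ≤ s * ∑ a, (1 / s) * (k + 1) * ∑ j : Fin (k + 1), (k.factorial : ℝ) ^ 2
            * ∑ I' : Fin k → ι, T (j.insertNth a I') ^ 2 :=
            mul_le_mul_of_nonneg_left (Finset.sum_le_sum fun a _ => hb a) hs.le
        _ = (k + 1) * (k.factorial : ℝ) ^ 2 * ∑ j : Fin (k + 1), ∑ a,
            ∑ I' : Fin k → ι, T (j.insertNth a I') ^ 2 := by
            rw [← Finset.mul_sum, Finset.sum_comm]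
            simp only [← Finset.mul_sum]
            field_simp
        _ = (k + 1) * (k.factorial : ℝ) ^ 2 * ∑ j : Fin (k + 1), ∑ I, T I ^ 2 := by
            congr 1
            refine Finset.sum_congr rfl fun j _ => ?_
            rw [sum_insertNth hV hs k j (fun I => T I ^ 2)]
        _ = ((k + 1).factorial : ℝ) ^ 2 * ∑ I, T I ^ 2 := by
            rw [Finset.sum_const, Finset.card_univ, Fintype.card_fin, nsmul_eq_mul,
              Nat.factorial_succ]
            push_cast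
            ring
    (clear hρ sf hl hm; linarith)

omit hs in
theorem CP.Ginn (v : E) : CP (fun x => (inner ℝ (G x) v : ℝ)) :=
  ⟨hV.contG.inner continuous_const, hV.pgG.inner (PG.const v)⟩

theorem Fp_inner (v y : E) :
    (inner ℝ (Fp V G s y) v : ℝ) = Ph V s (fun x => inner ℝ (G x) v) y := by
  have hint : Integrable (fun x : E => G x) (gibbs (post V s y)) :=
    (hV.cpot.post_adm hs y).integrable hV.pgG hV.contG.aestronglyMeasurable
  unfold Fp Ph
  rw [real_inner_comm, ← integral_inner hint]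
  congr 1
  ext x
  rw [real_inner_comm]

/-- The dimension-free bound of all derivatives of the smoothed force (tuple form). -/
theorem E1_tuples (v y : E) (k : ℕ) :
    ∑ I : Fin (k + 1) → ι, (Dt (k + 1) (fun i => √s • b (I i))
      (fun y => (inner ℝ (Fp V G s y) v : ℝ)) y) ^ 2
      ≤ (4 * s * ‖v‖ ^ 2) * ((k + 1).factorial : ℝ) ^ 2 := by
  classical
  have hN : Nice (gibbs (post V s y)) s := post_nice hV hs y
  have hA' : ∀ y, Adm (post V s y) := fun y => hV.cpot.post_adm hs y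
  set ρ := gibbs (post V s y) with hρ
  set g : E → ℝ := fun x => inner ℝ (G x) v with hg
  have cg : CP g := CP.Ginn hV v
  have eF : (fun y => (inner ℝ (Fp V G s y) v : ℝ)) = fun y => Ph V s ((fun _ x => g x * 1) y) y := by
    ext y
    rw [Fp_inner hV hs v y]
    simp [hg]
  set T : (Fin (k + 1) → ι) → ℝ := fun I => ∫ x, g x * App V s b (k + 1) I y x ∂ρ with hT
  have hcA : ∀ I, CP (App V s b (k + 1) I y) := fun I => App_cp hV hs b (k + 1) I y
  have eD : ∀ I : Fin (k + 1) → ι, Dt (k + 1) (fun i => √s • b (I i))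
      (fun y => (inner ℝ (Fp V G s y) v : ℝ)) y = T I := by
    intro I
    have hpp : PP CP (fun _ x => g x * 1 : E → E → ℝ) :=
      PP.mulx (Q := Poly) (fun m hm => cg.mul hm.cp) pp_one
    rw [eF, Dt_Ph hV.adm hA' hs (k + 1) _ hpp,
      Bt_gmul (Q := Poly) Poly.hQ hV.adm hs g (k + 1) _ pp_one]
    rfl
  simp only [eD]
  set W : E → ℝ := fun x => ∑ I, T I * App V s b (k + 1) I y x with hW
  have cW : CP W := CP.sum _ fun I _ => (CP.const _).mul (hcA I)
  have mW : ∫ x, W x ∂ρ = 0 := by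
    rw [hW, integral_finsetSum _ fun I _ => hN.int ((CP.const (T I)).mul (hcA I))]
    refine Finset.sum_eq_zero fun I _ => ?_
    rw [integral_const_mul, hρ, App_mean hV hs b, mul_zero]
  set c : E → ℝ := fun x => inner ℝ (G x - Fp V G s y) v with hc
  have cc : CP c := by
    have : c = fun x => g x - inner ℝ (Fp V G s y) v := by
      ext x; simp only [hc, hg, inner_sub_left]
    rw [this]
    exact cg.sub (CP.const _)
  have hS : ∑ I, T I ^ 2 = ∫ x, c x * W x ∂ρ := by
    have e1 : ∀ x, c x * W x = g x * W x - (inner ℝ (Fp V G s y) v : ℝ) * W x := by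
      intro x; simp only [hc, inner_sub_left, hg]; ring
    simp only [e1]
    rw [hN.isub (cg.mul cW) ((CP.const _).mul cW), integral_const_mul, mW, mul_zero, sub_zero]
    have e2 : ∀ x, g x * W x = ∑ I, T I * (g x * App V s b (k + 1) I y x) := by
      intro x
      simp only [hW, Finset.mul_sum]
      refine Finset.sum_congr rfl fun I _ => ?_
      ring
    simp only [e2]
    rw [integral_finsetSum _ fun I _ => hN.int ((CP.const (T I)).mul (cg.mul (hcA I)))]
    refine Finset.sum_congr rfl fun I _ => ?_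
    rw [integral_const_mul, pow_two]
  have hv := varG_inner (b := b) hV hs y v
  have hw := App_var hV hs b y (k + 1) T
  have hcs := hN.csq cc cW
  have hS0 : 0 ≤ ∑ I, T I ^ 2 := Finset.sum_nonneg fun I _ => sq_nonneg _
  refine dual_le hS0 (by (clear * - hs; positivity)) ?_
  rw [← hS] at hcs
  refine hcs.trans ?_
  exact mul_le_mul hv hw (integral_nonneg fun _ => sq_nonneg _) (by (clear * - hs; positivity))

theorem Fp_sm (v : E) : ContDiff ℝ ∞ (fun y => (inner ℝ (Fp V G s y) v : ℝ)) := by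
  have e : (fun y => (inner ℝ (Fp V G s y) v : ℝ)) = Ph V s (fun x => inner ℝ (G x) v) := by
    ext y; exact Fp_inner hV hs v y
  rw [e]
  exact Ph_contDiff hV.adm hs (CP.Ginn hV v)

/-- The dimension-free bound of all derivatives of the smoothed force. -/
theorem E1 (v y : E) (k : ℕ) :
    HS (fun a => √s • b a) (k + 1) (fun y => (inner ℝ (Fp V G s y) v : ℝ)) y
      ≤ (4 * s * ‖v‖ ^ 2) * ((k + 1).factorial : ℝ) ^ 2 := by
  rw [HS_eq_tuples]
  exact E1_tuples hV hs b v y k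

end var

end Vale.Agent.P347.Gen
end

section

/-! General-order derivative bounds (P347): the phase space `E × E`, and the final bound for all
time derivatives of the smoothed force along the Hamiltonian flow. -/

open MeasureTheory Filter Module Set Topology
open scoped ContDiff

namespace Vale.Agent.P347.Gen

variable {E : Type*} [NormedAddCommGroup E] [InnerProductSpace ℝ E] [FiniteDimensional ℝ E]
  [MeasurableSpace E] [BorelSpace E]

variable {V : E → ℝ} {G : E → E} {H : E → E →L[ℝ] E} {s : ℝ} {ι : Type} [Fintype ι]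

/-! ### Directions on the phase space -/

/-- Scaled directions on `E × E`. -/
noncomputable def vecD (s : ℝ) (b : OrthonormalBasis ι ℝ E) : ι ⊕ ι → E × E
  | Sum.inl a => (√s • b a, 0)
  | Sum.inr a => (0, b a)

/-- The derivatives `∂_b H` of the Hamiltonian. -/
noncomputable def hD (V : E → ℝ) (G : E → E) (s : ℝ) (b : OrthonormalBasis ι ℝ E) :
    ι ⊕ ι → E × E → ℝ
  | Sum.inl a => fun z => √s * inner ℝ (Fp V G s z.1) (b a)
  | Sum.inr a => fun z => inner ℝ z.2 (b a)

/-- The swap. -/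
def JD : ι ⊕ ι → ι ⊕ ι := Sum.swap

/-- The signs. -/
def eD : ι ⊕ ι → ℝ
  | Sum.inl _ => 1
  | Sum.inr _ => -1

/-- The constants in the product lemma. -/
noncomputable def KD (k : ℕ) : ℝ := 2 + 8 * ((k + 1).factorial : ℝ) ^ 2

section lift

variable {b : OrthonormalBasis ι ℝ E}

theorem dd_fst {u : E → ℝ} (hu : ContDiff ℝ ∞ u) (w : E × E) :
    dd w (fun z : E × E => u z.1) = fun z => dd w.1 u z.1 := by
  ext z
  have h1 : HasFDerivAt (fun z : E × E => u z.1)
      ((fderiv ℝ u z.1).comp (ContinuousLinearMap.fst ℝ E E)) z :=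
    (smDiff hu z.1).hasFDerivAt.comp z hasFDerivAt_fst
  rw [dd_apply, h1.fderiv]
  rfl

theorem dd_snd {u : E → ℝ} (hu : ContDiff ℝ ∞ u) (w : E × E) :
    dd w (fun z : E × E => u z.2) = fun z => dd w.2 u z.2 := by
  ext z
  have h1 : HasFDerivAt (fun z : E × E => u z.2)
      ((fderiv ℝ u z.2).comp (ContinuousLinearMap.snd ℝ E E)) z :=
    (smDiff hu z.2).hasFDerivAt.comp z hasFDerivAt_snd
  rw [dd_apply, h1.fderiv]
  rfl

theorem HS_const {X : Type*} [NormedAddCommGroup X] [NormedSpace ℝ X] {B : Type} [Fintype B]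
    (vec : B → X) (r : ℕ) (c : ℝ) (z : X) : HS vec (r + 1) (fun _ => c) z = 0 := by
  induction r generalizing c with
  | zero =>
    rw [HS_succ]
    refine Finset.sum_eq_zero fun b _ => ?_
    rw [dd_const, HS_zero]; simp
  | succ r ih =>
    rw [HS_succ]
    refine Finset.sum_eq_zero fun b _ => ?_
    rw [dd_const]; exact ih 0

theorem HS_zero_fun {X : Type*} [NormedAddCommGroup X] [NormedSpace ℝ X] {B : Type} [Fintype B]
    (vec : B → X) (r : ℕ) (z : X) : HS vec r (fun _ => (0 : ℝ)) z = 0 := by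
  cases r with
  | zero => simp [HS_zero]
  | succ r => exact HS_const vec r 0 z

theorem HS_fst (r : ℕ) {u : E → ℝ} (hu : ContDiff ℝ ∞ u) (z : E × E) :
    HS (vecD s b) r (fun z : E × E => u z.1) z = HS (fun a => √s • b a) r u z.1 := by
  induction r generalizing u with
  | zero => rfl
  | succ r ih =>
    rw [HS_succ, HS_succ, Fintype.sum_sum_type]
    have h1 : ∀ a : ι, HS (vecD s b) r (dd (vecD s b (Sum.inl a)) (fun z : E × E => u z.1)) z
        = HS (fun a => √s • b a) r (dd (√s • b a) u) z.1 := by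
      intro a
      rw [dd_fst hu]
      exact ih (smDd hu _)
    have h2 : ∀ a : ι, HS (vecD s b) r (dd (vecD s b (Sum.inr a)) (fun z : E × E => u z.1)) z
        = 0 := by
      intro a
      rw [dd_fst hu]
      have : (fun z : E × E => dd (vecD s b (Sum.inr a)).1 u z.1) = fun _ => 0 := by
        ext z; simp only [dd, vecD, map_zero]
      rw [this]
      exact HS_zero_fun _ _ _
    simp only [h1, h2, Finset.sum_const_zero, add_zero]

theorem sm_lin (w : E) : ContDiff ℝ ∞ (fun x : E => (inner ℝ x w : ℝ)) := (Poly.lin w).sm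

theorem sumsq' (b : OrthonormalBasis ι ℝ E) (w : E) : ∑ i, (inner ℝ (b i) w : ℝ) ^ 2 = ‖w‖ ^ 2 := by
  rw [← PD.sumsq b w]
  refine Finset.sum_congr rfl fun i _ => ?_
  rw [real_inner_comm]

theorem HS_snd_lin (r : ℕ) (w : E) (z : E × E) :
    HS (vecD s b) (r + 1) (fun z : E × E => (inner ℝ z.2 w : ℝ)) z ≤ ‖w‖ ^ 2 := by
  rw [HS_succ, Fintype.sum_sum_type]
  have h1 : ∀ a : ι, HS (vecD s b) r
      (dd (vecD s b (Sum.inl a)) (fun z : E × E => (inner ℝ z.2 w : ℝ))) z = 0 := by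
    intro a
    rw [dd_snd (sm_lin w), dd_lin]
    have : (fun z : E × E => (inner ℝ (vecD s b (Sum.inl a)).2 w : ℝ)) = fun _ => 0 := by
      ext z; simp [vecD]
    simp only [this]
    exact HS_zero_fun _ _ _
  have h2 : ∀ a : ι, HS (vecD s b) r
      (dd (vecD s b (Sum.inr a)) (fun z : E × E => (inner ℝ z.2 w : ℝ))) z
        ≤ (inner ℝ (b a) w : ℝ) ^ 2 := by
    intro a
    rw [dd_snd (sm_lin w), dd_lin]
    have : (fun z : E × E => (inner ℝ (vecD s b (Sum.inr a)).2 w : ℝ))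
        = fun _ => (inner ℝ (b a) w : ℝ) := by
      ext z; simp only [vecD]
    simp only [this]
    cases r with
    | zero => rw [HS_zero]
    | succ r => rw [HS_const]; (clear * -; positivity)
  simp only [h1, Finset.sum_const_zero, zero_add]
  rw [← sumsq' b w]
  exact Finset.sum_le_sum fun a _ => h2 a

end lift

/-! ### Temperate functions -/

theorem dl_sq_le {X : Type*} [NormedAddCommGroup X] [NormedSpace ℝ X] {B : Type} [Fintype B]
    (vec : B → X) (L : List B) (u : X → ℝ) (z : X) :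
    (dl vec L u z) ^ 2 ≤ HS vec L.length u z := by
  induction L generalizing u with
  | nil => simp [dl_nil, HS_zero]
  | cons b L ih =>
    rw [dl_cons, List.length_cons, HS_succ]
    exact (ih _).trans (Finset.single_le_sum (f := fun b => HS vec L.length (dd (vec b) u) z)
      (fun c _ => HS_nonneg _ _ _) (Finset.mem_univ b))

theorem pg_of_sq_le {X : Type*} [NormedAddCommGroup X] {f : X → ℝ} {C : ℝ}
    (h : ∀ z, f z ^ 2 ≤ C) : PG f := by
  refine ⟨√C, 0, fun z => ?_⟩
  rw [pow_zero, mul_one, Real.norm_eq_abs]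
  exact Real.abs_le_sqrt (h z)

section inst

variable (hV : Pot V G H) (hs : 0 < s) (b : OrthonormalBasis ι ℝ E)
include hV hs

theorem HS_F (v : E) (k : ℕ) (z : E × E) :
    HS (vecD s b) (k + 1) (fun z : E × E => (inner ℝ (Fp V G s z.1) v : ℝ)) z
      ≤ (4 * s * ‖v‖ ^ 2) * ((k + 1).factorial : ℝ) ^ 2 := by
  rw [HS_fst (k + 1) (Fp_sm hV hs v)]
  exact E1 hV hs b v z.1 k

theorem tm_F (v : E) : Tm (vecD s b) (fun z : E × E => (inner ℝ (Fp V G s z.1) v : ℝ)) := by
  refine ⟨(Fp_sm hV hs v).comp contDiff_fst, fun L => ?_⟩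
  cases L with
  | nil =>
    rw [dl_nil]
    have hl := (Wp_cpot hV hs).lip
    refine ⟨(‖Fp V G s 0‖ + 2) * ‖v‖, 1, fun z => ?_⟩
    have h1 : ‖Fp V G s z.1‖ ≤ ‖Fp V G s 0‖ + 2 * ‖z.1‖ := by
      have h2 := hl z.1 0
      rw [sub_zero] at h2
      have h3 := norm_add_le (Fp V G s z.1 - Fp V G s 0) (Fp V G s 0)
      rw [sub_add_cancel] at h3
      linarith
    have h4 : ‖z.1‖ ≤ ‖z‖ := norm_fst_le z
    have h5 := norm_nonneg (Fp V G s 0)
    have h6 := norm_nonneg z
    calc ‖(inner ℝ (Fp V G s z.1) v : ℝ)‖ ≤ ‖Fp V G s z.1‖ * ‖v‖ := norm_inner_le_norm _ _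
      _ ≤ ((‖Fp V G s 0‖ + 2) * (1 + ‖z‖)) * ‖v‖ := by
        refine mul_le_mul_of_nonneg_right ?_ (norm_nonneg _)
        nlinarith
      _ = _ := by ring
  | cons c L =>
    refine pg_of_sq_le (C := (4 * s * ‖v‖ ^ 2) * ((L.length + 1).factorial : ℝ) ^ 2) fun z => ?_
    exact (dl_sq_le (vecD s b) (c :: L) _ z).trans (HS_F hV hs b v L.length z)

omit hV hs in
theorem tm_p (w : E) : Tm (vecD s b) (fun z : E × E => (inner ℝ z.2 w : ℝ)) := by
  refine ⟨(sm_lin w).comp contDiff_snd, fun L => ?_⟩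
  cases L with
  | nil =>
    rw [dl_nil]
    refine ⟨‖w‖, 1, fun z => ?_⟩
    have h4 : ‖z.2‖ ≤ ‖z‖ := norm_snd_le z
    calc ‖(inner ℝ z.2 w : ℝ)‖ ≤ ‖z.2‖ * ‖w‖ := norm_inner_le_norm _ _
      _ ≤ (1 + ‖z‖) * ‖w‖ := mul_le_mul_of_nonneg_right (by linarith only [h4]) (norm_nonneg _)
      _ = _ := by ring
  | cons c L =>
    refine pg_of_sq_le (C := ‖w‖ ^ 2) fun z => ?_
    exact (dl_sq_le (vecD s b) (c :: L) _ z).trans (HS_snd_lin L.length w z)

theorem tm_hD (c : ι ⊕ ι) : Tm (vecD s b) (hD V G s b c) := by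
  cases c with
  | inl a => exact (Tm.const √s).mul (tm_F hV hs b (b a))
  | inr a => exact tm_p b (b a)

end inst

/-! ### Integrability and integration by parts on the phase space -/

omit [InnerProductSpace ℝ E] [FiniteDimensional ℝ E] [MeasurableSpace E] [BorelSpace E] in
theorem one_add_norm_prod (y p : E) : 1 + ‖(y, p)‖ ≤ (1 + ‖y‖) * (1 + ‖p‖) := by
  have h1 : ‖(y, p)‖ ≤ ‖y‖ + ‖p‖ := by
    rw [Prod.norm_def]
    exact max_le (by linarith [norm_nonneg p]) (by linarith only [norm_nonneg y])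
  nlinarith only [h1, mul_nonneg (norm_nonneg y) (norm_nonneg p)]

theorem pg_slice1 {f : E × E → ℝ} (hf : PG f) (p : E) : PG (fun y => f (y, p)) := by
  obtain ⟨C, k, hC, h⟩ := pgNonneg hf
  refine ⟨C * (1 + ‖p‖) ^ k, k, fun y => (h (y, p)).trans ?_⟩
  have h1 := one_add_norm_prod y p
  have h2 : (0 : ℝ) ≤ 1 + ‖(y, p)‖ := by positivity
  calc C * (1 + ‖(y, p)‖) ^ k ≤ C * ((1 + ‖y‖) * (1 + ‖p‖)) ^ k := by gcongr
    _ = _ := by rw [mul_pow]; ring

theorem pg_slice2 {f : E × E → ℝ} (hf : PG f) (y : E) : PG (fun p => f (y, p)) := by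
  obtain ⟨C, k, hC, h⟩ := pgNonneg hf
  refine ⟨C * (1 + ‖y‖) ^ k, k, fun p => (h (y, p)).trans ?_⟩
  have h1 := one_add_norm_prod y p
  have h2 : (0 : ℝ) ≤ 1 + ‖(y, p)‖ := by positivity
  calc C * (1 + ‖(y, p)‖) ^ k ≤ C * ((1 + ‖y‖) * (1 + ‖p‖)) ^ k := by gcongr
    _ = _ := by rw [mul_pow]; ring

/-- Integrability of continuous functions of polynomial growth on the phase space. -/
theorem phase_integrable {U : E → ℝ} (hU : Adm U) {f : E × E → ℝ} (cf : Continuous f) (hf : PG f) :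
    Integrable f ((gibbs U).prod (gam E)) := by
  obtain ⟨C, k, hC, h⟩ := pgNonneg hf
  have := hU.isProb
  have i1 : Integrable (fun y : E => (1 + ‖y‖) ^ k) (gibbs U) := by
    refine hU.integrable ?_ (by (clear f cf hf C hC h; fun_prop))
    exact ((PG.const (1 : ℝ)).add PG.id.norm).pow k
  have i2 : Integrable (fun y : E => (1 + ‖y‖) ^ k) (gam E) := by
    refine gam_integrable ?_ (by (clear f cf hf C hC h i1; fun_prop))
    exact ((PG.const (1 : ℝ)).add PG.id.norm).pow k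
  have i3 := (i1.mul_prod i2).const_mul C
  refine i3.mono' cf.aestronglyMeasurable (Eventually.of_forall fun z => (h z).trans ?_)
  have h1 := one_add_norm_prod z.1 z.2
  have h2 : (0 : ℝ) ≤ 1 + ‖z‖ := by (clear * -; positivity)
  calc C * (1 + ‖z‖) ^ k ≤ C * ((1 + ‖z.1‖) * (1 + ‖z.2‖)) ^ k := by gcongr
    _ = _ := by rw [mul_pow]

theorem ibp_smooth (b : OrthonormalBasis ι ℝ E) {U : E → ℝ} (hU : Adm U) {g : E → E}
    (hg : ∀ x, HasFDerivAt U (innerSL ℝ (g x)) x) (hgc : Continuous g) (hgp : PG g)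
    {f : E → ℝ} (sf : ContDiff ℝ ∞ f) (pf : PG f) (pd : ∀ i, PG (dd (b i) f)) (v : E) :
    ∫ x, f x * inner ℝ (g x) v ∂(gibbs U) = ∫ x, dd v f x ∂(gibbs U) := by
  classical
  set f' : E → E := fun x => ∑ k, dd (b k) f x • b k with hf'
  have hl : ∀ x, innerSL ℝ (f' x) = fderiv ℝ f x := by
    intro x
    ext w
    simp only [hf', innerSL_apply_apply, sum_inner, inner_smul_left]
    conv_rhs => rw [← b.sum_repr' w]
    simp only [dd, Real.ringHom_apply, map_sum, map_smul, smul_eq_mul, mul_comm]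
  have hgc' : Continuous f' := by
    apply continuous_finsetSum
    intro k _
    exact (smDd sf (b k)).continuous.smul continuous_const
  have hgp' : PG f' := by
    have : ∀ t : Finset ι, PG (fun x => ∑ k ∈ t, dd (b k) f x • b k) := by
      intro t
      induction t using Finset.induction_on with
      | empty => simpa only [Finset.sum_empty] using PG.const (0 : E)
      | insert a t ha ih =>
        simp only [Finset.sum_insert ha]
        exact ((pd a).smul (PG.const (b a))).add ih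
    exact this _
  have h1 := gibbs_ibp hU hg hgc hgp (f := f) (f' := f')
    (fun x => by rw [hl x]; exact (smDiff sf x).hasFDerivAt) hgc' pf hgp' v
  rw [← h1]
  congr 1
  ext x
  have : (inner ℝ (f' x) v : ℝ) = innerSL ℝ (f' x) v := rfl
  rw [this, hl x]
  rfl

section inst2

variable (hV : Pot V G H) (hs : 0 < s) (b : OrthonormalBasis ι ℝ E)
include hV hs

theorem phase_ibp {f : E × E → ℝ} (hf : Tm (vecD s b) f) (c : ι ⊕ ι) :
    ∫ z, f z * hD V G s b c z ∂((gibbs (Wp V s)).prod (gam E))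
      = ∫ z, dd (vecD s b c) f z ∂((gibbs (Wp V s)).prod (gam E)) := by
  have hW := Wp_cpot hV hs
  have ha := Wp_adm hV hs
  have := ha.isProb
  have tfh : Tm (vecD s b) (fun z => f z * hD V G s b c z) := hf.mul (tm_hD hV hs b c)
  have i1 := phase_integrable ha tfh.cont tfh.pg0
  have i2 := phase_integrable ha (hf.dd c).cont (hf.dd c).pg0
  have hFc : Continuous (Fp V G s) := by
    have : LipschitzWith 2 (Fp V G s) := LipschitzWith.of_dist_le_mul fun x y => by
      rw [dist_eq_norm, dist_eq_norm]; exact hW.lip x y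
    exact this.continuous
  cases c with
  | inl a =>
    rw [integral_prod_symm _ i1, integral_prod_symm _ i2]
    congr 1
    ext p
    have sf : ContDiff ℝ ∞ (fun y => f (y, p)) := hf.sm.comp (contDiff_id.prodMk contDiff_const)
    have hd : ∀ (w : E) (y : E), dd w (fun y => f (y, p)) y = dd (w, (0 : E)) f (y, p) := by
      intro w y
      have h1 : HasFDerivAt (fun y : E => (y, p)) (ContinuousLinearMap.inl ℝ E E) y := by
        have := (hasFDerivAt_id (𝕜 := ℝ) y).prodMk (hasFDerivAt_const p y)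
        refine this.congr_fderiv ?_
        ext <;> simp only [ContinuousLinearMap.prod_apply, ContinuousLinearMap.id_apply, zero_apply, ContinuousLinearMap.inl_apply]
      have h2 := (smDiff hf.sm (y, p)).hasFDerivAt.comp y h1
      rw [dd_apply]
      have e : (f ∘ fun y : E => (y, p)) = fun y => f (y, p) := rfl
      rw [e] at h2
      rw [h2.fderiv]
      simp [dd]
    have h3 := ibp_smooth b ha hW.grad hFc (PG.of_lip hW.lip) sf (pg_slice1 hf.pg0 p) (by
      intro i
      have e1 : dd (b i) (fun y => f (y, p))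
          = fun y => (√s)⁻¹ * dd (vecD s b (Sum.inl i)) f (y, p) := by
        ext y
        rw [hd]
        have e2 : vecD s b (Sum.inl i) = √s • ((b i, (0 : E)) : E × E) := by
          simp [vecD]
        have hs' : √s ≠ 0 := (Real.sqrt_pos.2 hs).ne'
        rw [e2]
        unfold dd
        rw [map_smul, smul_eq_mul, inv_mul_cancel_left₀ hs']
      rw [e1]
      exact pgMul (pgConst _) (pg_slice1 (hf.dd (Sum.inl i)).pg0 p)) (√s • b a)
    have e3 : ∀ y, f (y, p) * hD V G s b (Sum.inl a) (y, p)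
        = f (y, p) * inner ℝ (Fp V G s y) (√s • b a) := by
      intro y
      rw [inner_smul_right]
      rfl
    simp only [e3]
    rw [h3]
    congr 1
    ext y
    rw [hd]
    rfl
  | inr a =>
    rw [integral_prod _ i1, integral_prod _ i2]
    congr 1
    ext y
    have sf : ContDiff ℝ ∞ (fun p => f (y, p)) := hf.sm.comp (contDiff_const.prodMk contDiff_id)
    have hd : ∀ (w : E) (p : E), dd w (fun p => f (y, p)) p = dd ((0 : E), w) f (y, p) := by
      intro w p
      have h1 : HasFDerivAt (fun p : E => (y, p)) (ContinuousLinearMap.inr ℝ E E) p := by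
        have := (hasFDerivAt_const (𝕜 := ℝ) y p).prodMk (hasFDerivAt_id p)
        refine this.congr_fderiv ?_
        ext <;> simp only [ContinuousLinearMap.prod_apply, zero_apply, ContinuousLinearMap.id_apply, ContinuousLinearMap.inr_apply]
      have h2 := (smDiff hf.sm (y, p)).hasFDerivAt.comp p h1
      rw [dd_apply]
      have e : (f ∘ fun p : E => (y, p)) = fun p => f (y, p) := rfl
      rw [e] at h2
      rw [h2.fderiv]
      simp [dd]
    have h3 := ibp_smooth b adm_gam (g := fun x => x) gam_fderiv continuous_id PG.id sf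
      (pg_slice2 hf.pg0 y) (by
      intro i
      have e1 : dd (b i) (fun p => f (y, p)) = fun p => dd (vecD s b (Sum.inr i)) f (y, p) := by
        ext p
        rw [hd]
        rfl
      rw [e1]
      exact pg_slice2 (hf.dd (Sum.inr i)).pg0 y) (b a)
    have e4 : gam E = gibbs (fun x : E => ‖x‖ ^ 2 / 2) := rfl
    rw [e4]
    have e3 : ∀ p, f (y, p) * hD V G s b (Sum.inr a) (y, p)
        = f (y, p) * inner ℝ p (b a) := fun p => rfl
    simp only [e3]
    rw [h3]
    congr 1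
    ext p
    rw [hd]
    rfl

theorem phase_hess (hs1 : s ≤ 1) (z : E × E) (q : ι ⊕ ι → ℝ) :
    ∑ c, ∑ d, q c * q d * dd (vecD s b c) (hD V G s b d) z ≤ 2 * ∑ c, q c ^ 2 := by
  have sF := Fp_sm hV hs (G := G)
  have hW := Wp_cpot hV hs
  simp only [Fintype.sum_sum_type]
  have e1 : ∀ a a', dd (vecD s b (Sum.inl a)) (hD V G s b (Sum.inl a')) z
      = s * dd (b a) (fun y => (inner ℝ (Fp V G s y) (b a') : ℝ)) z.1 := by
    intro a a'
    have h1 : hD V G s b (Sum.inl a')
        = fun z : E × E => √s * (fun y => (inner ℝ (Fp V G s y) (b a') : ℝ)) z.1 := rfl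
    have h0 : ContDiff ℝ ∞ (fun z : E × E =>
        (fun y => (inner ℝ (Fp V G s y) (b a') : ℝ)) z.1) := (sF (b a')).comp contDiff_fst
    rw [h1, dd_cmul h0, dd_fst (sF (b a'))]
    have h2 : (vecD s b (Sum.inl a)).1 = √s • b a := rfl
    have h3 : dd (√s • b a) (fun y => (inner ℝ (Fp V G s y) (b a') : ℝ)) z.1
        = √s * dd (b a) (fun y => (inner ℝ (Fp V G s y) (b a') : ℝ)) z.1 := by
      unfold dd; rw [map_smul, smul_eq_mul]
    beta_reduce
    rw [h2, h3, ← mul_assoc, Real.mul_self_sqrt hs.le]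
  have e2 : ∀ a a', dd (vecD s b (Sum.inl a)) (hD V G s b (Sum.inr a')) z = 0 := by
    intro a a'
    have h1 : hD V G s b (Sum.inr a')
        = fun z : E × E => (fun x => (inner ℝ x (b a') : ℝ)) z.2 := rfl
    rw [h1, dd_snd (sm_lin _), dd_lin]
    simp only [vecD, inner_zero_left]
  have e3 : ∀ a a', dd (vecD s b (Sum.inr a)) (hD V G s b (Sum.inl a')) z = 0 := by
    intro a a'
    have h1 : hD V G s b (Sum.inl a')
        = fun z : E × E => √s * (fun y => (inner ℝ (Fp V G s y) (b a') : ℝ)) z.1 := rfl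
    have h0 : ContDiff ℝ ∞ (fun z : E × E =>
        (fun y => (inner ℝ (Fp V G s y) (b a') : ℝ)) z.1) := (sF (b a')).comp contDiff_fst
    rw [h1, dd_cmul h0, dd_fst (sF (b a'))]
    simp only [dd, vecD, map_zero, mul_zero]
  have e4 : ∀ a a', dd (vecD s b (Sum.inr a)) (hD V G s b (Sum.inr a')) z
      = inner ℝ (b a) (b a') := by
    intro a a'
    have h1 : hD V G s b (Sum.inr a')
        = fun z : E × E => (fun x => (inner ℝ x (b a') : ℝ)) z.2 := rfl
    rw [h1, dd_snd (sm_lin _), dd_lin]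
    simp only [vecD]
  simp only [e1, e2, e3, e4, mul_zero, Finset.sum_const_zero, add_zero, zero_add]
  -- the `p` part
  have hp : ∑ a, ∑ a', q (Sum.inr a) * q (Sum.inr a') * (inner ℝ (b a) (b a') : ℝ)
      = ∑ a, q (Sum.inr a) ^ 2 := by
    classical
    refine Finset.sum_congr rfl fun a _ => ?_
    simp only [b.inner_eq_ite]
    simp only [mul_ite, mul_one, mul_zero, Finset.sum_ite_eq, Finset.mem_univ, ↓reduceIte, pow_two]
  -- the `y` part
  set w : E := ∑ a, q (Sum.inl a) • b a with hw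
  have hwn : ‖w‖ ^ 2 = ∑ a, q (Sum.inl a) ^ 2 := by
    classical
    rw [← real_inner_self_eq_norm_sq, hw]
    simp only [sum_inner, inner_sum, inner_smul_left, inner_smul_right, b.inner_eq_ite]
    simp only [Real.ringHom_apply, mul_ite, mul_one, mul_zero, Finset.sum_ite_eq', Finset.mem_univ, ↓reduceIte, pow_two]
  have hy : ∑ a, ∑ a', q (Sum.inl a) * q (Sum.inl a')
      * (s * dd (b a) (fun y => (inner ℝ (Fp V G s y) (b a') : ℝ)) z.1)
      = s * dd w (fun y => (inner ℝ (Fp V G s y) w : ℝ)) z.1 := by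
    have h1 : (fun y => (inner ℝ (Fp V G s y) w : ℝ))
        = fun y => ∑ a', q (Sum.inl a') * (fun y => (inner ℝ (Fp V G s y) (b a') : ℝ)) y := by
      ext y
      rw [hw, inner_sum]
      refine Finset.sum_congr rfl fun a' _ => ?_
      rw [inner_smul_right]
    have h2 : ∀ v, dd v (fun y => (inner ℝ (Fp V G s y) w : ℝ)) z.1
        = ∑ a', q (Sum.inl a') * dd v (fun y => (inner ℝ (Fp V G s y) (b a') : ℝ)) z.1 := by
      intro v
      rw [h1, dd_sum _ fun a' _ => contDiff_const.mul (sF (b a'))]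
      refine Finset.sum_congr rfl fun a' _ => ?_
      rw [dd_cmul (sF (b a'))]
    have h3 : dd w (fun y => (inner ℝ (Fp V G s y) w : ℝ)) z.1
        = ∑ a, q (Sum.inl a) * dd (b a) (fun y => (inner ℝ (Fp V G s y) w : ℝ)) z.1 := by
      conv_lhs => unfold dd; rw [hw, map_sum]
      refine Finset.sum_congr rfl fun a _ => ?_
      rw [map_smul, smul_eq_mul]
      rfl
    rw [h3, Finset.mul_sum]
    refine Finset.sum_congr rfl fun a _ => ?_
    rw [h2, Finset.mul_sum, Finset.mul_sum]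
    refine Finset.sum_congr rfl fun a' _ => ?_
    ring
  have hb : dd w (fun y => (inner ℝ (Fp V G s y) w : ℝ)) z.1 ≤ 2 * ‖w‖ ^ 2 := by
    have hd := (smDiff (sF w) z.1).hasFDerivAt
    have h1 := hd.le_of_lip' (C := 2 * ‖w‖) (by (clear * -; positivity))
      (Filter.Eventually.of_forall fun y => by
        rw [← inner_sub_left]
        calc ‖(inner ℝ (Fp V G s y - Fp V G s z.1) w : ℝ)‖
            ≤ ‖Fp V G s y - Fp V G s z.1‖ * ‖w‖ := norm_inner_le_norm _ _
          _ ≤ (2 * ‖y - z.1‖) * ‖w‖ := mul_le_mul_of_nonneg_right (hW.lip _ _) (norm_nonneg _)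
          _ = _ := by ring)
    have h2 := (fderiv ℝ (fun y => (inner ℝ (Fp V G s y) w : ℝ)) z.1).le_of_opNorm_le h1 w
    have h3 := le_abs_self (fderiv ℝ (fun y => (inner ℝ (Fp V G s y) w : ℝ)) z.1 w)
    rw [← Real.norm_eq_abs] at h3
    rw [dd_apply]
    calc _ ≤ _ := h3.trans h2
      _ = _ := by ring
  rw [hp, hy, ← hwn]
  have h5 : s * dd w (fun y => (inner ℝ (Fp V G s y) w : ℝ)) z.1 ≤ 2 * ‖w‖ ^ 2 := by
    have h6 : s * dd w (fun y => (inner ℝ (Fp V G s y) w : ℝ)) z.1 ≤ s * (2 * ‖w‖ ^ 2) :=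
      mul_le_mul_of_nonneg_left hb hs.le
    have h7 : s * (2 * ‖w‖ ^ 2) ≤ 1 * (2 * ‖w‖ ^ 2) :=
      mul_le_mul_of_nonneg_right hs1 (by (clear * -; positivity))
    (clear e1 e2 e3 e4 hp hw hwn hy; linarith)
  have h8 : 0 ≤ ∑ a, q (Sum.inr a) ^ 2 := Finset.sum_nonneg fun _ _ => sq_nonneg _
  (clear e1 e2 e3 e4 hp hw hwn hy; linarith)

theorem phase_zb (hs1 : s ≤ 1) (k : ℕ) (c : ι ⊕ ι → ℝ) (z : E × E) :
    HS (vecD s b) (k + 1) (fun z => ∑ d, c d * zet (hD V G s b) JD eD d z) z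
      ≤ KD k * ∑ d, c d ^ 2 := by
  classical
  set w : E := ∑ a, c (Sum.inl a) • b a with hw
  set w' : E := ∑ a, (-(√s) * c (Sum.inr a)) • b a with hw'
  have hwn : ‖w‖ ^ 2 = ∑ a, c (Sum.inl a) ^ 2 := by
    rw [← real_inner_self_eq_norm_sq, hw]
    simp only [sum_inner, inner_sum, inner_smul_left, inner_smul_right, b.inner_eq_ite]
    simp only [Real.ringHom_apply, mul_ite, mul_one, mul_zero, Finset.sum_ite_eq', Finset.mem_univ, ↓reduceIte, pow_two]
  have hwn' : ‖w'‖ ^ 2 = s * ∑ a, c (Sum.inr a) ^ 2 := by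
    have h0 : ∀ f : ι → ℝ, ‖∑ a, f a • b a‖ ^ 2 = ∑ a, f a ^ 2 := by
      intro f
      rw [← real_inner_self_eq_norm_sq]
      simp only [sum_inner, inner_sum, inner_smul_left, inner_smul_right, b.inner_eq_ite]
      simp only [Real.ringHom_apply, mul_ite, mul_one, mul_zero, Finset.sum_ite_eq', Finset.mem_univ, ↓reduceIte, pow_two]
    have h1 : ‖w'‖ ^ 2 = ∑ a, (-(√s) * c (Sum.inr a)) ^ 2 := h0 _
    rw [h1, Finset.mul_sum]
    refine Finset.sum_congr rfl fun a _ => ?_
    rw [mul_pow, neg_sq, Real.sq_sqrt hs.le]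
  have e : (fun z => ∑ d, c d * zet (hD V G s b) JD eD d z)
      = fun z : E × E => (inner ℝ z.2 w : ℝ) + inner ℝ (Fp V G s z.1) w' := by
    ext z
    rw [Fintype.sum_sum_type, hw, hw', inner_sum, inner_sum]
    congr 1
    · refine Finset.sum_congr rfl fun a _ => ?_
      rw [inner_smul_right]
      simp only [zet, eD, hD, JD, Sum.swap_inl, one_mul]
    · refine Finset.sum_congr rfl fun a _ => ?_
      rw [inner_smul_right]
      have : zet (hD V G s b) JD eD (Sum.inr a) z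
          = -1 * (√s * (inner ℝ (Fp V G s z.1) (b a) : ℝ)) := rfl
      rw [this]
      ring
  rw [e]
  have h1 := HS_add_le (vec := vecD s b) (k + 1) (tm_p (s := s) b w).sm (tm_F hV hs b w').sm z
  have h2 := HS_snd_lin (s := s) (b := b) k w z
  have h3 := HS_F hV hs b w' k z
  rw [Fintype.sum_sum_type, ← hwn]
  rw [hwn'] at h3
  rw [hwn] at h2
  rw [hwn]
  set A := ∑ a, c (Sum.inl a) ^ 2
  set A' := ∑ a, c (Sum.inr a) ^ 2 with hA'
  have n1 : 0 ≤ A := Finset.sum_nonneg fun _ _ => sq_nonneg _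
  have n2 : 0 ≤ A' := Finset.sum_nonneg fun _ _ => sq_nonneg _
  have f1 : (0 : ℝ) ≤ ((k + 1).factorial : ℝ) ^ 2 := by positivity
  have h4 : 4 * s * (s * A') * ((k + 1).factorial : ℝ) ^ 2
      ≤ 4 * A' * ((k + 1).factorial : ℝ) ^ 2 := by
    refine mul_le_mul_of_nonneg_right ?_ f1
    have : s * s ≤ 1 := by nlinarith only [hs1, hs]
    nlinarith only [hwn', this, hs]
  unfold KD
  (clear hw hw' e hwn hA'; nlinarith [mul_nonneg f1 n1])

/-- The phase space fits into the abstract setting. -/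
theorem phase_ctx (hs1 : s ≤ 1) :
    Ctx (vecD s b) ((gibbs (Wp V s)).prod (gam E)) (hD V G s b) JD eD KD where
  integ := fun f cf pf => phase_integrable (Wp_adm hV hs) cf pf
  tm := tm_hD hV hs b
  ibp := fun f hf c => phase_ibp hV hs b hf c
  JJ := fun c => Sum.swap_swap c
  εJ := fun c => by cases c <;> simp [JD, eD]
  ε2 := fun c => by cases c <;> simp only [eD, even_two, Even.neg_pow, one_pow]
  hess := fun z q => phase_hess hV hs b hs1 z q
  Kmono := by
    intro i j hij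
    unfold KD
    have : ((i + 1).factorial : ℝ) ≤ ((j + 1).factorial : ℝ) := by
      exact_mod_cast Nat.factorial_le (by omega)
    gcongr
  K0 := by unfold KD; positivity
  zb := fun k c z => phase_zb hV hs b hs1 k c z

end inst2

end Vale.Agent.P347.Gen

/-! ### Time derivatives of the force of all orders -/

namespace Vale.Agent.P347

open Gen

variable {E : Type*} [NormedAddCommGroup E] [InnerProductSpace ℝ E] [FiniteDimensional ℝ E]
  [MeasurableSpace E] [BorelSpace E]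

/-- Time derivatives of the force along the Hamiltonian flow, as functions on phase space. -/
noncomputable def dFk (V : E → ℝ) (G : E → E) (s : ℝ) : ℕ → E × E → E
  | 0 => fun z => Fp V G s z.1
  | k + 1 => fun z => fderiv ℝ (dFk V G s k) z (z.2, -Fp V G s z.1)

/-- The constants of the general derivative bound. -/
noncomputable def genC (m : ℕ) : ℝ :=
  Ctx.cT KD m * (4 * ∑ k ∈ Finset.range (2 * m + 2), ((k + 1).factorial : ℝ) ^ 2)

theorem KD_nonneg (k : ℕ) : 0 ≤ KD k := by unfold KD; positivity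

theorem cB_KD_nonneg (r : ℕ) : 0 ≤ Ctx.cB KD r := by
  induction r with
  | zero => norm_num [Ctx.cB]
  | succ r ih =>
    have := KD_nonneg r
    simp only [Ctx.cB]
    positivity

theorem cI_KD_nonneg (n m : ℕ) : 0 ≤ Ctx.cI KD n m := by
  induction m with
  | zero => norm_num [Ctx.cI]
  | succ m ih => exact mul_nonneg ih (Finset.sum_nonneg fun k _ => cB_KD_nonneg _)

theorem cT_KD_nonneg (m : ℕ) : 0 ≤ Ctx.cT KD m := by
  unfold Ctx.cT
  have := cI_KD_nonneg 2 m
  positivity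

section final

variable {V : E → ℝ} {G : E → E} {H : E → E →L[ℝ] E} {s : ℝ}

theorem dFk_zero (z : E × E) : dFk V G s 0 z = Fp V G s z.1 := rfl

theorem dFk_succ (k : ℕ) (z : E × E) :
    dFk V G s (k + 1) z = fderiv ℝ (dFk V G s k) z (z.2, -Fp V G s z.1) := rfl

theorem Fp_contDiff (hV : Pot V G H) (hs : 0 < s) : ContDiff ℝ ∞ (Fp V G s) := by
  have b := stdOrthonormalBasis ℝ E
  have e : Fp V G s = fun y => ∑ a, (inner ℝ (Fp V G s y) (b a) : ℝ) • b a := by
    ext y
    conv_lhs => rw [← b.sum_repr' (Fp V G s y)]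
    refine Finset.sum_congr rfl fun a _ => ?_
    rw [real_inner_comm]
  rw [e]
  exact ContDiff.sum fun a _ => (Fp_sm hV hs (b a)).smul contDiff_const

theorem contDiff_dFk (hV : Pot V G H) (hs : 0 < s) (k : ℕ) : ContDiff ℝ ∞ (dFk V G s k) := by
  induction k with
  | zero => exact (Fp_contDiff hV hs).comp contDiff_fst
  | succ k ih =>
    have h1 : ContDiff ℝ ∞ (fderiv ℝ (dFk V G s k)) := (contDiff_infty_iff_fderiv.1 ih).2
    have h2 : ContDiff ℝ ∞ (fun z : E × E => (z.2, -Fp V G s z.1)) :=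
      contDiff_snd.prodMk ((Fp_contDiff hV hs).comp contDiff_fst).neg
    exact h1.clm_apply h2

theorem continuous_dFk (hV : Pot V G H) (hs : 0 < s) (k : ℕ) : Continuous (dFk V G s k) :=
  (contDiff_dFk hV hs k).continuous

theorem hasDerivAt_dFk (hV : Pot V G H) (hs : 0 < s) {Y P : ℝ → E × E → E}
    (hf : HamFlow (Fp V G s) Y P) (z : E × E) {t : ℝ} (ht : t ∈ Ioo (-(1 / 4) : ℝ) (1 / 4))
    (k : ℕ) :
    HasDerivAt (fun t => dFk V G s k (Y t z, P t z)) (dFk V G s (k + 1) (Y t z, P t z)) t := by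
  have h1 : HasDerivAt (fun t => (Y t z, P t z)) (P t z, -Fp V G s (Y t z)) t :=
    (hf.dY z t ht).prodMk (hf.dP z t ht)
  have h2 : HasFDerivAt (dFk V G s k) (fderiv ℝ (dFk V G s k) (Y t z, P t z)) (Y t z, P t z) :=
    ((contDiff_dFk hV hs k).differentiable (by simp) _).hasFDerivAt
  exact h2.comp_hasDerivAt t h1

/-- Coordinates of the time derivatives. -/
theorem dFk_coord (hV : Pot V G H) (hs : 0 < s) {ι : Type} [Fintype ι]
    (b : OrthonormalBasis ι ℝ E) (v : E) (k : ℕ) (z : E × E)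
    (htm : ∀ k, Tm (vecD s b) ((Lh (vecD s b) (hD V G s b) JD eD)^[k]
      (fun z : E × E => (inner ℝ (Fp V G s z.1) v : ℝ)))) :
    (inner ℝ (dFk V G s k z) v : ℝ) = (√s)⁻¹ ^ k * ((Lh (vecD s b) (hD V G s b) JD eD)^[k]
      (fun z : E × E => (inner ℝ (Fp V G s z.1) v : ℝ))) z := by
  classical
  induction k generalizing z with
  | zero => simp [dFk_zero]
  | succ k ih =>
    set L := Lh (vecD s b) (hD V G s b) JD eD with hL
    set u : E × E → ℝ := fun z => (inner ℝ (Fp V G s z.1) v : ℝ) with hu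
    have hd : HasFDerivAt (dFk V G s k) (fderiv ℝ (dFk V G s k) z) z :=
      ((contDiff_dFk hV hs k).differentiable (by simp) _).hasFDerivAt
    have h1 : HasFDerivAt (fun z => (inner ℝ (dFk V G s k z) v : ℝ))
        ((innerSL ℝ v).comp (fderiv ℝ (dFk V G s k) z)) z := by
      have := (innerSL ℝ v).hasFDerivAt.comp z hd
      have e : (⇑(innerSL ℝ v) ∘ dFk V G s k) = fun z => (inner ℝ (dFk V G s k z) v : ℝ) := by
        ext z; simp only [coe_innerSL_apply, Function.comp_apply, real_inner_comm]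
      rwa [e] at this
    have e1 : (fun z => (inner ℝ (dFk V G s k z) v : ℝ))
        = fun z => (√s)⁻¹ ^ k * (L^[k] u) z := by
      ext z; exact ih z
    have h2 : (inner ℝ (dFk V G s (k + 1) z) v : ℝ)
        = fderiv ℝ (fun z => (inner ℝ (dFk V G s k z) v : ℝ)) z (z.2, -Fp V G s z.1) := by
      rw [h1.fderiv, dFk_succ]
      simp only [real_inner_comm, ContinuousLinearMap.comp_apply, coe_innerSL_apply]
    rw [h2, e1]
    have h3 : fderiv ℝ (fun z => (√s)⁻¹ ^ k * (L^[k] u) z) z (z.2, -Fp V G s z.1)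
        = (√s)⁻¹ ^ k * fderiv ℝ (L^[k] u) z (z.2, -Fp V G s z.1) :=
      congrFun (dd_cmul (htm k).sm ((√s)⁻¹ ^ k) (z.2, -Fp V G s z.1)) z
    rw [h3, pow_succ, mul_assoc]
    congr 1
    rw [Function.iterate_succ_apply']
    have hs' : √s ≠ 0 := (Real.sqrt_pos.2 hs).ne'
    have h4 : ((z.2, -Fp V G s z.1) : E × E)
        = (√s)⁻¹ • ∑ c, zet (hD V G s b) JD eD c z • vecD s b c := by
      rw [Fintype.sum_sum_type]
      have e2 : ∀ a, zet (hD V G s b) JD eD (Sum.inl a) z • vecD s b (Sum.inl a)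
          = √s • (((inner ℝ (b a) z.2 : ℝ) • b a, (0 : E)) : E × E) := by
        intro a
        have : zet (hD V G s b) JD eD (Sum.inl a) z = 1 * (inner ℝ z.2 (b a) : ℝ) := rfl
        rw [this, one_mul, real_inner_comm]
        ext
        · simp only [vecD, Prod.smul_fst, smul_smul, mul_comm]
        · simp only [vecD, Prod.smul_mk, smul_zero]
      have e3 : ∀ a, zet (hD V G s b) JD eD (Sum.inr a) z • vecD s b (Sum.inr a)
          = √s • (((0 : E), -((inner ℝ (b a) (Fp V G s z.1) : ℝ) • b a)) : E × E) := by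
        intro a
        have : zet (hD V G s b) JD eD (Sum.inr a) z
            = -1 * (√s * (inner ℝ (Fp V G s z.1) (b a) : ℝ)) := rfl
        rw [this, real_inner_comm]
        ext
        · simp [vecD]
        · simp only [neg_mul, one_mul, vecD, neg_smul, Prod.smul_snd, smul_neg, smul_smul]
          rfl
      simp only [e2, e3]
      rw [← Finset.smul_sum, ← Finset.smul_sum, ← smul_add, inv_smul_smul₀ hs']
      ext
      · simp only [Prod.fst_add, Prod.fst_sum]
        simp only [b.sum_repr', Finset.sum_const_zero, add_zero]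
      · simp only [Prod.snd_add, Prod.snd_sum]
        simp only [Finset.sum_const_zero, Finset.sum_neg_distrib, b.sum_repr', zero_add]
    rw [h4, map_smul, map_sum, smul_eq_mul]
    congr 1
    rw [hL]
    unfold Lh
    refine Finset.sum_congr rfl fun c _ => ?_
    rw [map_smul, smul_eq_mul]
    rfl

theorem normsq_coord {ι : Type} [Fintype ι] (b : OrthonormalBasis ι ℝ E) (w : E) :
    ‖w‖ ^ 2 = ∑ a, (inner ℝ w (b a) : ℝ) ^ 2 := (PD.sumsq b w).symm

/-- The general-order bound: `E_μ |d^{m+1}/dt^{m+1} F(Y_t)|² ≤ C_m n s^{-m}`. -/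
theorem dFk_bound (hV : Pot V G H) (hs : 0 < s) (hs1 : s ≤ 1) (m : ℕ) :
    Integrable (fun z => ‖dFk V G s (m + 1) z‖ ^ 2) ((gibbs (Wp V s)).prod (gam E)) ∧
    ∫ z, ‖dFk V G s (m + 1) z‖ ^ 2 ∂((gibbs (Wp V s)).prod (gam E))
      ≤ genC m * (finrank ℝ E : ℝ) / s ^ m := by
  set b := stdOrthonormalBasis ℝ E with hb
  have C := phase_ctx hV hs b hs1
  set μ := (gibbs (Wp V s)).prod (gam E) with hμ
  have := (Wp_adm hV hs).isProb
  have hpm : IsProbabilityMeasure μ := by rw [hμ]; infer_instance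
  set L := Lh (vecD s b) (hD V G s b) JD eD with hL
  set u : Fin (finrank ℝ E) → E × E → ℝ := fun a z => (inner ℝ (Fp V G s z.1) (b a) : ℝ) with hu
  have htm : ∀ a k, Tm (vecD s b) (L^[k] (u a)) := fun a k => C.iter_tm k (tm_F hV hs b (b a))
  have e1 : ∀ z, ‖dFk V G s (m + 1) z‖ ^ 2
      = ∑ a, (1 / s) ^ (m + 1) * (L^[m + 1] (u a) z) ^ 2 := by
    intro z
    rw [normsq_coord b]
    refine Finset.sum_congr rfl fun a _ => ?_
    rw [dFk_coord hV hs b (b a) (m + 1) z (htm a), mul_pow]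
    congr 1
    rw [← pow_mul, mul_comm (m + 1) 2, pow_mul, inv_pow, Real.sq_sqrt hs.le, one_div]
  have i1 : ∀ a, Integrable (fun z => (L^[m + 1] (u a) z) ^ 2) μ := fun a =>
    C.int (htm a (m + 1)).pow2
  refine ⟨?_, ?_⟩
  · simp only [e1]
    exact integrable_finsetSum _ fun a _ => (i1 a).const_mul _
  · simp only [e1]
    rw [integral_finsetSum _ fun a _ => (i1 a).const_mul _]
    have h1 : ∀ a, ∫ z, (1 / s) ^ (m + 1) * (L^[m + 1] (u a) z) ^ 2 ∂μ
        ≤ genC m / s ^ m := by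
      intro a
      rw [integral_const_mul]
      have h2 := C.main m (tm_F hV hs b (b a))
      have h3 : Ctx.Sn (vecD s b) μ (2 * m + 2) (u a)
          ≤ s * (4 * ∑ k ∈ Finset.range (2 * m + 2), ((k + 1).factorial : ℝ) ^ 2) := by
        unfold Ctx.Sn
        rw [Finset.mul_sum, Finset.mul_sum]
        refine Finset.sum_le_sum fun k _ => ?_
        unfold Ctx.Mn
        have h4 : ∀ z, HS (vecD s b) (k + 1) (u a) z
            ≤ s * (4 * ((k + 1).factorial : ℝ) ^ 2) := by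
          intro z
          have h5 := HS_F hV hs b (b a) k z
          rw [b.norm_eq_one] at h5
          refine h5.trans (le_of_eq ?_)
          ring
        refine (integral_mono (C.int (HS_tm (k + 1) (tm_F hV hs b (b a))))
          (integrable_const _) h4).trans (le_of_eq ?_)
        simp only [integral_const, probReal_univ, smul_eq_mul, one_mul]
      have h6 : 0 ≤ (1 / s) ^ (m + 1) := by (clear * - hs; positivity)
      calc (1 / s) ^ (m + 1) * ∫ z, (L^[m + 1] (u a) z) ^ 2 ∂μ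
          ≤ (1 / s) ^ (m + 1) * (Ctx.cT KD m * (s * (4 * ∑ k ∈ Finset.range (2 * m + 2),
            ((k + 1).factorial : ℝ) ^ 2))) :=
            mul_le_mul_of_nonneg_left (h2.trans (mul_le_mul_of_nonneg_left h3
              (cT_KD_nonneg m))) h6
        _ = genC m / s ^ m := by
            unfold genC
            have h7 : (1 / s) ^ (m + 1) = 1 / (s ^ m * s) := by
              rw [one_div, inv_pow, pow_succ, one_div]
            rw [h7]
            (clear * - hs; field_simp)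
    refine (Finset.sum_le_sum fun a _ => h1 a).trans (le_of_eq ?_)
    rw [Finset.sum_const, Finset.card_univ, Fintype.card_fin, nsmul_eq_mul]
    ring

end final

end Vale.Agent.P347
end

section

/-! Main theorem, exponent 1/5. -/

open MeasureTheory Filter Module Set
open scoped ENNReal NNReal

namespace Vale.Agent.P347

/-- Interface to the general-order derivative bound (helper89). -/
theorem exists_FD (m : ℕ) : ∃ C : ℝ, ∀ (d : ℕ) (V : Eu d → ℝ) (G : Eu d → Eu d)
    (H : Eu d → Eu d →L[ℝ] Eu d), Pot V G H → ∀ s : ℝ, 0 < s → s ≤ 1 →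
      ∀ Y P : ℝ → Eu d × Eu d → Eu d, HamFlow (Fp V G s) Y P →
        ∃ D : ℕ → Eu d × Eu d → Eu d, FD V G s Y P (m + 1) (C * d / s ^ m) D := by
  refine ⟨genC m, fun d V G H hV s hs hs1 Y P hF => ⟨dFk V G s, ?_⟩⟩
  obtain ⟨h1, h2⟩ := dFk_bound hV hs hs1 m
  refine ⟨fun z => rfl, fun k _ => continuous_dFk hV hs k,
    fun k _ z t ht => hasDerivAt_dFk hV hs hF z ht k, h1, ?_⟩
  have h3 : (finrank ℝ (Eu d) : ℝ) = d := by simp only [finrank_euclideanSpace, Fintype.card_fin]
  rw [h3] at h2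
  exact h2

theorem main_exists5 {δ : ℝ} (hδ : 0 < δ) :
    ∀ᶠ d : ℕ in atTop, ∃ q : ℕ, (q : ℝ) ≤ (d : ℝ) ^ (1 / 5 + δ) ∧ ∃ A : Algo d q, A.Good := by
  obtain ⟨m, hm⟩ := params5 hδ
  obtain ⟨J, c, w, hcw⟩ := exists_QN (m + 1)
  obtain ⟨C, hC⟩ := exists_FD m
  filter_upwards [hm J C] with d hd
  obtain ⟨s, h, τ, N, M, hs, hs1, hh, hh1, hτ, hτ1, hM, hq, herr⟩ := hd
  obtain ⟨A, hA⟩ := exists_algo5 d s h τ c w N M
  refine ⟨(2 * J + 4) * N + M, hq, A, ?_⟩
  intro V hV B hB
  obtain ⟨hp, hint⟩ := hA V hV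
  have hpot := PotClass.pot hV
  have hcp := Wp_cpot hpot hs
  obtain ⟨Y, P, hF⟩ := exists_hamFlow hcp.lip
  obtain ⟨D, hD⟩ := hC d V _ _ hpot s hs (by linarith only [hs1]) Y P hF
  have key := scheme_error5 hpot hs hs1 hh hh1 hτ hτ1 N hM hF (Nat.succ_pos m) hcw hD
    (f := B.indicator (fun _ => (1 : ℝ))) (measurable_const.indicator hB) (by
      intro x
      by_cases hx : x ∈ B <;> simp [hx])
  rw [← hint _ (measurable_const.indicator hB) (by
      intro x
      by_cases hx : x ∈ B <;> simp [hx])] at key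
  have h1 : ∫ x, B.indicator (fun _ => (1 : ℝ)) x ∂(A.law V) = (A.law V).real B := by
    rw [integral_indicator_const _ hB]; simp
  have h2 : ∫ x, B.indicator (fun _ => (1 : ℝ)) x ∂(gibbs V) = (target V).real B := by
    rw [target_eq_gibbs hV, integral_indicator_const _ hB]; simp
  rw [h1, h2] at key
  have h3 : (finrank ℝ (Eu d) : ℝ) = d := by simp only [finrank_euclideanSpace, Fintype.card_fin]
  rw [h3] at key
  exact key.trans herr

theorem Q_le5 {δ : ℝ} (hδ : 0 < δ) : ∀ᶠ d : ℕ in atTop, (Q d : ℝ) ≤ (d : ℝ) ^ (1 / 5 + δ) := by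
  filter_upwards [main_exists5 hδ] with d hd
  obtain ⟨q, hq, A, hA⟩ := hd
  have h1 : Q d ≤ q := Nat.sInf_le (show q ∈ {q | ∃ A : Algo d q, A.Good} from ⟨A, hA⟩)
  exact le_trans (by exact_mod_cast h1) hq

end Vale.Agent.P347
end

section
attribute [-instance] ProperSMul.toContinuousSMul IsTopologicalTorsor.toContinuousSMul IdemSemiring.toCanonicallyOrderedAdd IdemSemiring.toMulLeftMono IdemSemiring.toMulRightMono AddQuantale.instAddLeftMono AddQuantale.instAddRightMono Quantale.instMulLeftMono Quantale.instMulRightMono FiniteDimensional.rclike_to_real IsScalarTower.complexToReal FiniteDimensional.complexToReal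

/-! Module M10 (P347, S): from the dual Wasserstein distance to total variation. -/

open MeasureTheory Filter Module
open scoped ENNReal NNReal
open Vale.Agent.P347.Z

namespace Vale.Agent.P347.S

section general

variable {E : Type*} [NormedAddCommGroup E] [InnerProductSpace ℝ E] [FiniteDimensional ℝ E]
  [MeasurableSpace E] [BorelSpace E]

/-- One-sided Pinsker bound for a Gaussian shift. -/
theorem gam_pinsker_one {c : ℝ} (hc : 0 < c) (m m' : E) {f : E → ℝ} (hf : Measurable f)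
    (bf : ∀ x, 0 ≤ f x ∧ f x ≤ 1) :
    (∫ z, f (m + √c • z) ∂(gam E)) - ∫ z, f (m' + √c • z) ∂(gam E) ≤ ‖m - m'‖ / (2 * √c) := by
  have hs0 : 0 < √c := Real.sqrt_pos.2 hc
  have hs : √c ^ 2 = c := Real.sq_sqrt hc.le
  rcases (norm_nonneg (m - m')).eq_or_lt with h0 | h0
  · have hm : m = m' := sub_eq_zero.1 (norm_eq_zero.1 h0.symm)
    rw [hm]
    simp
  set r : ℝ := ‖m - m'‖ / √c with hr
  have hr0 : 0 < r := by positivity
  set t : ℝ := 2 * r with ht
  have ht0 : 0 < t := by positivity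
  have hcomp : Measurable fun z : E => m' + √c • z := by (clear hc m f hf bf hs0 hs h0 r hr hr0 t ht ht0; fun_prop)
  have hX : Measurable fun z : E => f (m' + √c • z) := hf.comp hcomp
  have hdv := gam_dv hc m m' (f := fun x => t * f x) (hf.const_mul t)
    ⟨t, fun x => by
      rw [abs_of_nonneg (mul_nonneg ht0.le (bf x).1)]
      have := (bf x).2
      linarith only [mul_nonneg (le_of_lt ht0) (sub_nonneg.2 this)]⟩
  have hsub := (ProbabilityTheory.hasSubgaussianMGF_of_mem_Icc (μ := gam E)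
    (X := fun z : E => f (m' + √c • z)) (a := 0) (b := 1) hX.aemeasurable
    (Eventually.of_forall fun z => ⟨(bf _).1, (bf _).2⟩)).mgf_le t
  set p : ℝ := ∫ z, f (m' + √c • z) ∂(gam E) with hp
  have hc' : (((‖(1 : ℝ) - 0‖₊ / 2) ^ 2 : ℝ≥0) : ℝ) * t ^ 2 / 2 = t ^ 2 / 8 := by
    simp only [sub_zero, nnnorm_one, one_div, inv_pow, NNReal.coe_inv, NNReal.coe_pow, NNReal.coe_ofNat]
    ring
  rw [hc'] at hsub
  unfold ProbabilityTheory.mgf at hsub
  have e1 : ∫ z, Real.exp (t * f (m' + √c • z)) ∂(gam E) =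
      Real.exp (t * p) * ∫ z, Real.exp (t * (f (m' + √c • z) - p)) ∂(gam E) := by
    rw [← integral_const_mul]
    refine integral_congr_ae (Eventually.of_forall fun z => ?_)
    simp only
    rw [← Real.exp_add]
    congr 1
    ring
  have h1 : ∫ z, Real.exp (t * f (m' + √c • z)) ∂(gam E) ≤ Real.exp (t * p + t ^ 2 / 8) := by
    rw [e1, Real.exp_add]
    exact mul_le_mul_of_nonneg_left hsub (Real.exp_pos _).le
  have h2 : 0 < ∫ z, Real.exp (t * f (m' + √c • z)) ∂(gam E) := by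
    refine MeasureTheory.integral_exp_pos ?_
    refine Integrable.of_bound (C := Real.exp t)
      (Real.measurable_exp.comp (hX.const_mul t)).aestronglyMeasurable
      (Eventually.of_forall fun z => ?_)
    rw [Real.norm_eq_abs, abs_of_pos (Real.exp_pos _)]
    apply Real.exp_le_exp.2
    have := (bf (m' + √c • z)).2
    (refine le_of_not_gt fun hng_ => ?_; linarith only [mul_pos hr0 (sub_pos.2 hng_), mul_nonneg (sq_nonneg (1 * t)) (sub_nonneg.2 this)])
  have h3 : Real.log (∫ z, Real.exp (t * f (m' + √c • z)) ∂(gam E)) ≤ t * p + t ^ 2 / 8 := by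
    have := Real.log_le_log h2 h1
    rwa [Real.log_exp] at this
  rw [integral_const_mul] at hdv
  have h4 : ‖m - m'‖ ^ 2 / (2 * c) = r ^ 2 / 2 := by
    rw [hr, div_pow, hs]
    (clear * - hc h0; field_simp)
  rw [h4] at hdv
  have h5 : t * ((∫ z, f (m + √c • z) ∂(gam E)) - p) ≤ r ^ 2 / 2 + t ^ 2 / 8 := by
    linarith only [h3, hdv]
  have h6 : ‖m - m'‖ / (2 * √c) = r / 2 := by
    rw [hr]
    (clear * - hc h0; field_simp)
  rw [h6]
  have h7 : r ^ 2 / 2 + t ^ 2 / 8 = t * (r / 2) := by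
    rw [ht]; ring
  rw [h7] at h5
  exact le_of_mul_le_mul_left h5 ht0

/-- Pinsker bound for a Gaussian shift. -/
theorem gam_pinsker {c : ℝ} (hc : 0 < c) (m m' : E) {f : E → ℝ} (hf : Measurable f)
    (bf : ∀ x, 0 ≤ f x ∧ f x ≤ 1) :
    |(∫ z, f (m + √c • z) ∂(gam E)) - ∫ z, f (m' + √c • z) ∂(gam E)| ≤ ‖m - m'‖ / (2 * √c) := by
  rw [abs_le]
  have h1 := gam_pinsker_one hc m m' hf bf
  have h2 := gam_pinsker_one hc m' m hf bf
  rw [norm_sub_rev] at h2
  constructor <;> (first | (clear hc hf bf h1; linarith only [h2]) | linarith only [h1])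

omit [FiniteDimensional ℝ E] [MeasurableSpace E] [BorelSpace E] in
/-- The Langevin drift does not expand. -/
theorem drift_contr {V : E → ℝ} {G : E → E} {H : E → E →L[ℝ] E} (hV : Pot V G H) {s : ℝ}
    (hs : 0 ≤ s) (hs1 : s ≤ 1) (y y' : E) :
    ‖(y - (s / 2) • G y) - (y' - (s / 2) • G y')‖ ≤ ‖y - y'‖ := by
  have e : (y - (s / 2) • G y) - (y' - (s / 2) • G y') = (y - y') - (s / 2) • (G y - G y') := by
    rw [smul_sub]; abel
  rw [e]
  refine abs_le_of_sq_le_sq' ?_ (norm_nonneg _) |>.2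
  rw [norm_sub_sq_real, real_inner_smul_right, real_inner_comm, norm_smul, Real.norm_eq_abs,
    abs_of_nonneg (by (clear * - hs; (clear * - hs; positivity)))]
  have h1 := hV.monoG y y'
  have h2 := hV.lipG y y'
  have h3 : ‖G y - G y'‖ ^ 2 ≤ 4 * ‖y - y'‖ ^ 2 := by
    have := pow_le_pow_left₀ (norm_nonneg _) h2 2
    linarith only [this]
  have h4 : 0 ≤ ‖y - y'‖ ^ 2 := sq_nonneg _
  have h5 : s ^ 2 / 4 * ‖G y - G y'‖ ^ 2 ≤ s ^ 2 / 4 * (4 * ‖y - y'‖ ^ 2) :=
    mul_le_mul_of_nonneg_left h3 (by (clear * -; positivity))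
  have h6 : s * ‖y - y'‖ ^ 2 ≤ s * inner ℝ (G y - G y') (y - y') :=
    mul_le_mul_of_nonneg_left h1 hs
  have h7 : s * s * ‖y - y'‖ ^ 2 ≤ s * ‖y - y'‖ ^ 2 :=
    mul_le_mul_of_nonneg_right (by linarith only [mul_nonneg hs (sub_nonneg.2 hs1)]) h4
  linarith only [h5, h6, h7]

/-- Gaussian normalisation at an arbitrary centre. -/
theorem gauss_norm (c : ℝ) (m : E) : ∫ x : E, Real.exp (-(‖x - m‖ ^ 2 / (2 * c))) =
    ∫ x : E, Real.exp (-(‖x‖ ^ 2 / (2 * c))) :=
  integral_sub_right_eq_self (fun x : E => Real.exp (-(‖x‖ ^ 2 / (2 * c)))) m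

omit [FiniteDimensional ℝ E] [MeasurableSpace E] [BorelSpace E] in
/-- Pointwise comparison of the joint densities. -/
theorem dens_ge {V : E → ℝ} {G : E → E} {H : E → E →L[ℝ] E} (hV : Pot V G H) {s : ℝ}
    (hs : 0 < s) (x y : E) :
    Real.exp (-V x) * (Real.exp (-(‖y - x‖ ^ 2 / (2 * s))) *
      (1 - (inner ℝ (G x) (y - x) / 2 + (1 + s) * ‖y - x‖ ^ 2 + s / 4 * ‖G x‖ ^ 2)))
      ≤ Real.exp (-V y) * Real.exp (-(‖x - (y - (s / 2) • G y)‖ ^ 2 / (2 * s))) := by
  set A : ℝ := V x - V y + inner ℝ (y - x) (G y) / 2 - s / 8 * ‖G y‖ ^ 2 with hA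
  have e0 : x - (y - (s / 2) • G y) = -((y - x) - (s / 2) • G y) := by abel
  have e1 : ‖x - (y - (s / 2) • G y)‖ ^ 2 =
      ‖y - x‖ ^ 2 - s * inner ℝ (y - x) (G y) + s ^ 2 / 4 * ‖G y‖ ^ 2 := by
    rw [e0, norm_neg, norm_sub_sq_real, real_inner_smul_right, norm_smul, Real.norm_eq_abs,
      abs_of_pos (by positivity)]
    ring
  have e2 : Real.exp (-V y) * Real.exp (-(‖x - (y - (s / 2) • G y)‖ ^ 2 / (2 * s))) =
      Real.exp (-V x) * (Real.exp (-(‖y - x‖ ^ 2 / (2 * s))) * Real.exp A) := by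
    rw [← Real.exp_add, ← Real.exp_add, ← Real.exp_add, e1, hA]
    congr 1
    field_simp
    ring
  rw [e2]
  refine mul_le_mul_of_nonneg_left (mul_le_mul_of_nonneg_left ?_ (Real.exp_pos _).le)
    (Real.exp_pos _).le
  refine le_trans ?_ (Real.add_one_le_exp A)
  have h1 := le_tangent hV.grad (L := 2) hV.lipG y x
  have h2 := hV.monoG y x
  have h3 := hV.lipG y x
  have h4 : ‖G y‖ ^ 2 ≤ 2 * ‖G x‖ ^ 2 + 8 * ‖y - x‖ ^ 2 := by
    have h5 : ‖G y‖ ≤ ‖G y - G x‖ + ‖G x‖ := by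
      have := norm_add_le (G y - G x) (G x)
      rwa [sub_add_cancel] at this
    have h6 := norm_nonneg (G x)
    have h7 := norm_nonneg (G y)
    have h8 := norm_nonneg (y - x)
    have h9 : ‖G y‖ ≤ 2 * ‖y - x‖ + ‖G x‖ := by linarith only [h5, h3]
    linarith only [mul_nonneg (mul_self_nonneg (1)) (sq_nonneg (2 * ‖y - x‖ - ‖G x‖)), mul_nonneg (sub_nonneg.2 h9) (sub_nonneg.2 h9), mul_nonneg h7 (sub_nonneg.2 h9)]
  have h10 : inner ℝ (G y - G x) (y - x) = inner ℝ (y - x) (G y) - inner ℝ (G x) (y - x) := by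
    rw [inner_sub_left, real_inner_comm (y - x) (G y)]
  have h11 := sq_nonneg ‖y - x‖
  have h12 : s / 8 * ‖G y‖ ^ 2 ≤ s / 8 * (2 * ‖G x‖ ^ 2 + 8 * ‖y - x‖ ^ 2) :=
    mul_le_mul_of_nonneg_left h4 (by (clear * - hs; positivity))
  rw [hA]
  rw [h10] at h2
  linarith only [h1, h2, h11, h12]

/-- One step of the unadjusted Langevin algorithm started at the target. -/
theorem step_lower {V : E → ℝ} {G : E → E} {H : E → E →L[ℝ] E} (hV : Pot V G H) {s : ℝ}
    (hs : 0 < s) {f : E → ℝ} (hf : Measurable f) (bf : ∀ x, 0 ≤ f x ∧ f x ≤ 1) :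
    (∫ x, f x ∂(gibbs V)) -
      ((1 + s) * (s * (finrank ℝ E : ℝ)) + s / 4 * ∫ x, ‖G x‖ ^ 2 ∂(gibbs V)) ≤
      ∫ y, (∫ z, f ((y - (s / 2) • G y) + √s • z) ∂(gam E)) ∂(gibbs V) := by
  have hadm := hV.adm
  have hprob : IsProbabilityMeasure (gibbs V) := hadm.isProb
  have cV := hV.cpot.contW
  have cG := hV.cpot.contF
  have pG := hV.cpot.pgF
  set Z : ℝ := ∫ x, Real.exp (-V x) with hZ
  set C : ℝ := ∫ x : E, Real.exp (-(‖x‖ ^ 2 / (2 * s))) with hC
  have hZ0 : 0 < Z := hadm.integral_exp_pos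
  have hC0 : 0 < C := by
    have := (adm_sq (E := E) hs 0).integral_exp_pos
    simpa only [gt_iff_lt, sub_zero] using this
  set K : E → E → ℝ := fun y x =>
    Real.exp (-V y) * Real.exp (-(‖x - (y - (s / 2) • G y)‖ ^ 2 / (2 * s))) with hK
  have cK : Continuous (fun p : E × E => K p.1 p.2) := by
    simp only [hK]
    (clear * - cV cG; fun_prop)
  have K0 : ∀ y x, 0 ≤ K y x := fun y x => by simp only [hK]; positivity
  have KV : ∀ y x, K y x ≤ Real.exp (-V y) := by
    intro y x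
    simp only [hK]
    have h1 : Real.exp (-(‖x - (y - (s / 2) • G y)‖ ^ 2 / (2 * s))) ≤ 1 := by
      rw [Real.exp_le_one_iff, neg_nonpos]
      (clear * - hs; (clear * - hs; positivity))
    have h2 := Real.exp_pos (-V y)
    linarith only [mul_nonneg (sub_nonneg.2 h1) (le_of_lt h2)]
  have hfb : ∀ x, |f x| ≤ 1 := fun x => by rw [abs_of_nonneg (bf x).1]; exact (bf x).2
  -- the inner integral
  have hin : ∀ y, ∫ z, f ((y - (s / 2) • G y) + √s • z) ∂(gam E) =
      C⁻¹ * ∫ x, Real.exp (-(‖x - (y - (s / 2) • G y)‖ ^ 2 / (2 * s))) * f x := by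
    intro y
    rw [gam_affine hs, gibbs_integral, gauss_norm]
    rfl
  -- integrability on the product
  have hgi : ∀ m : E, Integrable (fun x : E => Real.exp (-(‖x - m‖ ^ 2 / (2 * s)))) := fun m =>
    (adm_sq (E := E) hs m).integrable_exp
  have hFm : AEStronglyMeasurable (fun p : E × E => K p.1 p.2 * f p.2)
      ((volume : Measure E).prod volume) :=
    (cK.measurable.mul (hf.comp measurable_snd)).aestronglyMeasurable
  have hFi : Integrable (fun p : E × E => K p.1 p.2 * f p.2)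
      ((volume : Measure E).prod volume) := by
    rw [integrable_prod_iff hFm]
    constructor
    · refine Eventually.of_forall fun y => ?_
      refine (((hgi (y - (s / 2) • G y)).const_mul (Real.exp (-V y))).mul_bdd (c := 1)
        hf.aestronglyMeasurable (Eventually.of_forall fun x => hfb x)).congr ?_
      exact Eventually.of_forall fun x => rfl
    · refine (hadm.integrable_exp.mul_const C).mono' ?_ (Eventually.of_forall fun y => ?_)
      · exact hFm.norm.integral_prod_right'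
      · rw [Real.norm_eq_abs, abs_of_nonneg (integral_nonneg fun x => norm_nonneg _)]
        have h1 : ∀ x, ‖K y x * f x‖ ≤ K y x := fun x => by
          rw [norm_mul, Real.norm_eq_abs, Real.norm_eq_abs, abs_of_nonneg (K0 y x)]
          have := hfb x
          have := K0 y x
          (clear hs hf cV cG pG Z hZ C hC hZ0 hC0 cK KV hin hgi hFm; nlinarith)
        have h2 : ∫ x, K y x = Real.exp (-V y) * C := by
          simp only [hK]
          rw [integral_const_mul, gauss_norm]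
        rw [← h2]
        refine integral_mono_of_nonneg (Eventually.of_forall fun x => norm_nonneg _) ?_
          (Eventually.of_forall fun x => h1 x)
        exact (hgi (y - (s / 2) • G y)).const_mul (Real.exp (-V y))
  -- the lower bound of the inner integral after the swap
  set φ : E → ℝ := fun x => (1 + s) * (s * (finrank ℝ E : ℝ)) + s / 4 * ‖G x‖ ^ 2 with hφ
  have hKi : ∀ x, Integrable (fun y => K y x) := fun x => by
    refine hadm.integrable_exp.mono' ?_ (Eventually.of_forall fun y => ?_)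
    · exact (cK.comp (Continuous.prodMk_left x)).aestronglyMeasurable
    · rw [Real.norm_eq_abs, abs_of_nonneg (K0 y x)]
      exact KV y x
  have hlow : ∀ x, Real.exp (-V x) * (C * (1 - φ x)) ≤ ∫ y, K y x := by
    intro x
    set B : E → ℝ := fun y =>
      1 - (inner ℝ (G x) (y - x) / 2 + (1 + s) * ‖y - x‖ ^ 2 + s / 4 * ‖G x‖ ^ 2) with hB
    have cB : Continuous B := by simp only [hB]; (clear * -; fun_prop)
    have pid : PG (fun y : E => y - x) := PG.id.sub (PG.const x)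
    have pB : PG B := by
      have h1 : PG (fun y : E => (inner ℝ (G x) (y - x) : ℝ)) := (PG.const (G x)).inner pid
      have h2 : PG (fun y : E => (1 / 2 : ℝ) * (inner ℝ (G x) (y - x) : ℝ)) :=
        (PG.const (1 / 2 : ℝ)).mul h1
      have h3 : PG (fun y : E => (1 + s) * ‖y - x‖ ^ 2) :=
        (PG.const (1 + s)).mul (pid.norm.pow 2)
      have h4 := (PG.const (E := E) (1 : ℝ)).sub
        ((h2.add h3).add (PG.const (E := E) (s / 4 * ‖G x‖ ^ 2)))
      refine h4.of_le fun y => le_of_eq ?_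
      simp only [hB]
      congr 1
      ring
    have hBi : Integrable (fun y => Real.exp (-(‖y - x‖ ^ 2 / (2 * s))) * B y) := by
      have h1 := (adm_sq (E := E) hs x).integrable pB cB.aestronglyMeasurable
      unfold gibbs at h1
      rw [integrable_tilted_iff (adm_sq (E := E) hs x).integrable_exp] at h1
      exact h1
    have h1 : ∫ y, Real.exp (-V x) * (Real.exp (-(‖y - x‖ ^ 2 / (2 * s))) * B y) ≤
        ∫ y, K y x :=
      integral_mono (hBi.const_mul _) (hKi x) fun y => dens_ge hV hs x y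
    refine le_trans (le_of_eq ?_) h1
    rw [integral_const_mul]
    congr 1
    have h2 : ∫ z, B (x + √s • z) ∂(gam E) = C⁻¹ *
        ∫ y, Real.exp (-(‖y - x‖ ^ 2 / (2 * s))) * B y := by
      rw [gam_affine hs, gibbs_integral, gauss_norm]
      rfl
    have h3 : ∫ z, B (x + √s • z) ∂(gam E) = 1 - φ x := by
      have hs2 : √s ^ 2 = s := Real.sq_sqrt hs.le
      have e1 : ∀ z : E, B (x + √s • z) =
          1 - (√s / 2 * inner ℝ (G x) z + (1 + s) * s * ‖z‖ ^ 2 + s / 4 * ‖G x‖ ^ 2) := by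
        intro z
        simp only [hB]
        rw [add_sub_cancel_left, real_inner_smul_right, norm_smul, Real.norm_eq_abs,
          abs_of_nonneg (Real.sqrt_nonneg s), mul_pow, hs2]
        ring
      have i0 : Integrable (fun z : E => z) (gam E) :=
        gam_integrable PG.id continuous_id.aestronglyMeasurable
      have i1 : Integrable (fun z : E => (inner ℝ (G x) z : ℝ)) (gam E) := i0.const_inner (G x)
      have i2 : Integrable (fun z : E => ‖z‖ ^ 2) (gam E) :=
        gam_integrable (PG.id.norm.pow 2) (by (clear s hs f hf bf cV cG pG Z hZ C hC hZ0 hC0 K hK cK K0 KV hfb hin hgi hFm hFi φ hφ hKi x B hB cB pid pB hBi h1 h2 hs2 e1 i0 i1; fun_prop))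
      have m1 : ∫ z, (inner ℝ (G x) z : ℝ) ∂(gam E) = 0 := by
        rw [integral_inner i0, gam_mean, inner_zero_right]
      have j1 : Integrable (fun z : E => √s / 2 * (inner ℝ (G x) z : ℝ)) (gam E) :=
        i1.const_mul _
      have j2 : Integrable (fun z : E => (1 + s) * s * ‖z‖ ^ 2) (gam E) := i2.const_mul _
      have j3 : Integrable (fun z : E => √s / 2 * (inner ℝ (G x) z : ℝ)
          + (1 + s) * s * ‖z‖ ^ 2) (gam E) := j1.add j2
      have j4 : Integrable (fun z : E => √s / 2 * (inner ℝ (G x) z : ℝ)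
          + (1 + s) * s * ‖z‖ ^ 2 + s / 4 * ‖G x‖ ^ 2) (gam E) := j3.add (integrable_const _)
      simp_rw [e1]
      rw [integral_sub (integrable_const _) j4, integral_add j3 (integrable_const _),
        integral_add j1 j2, integral_const_mul (√s / 2), integral_const_mul ((1 + s) * s), m1,
        gam_sq, integral_const, integral_const]
      simp only [hφ, probReal_univ, smul_eq_mul]
      ring
    rw [← h3, h2, ← mul_assoc, mul_inv_cancel₀ hC0.ne', one_mul]
  -- conclusion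
  have hpush : ∫ y, (∫ z, f ((y - (s / 2) • G y) + √s • z) ∂(gam E)) ∂(gibbs V) =
      Z⁻¹ * (C⁻¹ * ∫ x, (∫ y, K y x) * f x) := by
    rw [gibbs_integral, smul_eq_mul]
    congr 1
    have h1 : ∀ y, Real.exp (-V y) • ∫ z, f ((y - (s / 2) • G y) + √s • z) ∂(gam E) =
        C⁻¹ * ∫ x, K y x * f x := by
      intro y
      rw [hin y, smul_eq_mul, mul_left_comm, ← integral_const_mul]
      congr 1
      refine integral_congr_ae (Eventually.of_forall fun x => ?_)
      simp only [hK]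
      ring
    simp_rw [h1]
    rw [integral_const_mul, integral_integral_swap hFi]
    congr 1
    refine integral_congr_ae (Eventually.of_forall fun x => ?_)
    exact integral_mul_const _ _
  have hright : Integrable (fun x => (∫ y, K y x) * f x) := by
    refine hFi.integral_prod_right.congr (Eventually.of_forall fun x => ?_)
    change ∫ y, K y x * f x = (∫ y, K y x) * f x
    exact integral_mul_const _ _
  have pφ : PG φ := (PG.const (E := E) ((1 + s) * (s * (finrank ℝ E : ℝ)))).add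
    ((PG.const (s / 4)).mul (pG.norm.pow 2))
  have cφ : Continuous φ := by simp only [hφ]; (clear * - cG; fun_prop)
  have iφ : Integrable φ (gibbs V) := hadm.integrable pφ cφ.aestronglyMeasurable
  have φ0 : ∀ x, 0 ≤ φ x := fun x => by simp only [hφ]; (clear * - hs; positivity)
  have ifi : Integrable f (gibbs V) := Integrable.of_bound hf.aestronglyMeasurable 1
    (Eventually.of_forall fun x => hfb x)
  have iφf : Integrable (fun x => φ x * f x) (gibbs V) :=
    iφ.mul_bdd (c := 1) hf.aestronglyMeasurable (Eventually.of_forall fun x => hfb x)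
  have hleft : Integrable (fun x => Real.exp (-V x) * ((1 - φ x) * f x)) := by
    have h1 : Integrable (fun x => (1 - φ x) * f x) (gibbs V) := by
      refine (ifi.sub iφf).congr (Eventually.of_forall fun x => ?_)
      simp only [Pi.sub_apply]
      ring
    unfold gibbs at h1
    rw [integrable_tilted_iff hadm.integrable_exp] at h1
    exact h1
  have hmain : ∫ x, ((1 - φ x) * f x) ∂(gibbs V) ≤
      ∫ y, (∫ z, f ((y - (s / 2) • G y) + √s • z) ∂(gam E)) ∂(gibbs V) := by
    rw [hpush, gibbs_integral, smul_eq_mul]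
    refine mul_le_mul_of_nonneg_left ?_ (inv_nonneg.2 hZ0.le)
    rw [← integral_const_mul]
    refine integral_mono hleft (hright.const_mul _) fun x => ?_
    have h1 := hlow x
    have h2 : C⁻¹ * (Real.exp (-V x) * (C * (1 - φ x))) ≤ C⁻¹ * ∫ y, K y x :=
      mul_le_mul_of_nonneg_left h1 (inv_nonneg.2 hC0.le)
    have h3 : C⁻¹ * (Real.exp (-V x) * (C * (1 - φ x))) = Real.exp (-V x) * (1 - φ x) := by
      (clear * - hC0; field_simp)
    rw [h3] at h2
    have h4 := mul_le_mul_of_nonneg_right h2 (bf x).1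
    have e3 : Real.exp (-V x) • ((1 - φ x) * f x) = Real.exp (-V x) * (1 - φ x) * f x := by
      rw [smul_eq_mul]; ring
    have e4 : C⁻¹ * ((∫ y, K y x) * f x) = (C⁻¹ * ∫ y, K y x) * f x := by ring
    simp only
    rw [e3, e4]
    exact h4
  have h5 : ∫ x, ((1 - φ x) * f x) ∂(gibbs V) =
      (∫ x, f x ∂(gibbs V)) - ∫ x, φ x * f x ∂(gibbs V) := by
    rw [← integral_sub ifi iφf]
    refine integral_congr_ae (Eventually.of_forall fun x => ?_)
    simp only
    ring
  have h6 : ∫ x, φ x * f x ∂(gibbs V) ≤ ∫ x, φ x ∂(gibbs V) :=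
    integral_mono iφf iφ fun x => by
      have := φ0 x
      have := (bf x).2
      simp only
      (clear hf cV cG pG Z hZ C hC hZ0 hC0 K hK cK K0 KV hfb hin hgi hFm hFi hKi hlow hpush hright pφ cφ iφ ifi iφf hleft hmain h5; nlinarith)
  have i2 : Integrable (fun x => ‖G x‖ ^ 2) (gibbs V) :=
    hadm.integrable (pG.norm.pow 2) (by (clear s hs f hf bf cV pG Z hZ C hC hZ0 hC0 K hK cK K0 KV hfb hin hgi hFm hFi φ hφ hKi hlow hpush hright pφ cφ iφ φ0 ifi iφf hleft hmain h5 h6; fun_prop))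
  have h7 : ∫ x, φ x ∂(gibbs V) =
      (1 + s) * (s * (finrank ℝ E : ℝ)) + s / 4 * ∫ x, ‖G x‖ ^ 2 ∂(gibbs V) := by
    simp only [hφ]
    rw [integral_add (integrable_const _) (i2.const_mul _), integral_const_mul (s / 4),
      integral_const]
    simp only [probReal_univ, smul_eq_mul, one_mul]
  (clear hZ hC; linarith only [h6, hmain, h5, h7])

/-- One step of the unadjusted Langevin algorithm started at the target, two-sided. -/
theorem step_tv {V : E → ℝ} {G : E → E} {H : E → E →L[ℝ] E} (hV : Pot V G H) {s : ℝ}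
    (hs : 0 < s) {f : E → ℝ} (hf : Measurable f) (bf : ∀ x, 0 ≤ f x ∧ f x ≤ 1) :
    |(∫ y, (∫ z, f ((y - (s / 2) • G y) + √s • z) ∂(gam E)) ∂(gibbs V)) -
      ∫ x, f x ∂(gibbs V)| ≤
      (1 + s) * (s * (finrank ℝ E : ℝ)) + s / 4 * ∫ x, ‖G x‖ ^ 2 ∂(gibbs V) := by
  have hadm := hV.adm
  have hprob : IsProbabilityMeasure (gibbs V) := hadm.isProb
  have cG := hV.cpot.contF
  have hfb : ∀ x, |f x| ≤ 1 := fun x => by rw [abs_of_nonneg (bf x).1]; exact (bf x).2
  have h1 := step_lower hV hs hf bf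
  have h2 := step_lower hV hs (f := fun x => 1 - f x) (measurable_const.sub hf)
    (fun x => ⟨by linarith only [((bf x).2)], by linarith only [((bf x).1)]⟩)
  have ifi : Integrable f (gibbs V) := Integrable.of_bound hf.aestronglyMeasurable 1
    (Eventually.of_forall fun x => hfb x)
  have hfz : ∀ y, Integrable (fun z => f ((y - (s / 2) • G y) + √s • z)) (gam E) := fun y =>
    Integrable.of_bound (hf.comp (by (clear hs f hf bf cG hfb h1 h2 ifi; fun_prop))).aestronglyMeasurable 1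
      (Eventually.of_forall fun z => hfb _)
  have e1 : ∀ y, ∫ z, (1 - f ((y - (s / 2) • G y) + √s • z)) ∂(gam E) =
      1 - ∫ z, f ((y - (s / 2) • G y) + √s • z) ∂(gam E) := fun y => by
    rw [integral_sub (integrable_const _) (hfz y)]
    simp only [integral_const, probReal_univ, smul_eq_mul, mul_one]
  have hm : StronglyMeasurable
      (fun y => ∫ z, f ((y - (s / 2) • G y) + √s • z) ∂(gam E)) := by
    have hc : Measurable (fun p : E × E => f ((p.1 - (s / 2) • G p.1) + √s • p.2)) :=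
      hf.comp (by
        have : Continuous (fun p : E × E => (p.1 - (s / 2) • G p.1) + √s • p.2) := by (clear * - cG; fun_prop)
        exact this.measurable)
    exact hc.stronglyMeasurable.integral_prod_right
  have iin : Integrable (fun y => ∫ z, f ((y - (s / 2) • G y) + √s • z) ∂(gam E))
      (gibbs V) := by
    refine Integrable.of_bound hm.aestronglyMeasurable 1 (Eventually.of_forall fun y => ?_)
    refine (norm_integral_le_of_norm_le_const (C := 1) (Eventually.of_forall fun z => ?_)).trans ?_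
    · rw [Real.norm_eq_abs]; exact hfb _
    · simp
  simp only [e1] at h2
  rw [integral_sub (integrable_const _) ifi, integral_sub (integrable_const _) iin] at h2
  simp only [integral_const, probReal_univ, smul_eq_mul, mul_one] at h2
  rw [abs_le]
  constructor <;> (first | (clear cG hfb ifi hfz e1 hm iin h2; linarith only [h1]) | (clear hs hf bf cG hfb h1 ifi hfz e1 hm iin; linarith only [h2]))

end general

variable {d : ℕ}

/-- The sampler of one step of the unadjusted Langevin algorithm. -/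
theorem exists_ula (d : ℕ) (s : ℝ) : ∃ B : Samp d (Unit × Eu d) (Eu d), B.cost = 1 ∧
    ∀ V ∈ PotClass d, ∀ (u : Unit) (y : Eu d) (f : Eu d → ℝ), Measurable f →
      ∫ x, f x ∂(B.law V (u, y)) =
        ∫ z, f ((y - (s / 2) • gradient V y) + √s • z) ∂(gam (Eu d)) := by
  obtain ⟨B1, c1, l1⟩ := exists_grad (d := d) (Θ := Unit × Eu d) Prod.snd measurable_snd
  obtain ⟨B2, c2, l2⟩ := exists_map B1 (fun g => (-(s / 2)) • g) (by (clear * -; fun_prop))
  obtain ⟨B3, c3, l3⟩ := exists_noise (d := d) (Θ := Unit × Eu d) (gau (0 : Eu d) (√s))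
  obtain ⟨B4, c4, l4⟩ := exists_add B2 B3
  obtain ⟨B5, c5, l5⟩ := exists_pure (d := d) (Θ := Unit × Eu d) Prod.snd measurable_snd
  obtain ⟨B6, c6, l6⟩ := exists_add B5 B4
  refine ⟨B6, by omega, fun V hV u y f hf => ?_⟩
  have hm : Measure.map (fun g : Eu d => (-(s / 2)) • g) (Measure.dirac (gradient V y)) =
      Measure.dirac ((-(s / 2)) • gradient V y) := Measure.map_dirac' (by (clear * -; fun_prop)) _
  rw [l6 V hV, l5 V hV, l4 V hV, l3 V hV, l2 V hV, l1 V hV]
  change ∫ x, f x ∂(S.cnv (Measure.dirac y)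
    (S.cnv (Measure.map (fun g : Eu d => (-(s / 2)) • g) (Measure.dirac (gradient V y)))
      (gau 0 √s))) = _
  rw [hm, cnv_dirac, cnv_dirac, gau]
  rw [Measure.map_map (by (clear * -; fun_prop)) (by fun_prop), Measure.map_map (by fun_prop) (by (clear * -; fun_prop)),
    integral_map (by fun_prop) hf.aestronglyMeasurable]
  refine integral_congr_ae (Eventually.of_forall fun z => ?_)
  simp only [Function.comp_apply]
  congr 1
  rw [neg_smul, zero_add, sub_eq_add_neg, add_assoc]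

/-- One more query turns a sampler with dual Wasserstein error `e ≤ 1 / (200 √d)` into a good
algorithm. -/
theorem exists_good {e : ℝ} (hd : 1 ≤ d) (he : e ≤ 1 / (200 * √d)) (A : Samp d Unit (Eu d))
    (hA : ∀ V ∈ PotClass d, WD (A.law V ()) (gibbs V) e) :
    ∃ A' : Algo d (A.cost + 1), A'.Good := by
  have hd0 : (1 : ℝ) ≤ d := by exact_mod_cast hd
  have hsd : 0 < √(d : ℝ) := Real.sqrt_pos.2 (by linarith only [hd0])
  have hsd2 : √(d : ℝ) ^ 2 = d := Real.sq_sqrt (by linarith only [])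
  set s : ℝ := 1 / (80 * d) with hs
  have hs0 : 0 < s := by (clear * - hd; positivity)
  have hs1 : s ≤ 1 / 80 := by
    rw [hs]
    apply one_div_le_one_div_of_le (by (clear * -; norm_num))
    linarith only [hd0]
  obtain ⟨B, cB, lB⟩ := exists_ula d s
  obtain ⟨A1, c1, l1⟩ := exists_bind A B
  obtain ⟨A2, l2⟩ := exists_algo_of_samp A1
  have hgood : ∃ A' : Algo d A1.cost, A'.Good := by
    refine ⟨A2, fun V hV S hS => ?_⟩
    have hpot := PotClass.pot hV
    have hprob := gibbs_prob hV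
    obtain ⟨iG, mG⟩ := gibbs_grad_sq hV
    rw [l2 V hV, target_eq_gibbs hV]
    set f : Eu d → ℝ := S.indicator (fun _ => (1 : ℝ)) with hf
    have hfm : Measurable f := measurable_const.indicator hS
    have bf : ∀ x, 0 ≤ f x ∧ f x ≤ 1 := fun x => by
      simp only [hf]
      by_cases hx : x ∈ S
      · rw [Set.indicator_of_mem hx]; norm_num
      · rw [Set.indicator_of_notMem hx]; norm_num
    have hfb : ∀ x, |f x| ≤ 1 := fun x => by rw [abs_of_nonneg (bf x).1]; exact (bf x).2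
    have e1 : ∀ μ : Measure (Eu d), μ.real S = ∫ x, f x ∂μ := fun μ => by
      simp only [hf]
      rw [integral_indicator_const _ hS, smul_eq_mul, mul_one]
    rw [e1, e1, l1 V hV () f hfm ⟨1, hfb⟩]
    have e2 : ∀ y, ∫ x, f x ∂(B.law V ((), y)) =
        ∫ z, f ((y - (s / 2) • gradient V y) + √s • z) ∂(gam (Eu d)) := fun y =>
      lB V hV () y f hfm
    simp only [e2]
    set P : Eu d → ℝ := fun y =>
      ∫ z, f ((y - (s / 2) • gradient V y) + √s • z) ∂(gam (Eu d)) with hP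
    have bP : ∀ y, |P y| ≤ 1 := fun y => by
      simp only [hP]
      rw [← Real.norm_eq_abs]
      refine (norm_integral_le_of_norm_le_const (C := 1)
        (Eventually.of_forall fun z => ?_)).trans ?_
      · rw [Real.norm_eq_abs]; exact hfb _
      · simp only [probReal_univ, mul_one, Std.le_refl]
    have hss0 : 0 < √s := Real.sqrt_pos.2 hs0
    have lP : ∀ y y', |P y - P y'| ≤ 1 / (2 * √s) * ‖y - y'‖ := fun y y' => by
      have h1 := gam_pinsker hs0 (y - (s / 2) • gradient V y) (y' - (s / 2) • gradient V y')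
        hfm bf
      have h2 := drift_contr hpot hs0.le (by linarith only [hs1]) y y'
      refine h1.trans ?_
      rw [div_mul_eq_mul_div, one_mul]
      exact div_le_div_of_nonneg_right h2 (by (clear * - hd; positivity))
    have h1 := (hA V hV).lip (L := 1 / (2 * √s)) (by positivity) lP ⟨1, bP⟩
    have h2 := step_tv hpot hs0 hfm bf
    have h3 : (1 + s) * (s * (finrank ℝ (Eu d) : ℝ)) +
        s / 4 * ∫ x, ‖gradient V x‖ ^ 2 ∂(gibbs V) ≤ 1 / 50 := by
      have h4 : s / 4 * ∫ x, ‖gradient V x‖ ^ 2 ∂(gibbs V) ≤ s / 4 * (2 * d) :=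
        mul_le_mul_of_nonneg_left mG (by positivity)
      have h5 : s * d = 1 / 80 := by
        rw [hs]
        (clear * - hd; field_simp)
      have h6 : (finrank ℝ (Eu d) : ℝ) = d := by simp only [finrank_euclideanSpace, Fintype.card_fin]
      rw [h6, h5]
      have h7 : s / 4 * (2 * d) = 1 / 160 := by
        have : s / 4 * (2 * d) = s * d / 2 := by ring
        rw [this, h5]
        norm_num
      rw [h7] at h4
      nlinarith only [hs1, h4]
    have h4 : 1 / (2 * √s) * e ≤ 1 / 40 := by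
      have h5 : √s ^ 2 = s := Real.sq_sqrt hs0.le
      have h6 : 1 / (2 * √s) * e ≤ 1 / (2 * √s) * (1 / (200 * √d)) :=
        mul_le_mul_of_nonneg_left he (by (clear * - hd; positivity))
      have h7 : 1 / 10 ≤ √s * √d := by
        have h8 : (√s * √d) ^ 2 = 1 / 80 := by
          rw [mul_pow, h5, hsd2, hs]
          field_simp
        (refine le_of_not_gt fun hng_ => ?_; linarith only [mul_pos (sub_pos.2 hng_) (sub_pos.2 hng_), mul_pos (sub_pos.2 hng_) (mul_pos hss0 hsd), mul_eq_zero_of_left (sub_eq_zero.2 h8) (1 * √s * (10 * √↑d) - 1 * 1), mul_eq_zero_of_left (sub_eq_zero.2 h8) (0 - √s * √↑d)])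
      have h9 : 1 / (2 * √s) * (1 / (200 * √d)) = 1 / (400 * (√s * √d)) := by
        rw [div_mul_div_comm, one_mul]
        congr 1
        ring
      rw [h9] at h6
      refine h6.trans ?_
      apply one_div_le_one_div_of_le (by norm_num)
      linarith only [h7]
    have h5 : |(∫ y, P y ∂(A.law V ())) - ∫ x, f x ∂(gibbs V)| ≤
        |(∫ y, P y ∂(A.law V ())) - ∫ y, P y ∂(gibbs V)| +
        |(∫ y, P y ∂(gibbs V)) - ∫ x, f x ∂(gibbs V)| := abs_sub_le _ _ _
    linarith only [h3, h1, h2, h4, h5]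
  have hc : A1.cost = A.cost + 1 := by omega
  rw [hc] at hgood
  exact hgood

end Vale.Agent.P347.S
end

section

/-! Module M12 (P347, S): assembly of `γ_* = 0` from the two interface theorems. -/

open MeasureTheory Filter Module
open scoped ENNReal NNReal
open Vale.Agent.P347.Z

namespace Vale.Agent.P347.S

theorem mainZ_pos {p N : ℕ} {C : ℝ} (hp : 1 ≤ p) (h : NodesAt p N C) : 1 ≤ N := by
  have hp0 : (0 : ℝ) < p := by exact_mod_cast hp
  obtain ⟨net, -⟩ := h (1 / 4) (1 / (8 * p)) (1 / 8) 0 (by (clear * -; norm_num)) le_rfl (by (clear * - hp; positivity))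
    le_rfl (by norm_num) le_rfl (by simp only [abs_zero, one_div, Real.sqrt_inv, zero_mul, zero_le_one])
  exact Nat.one_le_of_lt net.root.pos

theorem mainZ_step {c c' ε s s' t : ℝ} {d : ℕ} {S : Samp d (Eu d) (Eu d)} {V : Eu d → ℝ}
    {Q : Eu d → Measure (Eu d)} (h : StepTo S V s t c ε Q) (ht : t = s') (hc : c ≤ c') :
    StepTo S V s s' c' ε Q := by
  subst ht
  exact ⟨h.prob, h.meas, fun y y' => (h.contr y y').mono
    (mul_le_mul_of_nonneg_right hc (norm_nonneg _)), h.inv, h.err⟩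

theorem main_exists (hN : NodesStatement) (hD : DownStatement) {ε₀ : ℝ} (hε₀ : 0 < ε₀) :
    ∀ᶠ d : ℕ in atTop, ∃ q : ℕ, (q : ℝ) ≤ (d : ℝ) ^ ε₀ ∧ ∃ A : Algo d q, A.Good := by
  obtain ⟨p, hp2, hpar⟩ := exists_params hε₀
  have hp : 1 ≤ p := le_trans one_le_two hp2
  obtain ⟨N, C, hC, hnodes⟩ := nodesAt_of hN p hp2
  obtain ⟨C', hC', hdown⟩ := downAt_of hD p hp2
  have hN1 : 1 ≤ N := mainZ_pos hp hnodes
  filter_upwards [hpar N C C' hN1 hC hC', eventually_ge_atTop 1] with d hd hd1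
  obtain ⟨δ, ϖ, ε, a, smax, smin, lmax, mmax, B, D, J, N₁, K, ap, hq⟩ := hd
  have par := ap.par
  have hp1 : (1 : ℝ) ≤ p := by exact_mod_cast hp
  have hδ8 : δ ≤ 1 / 8 := by
    refine par.hδ'.trans ?_
    rw [div_le_div_iff₀ (by (clear * - hp2; positivity)) (by norm_num)]
    linarith only [hp1]
  have hδ := par.hδ
  have hsmax := par.hs
  have hev : ∀ l ≤ lmax, ∀ s, 0 < s → s ≤ smax → EvalAt d (δ / 4) ϖ D l mmax s a 9 B :=
    fun l hl s hs hs' => evalAt_all par hnodes hd1 ap.hJ ap.hmin ap.hmin1 ap.hJε rfl ap.ha ap.hB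
      hl le_rfl hs hs'
  set ε' : ℝ := 11 * p ^ 2 * C' * a * eta ϖ lmax mmax with hε'
  have hε'0 : 0 ≤ ε' := by
    have h1 : 0 ≤ eta ϖ lmax mmax := pow_nonneg par.hϖ.le _
    have h2 : 0 ≤ a := le_trans zero_le_two par.ha
    have h3 : 0 ≤ C' := le_trans zero_le_one hC'
    rw [hε']
    (clear * - hp2 hC' h2 h1; positivity)
  have hstep : ∀ s ς : ℝ, 0 < s → s ≤ smax → δ * s / 4 ≤ ς ^ 2 → 0 < ς →
      ∃ A : Samp d (Eu d) (Eu d), A.cost ≤ p * B * D ^ lmax ∧ ∀ V ∈ PotClass d, ∃ Q,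
        StepTo A V s ((1 - δ) * s + ς ^ 2) (1 - δ * s / 4) ε' Q := fun s ς hs hs' hς hς0 =>
    exists_downStep hp hC' hd1 par.hδ par.hδ' par.hϖ par.hϖ' par.ha par.hs' ap.mm par.i9 ap.j2
      ap.j3 ap.j4 ap.j5 hev hs hs' hς hς0 (hdown s δ hs (hs'.trans par.hs') par.hδ par.hδ')
  have hmain : ∃ A : Samp d (Eu d) (Eu d), A.cost ≤ p * B * D ^ lmax ∧ ∀ V ∈ PotClass d, ∃ Q,
      StepTo A V smax smax (1 - δ * smax / 4) ε' Q := by
    have h0 : 0 < δ * smax := mul_pos hδ hsmax
    have hsq : √(δ * smax) ^ 2 = δ * smax := Real.sq_sqrt h0.le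
    obtain ⟨A, hA, hA'⟩ := hstep smax (√(δ * smax)) hsmax le_rfl (by rw [hsq]; linarith only [h0])
      (Real.sqrt_pos.2 h0)
    refine ⟨A, hA, fun V hV => ?_⟩
    obtain ⟨Q, hQ⟩ := hA' V hV
    exact ⟨Q, mainZ_step hQ (by rw [hsq]; ring) le_rfl⟩
  have hdesc : ∀ k < K, ∃ A : Samp d (Eu d) (Eu d), A.cost ≤ p * B * D ^ lmax ∧
      ∀ V ∈ PotClass d, ∃ Q,
        StepTo A V ((1 - δ / 2) ^ k * smax) ((1 - δ / 2) ^ (k + 1) * smax) 1 ε' Q := by
    intro k _
    have h1 : 0 < 1 - δ / 2 := by linarith only [hδ8]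
    have h2 : (1 - δ / 2) ^ k ≤ 1 := pow_le_one₀ h1.le (by linarith only [hδ])
    have hs : 0 < (1 - δ / 2) ^ k * smax := mul_pos (pow_pos h1 k) hsmax
    have hs' : (1 - δ / 2) ^ k * smax ≤ smax := mul_le_of_le_one_left hsmax.le h2
    have h0 : 0 < δ * ((1 - δ / 2) ^ k * smax) / 2 := by (clear * - hδ h1 hsmax; positivity)
    have hsq : √(δ * ((1 - δ / 2) ^ k * smax) / 2) ^ 2 = δ * ((1 - δ / 2) ^ k * smax) / 2 :=
      Real.sq_sqrt h0.le
    obtain ⟨A, hA, hA'⟩ := hstep _ (√(δ * ((1 - δ / 2) ^ k * smax) / 2)) hs hs'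
      (by rw [hsq]; linarith only [h0]) (Real.sqrt_pos.2 h0)
    refine ⟨A, hA, fun V hV => ?_⟩
    obtain ⟨Q, hQ⟩ := hA' V hV
    refine ⟨Q, mainZ_step hQ ?_ ?_⟩
    · rw [hsq, pow_succ]
      ring
    · have : 0 < δ * ((1 - δ / 2) ^ k * smax) / 4 := by (clear * - hδ h1 hsmax; positivity)
      linarith only [this]
  obtain ⟨A, hA, hA'⟩ := exists_chain (c₀ := p * B * D ^ lmax) (N₁ := N₁) (K := K) hd1 par.hδ
    hδ8 par.hs par.hs' hε'0 ap.k1 ap.k2 hmain hdesc ap.k3
  obtain ⟨A', hgood⟩ := exists_good hd1 le_rfl A hA'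
  refine ⟨A.cost + 1, le_trans ?_ hq, A', hgood⟩
  exact_mod_cast Nat.add_le_add_right hA 1

end Vale.Agent.P347.S
end
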